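import Mathlib

set_option linter.all false

section

/-!
# P154: a verified positivity checker for integer polynomials in two variables on the unit square

A polynomial is a list of rows, the entry `(i, j)` being the coefficient of `u ^ i * v ^ j`.
To test it on the unit square it is homogenised in `(u, u')` and `(v, v')` where `u + u' = 1`,
`v + v' = 1`; positivity of all coefficients then implies positivity of the polynomial, and the
two halves of the square in either direction are obtained by a linear substitution.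
-/

namespace Vale.Agent.P154.Bern

/-- homogeneous evaluation of a list of coefficients: `∑ i, l_i s ^ i t ^ (n - i)` -/
noncomputable def evH {α : Type*} (φ : α → ℝ) : List α → ℝ → ℝ → ℝ
  | [], _, _ => 0
  | a :: l, s, t => φ a * t ^ l.length + s * evH φ l s t

section generic
variable {α : Type*}

/-- multiply by `s + κ t` and add `c * s ^ n` (`p` is the carried previous coefficient) -/
def stepG (add : α → α → α) (dbl : α → α) : α → List α → α → List α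
  | p, [], c => [add p c]
  | p, a :: l, c => add (dbl a) p :: stepG add dbl a l c

/-- substitute `t ↦ s + κ t` -/
def subG (add : α → α → α) (dbl : α → α) (zero : α) : List α → List α → List α
  | acc, [] => acc
  | acc, c :: l => subG add dbl zero (stepG add dbl zero acc c) l

theorem length_stepG (add : α → α → α) (dbl : α → α) :
    ∀ (l : List α) (p c : α), (stepG add dbl p l c).length = l.length + 1
  | [], _, _ => rfl
  | a :: l, p, c => by
    change (stepG add dbl a l c).length + 1 = l.length + 1 + 1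
    rw [length_stepG add dbl l]

theorem length_subG (add : α → α → α) (dbl : α → α) (zero : α) :
    ∀ (l acc : List α), (subG add dbl zero acc l).length = acc.length + l.length
  | [], acc => rfl
  | c :: l, acc => by
    change (subG add dbl zero (stepG add dbl zero acc c) l).length = _
    rw [length_subG add dbl zero l, length_stepG, List.length_cons]
    ring

variable {add : α → α → α} {dbl : α → α} {zero : α} {φ : α → ℝ} {S : α → Prop} {κ : ℝ}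

theorem mem_stepG (hSa : ∀ a b, S a → S b → S (add a b)) (hSd : ∀ a, S a → S (dbl a)) :
    ∀ (l : List α) (p c : α), S p → S c → (∀ a ∈ l, S a) → ∀ a ∈ stepG add dbl p l c, S a
  | [], p, c, hp, hc, _, a, ha => by
    have : a = add p c := by simpa only [stepG, List.mem_cons, List.not_mem_nil, or_false] using ha
    rw [this]; exact hSa _ _ hp hc
  | b :: l, p, c, hp, hc, hl, a, ha => by
    have hb := hl b (by simp)
    have ha' : a = add (dbl b) p ∨ a ∈ stepG add dbl b l c := by simpa [stepG] using ha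
    rcases ha' with h | h
    · rw [h]; exact hSa _ _ (hSd _ hb) hp
    · exact mem_stepG hSa hSd l b c hb hc (fun x hx => hl x (by simp [hx])) a h

theorem mem_subG (hSa : ∀ a b, S a → S b → S (add a b)) (hSd : ∀ a, S a → S (dbl a))
    (hz : S zero) : ∀ (l acc : List α), (∀ a ∈ l, S a) → (∀ a ∈ acc, S a) →
    ∀ a ∈ subG add dbl zero acc l, S a
  | [], _, _, hacc => hacc
  | c :: l, acc, hl, hacc =>
    mem_subG hSa hSd hz l _ (fun x hx => hl x (by simp [hx]))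
      (mem_stepG hSa hSd acc zero c hz (hl c (by simp)) hacc)

theorem evH_stepG (hadd : ∀ a b, S a → S b → φ (add a b) = φ a + φ b)
    (hdbl : ∀ a, S a → φ (dbl a) = κ * φ a) (hSd : ∀ a, S a → S (dbl a)) (s t : ℝ) :
    ∀ (l : List α) (p c : α), S p → S c → (∀ a ∈ l, S a) →
    evH φ (stepG add dbl p l c) s t
      = φ p * t ^ l.length + (s + κ * t) * evH φ l s t + φ c * s ^ l.length
  | [], p, c, hp, hc, _ => by
    simp only [stepG, evH, List.length_nil, pow_zero, mul_one, mul_zero, add_zero]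
    rw [hadd _ _ hp hc]
  | a :: l, p, c, hp, hc, hl => by
    have ha := hl a (by simp)
    simp only [stepG, evH, length_stepG, List.length_cons]
    rw [evH_stepG hadd hdbl hSd s t l a c ha hc (fun x hx => hl x (by simp [hx])),
      hadd _ _ (hSd _ ha) hp, hdbl _ ha]
    ring

theorem evH_subG (hadd : ∀ a b, S a → S b → φ (add a b) = φ a + φ b)
    (hSa : ∀ a b, S a → S b → S (add a b))
    (hdbl : ∀ a, S a → φ (dbl a) = κ * φ a) (hSd : ∀ a, S a → S (dbl a))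
    (hz : S zero) (hz0 : φ zero = 0) (s t : ℝ) :
    ∀ (l acc : List α), (∀ a ∈ l, S a) → (∀ a ∈ acc, S a) →
    evH φ (subG add dbl zero acc l) s t
      = (s + κ * t) ^ l.length * evH φ acc s t + s ^ acc.length * evH φ l s (s + κ * t)
  | [], acc, _, _ => by simp only [subG, List.length_nil, pow_zero, one_mul, evH, mul_zero,
                          add_zero]
  | c :: l, acc, hl, hacc => by
    have hc := hl c (by simp)
    simp only [subG, evH]
    rw [evH_subG hadd hSa hdbl hSd hz hz0 s t l _ (fun x hx => hl x (by simp [hx]))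
      (mem_stepG hSa hSd acc zero c hz hc hacc),
      evH_stepG hadd hdbl hSd s t acc zero c hz hc hacc, hz0, length_stepG, List.length_cons]
    ring

theorem evH_append (s t : ℝ) (c : α) : ∀ l : List α,
    evH φ (l ++ [c]) s t = t * evH φ l s t + φ c * s ^ l.length
  | [] => by simp [evH]
  | a :: l => by
    simp only [List.cons_append, evH, evH_append s t c l, List.length_append, List.length_cons,
      List.length_nil]
    ring

theorem evH_reverse (s t : ℝ) : ∀ l : List α, evH φ l.reverse s t = evH φ l t s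
  | [] => by simp [evH]
  | a :: l => by
    rw [List.reverse_cons, evH_append, evH_reverse s t l, List.length_reverse]
    simp only [evH]
    ring

theorem evH_smul (c s t : ℝ) : ∀ l : List α, l ≠ [] →
    c * evH φ l (c * s) (c * t) = c ^ l.length * evH φ l s t
  | [], h => absurd rfl h
  | [a], _ => by simp [evH]
  | a :: b :: l, _ => by
    have ih := evH_smul c s t (b :: l) (by simp)
    change c * (φ a * (c * t) ^ (b :: l).length + c * s * evH φ (b :: l) (c * s) (c * t))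
      = c ^ ((b :: l).length + 1) * (φ a * t ^ (b :: l).length + s * evH φ (b :: l) s t)
    have e : c * (φ a * (c * t) ^ (b :: l).length + c * s * evH φ (b :: l) (c * s) (c * t))
        = c * (φ a * (c * t) ^ (b :: l).length) + c * s * (c * evH φ (b :: l) (c * s) (c * t)) := by
      ring
    rw [e, ih]
    ring

theorem evH_nonneg {s t : ℝ} (hs : 0 ≤ s) (ht : 0 ≤ t) :
    ∀ l : List α, (∀ a ∈ l, 0 ≤ φ a) → 0 ≤ evH φ l s t
  | [], _ => le_rfl
  | a :: l, h => add_nonneg (mul_nonneg (h a (by simp)) (pow_nonneg ht _))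
      (mul_nonneg hs (evH_nonneg hs ht l fun x hx => h x (by simp [hx])))

theorem evH_pos {s t : ℝ} (hs : 0 ≤ s) (ht : 0 ≤ t) (hst : 0 < s + t) :
    ∀ l : List α, l ≠ [] → (∀ a ∈ l, 0 < φ a) → 0 < evH φ l s t
  | [], h, _ => absurd rfl h
  | a :: l, _, h => by
    have ha := h a (by simp)
    have hl : ∀ x ∈ l, 0 < φ x := fun x hx => h x (by simp [hx])
    have h2 := evH_nonneg (φ := φ) hs ht l (fun x hx => (hl x hx).le)
    rw [evH]
    rcases ht.eq_or_lt with h0 | h0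
    · rw [← h0] at hst ⊢
      rw [add_zero] at hst
      cases l with
      | nil => simpa [evH] using ha
      | cons b l =>
        have h3 := evH_pos hs le_rfl (by simpa using hst) (b :: l) (by simp) hl
        rw [List.length_cons, zero_pow (by omega), mul_zero, zero_add]
        exact mul_pos hst h3
    · exact add_pos_of_pos_of_nonneg (mul_pos ha (pow_pos h0 _)) (mul_nonneg hs h2)

theorem evH_congr {ψ : α → ℝ} (s t : ℝ) : ∀ l : List α, (∀ a ∈ l, φ a = ψ a) →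
    evH φ l s t = evH ψ l s t
  | [], _ => rfl
  | a :: l, h => by
    rw [evH, evH, h a (by simp), evH_congr s t l (fun x hx => h x (by simp [hx]))]

theorem evH_map {β : Type*} (f : β → α) (s t : ℝ) : ∀ l : List β,
    evH φ (l.map f) s t = evH (fun b => φ (f b)) l s t
  | [] => rfl
  | a :: l => by
    rw [List.map_cons, evH, evH, evH_map f s t l, List.length_map]

end generic

/-! ### Rows -/

/-- cast -/
def zr (z : ℤ) : ℝ := (z : ℝ)

def dblZ (z : ℤ) : ℤ := Int.add z z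

/-- value of a row -/
noncomputable def evR (r : List ℤ) (v v' : ℝ) : ℝ := evH zr r v v'

def addR : List ℤ → List ℤ → List ℤ
  | a :: l, b :: m => Int.add a b :: addR l m
  | _, _ => []

def row1 (l : List ℤ) : List ℤ := subG Int.add (fun z => z) (Int.ofNat 0) [] l
def row2 (l : List ℤ) : List ℤ := subG Int.add dblZ (Int.ofNat 0) [] l
def row2r (l : List ℤ) : List ℤ := (row2 l.reverse).reverse

theorem zr_add (a b : ℤ) : zr (Int.add a b) = zr a + zr b := by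
  unfold zr
  exact Int.cast_add a b

theorem zr_zero : zr (Int.ofNat 0) = 0 := by
  unfold zr
  simp

theorem zr_dbl (a : ℤ) : zr (dblZ a) = 2 * zr a := by
  unfold dblZ
  rw [zr_add]; ring

theorem length_addR : ∀ (a b : List ℤ), a.length = b.length → (addR a b).length = a.length
  | [], [], _ => rfl
  | [], _ :: _, h => by simp at h
  | _ :: _, [], h => by simp at h
  | a :: l, b :: m, h => by
    have h' : l.length = m.length := by simpa using h
    change (addR l m).length + 1 = l.length + 1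
    rw [length_addR l m h']

theorem evR_addR (v v' : ℝ) : ∀ (a b : List ℤ), a.length = b.length →
    evR (addR a b) v v' = evR a v v' + evR b v v'
  | [], [], _ => by simp only [evR, addR, evH, add_zero]
  | [], _ :: _, h => by simp at h
  | _ :: _, [], h => by simp at h
  | a :: l, b :: m, h => by
    have h' : l.length = m.length := by simpa using h
    have ih := evR_addR v v' l m h'
    unfold evR at ih ⊢
    rw [addR, evH, evH, evH, ih, zr_add, length_addR l m h', h']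
    ring

theorem evR_map_dbl (v v' : ℝ) : ∀ a : List ℤ, evR (a.map dblZ) v v' = 2 * evR a v v'
  | [] => by simp [evR, evH]
  | a :: l => by
    have ih := evR_map_dbl v v' l
    unfold evR at ih ⊢
    rw [List.map_cons, evH, evH, ih, zr_dbl, List.length_map]
    ring

theorem evR_row1 (l : List ℤ) (v v' : ℝ) : evR (row1 l) v v' = evR l v (v + v') := by
  have h := evH_subG (add := Int.add) (dbl := fun z => z) (zero := Int.ofNat 0) (φ := zr)
    (S := fun _ => True) (κ := 1) (fun a b _ _ => zr_add a b) (fun _ _ _ _ => trivial)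
    (fun a _ => (one_mul _).symm) (fun _ _ => trivial) trivial zr_zero v v' l []
    (fun _ _ => trivial) (fun _ _ => trivial)
  unfold evR row1
  rw [h]
  simp [evH]

theorem evR_row2 (l : List ℤ) (v v' : ℝ) : evR (row2 l) v v' = evR l v (v + 2 * v') := by
  have h := evH_subG (add := Int.add) (dbl := dblZ) (zero := Int.ofNat 0) (φ := zr)
    (S := fun _ => True) (κ := 2) (fun a b _ _ => zr_add a b) (fun _ _ _ _ => trivial)
    (fun a _ => zr_dbl a) (fun _ _ => trivial) trivial zr_zero v v' l []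
    (fun _ _ => trivial) (fun _ _ => trivial)
  unfold evR row2
  rw [h]
  simp [evH]

theorem evR_row2r (l : List ℤ) (v v' : ℝ) : evR (row2r l) v v' = evR l (v' + 2 * v) v' := by
  unfold row2r
  have h := evR_row2 l.reverse v' v
  unfold evR at h ⊢
  rw [evH_reverse, h, evH_reverse]

theorem length_row1 (l : List ℤ) : (row1 l).length = l.length := by
  unfold row1; rw [length_subG]; simp

theorem length_row2 (l : List ℤ) : (row2 l).length = l.length := by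
  unfold row2; rw [length_subG]; simp

theorem length_row2r (l : List ℤ) : (row2r l).length = l.length := by
  unfold row2r; rw [List.length_reverse, length_row2, List.length_reverse]

/-! ### Matrices -/

noncomputable def evP (P : List (List ℤ)) (u u' v v' : ℝ) : ℝ := evH (fun r => evR r v v') P u u'

def zeroR (l : List ℤ) : List ℤ := l.map fun _ => Int.ofNat 0

def mat1 (P : List (List ℤ)) : List (List ℤ) := subG addR (fun r => r) (zeroR (P.headD [])) [] P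
def mat2 (P : List (List ℤ)) : List (List ℤ) :=
  subG addR (List.map dblZ) (zeroR (P.headD [])) [] P
def mat2r (P : List (List ℤ)) : List (List ℤ) := (mat2 P.reverse).reverse

/-- all rows have the same length -/
def Rect (m : ℕ) (P : List (List ℤ)) : Prop := ∀ r ∈ P, r.length = m

theorem evR_zeroR (l : List ℤ) (v v' : ℝ) : evR (zeroR l) v v' = 0 := by
  induction l with
  | nil => simp [zeroR, evR, evH]
  | cons a l ih =>
    unfold evR zeroR at ih ⊢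
    rw [List.map_cons, evH, ih, zr_zero]
    ring

theorem length_zeroR (l : List ℤ) : (zeroR l).length = l.length := by
  unfold zeroR; simp

theorem mat_aux {m : ℕ} {P : List (List ℤ)} (hP : Rect m P) (hne : P ≠ []) :
    (zeroR (P.headD [])).length = m := by
  cases P with
  | nil => exact absurd rfl hne
  | cons a l => rw [length_zeroR]; exact hP a (by simp)

theorem evP_mat1 {m : ℕ} {P : List (List ℤ)} (hP : Rect m P) (u u' v v' : ℝ) :
    evP (mat1 P) u u' v v' = evP P u (u + u') v v' := by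
  rcases eq_or_ne P [] with h0 | h0
  · subst h0; simp [mat1, evP, subG, evH]
  have h := evH_subG (add := addR) (dbl := fun r => r) (zero := zeroR (P.headD []))
    (φ := fun r => evR r v v') (S := fun r => r.length = m) (κ := 1)
    (fun a b ha hb => evR_addR v v' a b (ha.trans hb.symm))
    (fun a b ha hb => (length_addR a b (ha.trans hb.symm)).trans ha)
    (fun a _ => (one_mul _).symm) (fun _ ha => ha) (mat_aux hP h0) (evR_zeroR _ v v') u u' P []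
    hP (fun _ h => by simp at h)
  unfold evP mat1
  rw [h]
  simp [evH]

theorem rect_mat1 {m : ℕ} {P : List (List ℤ)} (hP : Rect m P) : Rect m (mat1 P) := by
  rcases eq_or_ne P [] with h0 | h0
  · subst h0; simp [mat1, Rect, subG]
  exact mem_subG (add := addR) (dbl := fun r => r) (zero := zeroR (P.headD []))
    (S := fun r => r.length = m)
    (fun a b ha hb => (length_addR a b (ha.trans hb.symm)).trans ha)
    (fun _ ha => ha) (mat_aux hP h0) P [] hP (fun _ h => by simp at h)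

theorem evP_mat2 {m : ℕ} {P : List (List ℤ)} (hP : Rect m P) (u u' v v' : ℝ) :
    evP (mat2 P) u u' v v' = evP P u (u + 2 * u') v v' := by
  rcases eq_or_ne P [] with h0 | h0
  · subst h0; simp [mat2, evP, subG, evH]
  have h := evH_subG (add := addR) (dbl := List.map dblZ) (zero := zeroR (P.headD []))
    (φ := fun r => evR r v v') (S := fun r => r.length = m) (κ := 2)
    (fun a b ha hb => evR_addR v v' a b (ha.trans hb.symm))
    (fun a b ha hb => (length_addR a b (ha.trans hb.symm)).trans ha)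
    (fun a _ => evR_map_dbl v v' a) (fun a ha => by simpa using ha)
    (mat_aux hP h0) (evR_zeroR _ v v') u u' P []
    hP (fun _ h => by simp at h)
  unfold evP mat2
  rw [h]
  simp [evH]

theorem rect_mat2 {m : ℕ} {P : List (List ℤ)} (hP : Rect m P) : Rect m (mat2 P) := by
  rcases eq_or_ne P [] with h0 | h0
  · subst h0; simp [mat2, Rect, subG]
  exact mem_subG (add := addR) (dbl := List.map dblZ) (zero := zeroR (P.headD []))
    (S := fun r => r.length = m)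
    (fun a b ha hb => (length_addR a b (ha.trans hb.symm)).trans ha)
    (fun a ha => by simpa using ha) (mat_aux hP h0) P [] hP (fun _ h => by simp at h)

theorem rect_reverse {m : ℕ} {P : List (List ℤ)} (hP : Rect m P) : Rect m P.reverse :=
  fun r hr => hP r (by simpa using hr)

theorem evP_mat2r {m : ℕ} {P : List (List ℤ)} (hP : Rect m P) (u u' v v' : ℝ) :
    evP (mat2r P) u u' v v' = evP P (u' + 2 * u) u' v v' := by
  unfold mat2r
  have h := evP_mat2 (rect_reverse hP) u' u v v'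
  unfold evP at h ⊢
  rw [evH_reverse, h, evH_reverse]

theorem rect_mat2r {m : ℕ} {P : List (List ℤ)} (hP : Rect m P) : Rect m (mat2r P) :=
  rect_reverse (rect_mat2 (rect_reverse hP))

theorem evP_map_row1 (P : List (List ℤ)) (u u' v v' : ℝ) :
    evP (P.map row1) u u' v v' = evP P u u' v (v + v') := by
  unfold evP
  rw [evH_map]
  exact evH_congr _ _ _ fun r _ => evR_row1 r v v'

theorem evP_map_row2 (P : List (List ℤ)) (u u' v v' : ℝ) :
    evP (P.map row2) u u' v v' = evP P u u' v (v + 2 * v') := by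
  unfold evP
  rw [evH_map]
  exact evH_congr _ _ _ fun r _ => evR_row2 r v v'

theorem evP_map_row2r (P : List (List ℤ)) (u u' v v' : ℝ) :
    evP (P.map row2r) u u' v v' = evP P u u' (v' + 2 * v) v' := by
  unfold evP
  rw [evH_map]
  exact evH_congr _ _ _ fun r _ => evR_row2r r v v'

theorem rect_map {m : ℕ} {P : List (List ℤ)} (hP : Rect m P) (f : List ℤ → List ℤ)
    (hf : ∀ l, (f l).length = l.length) : Rect m (P.map f) := by
  intro r hr
  obtain ⟨r', hr', rfl⟩ := List.mem_map.1 hr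
  rw [hf]; exact hP r' hr'

/-- scaling of both variables in the first direction does not change the sign -/
theorem evP_two_pos {P : List (List ℤ)} {u u' v v' : ℝ}
    (h : 0 < evP P (2 * u) (2 * u') v v') : 0 < evP P u u' v v' := by
  have hne : P ≠ [] := by
    rintro rfl
    simp [evP, evH] at h
  have e := evH_smul (φ := fun r => evR r v v') 2 u u' P hne
  unfold evP at h ⊢
  have h2 : (0 : ℝ) < 2 ^ P.length := by positivity
  have h3 : 0 < 2 * evH (fun r => evR r v v') P (2 * u) (2 * u') := by linarith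
  rw [e] at h3
  exact pos_of_mul_pos_right h3 h2.le

theorem evR_two (l : List ℤ) (v v' : ℝ) : 2 * evR l (2 * v) (2 * v') = 2 ^ l.length * evR l v v' := by
  rcases eq_or_ne l [] with h0 | h0
  · subst h0; simp [evR, evH]
  exact evH_smul 2 v v' l h0

theorem evP_two_pos' {m : ℕ} {P : List (List ℤ)} (hP : Rect m P) {u u' v v' : ℝ}
    (h : 0 < evP P u u' (2 * v) (2 * v')) : 0 < evP P u u' v v' := by
  have e : 2 * evP P u u' (2 * v) (2 * v') = 2 ^ m * evP P u u' v v' := by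
    have key : ∀ Q : List (List ℤ), Rect m Q →
        2 * evP Q u u' (2 * v) (2 * v') = 2 ^ m * evP Q u u' v v' := by
      intro Q
      induction Q with
      | nil => intro _; simp [evP, evH]
      | cons r Q ih =>
        intro hQ
        have ih' := ih (fun x hx => hQ x (by simp [hx]))
        have hr := hQ r (by simp)
        have h2 := evR_two r v v'
        rw [hr] at h2
        unfold evP at ih' ⊢
        rw [evH, evH]
        linear_combination u'^Q.length * h2 + u * ih'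
    exact key P hP
  have h2 : (0 : ℝ) < 2 ^ m := by positivity
  have h3 : 0 < 2 * evP P u u' (2 * v) (2 * v') := by linarith
  rw [e] at h3
  exact pos_of_mul_pos_right h3 h2.le

/-! ### The checker -/

def posZ : ℤ → Bool
  | Int.ofNat n => Nat.ble 1 n
  | Int.negSucc _ => false

theorem posZ_pos {z : ℤ} (h : posZ z = true) : 0 < zr z := by
  cases z with
  | ofNat n =>
    have h1 : 1 ≤ n := Nat.le_of_ble_eq_true h
    unfold zr
    have : (0 : ℤ) < Int.ofNat n := by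
      change (0 : ℤ) < (n : ℤ)
      exact_mod_cast h1
    exact_mod_cast this
  | negSucc n => simp [posZ] at h

def nonempty {α : Type*} : List α → Bool
  | [] => false
  | _ :: _ => true

def allPosR : List ℤ → Bool
  | [] => true
  | a :: l => and (posZ a) (allPosR l)

def allPosP : List (List ℤ) → Bool
  | [] => true
  | r :: P => and (and (nonempty r) (allPosR r)) (allPosP P)

def allPos (P : List (List ℤ)) : Bool := and (nonempty P) (allPosP P)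

theorem nonempty_ne {α : Type*} {l : List α} (h : nonempty l = true) : l ≠ [] := by
  rintro rfl
  simp [nonempty] at h

theorem allPosR_pos : ∀ {l : List ℤ}, allPosR l = true → ∀ a ∈ l, 0 < zr a
  | [], _, a, ha => by simp at ha
  | b :: l, h, a, ha => by
    have h2 := (Bool.and_eq_true _ _).mp h
    rcases List.mem_cons.1 ha with rfl | h3
    · exact posZ_pos h2.1
    · exact allPosR_pos h2.2 a h3

theorem allPosP_pos {v v' : ℝ} (hv : 0 ≤ v) (hv' : 0 ≤ v') (hvv : 0 < v + v') :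
    ∀ {P : List (List ℤ)}, allPosP P = true → ∀ r ∈ P, 0 < evR r v v'
  | [], _, a, ha => by simp at ha
  | b :: l, h, a, ha => by
    have h2 := (Bool.and_eq_true _ _).mp h
    have h3 := (Bool.and_eq_true _ _).mp h2.1
    rcases List.mem_cons.1 ha with rfl | h4
    · exact evH_pos hv hv' hvv a (nonempty_ne h3.1) (allPosR_pos h3.2)
    · exact allPosP_pos hv hv' hvv h2.2 a h4

theorem allPos_pos {P : List (List ℤ)} (h : allPos P = true) {u u' v v' : ℝ} (hu : 0 ≤ u)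
    (hu' : 0 ≤ u') (huu : 0 < u + u') (hv : 0 ≤ v) (hv' : 0 ≤ v') (hvv : 0 < v + v') :
    0 < evP P u u' v v' := by
  have h2 := (Bool.and_eq_true _ _).mp h
  exact evH_pos hu hu' huu P (nonempty_ne h2.1) (allPosP_pos hv hv' hvv h2.2)

inductive CTree where
  | leaf (i : ℕ) : CTree
  | su (l r : CTree) : CTree
  | sv (l r : CTree) : CTree

def chk : CTree → List (List (List ℤ)) → Bool
  | CTree.leaf i, ps => allPos (ps.getD i [])
  | CTree.su l r, ps => and (chk l (ps.map mat2)) (chk r (ps.map mat2r))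
  | CTree.sv l r, ps => and (chk l (ps.map (List.map row2))) (chk r (ps.map (List.map row2r)))

theorem chk_sound : ∀ (t : CTree) (ps : List (List (List ℤ))), (∀ P ∈ ps, ∃ m, Rect m P) →
    chk t ps = true → ∀ u v : ℝ, 0 ≤ u → u ≤ 1 → 0 ≤ v → v ≤ 1 →
    ∃ P ∈ ps, 0 < evP P u (1 - u) v (1 - v)
  | CTree.leaf i, ps, _, h, u, v, hu, hu1, hv, hv1 => by
    have h2 : allPos (ps.getD i []) = true := h
    by_cases hi : i < ps.length
    · refine ⟨ps.getD i [], ?_, allPos_pos h2 hu (by linarith only [hu1]) (by linarith) hv (by linarith)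
        (by linarith)⟩
      rw [List.getD_eq_getElem _ _ hi]
      exact List.getElem_mem hi
    · rw [List.getD_eq_default _ _ (not_lt.1 hi)] at h2
      simp [allPos, nonempty] at h2
  | CTree.su l r, ps, hR, h, u, v, hu, hu1, hv, hv1 => by
    have h2 := (Bool.and_eq_true _ _).mp h
    rcases le_total u (1 / 2) with hc | hc
    · obtain ⟨Q, hQ, hpos⟩ := chk_sound l (ps.map mat2) (fun P hP => by
        obtain ⟨P', hP', rfl⟩ := List.mem_map.1 hP
        obtain ⟨m, hm⟩ := hR P' hP'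
        exact ⟨m, rect_mat2 hm⟩) h2.1 (2 * u) v (by linarith only [hu]) (by linarith) hv hv1
      obtain ⟨P, hP, rfl⟩ := List.mem_map.1 hQ
      obtain ⟨m, hm⟩ := hR P hP
      refine ⟨P, hP, evP_two_pos ?_⟩
      rw [evP_mat2 hm] at hpos
      have e : 2 * u + 2 * (1 - 2 * u) = 2 * (1 - u) := by ring
      rwa [e] at hpos
    · obtain ⟨Q, hQ, hpos⟩ := chk_sound r (ps.map mat2r) (fun P hP => by
        obtain ⟨P', hP', rfl⟩ := List.mem_map.1 hP
        obtain ⟨m, hm⟩ := hR P' hP'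
        exact ⟨m, rect_mat2r hm⟩) h2.2 (2 * u - 1) v (by linarith) (by linarith only [hu1]) hv hv1
      obtain ⟨P, hP, rfl⟩ := List.mem_map.1 hQ
      obtain ⟨m, hm⟩ := hR P hP
      refine ⟨P, hP, evP_two_pos ?_⟩
      rw [evP_mat2r hm] at hpos
      have e : 1 - (2 * u - 1) + 2 * (2 * u - 1) = 2 * u := by ring
      have e2 : 1 - (2 * u - 1) = 2 * (1 - u) := by ring
      rwa [e, e2] at hpos
  | CTree.sv l r, ps, hR, h, u, v, hu, hu1, hv, hv1 => by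
    have h2 := (Bool.and_eq_true _ _).mp h
    rcases le_total v (1 / 2) with hc | hc
    · obtain ⟨Q, hQ, hpos⟩ := chk_sound l (ps.map (List.map row2)) (fun P hP => by
        obtain ⟨P', hP', rfl⟩ := List.mem_map.1 hP
        obtain ⟨m, hm⟩ := hR P' hP'
        exact ⟨m, rect_map hm _ length_row2⟩) h2.1 u (2 * v) hu hu1 (by linarith) (by linarith)
      obtain ⟨P, hP, rfl⟩ := List.mem_map.1 hQ
      obtain ⟨m, hm⟩ := hR P hP
      refine ⟨P, hP, evP_two_pos' hm ?_⟩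
      rw [evP_map_row2] at hpos
      have e : 2 * v + 2 * (1 - 2 * v) = 2 * (1 - v) := by ring
      rwa [e] at hpos
    · obtain ⟨Q, hQ, hpos⟩ := chk_sound r (ps.map (List.map row2r)) (fun P hP => by
        obtain ⟨P', hP', rfl⟩ := List.mem_map.1 hP
        obtain ⟨m, hm⟩ := hR P' hP'
        exact ⟨m, rect_map hm _ length_row2r⟩) h2.2 u (2 * v - 1) hu hu1 (by linarith)
          (by linarith only [hv1])
      obtain ⟨P, hP, rfl⟩ := List.mem_map.1 hQ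
      obtain ⟨m, hm⟩ := hR P hP
      refine ⟨P, hP, evP_two_pos' hm ?_⟩
      rw [evP_map_row2r] at hpos
      have e : 1 - (2 * v - 1) + 2 * (2 * v - 1) = 2 * v := by ring
      have e2 : 1 - (2 * v - 1) = 2 * (1 - v) := by ring
      rwa [e, e2] at hpos

/-! ### Polynomial arithmetic (monomial basis, `u' = v' = 1`) -/

def addL : List ℤ → List ℤ → List ℤ
  | [], m => m
  | l, [] => l
  | a :: l, b :: m => Int.add a b :: addL l m

def smulL (c : ℤ) : List ℤ → List ℤ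
  | [] => []
  | a :: l => Int.mul c a :: smulL c l

def mulL : List ℤ → List ℤ → List ℤ
  | [], _ => []
  | a :: l, m => addL (smulL a m) (Int.ofNat 0 :: mulL l m)

def addP : List (List ℤ) → List (List ℤ) → List (List ℤ)
  | [], m => m
  | l, [] => l
  | a :: l, b :: m => addL a b :: addP l m

def mulP : List (List ℤ) → List (List ℤ) → List (List ℤ)
  | [], _ => []
  | a :: l, m => addP (m.map (mulL a)) ([] :: mulP l m)

theorem evR_nil (v v' : ℝ) : evR [] v v' = 0 := rfl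

theorem evR_cons (a : ℤ) (l : List ℤ) (v : ℝ) : evR (a :: l) v 1 = zr a + v * evR l v 1 := by
  unfold evR
  rw [evH, one_pow, mul_one]

theorem evR_addL (v : ℝ) : ∀ a b : List ℤ, evR (addL a b) v 1 = evR a v 1 + evR b v 1
  | [], m => by rw [addL, evR_nil, zero_add]
  | a :: l, [] => by rw [addL, evR_nil, add_zero]; simp
  | a :: l, b :: m => by
    rw [addL, evR_cons, evR_cons, evR_cons, evR_addL v l m, zr_add]
    ring

theorem evR_smulL (v : ℝ) (c : ℤ) : ∀ a : List ℤ, evR (smulL c a) v 1 = zr c * evR a v 1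
  | [] => by rw [smulL, evR_nil, mul_zero]
  | a :: l => by
    rw [smulL, evR_cons, evR_cons, evR_smulL v c l]
    have : zr (Int.mul c a) = zr c * zr a := by
      unfold zr
      exact Int.cast_mul c a
    rw [this]
    ring

theorem evR_mulL (v : ℝ) : ∀ a b : List ℤ, evR (mulL a b) v 1 = evR a v 1 * evR b v 1
  | [], m => by rw [mulL, evR_nil, zero_mul]
  | a :: l, m => by
    rw [mulL, evR_addL, evR_smulL, evR_cons, evR_cons, evR_mulL v l m, zr_zero]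
    ring

theorem evP_nil (u u' v v' : ℝ) : evP [] u u' v v' = 0 := rfl

theorem evP_cons (a : List ℤ) (l : List (List ℤ)) (u v : ℝ) :
    evP (a :: l) u 1 v 1 = evR a v 1 + u * evP l u 1 v 1 := by
  unfold evP
  rw [evH, one_pow, mul_one]

theorem evP_addP (u v : ℝ) : ∀ a b : List (List ℤ),
    evP (addP a b) u 1 v 1 = evP a u 1 v 1 + evP b u 1 v 1
  | [], m => by rw [addP, evP_nil, zero_add]
  | a :: l, [] => by rw [addP, evP_nil, add_zero]; simp
  | a :: l, b :: m => by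
    rw [addP, evP_cons, evP_cons, evP_cons, evP_addP u v l m, evR_addL]
    ring

theorem evP_map_mulL (u v : ℝ) (a : List ℤ) : ∀ m : List (List ℤ),
    evP (m.map (mulL a)) u 1 v 1 = evR a v 1 * evP m u 1 v 1
  | [] => by rw [List.map_nil, evP_nil, mul_zero]
  | b :: m => by
    rw [List.map_cons, evP_cons, evP_cons, evP_map_mulL u v a m, evR_mulL]
    ring

theorem evP_mulP (u v : ℝ) : ∀ a b : List (List ℤ),
    evP (mulP a b) u 1 v 1 = evP a u 1 v 1 * evP b u 1 v 1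
  | [], m => by rw [mulP, evP_nil, zero_mul]
  | a :: l, m => by
    rw [mulP, evP_addP, evP_map_mulL, evP_cons, evP_cons, evP_mulP u v l m, evR_nil]
    ring

/-- polynomial expressions -/
inductive PE where
  | c (z : ℤ) : PE
  | u : PE
  | v : PE
  | add (a b : PE) : PE
  | mul (a b : PE) : PE

noncomputable def PE.ev : PE → ℝ → ℝ → ℝ
  | PE.c z, _, _ => (z : ℝ)
  | PE.u, x, _ => x
  | PE.v, _, y => y
  | PE.add a b, x, y => a.ev x y + b.ev x y
  | PE.mul a b, x, y => a.ev x y * b.ev x y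

def PE.toP : PE → List (List ℤ)
  | PE.c z => [[z]]
  | PE.u => [[], [Int.ofNat 1]]
  | PE.v => [[Int.ofNat 0, Int.ofNat 1]]
  | PE.add a b => addP a.toP b.toP
  | PE.mul a b => mulP a.toP b.toP

theorem zr_one : zr (Int.ofNat 1) = 1 := by unfold zr; simp

theorem PE.toP_ev (x y : ℝ) : ∀ e : PE, evP e.toP x 1 y 1 = e.ev x y
  | PE.c z => by rw [PE.toP, PE.ev, evP_cons, evP_nil, evR_cons, evR_nil]; simp [zr]
  | PE.u => by
    rw [PE.toP, PE.ev, evP_cons, evP_cons, evP_nil, evR_cons, evR_nil, zr_one]; ring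
  | PE.v => by
    rw [PE.toP, PE.ev, evP_cons, evP_nil, evR_cons, evR_cons, evR_nil, zr_one, zr_zero]; ring
  | PE.add a b => by rw [PE.toP, PE.ev, evP_addP, PE.toP_ev x y a, PE.toP_ev x y b]
  | PE.mul a b => by rw [PE.toP, PE.ev, evP_mulP, PE.toP_ev x y a, PE.toP_ev x y b]

/-! ### From the monomial basis to the homogeneous form -/

def padR : ℕ → List ℤ → List ℤ
  | 0, _ => []
  | n + 1, [] => Int.ofNat 0 :: padR n []
  | n + 1, a :: l => a :: padR n l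

def maxLen : List (List ℤ) → ℕ
  | [] => 0
  | r :: P => max r.length (maxLen P)

theorem length_padR : ∀ (n : ℕ) (l : List ℤ), (padR n l).length = n
  | 0, _ => rfl
  | n + 1, [] => by change (padR n []).length + 1 = n + 1; rw [length_padR n]
  | n + 1, a :: l => by change (padR n l).length + 1 = n + 1; rw [length_padR n]

theorem evR_padR (v : ℝ) : ∀ (n : ℕ) (l : List ℤ), l.length ≤ n →
    evR (padR n l) v 1 = evR l v 1
  | 0, [], _ => rfl
  | 0, _ :: _, h => by simp at h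
  | n + 1, [], _ => by
    rw [padR, evR_cons, evR_padR v n [] (by simp), zr_zero, evR_nil]; ring
  | n + 1, a :: l, h => by
    rw [padR, evR_cons, evR_cons, evR_padR v n l (by simpa only [List.length_cons,
                                                       add_le_add_iff_right] using h)]

theorem le_maxLen : ∀ {P : List (List ℤ)}, ∀ r ∈ P, r.length ≤ maxLen P
  | [], r, h => by simp at h
  | a :: P, r, h => by
    rcases List.mem_cons.1 h with rfl | h2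
    · exact le_max_left _ _
    · exact (le_maxLen r h2).trans (le_max_right _ _)

def padP (P : List (List ℤ)) : List (List ℤ) := P.map (padR (maxLen P))

theorem evP_padP (P : List (List ℤ)) (u v : ℝ) : evP (padP P) u 1 v 1 = evP P u 1 v 1 := by
  unfold padP
  unfold evP
  rw [evH_map]
  exact evH_congr _ _ _ fun r hr => evR_padR v _ r (le_maxLen r hr)

theorem rect_padP (P : List (List ℤ)) : Rect (maxLen P) (padP P) := by
  intro r hr
  obtain ⟨r', _, rfl⟩ := List.mem_map.1 hr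
  exact length_padR _ _

def toB (P : List (List ℤ)) : List (List ℤ) := mat1 ((padP P).map row1)

theorem rect_toB (P : List (List ℤ)) : Rect (maxLen P) (toB P) :=
  rect_mat1 (rect_map (rect_padP P) _ length_row1)

theorem evP_toB (P : List (List ℤ)) (u v : ℝ) :
    evP (toB P) u (1 - u) v (1 - v) = evP P u 1 v 1 := by
  unfold toB
  rw [evP_mat1 (rect_map (rect_padP P) _ length_row1), evP_map_row1]
  have e1 : u + (1 - u) = 1 := by ring
  have e2 : v + (1 - v) = 1 := by ring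
  rw [e1, e2, evP_padP]

/-- cover test for a list of expressions -/
def cover (t : CTree) (es : List PE) : Bool := chk t (es.map fun e => toB e.toP)

theorem cover_sound {t : CTree} {es : List PE} (h : cover t es = true) {u v : ℝ}
    (hu : 0 ≤ u) (hu1 : u ≤ 1) (hv : 0 ≤ v) (hv1 : v ≤ 1) : ∃ e ∈ es, 0 < e.ev u v := by
  obtain ⟨P, hP, hpos⟩ := chk_sound t _ (fun P hP => by
    obtain ⟨e, _, rfl⟩ := List.mem_map.1 hP
    exact ⟨_, rect_toB _⟩) h u v hu hu1 hv hv1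
  obtain ⟨e, he, rfl⟩ := List.mem_map.1 hP
  refine ⟨e, he, ?_⟩
  rwa [evP_toB, PE.toP_ev] at hpos

def isZ : ℤ → Bool
  | Int.ofNat n => Nat.beq n 0
  | Int.negSucc _ => false

theorem isZ_eq {z : ℤ} (h : isZ z = true) : zr z = 0 := by
  cases z with
  | ofNat n =>
    have h1 : n = 0 := Nat.eq_of_beq_eq_true h
    subst h1
    exact zr_zero
  | negSucc n => exact absurd h (by simp [isZ])

def zeroRow : List ℤ → Bool
  | [] => true
  | a :: l => and (isZ a) (zeroRow l)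

theorem evR_zeroRow (v : ℝ) : ∀ {l : List ℤ}, zeroRow l = true → evR l v 1 = 0
  | [], _ => rfl
  | a :: l, h => by
    have h2 := (Bool.and_eq_true _ _).mp h
    rw [evR_cons, evR_zeroRow v h2.2, isZ_eq h2.1]; ring

/-- divide by `u ^ 2` -/
def drop2 : List (List ℤ) → List (List ℤ)
  | a :: b :: P => cond (and (zeroRow a) (zeroRow b)) P []
  | _ => []

/-- cover test for expressions divisible by `u ^ 2` -/
def cover2 (t : CTree) (es : List PE) : Bool := chk t (es.map fun e => toB (drop2 e.toP))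

theorem evP_drop2 (P : List (List ℤ)) {u v : ℝ} (hu : 0 < u)
    (h : 0 < evP (drop2 P) u 1 v 1) : 0 < evP P u 1 v 1 := by
  match P, h with
  | [], h => simp [drop2, evP, evH] at h
  | [_], h => simp [drop2, evP, evH] at h
  | a :: b :: P, h =>
    by_cases hz : and (zeroRow a) (zeroRow b) = true
    · have e : drop2 (a :: b :: P) = P := by
        change cond (and (zeroRow a) (zeroRow b)) P [] = P
        rw [hz]; rfl
      rw [e] at h
      have hz2 := (Bool.and_eq_true _ _).mp hz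
      rw [evP_cons, evP_cons, evR_zeroRow v hz2.1, evR_zeroRow v hz2.2]
      have : 0 < u * (u * evP P u 1 v 1) := mul_pos hu (mul_pos hu h)
      linarith
    · have e : drop2 (a :: b :: P) = [] := by
        change cond (and (zeroRow a) (zeroRow b)) P [] = []
        rw [Bool.eq_false_iff.2 hz]; rfl
      rw [e, evP_nil] at h
      exact absurd h (lt_irrefl _)

theorem cover2_sound {t : CTree} {es : List PE} (h : cover2 t es = true) {u v : ℝ}
    (hu : 0 < u) (hu1 : u ≤ 1) (hv : 0 ≤ v) (hv1 : v ≤ 1) : ∃ e ∈ es, 0 < e.ev u v := by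
  obtain ⟨P, hP, hpos⟩ := chk_sound t _ (fun P hP => by
    obtain ⟨e, _, rfl⟩ := List.mem_map.1 hP
    exact ⟨_, rect_toB _⟩) h u v hu.le hu1 hv hv1
  obtain ⟨e, he, rfl⟩ := List.mem_map.1 hP
  refine ⟨e, he, ?_⟩
  rw [evP_toB] at hpos
  rw [← PE.toP_ev]
  exact evP_drop2 _ hu hpos

end Vale.Agent.P154.Bern
end

section

/-!
# P154: expressions for polynomials given by their coefficient matrix
-/

namespace Vale.Agent.P154.Bern

/-- `∑ P i j X^i Y^j` -/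
def rowE (Y : PE) : List ℤ → PE
  | [] => PE.c 0
  | a :: l => PE.add (PE.c a) (PE.mul Y (rowE Y l))

def matE (X Y : PE) : List (List ℤ) → PE
  | [] => PE.c 0
  | r :: P => PE.add (rowE Y r) (PE.mul X (matE X Y P))

def affE (a b : ℤ) (V : PE) : PE := PE.add (PE.c a) (PE.mul (PE.c b) V)

theorem affE_ev (a b : ℤ) (V : PE) (x y : ℝ) :
    (affE a b V).ev x y = (a : ℝ) + (b : ℝ) * V.ev x y := rfl

theorem rowE_ev (Y : PE) (x y : ℝ) : ∀ l, (rowE Y l).ev x y = evR l (Y.ev x y) 1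
  | [] => by
    rw [evR_nil]
    change ((0 : ℤ) : ℝ) = 0
    exact Int.cast_zero
  | a :: l => by
    rw [evR_cons, ← rowE_ev Y x y l]
    rfl

theorem matE_ev (X Y : PE) (x y : ℝ) :
    ∀ P, (matE X Y P).ev x y = evP P (X.ev x y) 1 (Y.ev x y) 1
  | [] => by
    rw [evP_nil]
    change ((0 : ℤ) : ℝ) = 0
    exact Int.cast_zero
  | r :: P => by
    rw [evP_cons, ← matE_ev X Y x y P, ← rowE_ev]
    rfl

end Vale.Agent.P154.Bern
end

section

/-!
# P154: the corner polynomials for three spins are nonnegative (Bernstein coefficients)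
-/

namespace Vale.Agent.P154.Q3

/-- ray-ray corner polynomial -/
noncomputable def GRR (r t : ℝ) : ℝ :=
    (17/20) + (157/60)*t + (157/60)*r + (27/20)*t^2 + (217/30)*r*t + (27/20)*r^2 + (-89/36)*t^3
    + (229/120)*r*t^2 + (229/120)*r^2*t + (-89/36)*r^3 + (-15/8)*t^4 + (-541/72)*r*t^3
    + (-437/80)*r^2*t^2 + (-541/72)*r^3*t + (-15/8)*r^4 + (-27/8)*r*t^4 + (-407/72)*r^2*t^3
    + (-407/72)*r^3*t^2 + (-27/8)*r^4*t + (9/8)*r*t^5 + (6)*r^2*t^4 + (46/9)*r^3*t^3 + (6)*r^4*t^2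
    + (9/8)*r^5*t + (45/8)*r^2*t^5 + (9)*r^3*t^4 + (9)*r^4*t^3 + (45/8)*r^5*t^2 + (27/8)*r^3*t^5
    + (-33/8)*r^4*t^4 + (27/8)*r^5*t^3 + (-45/8)*r^4*t^5 + (-45/8)*r^5*t^4 + (-9/2)*r^5*t^5

/-- edge-ray corner polynomial -/
noncomputable def GER (x t : ℝ) : ℝ :=
    (-11/24) + (-1)*t + (931/360)*x + (19/48)*t^2 + (4079/720)*x*t + (-15/8)*x^2 + (185/144)*t^3
    + (-949/360)*x*t^2 + (-63/16)*x^2*t + (-3/16)*t^4 + (-197/24)*x*t^3 + (51/16)*x^2*t^2
    + (-9/16)*t^5 + (3/2)*x*t^4 + (117/16)*x^2*t^3 + (63/16)*x*t^5 + (-21/16)*x^2*t^4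
    + (-27/8)*x^2*t^5

/-- edge-edge corner polynomial -/
noncomputable def GEE (x y : ℝ) : ℝ :=
    (1/24) + (-71/288)*y + (-71/288)*x + (3/32)*y^2 + (1057/720)*x*y + (3/32)*x^2 + (-15/32)*x*y^2
    + (-15/32)*x^2*y + (3/8)*x^2*y^2

def pGRR : List (List ℤ) :=
  [[156672, 241152, 62208, -56960, -21600, 0],
    [241152, 333312, 43968, -86560, -19440, 3240],
    [62208, 43968, -62928, -32560, 17280, 8100],
    [-56960, -86560, -32560, 14720, 12960, 2430],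
    [-21600, -19440, 17280, 12960, -2970, -2025],
    [0, 3240, 8100, 2430, -2025, -810]]

set_option maxRecDepth 100000 in
theorem covGRR : Bern.cover (Bern.CTree.su (Bern.CTree.leaf 0) (Bern.CTree.leaf 0))
    [Bern.matE (Bern.affE (-1) 3 Bern.PE.u) (Bern.affE (-1) 3 Bern.PE.v) pGRR] = true := by
  decide +kernel

theorem GRR_eq (r t : ℝ) :
    Bern.evP pGRR (2 * r) 1 (2 * t) 1 = 184320 * GRR r t := by
  unfold pGRR GRR
  simp only [Bern.evP_cons, Bern.evP_nil, Bern.evR_cons, Bern.evR_nil, Bern.zr]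
  push_cast
  ring

theorem GRR_nonneg (r t : ℝ) (h1 : -1/2 ≤ r) (h2 : r ≤ 1) (h3 : -1/2 ≤ t) (h4 : t ≤ 1) :
    0 ≤ GRR r t := by
  obtain ⟨e, he, hpos⟩ := Bern.cover_sound covGRR (u := (2 * r - (-1)) / 3)
    (v := (2 * t - (-1)) / 3)
    (by linarith only [h1]) (by linarith only [h2]) (by linarith only [h3]) (by linarith only [h4])
  rw [List.mem_singleton.1 he, Bern.matE_ev, Bern.affE_ev, Bern.affE_ev] at hpos
  have e1 : ((-1 : ℤ) : ℝ) + ((3 : ℤ) : ℝ) * Bern.PE.u.ev ((2 * r - (-1)) / 3) ((2 * t - (-1)) / 3)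
      = 2 * r := by
    simp only [Bern.PE.ev]; push_cast; ring
  have e2 : ((-1 : ℤ) : ℝ) + ((3 : ℤ) : ℝ) * Bern.PE.v.ev ((2 * r - (-1)) / 3) ((2 * t - (-1)) / 3)
      = 2 * t := by
    simp only [Bern.PE.ev]; push_cast; ring
  rw [e1, e2, GRR_eq] at hpos
  linarith only [hpos]

def pGER : List (List ℤ) :=
  [[-84480, -92160, 18240, 29600, -2160, -3240],
    [119168, 130528, -30368, -47280, 4320, 5670],
    [-21600, -22680, 9180, 10530, -945, -1215]]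

set_option maxRecDepth 100000 in
theorem covGER : Bern.cover (Bern.CTree.leaf 0)
    [Bern.matE (Bern.affE (1) 3 Bern.PE.u) (Bern.affE (-1) 3 Bern.PE.v) pGER] = true := by
  decide +kernel

theorem GER_eq (x t : ℝ) :
    Bern.evP pGER (4 * x) 1 (2 * t) 1 = 184320 * GER x t := by
  unfold pGER GER
  simp only [Bern.evP_cons, Bern.evP_nil, Bern.evR_cons, Bern.evR_nil, Bern.zr]
  push_cast
  ring

theorem GER_nonneg (x t : ℝ) (h1 : 1/4 ≤ x) (h2 : x ≤ 1) (h3 : -1/2 ≤ t) (h4 : t ≤ 1) :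
    0 ≤ GER x t := by
  obtain ⟨e, he, hpos⟩ := Bern.cover_sound covGER (u := (4 * x - (1)) / 3)
    (v := (2 * t - (-1)) / 3)
    (by linarith only [h1]) (by linarith only [h2]) (by linarith only [h3]) (by linarith only [h4])
  rw [List.mem_singleton.1 he, Bern.matE_ev, Bern.affE_ev, Bern.affE_ev] at hpos
  have e1 : ((1 : ℤ) : ℝ) + ((3 : ℤ) : ℝ) * Bern.PE.u.ev ((4 * x - (1)) / 3) ((2 * t - (-1)) / 3)
      = 4 * x := by
    simp only [Bern.PE.ev]; push_cast; ring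
  have e2 : ((-1 : ℤ) : ℝ) + ((3 : ℤ) : ℝ) * Bern.PE.v.ev ((4 * x - (1)) / 3) ((2 * t - (-1)) / 3)
      = 2 * t := by
    simp only [Bern.PE.ev]; push_cast; ring
  rw [e1, e2, GER_eq] at hpos
  linarith only [hpos]

def pGEE : List (List ℤ) :=
  [[3840, -5680, 540],
    [-5680, 8456, -675],
    [540, -675, 135]]

set_option maxRecDepth 100000 in
theorem covGEE : Bern.cover (Bern.CTree.leaf 0)
    [Bern.matE (Bern.affE (1) 3 Bern.PE.u) (Bern.affE (1) 3 Bern.PE.v) pGEE] = true := by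
  decide +kernel

theorem GEE_eq (x y : ℝ) :
    Bern.evP pGEE (4 * x) 1 (4 * y) 1 = 92160 * GEE x y := by
  unfold pGEE GEE
  simp only [Bern.evP_cons, Bern.evP_nil, Bern.evR_cons, Bern.evR_nil, Bern.zr]
  push_cast
  ring

theorem GEE_nonneg (x y : ℝ) (h1 : 1/4 ≤ x) (h2 : x ≤ 1) (h3 : 1/4 ≤ y) (h4 : y ≤ 1) :
    0 ≤ GEE x y := by
  obtain ⟨e, he, hpos⟩ := Bern.cover_sound covGEE (u := (4 * x - (1)) / 3)
    (v := (4 * y - (1)) / 3)
    (by linarith only [h1]) (by linarith only [h2]) (by linarith only [h3]) (by linarith only [h4])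
  rw [List.mem_singleton.1 he, Bern.matE_ev, Bern.affE_ev, Bern.affE_ev] at hpos
  have e1 : ((1 : ℤ) : ℝ) + ((3 : ℤ) : ℝ) * Bern.PE.u.ev ((4 * x - (1)) / 3) ((4 * y - (1)) / 3)
      = 4 * x := by
    simp only [Bern.PE.ev]; push_cast; ring
  have e2 : ((1 : ℤ) : ℝ) + ((3 : ℤ) : ℝ) * Bern.PE.v.ev ((4 * x - (1)) / 3) ((4 * y - (1)) / 3)
      = 4 * y := by
    simp only [Bern.PE.ev]; push_cast; ring
  rw [e1, e2, GEE_eq] at hpos
  linarith only [hpos]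

end Vale.Agent.P154.Q3
end

section

namespace Vale.Agent.P154.Q3

theorem K1 (r t : ℝ) (hr : 0 ≤ r) (hr1 : r ≤ 1) (ht : 0 ≤ t) (ht1 : t ≤ 1) :
    0 ≤ (8*(1-r)*(1-t)+4)*(1-r^2*t^2) - 9*(1-r^2)*(1-t^2) := by
  have h1 : 0 ≤ 1 - r := by linarith
  have h2 : 0 ≤ 1 - t := by linarith
  nlinarith [mul_nonneg hr ht, mul_nonneg h1 h2, mul_nonneg hr h2, mul_nonneg ht h1, mul_nonneg (mul_nonneg hr h1) (mul_nonneg ht h2), sq_nonneg (r-t), sq_nonneg (r+t-1), mul_nonneg (mul_nonneg hr ht) (mul_nonneg h1 h2), sq_nonneg (r*t), sq_nonneg (r - 3/8), sq_nonneg (t-3/8)]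

theorem K2 (r y : ℝ) (hr : 0 ≤ r) (hr1 : r ≤ 55/64) (hy : 0 ≤ y) (hy1 : y ≤ 1) :
    0 ≤ ((1-y)*(2-y)*(55/16-4*r)+4)*(1-r^2*y) - 9*(1-r^2)*(1-y) := by
  have h1 : 0 ≤ 55/64 - r := by linarith only [hr1]
  have h2 : 0 ≤ 1 - y := by linarith only [hy1]
  nlinarith only [mul_nonneg h1 h2, mul_nonneg hy h1,
    mul_nonneg (mul_nonneg hr h1) (mul_nonneg hy h2), sq_nonneg (r-4/9), sq_nonneg (r*y),
    mul_nonneg h2 (sq_nonneg (r-4/9)), mul_nonneg (mul_nonneg hy h2) (sq_nonneg (r-4/9)),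
    mul_nonneg (mul_nonneg hy h2) h1, hr, hr1, hy, hy1, h1, h2]

theorem K3 (r : ℝ) (hr : 0 ≤ r) (hr1 : r ≤ 1) :
    0 ≤ 9/16 - 2*r + 507/256*r^2 - 2197/4096*r^4 := by
  linarith only [sq_nonneg (r-655/1000), mul_nonneg hr (sub_nonneg.2 hr1),
    mul_nonneg (mul_nonneg hr (sub_nonneg.2 hr1)) (sq_nonneg (r-2/3)),
    mul_nonneg (mul_nonneg hr (sub_nonneg.2 hr1)) (sq_nonneg r),
    mul_nonneg (sub_nonneg.2 hr1) (sq_nonneg (r-2/3)), sq_nonneg (r - 2/3), hr, hr1]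

/-- square root data for a channel -/
theorem exists_r {x s : ℝ} (hx : 0 ≤ x) (hx1 : x < 1) (hs : s^2 ≤ x^3) :
    ∃ r : ℝ, 0 ≤ r ∧ r < 1 ∧ x = r^2 ∧ s ≤ r^3 ∧ -r^3 ≤ s := by
  refine ⟨Real.sqrt x, Real.sqrt_nonneg x, ?_, (Real.sq_sqrt hx).symm, ?_, ?_⟩
  · rw [Real.sqrt_lt' one_pos]; simpa only [one_pow] using hx1
  · have h0 : 0 ≤ (Real.sqrt x)^3 := by positivity
    have h1 : s^2 ≤ ((Real.sqrt x)^3)^2 := by
      calc s^2 ≤ x^3 := hs
        _ = ((Real.sqrt x)^2)^3 := by rw [Real.sq_sqrt hx]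
        _ = ((Real.sqrt x)^3)^2 := by ring
    exact (abs_le_of_sq_le_sq' h1 h0).2
  · have h0 : 0 ≤ (Real.sqrt x)^3 := by positivity
    have h1 : s^2 ≤ ((Real.sqrt x)^3)^2 := by
      calc s^2 ≤ x^3 := hs
        _ = ((Real.sqrt x)^2)^3 := by rw [Real.sq_sqrt hx]
        _ = ((Real.sqrt x)^3)^2 := by ring
    exact (abs_le_of_sq_le_sq' h1 h0).1

/-- lower bound for `e = 1-x-p` -/
theorem e_lower {r s p : ℝ} (hr : 0 ≤ r) (hr1 : r < 1) (hs : s ≤ r^3)
    (hP : p^3 = 1 - 3*r^2 + 2*s) : -(3/16)*r^2 ≤ 1 - r^2 - p := by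
  have hk := K3 r hr hr1.le
  have h1 : p^3 ≤ (1 - 13/16*r^2)^3 := by
    have : (1 - 13/16*r^2)^3 - (1 - 3*r^2 + 2*r^3) = r^2 * (9/16 - 2*r + 507/256*r^2 - 2197/4096*r^4) := by ring
    have h2 : 0 ≤ r^2 * (9/16 - 2*r + 507/256*r^2 - 2197/4096*r^4) := by (clear * - hk; positivity)
    linarith only [hs, hP, h2]
  have h3 : p ≤ 1 - 13/16*r^2 := by
    by_contra hcon
    push Not at hcon
    have h4 : 0 < 1 - 13/16*r^2 := by nlinarith only [hr, hr1]
    have := pow_lt_pow_left₀ hcon h4.le (n := 3) (by norm_num)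
    linarith only [h1, this]
  linarith only [h3]

theorem beta_le {t v q : ℝ} (ht : 0 ≤ t) (hv : -t^3 ≤ v) (hq : 0 ≤ q)
    (hQ : q^3 = 1 - 3*t^2 + 2*v) : 1 - t^2 - q^3 ≤ 3*t^2 := by
  rcases le_total t (1/2) with h | h
  · linarith only [mul_nonneg (mul_nonneg ht ht) (sub_nonneg.2 h), ht, hv, hQ, h]
  · have : 0 ≤ q^3 := by positivity
    nlinarith only [ht, h, this]

/-- The case of opposite signs, with `E` the quotient `(1-r^2)(1-t^2)/(1-r^2 t^2)`. -/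
theorem case2 {r s p t v q E : ℝ} (hr : 0 ≤ r) (hr1 : r < 1) (hs : s ≤ r^3) 
    (hP : p^3 = 1 - 3*r^2 + 2*s) (ht : 0 ≤ t) (ht1 : t < 1) (hv' : -t^3 ≤ v)
    (hq : 0 ≤ q) (hQ : q^3 = 1 - 3*t^2 + 2*v) (hf : 0 ≤ 1 - t^2 - q)
    (hE : E * (1-r^2*t^2) = (1-r^2)*(1-t^2)) :
    9*(r^2*t^2)*E ≤ 3*((1-r^2-p)*(1-t^2-q)) + 2*((1-r^2-p^3)*(1-t^2-q^3)) + 4*(r^2*t^2) := by
  have he := e_lower hr hr1 hs hP
  have hb3 := beta_le ht hv' hq hQ
  have ht2 : t^2 ≤ 1 := by linarith only [hq, hf]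
  have ht20 : 0 ≤ t^2 := by positivity
  have hr2 : r^2 < 1 := by nlinarith only [hr, hr1]
  have hr20 : 0 ≤ r^2 := by positivity
  have hD : 0 < 1 - r^2*t^2 := by nlinarith only [hq, hf, hr2]
  have hq1 : q ≤ 1 := by linarith only [hf, ht20]
  have hqq : q^3 ≤ q := by
    have : q^3 ≤ q^1 := pow_le_pow_of_le_one hq hq1 (by norm_num)
    simpa using this
  have hfb : 1 - t^2 - q ≤ 1 - t^2 - q^3 := by linarith only [hqq]
  have hb0 : 0 ≤ 1 - t^2 - q^3 := by linarith only [hf, hqq]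
  have hblow : t^2*(1-t^2)*(2-t^2) ≤ 1 - t^2 - q^3 := by
    have h := pow_le_pow_left₀ hq (show q ≤ 1 - t^2 by linarith only [hf]) 3
    have h' : (1 - t^2) - (1-t^2)^3 = t^2*(1-t^2)*(2-t^2) := by ring
    linarith only [h]
  have ha : 2*r^2*(1-r) ≤ 1 - r^2 - p^3 := by rw [hP]; linarith only [hs]
  obtain ⟨β, hβ⟩ : ∃ β, β = 1 - t^2 - q^3 := ⟨_, rfl⟩
  obtain ⟨α, hα⟩ : ∃ α, α = 1 - r^2 - p^3 := ⟨_, rfl⟩
  obtain ⟨e, hee⟩ : ∃ e, e = 1 - r^2 - p := ⟨_, rfl⟩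
  obtain ⟨f, hff⟩ : ∃ f, f = 1 - t^2 - q := ⟨_, rfl⟩
  rw [← hβ] at hfb hb0 hblow hb3
  rw [← hα] at ha
  rw [← hee] at he
  rw [← hff] at hf hfb
  rw [← hβ, ← hα, ← hee, ← hff]
  have h31 : -(3/16)*r^2*f ≤ e*f := mul_le_mul_of_nonneg_right he hf
  have h32 : r^2*f ≤ r^2*β := mul_le_mul_of_nonneg_left hfb hr20
  have h4 : 2*r^2*(1-r)*β ≤ α*β := mul_le_mul_of_nonneg_right ha hb0
  have hgoal : 9*t^2*E ≤ β*(55/16-4*r) + 4*t^2 := by
    rcases le_total r (55/64) with h | h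
    · have k2 := K2 r (t^2) hr h ht20 ht2
      have h5 : t^2*(1-t^2)*(2-t^2)*(55/16-4*r) ≤ β*(55/16-4*r) :=
        mul_le_mul_of_nonneg_right hblow (by linarith only [h])
      have h6 : 9*E ≤ (1-t^2)*(2-t^2)*(55/16-4*r)+4 := by
        by_contra hcon
        push Not at hcon
        have := mul_lt_mul_of_pos_right hcon hD
        linarith only [this, hE, k2]
      have h7 := mul_le_mul_of_nonneg_left h6 ht20
      linarith only [h5, h7]
    · have h5 : 3*t^2*(55/16-4*r) ≤ β*(55/16-4*r) :=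
        mul_le_mul_of_nonpos_right hb3 (by linarith only [h])
      have h6 : E ≤ 1 - r^2 := by
        by_contra hcon
        push Not at hcon
        have h8 := mul_lt_mul_of_pos_right hcon hD
        have h9 : 0 ≤ (1-r^2)*t^2*(1-r^2) := by
          have : 0 ≤ 1 - r^2 := by linarith only [hr2]
          (clear * - hr2; positivity)
        linarith only [h8, hE, h9]
      have h7 : 9*(1-r^2) ≤ 3*(55/16-4*r) + 4 := by linarith only [sq_nonneg (r-2/3), hr1, h]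
      have h10 := mul_le_mul_of_nonneg_left h6 ht20
      have h11 := mul_le_mul_of_nonneg_left h7 ht20
      linarith only [h5, h10, h11]
  have h12 := mul_le_mul_of_nonneg_left hgoal hr20
  linarith only [h31, h32, h4, h12]

/-- The case of equal signs. -/
theorem case1 {r s p t v q E : ℝ} (hr : 0 ≤ r) (hr1 : r < 1) (hs : s ≤ r^3) 
    (hP : p^3 = 1 - 3*r^2 + 2*s) (ht : 0 ≤ t) (ht1 : t < 1) (hv : v ≤ t^3)
    (hQ : q^3 = 1 - 3*t^2 + 2*v) (hef : 0 ≤ (1-r^2-p)*(1-t^2-q))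
    (hE : E * (1-r^2*t^2) = (1-r^2)*(1-t^2)) :
    9*(r^2*t^2)*E ≤ 3*((1-r^2-p)*(1-t^2-q)) + 2*((1-r^2-p^3)*(1-t^2-q^3)) + 4*(r^2*t^2) := by
  have ht2 : t^2 ≤ 1 := by nlinarith only [ht, ht1]
  have ht20 : 0 ≤ t^2 := by positivity
  have hr2 : r^2 < 1 := by nlinarith only [hr, hr1]
  have hr20 : 0 ≤ r^2 := by positivity
  have hD : 0 < 1 - r^2*t^2 := by nlinarith only [ht2, hr2]
  have hr3 : 0 ≤ 1 - r := by linarith
  have ht3 : 0 ≤ 1 - t := by linarith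
  have ha : 2*r^2*(1-r) ≤ 1 - r^2 - p^3 := by rw [hP]; linarith only [hs]
  have hb : 2*t^2*(1-t) ≤ 1 - t^2 - q^3 := by rw [hQ]; linarith only [hv]
  have ha0 : 0 ≤ 2*r^2*(1-r) := by (clear * - hr1; positivity)
  have hb0 : 0 ≤ 2*t^2*(1-t) := by (clear * - ht1; positivity)
  have hab : (2*r^2*(1-r))*(2*t^2*(1-t)) ≤ (1-r^2-p^3)*(1-t^2-q^3) :=
    mul_le_mul ha hb hb0 (ha0.trans ha)
  have k1 := K1 r t hr hr1.le ht ht1.le
  have h6 : 9*E ≤ 8*(1-r)*(1-t)+4 := by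
    by_contra hcon
    push Not at hcon
    have := mul_lt_mul_of_pos_right hcon hD
    linarith only [this, hE, k1]
  have h7 := mul_le_mul_of_nonneg_left h6 (mul_nonneg hr20 ht20)
  linarith only [hef, hab, h7]

/-- Core inequality of the class closure lemma. -/
theorem coreA {x s p y v q E : ℝ} (hx : 0 ≤ x) (hx1 : x < 1) (hs : s^2 ≤ x^3) (hp : 0 ≤ p)
    (hP : p^3 = 1 - 3*x + 2*s) (hy : 0 ≤ y) (hy1 : y < 1) (hv : v^2 ≤ y^3) (hq : 0 ≤ q)
    (hQ : q^3 = 1 - 3*y + 2*v) (hE : E * (1-x*y) = (1-x)*(1-y)) :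
    (4 - 9*(1-x) + 3*p + 2*p^3)*(1-y) + (4 - 9*(1-y) + 3*q + 2*q^3)*(1-x)
      ≤ 4 - 9*E + 3*(p*q) + 2*(p^3*q^3) := by
  obtain ⟨r, hr, hr1, rfl, hs1, hs2⟩ := exists_r hx hx1 hs
  obtain ⟨t, ht, ht1, rfl, hv1, hv2⟩ := exists_r hy hy1 hv
  have key : 9*(r^2*t^2)*E ≤ 3*((1-r^2-p)*(1-t^2-q)) + 2*((1-r^2-p^3)*(1-t^2-q^3)) + 4*(r^2*t^2) := by
    rcases le_total 0 (1-r^2-p) with he | he <;> rcases le_total 0 (1-t^2-q) with hf | hf
    · exact case1 hr hr1 hs1 hP ht ht1 hv1 hQ (mul_nonneg he hf) hE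
    · have := case2 (E := E) ht ht1 hv1 hQ hr hr1 hs2 hp hP he (by linarith only [hE])
      linarith
    · exact case2 hr hr1 hs1 hP ht ht1 hv2 hq hQ hf hE
    · exact case1 hr hr1 hs1 hP ht ht1 hv1 hQ (mul_nonneg_of_nonpos_of_nonpos he hf) hE
  linarith only [key, hE]

end Vale.Agent.P154.Q3
end

section

namespace Vale.Agent.P154.Q3

/-- `8 (x + y - K)`, with `K` the polynomial upper bound for the chi-square of the product. -/
noncomputable def U8 (x s y v : ℝ) : ℝ :=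
  7*x*y + 16*(y*s+x*v) - 15*(x+y)*x*y + 3*x^2*y^2 - 15*(x^2*v+y^2*s) - 10*s*v + 9*s*v*(x+y)
    - 36*x*y*s*v + 27*x*y*(y*s+x*v)

/-- `X^2` times the linear upper bound of the class function -/
noncomputable def zeta (x s : ℝ) : ℝ := 2*s*(1+2*(1-x)^2) - x^2*(3-x)

noncomputable def FF (x s y v : ℝ) : ℝ :=
  (1-x)^2*(1-y)^2*(U8 x s y v/8 - x*y/40)
    - 13/144*(zeta x s*(1-y)^2*(2*(y-v)) + zeta y v*(1-x)^2*(2*(x-s)))
    - 1/48*zeta x s*zeta y v

def Adm (x s : ℝ) : Prop :=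
  (∃ r : ℝ, -1/2 ≤ r ∧ r ≤ 1 ∧ x = r^2 ∧ s = r^3) ∨ (1/4 ≤ x ∧ x ≤ 1 ∧ s = (3*x-1)/2)

theorem FF_RR (r t : ℝ) :
    FF (r^2) (r^3) (t^2) (t^3) = r^2*t^2*(1-r)^2*(1-t)^2*GRR r t := by
  unfold FF U8 zeta GRR; ring

theorem FF_ER (x t : ℝ) :
    FF x ((3*x-1)/2) (t^2) (t^3) = t^2*(1-x)^2*(1-t)^2*GER x t := by
  unfold FF U8 zeta GER; ring

theorem FF_EE (x y : ℝ) :
    FF x ((3*x-1)/2) y ((3*y-1)/2) = (1-x)^2*(1-y)^2*GEE x y := by
  unfold FF U8 zeta GEE; ring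

theorem FF_symm (x s y v : ℝ) : FF x s y v = FF y v x s := by
  unfold FF U8; ring

theorem FF_corner {x s y v : ℝ} (ha : Adm x s) (hb : Adm y v) : 0 ≤ FF x s y v := by
  rcases ha with ⟨r, h1, h2, rfl, rfl⟩ | ⟨h1, h2, rfl⟩ <;>
    rcases hb with ⟨t, h3, h4, rfl, rfl⟩ | ⟨h3, h4, rfl⟩
  · rw [FF_RR]
    have := GRR_nonneg r t h1 h2 h3 h4
    (clear * - this; positivity)
  · rw [FF_symm, FF_ER]
    have := GER_nonneg y r h3 h4 h1 h2
    (clear * - this; positivity)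
  · rw [FF_ER]
    have := GER_nonneg x t h1 h2 h3 h4
    (clear * - this; positivity)
  · rw [FF_EE]
    have := GEE_nonneg x y h1 h2 h3 h4
    positivity

theorem affine_nonneg {A B s s0 s1 : ℝ} (h0 : 0 ≤ A + B*s0) (h1 : 0 ≤ A + B*s1)
    (hs0 : s0 ≤ s) (hs1 : s ≤ s1) : 0 ≤ A + B*s := by
  rcases le_total 0 B with h | h
  · linarith [mul_le_mul_of_nonneg_left hs0 h]
  · linarith only [mul_le_mul_of_nonpos_left hs1 h, h1, hs1, h]

theorem FF_affine (x s y v : ℝ) : FF x s y v = FF x 0 y v + (FF x 1 y v - FF x 0 y v)*s := by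
  unfold FF U8 zeta; ring

theorem FF_affine' (x s y v : ℝ) : FF x s y v = FF x s y 0 + (FF x s y 1 - FF x s y 0)*v := by
  unfold FF U8 zeta; ring

theorem adm_bounds {x s p : ℝ} (hx : 0 ≤ x) (hx1 : x < 1) (hs : s^2 ≤ x^3) (hp : 0 ≤ p)
    (hP : p^3 = 1 - 3*x + 2*s) : ∃ s0 s1, s0 ≤ s ∧ s ≤ s1 ∧ Adm x s0 ∧ Adm x s1 := by
  obtain ⟨r, hr, hr1, rfl, hs1, hs2⟩ := exists_r hx hx1 hs
  have h3 : Adm (r^2) (r^3) := Or.inl ⟨r, by linarith, hr1.le, rfl, rfl⟩
  rcases le_total r (1/2) with h | h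
  · exact ⟨-r^3, r^3, hs2, hs1, Or.inl ⟨-r, by linarith, by linarith, by ring, by ring⟩, h3⟩
  · refine ⟨(3*r^2-1)/2, r^3, ?_, hs1, Or.inr ⟨by nlinarith only [hr, h], by linarith only [hx1], rfl⟩, h3⟩
    have : 0 ≤ p^3 := by positivity
    linarith only [hP, this]

theorem FF_nonneg {x s p y v q : ℝ} (hx : 0 ≤ x) (hx1 : x < 1) (hs : s^2 ≤ x^3) (hp : 0 ≤ p)
    (hP : p^3 = 1 - 3*x + 2*s) (hy : 0 ≤ y) (hy1 : y < 1) (hv : v^2 ≤ y^3) (hq : 0 ≤ q)
    (hQ : q^3 = 1 - 3*y + 2*v) : 0 ≤ FF x s y v := by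
  obtain ⟨s0, s1, hs0, hs1, ha0, ha1⟩ := adm_bounds hx hx1 hs hp hP
  obtain ⟨v0, v1, hv0, hv1, hb0, hb1⟩ := adm_bounds hy hy1 hv hq hQ
  have key : ∀ s', Adm x s' → 0 ≤ FF x s' y v := by
    intro s' hs'
    rw [FF_affine']
    refine affine_nonneg ?_ ?_ hv0 hv1
    · rw [← FF_affine']; exact FF_corner hs' hb0
    · rw [← FF_affine']; exact FF_corner hs' hb1
  rw [FF_affine]
  refine affine_nonneg ?_ ?_ hs0 hs1
  · rw [← FF_affine]; exact key _ ha0
  · rw [← FF_affine]; exact key _ ha1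

theorem cube_le {X p : ℝ} (hX : 0 ≤ X) (hp : 0 ≤ p) : 3*X^2*p ≤ p^3 + 2*X^3 := by
  linarith only [mul_nonneg (sq_nonneg (p - X)) (by linarith : (0:ℝ) ≤ p + 2*X), hX, hp]

/-- monotonicity bracket -/
theorem bracket {y v q : ℝ} (hy : 0 ≤ y) (hy1 : y < 1) (hv : v^2 ≤ y^3) (hq : 0 ≤ q)
    (hQ : q^3 = 1 - 3*y + 2*v) :
    0 ≤ 13*(1-y-q^3) + 3*(4 - 9*(1-y) + 3*q + 2*q^3) := by
  obtain ⟨t, ht, ht1, rfl, hv1, hv2⟩ := exists_r hy hy1 hv
  have hq1 : q ≤ 1 := by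
    by_contra hcon
    push Not at hcon
    have := pow_lt_pow_left₀ hcon (by norm_num) (n := 3) (by norm_num)
    nlinarith only [ht1, hQ, hv1, this]
  have hqq : q^3 ≤ q := by
    have : q^3 ≤ q^1 := pow_le_pow_of_le_one hq hq1 (by norm_num)
    simpa using this
  linarith only [mul_nonneg (mul_nonneg ht ht) (sub_nonneg.2 ht1.le), ht, ht1, hy, hQ, hv2, hqq]

/-- Core inequality of the subadditivity lemma. -/
theorem coreB {x s p y v q : ℝ} (hx : 0 ≤ x) (hx1 : x < 1) (hs : s^2 ≤ x^3) (hp : 0 ≤ p)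
    (hP : p^3 = 1 - 3*x + 2*s) (hy : 0 ≤ y) (hy1 : y < 1) (hv : v^2 ≤ y^3) (hq : 0 ≤ q)
    (hQ : q^3 = 1 - 3*y + 2*v) :
    (13/144*(1-x-p^3) + 1/96*(4 - 9*(1-x) + 3*p + 2*p^3))*(4 - 9*(1-y) + 3*q + 2*q^3)
      + (13/144*(1-y-q^3) + 1/96*(4 - 9*(1-y) + 3*q + 2*q^3))*(4 - 9*(1-x) + 3*p + 2*p^3)
      + 1/40*(x*y) ≤ U8 x s y v/8 := by
  have hF := FF_nonneg hx hx1 hs hp hP hy hy1 hv hq hQ
  have hbx := bracket hx hx1 hs hp hP
  have hby := bracket hy hy1 hv hq hQ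
  have hX : 0 < 1 - x := by linarith only [hx1]
  have hY : 0 < 1 - y := by linarith
  have hcx := cube_le hX.le hp
  have hcy := cube_le hY.le hq
  obtain ⟨A, hA⟩ : ∃ A, A = 4 - 9*(1-x) + 3*p + 2*p^3 := ⟨_, rfl⟩
  obtain ⟨B, hB⟩ : ∃ B, B = 4 - 9*(1-y) + 3*q + 2*q^3 := ⟨_, rfl⟩
  rw [← hA] at hbx ⊢
  rw [← hB] at hby ⊢
  have hA1 : (1-x)^2*A ≤ zeta x s := by
    rw [hA]; unfold zeta
    have : 2*s = p^3 - 1 + 3*x := by linarith only [hP]
    rw [this]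
    linarith only [hcx]
  have hB1 : (1-y)^2*B ≤ zeta y v := by
    rw [hB]; unfold zeta
    have : 2*v = q^3 - 1 + 3*y := by linarith only [hQ]
    rw [this]
    linarith only [hcy]
  have hα : 1 - x - p^3 = 2*(x-s) := by linarith only [hP]
  have hβ : 1 - y - q^3 = 2*(y-v) := by linarith only [hQ]
  rw [hα] at hbx ⊢
  rw [hβ] at hby ⊢
  obtain ⟨a, ha⟩ : ∃ a, a = 2*(x-s) := ⟨_, rfl⟩
  obtain ⟨b, hb⟩ : ∃ b, b = 2*(y-v) := ⟨_, rfl⟩
  unfold FF at hF
  rw [← ha] at hbx hF ⊢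
  rw [← hb] at hby hF ⊢
  obtain ⟨z1, hz1⟩ : ∃ z, z = zeta x s := ⟨_, rfl⟩
  obtain ⟨z2, hz2⟩ : ∃ z, z = zeta y v := ⟨_, rfl⟩
  obtain ⟨W, hW⟩ : ∃ z, z = U8 x s y v := ⟨_, rfl⟩
  rw [← hz1] at hA1 hF
  rw [← hz2] at hB1 hF
  rw [← hW] at hF ⊢
  obtain ⟨X, hX'⟩ : ∃ z, z = 1 - x := ⟨_, rfl⟩
  obtain ⟨Y, hY'⟩ : ∃ z, z = 1 - y := ⟨_, rfl⟩
  rw [← hX'] at hA1 hF hX
  rw [← hY'] at hB1 hF hY
  have hX2 : 0 < X^2 := by positivity
  have hY2 : 0 < Y^2 := by positivity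
  -- monotonicity
  have h1 : 0 ≤ (z1 - X^2*A)*(Y^2*(13*b+3*B)) :=
    mul_nonneg (by linarith only [hA1]) (mul_nonneg hY2.le hby)
  have h2 : 0 ≤ 13*X^2*a + 3*z1 := by linarith only [mul_nonneg hX2.le hbx, hbx, hA1, hX2]
  have h3 : 0 ≤ (z2 - Y^2*B)*(13*X^2*a+3*z1) := mul_nonneg (by linarith only [hB1]) h2
  have h4 : X^2*Y^2*((13/144*a + 1/96*A)*B + (13/144*b+1/96*B)*A + 1/40*(x*y)) ≤ X^2*Y^2*(W/8) := by
    linarith
  exact le_of_mul_le_mul_left h4 (by (clear * - hX hY; positivity))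

end Vale.Agent.P154.Q3
end

section

namespace Vale.Agent.P154.Q3

/-- sum over the permutations of three coordinates -/
theorem sum_perm3 (g : (Fin 3 → ℝ) → ℝ) (w : Fin 3 → ℝ) :
    ∑ τ : Equiv.Perm (Fin 3), g (fun i => w (τ i)) =
      g ![w 0, w 1, w 2] + g ![w 1, w 2, w 0] + g ![w 2, w 0, w 1]
      + g ![w 0, w 2, w 1] + g ![w 2, w 1, w 0] + g ![w 1, w 0, w 2] := by
  have huniv : (Finset.univ : Finset (Equiv.Perm (Fin 3))) =
      {1, Equiv.swap 0 1 * Equiv.swap 1 2, Equiv.swap 1 2 * Equiv.swap 0 1,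
        Equiv.swap 1 2, Equiv.swap 0 2, Equiv.swap 0 1} := by decide
  have e1 : (fun i => w ((1 : Equiv.Perm (Fin 3)) i)) = ![w 0, w 1, w 2] := by
    funext i; fin_cases i <;> rfl
  have e2 : (fun i => w ((Equiv.swap 0 1 * Equiv.swap 1 2 : Equiv.Perm (Fin 3)) i)) = ![w 1, w 2, w 0] := by
    funext i; fin_cases i <;> rfl
  have e3 : (fun i => w ((Equiv.swap 1 2 * Equiv.swap 0 1 : Equiv.Perm (Fin 3)) i)) = ![w 2, w 0, w 1] := by
    funext i; fin_cases i <;> rfl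
  have e4 : (fun i => w ((Equiv.swap 1 2 : Equiv.Perm (Fin 3)) i)) = ![w 0, w 2, w 1] := by
    funext i; fin_cases i <;> rfl
  have e5 : (fun i => w ((Equiv.swap 0 2 : Equiv.Perm (Fin 3)) i)) = ![w 2, w 1, w 0] := by
    funext i; fin_cases i <;> rfl
  have e6 : (fun i => w ((Equiv.swap 0 1 : Equiv.Perm (Fin 3)) i)) = ![w 1, w 0, w 2] := by
    funext i; fin_cases i <;> rfl
  rw [huniv, Finset.sum_insert (by decide), Finset.sum_insert (by decide),
    Finset.sum_insert (by decide), Finset.sum_insert (by decide), Finset.sum_insert (by decide),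
    Finset.sum_singleton, e1, e2, e3, e4, e5, e6]
  ring

/-- class function, homogeneous of degree one -/
noncomputable def fx (f0 f1 f2 : ℝ) : ℝ :=
  4*((f0+f1+f2)/3) - 3*((f0*f1+f1*f2+f2*f0)/((f0+f1+f2)/3)) + 3*(f0*f1*f2)^((1:ℝ)/3)
    + 2*(f0*f1*f2/((f0+f1+f2)/3)^2)

/-- the normalised second moment, homogeneous of degree one -/
noncomputable def ch (f0 f1 f2 : ℝ) : ℝ :=
  (f0+f1+f2)/3 - (f0*f1+f1*f2+f2*f0)/(3*((f0+f1+f2)/3))

theorem cbrt_pow {z : ℝ} (hz : 0 ≤ z) : (z^((1:ℝ)/3))^3 = z := by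
  rw [← Real.rpow_natCast, ← Real.rpow_mul hz]; norm_num

theorem cbrt_mul {y z : ℝ} (hy : 0 ≤ y) (hz : 0 ≤ z) :
    (y*z)^((1:ℝ)/3) = y^((1:ℝ)/3)*z^((1:ℝ)/3) := Real.mul_rpow hy hz

theorem cbrt_cube {z : ℝ} (hz : 0 ≤ z) : (z^3)^((1:ℝ)/3) = z := by
  rw [← Real.rpow_natCast, ← Real.rpow_mul hz]; norm_num

theorem fx_smul {c f0 f1 f2 : ℝ} (hc : 0 < c) (h0 : 0 ≤ f0) (h1 : 0 ≤ f1) (h2 : 0 ≤ f2)
    (hs : 0 < f0 + f1 + f2) : fx (c*f0) (c*f1) (c*f2) = c * fx f0 f1 f2 := by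
  unfold fx
  have e : (c*f0*(c*f1)*(c*f2))^((1:ℝ)/3) = c*(f0*f1*f2)^((1:ℝ)/3) := by
    have : c*f0*(c*f1)*(c*f2) = c^3*(f0*f1*f2) := by ring
    rw [this, cbrt_mul (by positivity) (by positivity), cbrt_cube hc.le]
  rw [e]
  have : c*f0+c*f1+c*f2 = c*(f0+f1+f2) := by ring
  rw [this]
  (clear * - hc hs; field_simp)

theorem ch_smul {c f0 f1 f2 : ℝ} (hc : 0 < c) (hs : 0 < f0 + f1 + f2) :
    ch (c*f0) (c*f1) (c*f2) = c * ch f0 f1 f2 := by
  unfold ch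
  have : c*f0+c*f1+c*f2 = c*(f0+f1+f2) := by ring
  rw [this]
  field_simp

/-- data of a normalised likelihood vector -/
theorem chan {a0 a1 a2 : ℝ} (h0 : 0 ≤ a0) (h1 : 0 ≤ a1) (h2 : 0 ≤ a2) (hs : a0+a1+a2 = 3) :
    ∃ x s p : ℝ, x = 1 - (a0*a1+a1*a2+a2*a0)/3 ∧ s = (a0*a1*a2 - 1 + 3*x)/2 ∧
      p = (a0*a1*a2)^((1:ℝ)/3) ∧ p^3 = a0*a1*a2 ∧
      0 ≤ x ∧ x ≤ 1 ∧ s^2 ≤ x^3 ∧ 0 ≤ p ∧ p^3 = 1 - 3*x + 2*s ∧ p^3 ≤ (1-x)^2 := by
  have hP : 0 ≤ a0*a1*a2 := by positivity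
  have h3 : a2 = 3 - a0 - a1 := by linarith only [hs]
  refine ⟨_, _, _, rfl, rfl, rfl, cbrt_pow hP, ?_, ?_, ?_, ?_, ?_, ?_⟩
  · subst h3; nlinarith only [sq_nonneg (a0-1), sq_nonneg (a1-1), sq_nonneg (a0+a1-2)]
  · have : 0 ≤ a0*a1+a1*a2+a2*a0 := by (clear * - h0 h1 h2; positivity)
    linarith only [this]
  · have key : (1 - (a0*a1+a1*a2+a2*a0)/3)^3 - ((a0*a1*a2 - 1 + 3*(1 - (a0*a1+a1*a2+a2*a0)/3))/2)^2
        = 1/108*((a0-a1)*(a1-a2)*(a2-a0))^2 := by subst h3; ring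
    have := sq_nonneg ((a0-a1)*(a1-a2)*(a2-a0))
    linarith
  · positivity
  · rw [cbrt_pow hP]; ring
  · rw [cbrt_pow hP]
    have : (1 - (1 - (a0*a1+a1*a2+a2*a0)/3))^2 - a0*a1*a2 = ((a0*a1+a1*a2+a2*a0)^2 - 3*(a0+a1+a2)*(a0*a1*a2))/9 := by
      rw [hs]; ring
    nlinarith only [sq_nonneg (a0*a1-a1*a2), sq_nonneg (a1*a2-a2*a0), sq_nonneg (a2*a0-a0*a1), this]

end Vale.Agent.P154.Q3
end

section

namespace Vale.Agent.P154.Q3

/-- residual polynomial of the edge lemma -/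
noncomputable def qq2 (u l : ℝ) : ℝ :=
  (24) + (-6)*l + (-44)*u + (11)*u*l + (30)*u^2 + (-12)*u*l^2 + (-9)*u^3 + (7)*u*l^3
    + (24)*u^2*l^2 + (-6)*u^3*l + (1)*u^4 + (-1)*u*l^4 + (-18)*u^2*l^3 + (-15)*u^3*l^2 + (2)*u^4*l
    + (3)*u^2*l^4 + (15)*u^3*l^3 + (3)*u^4*l^2 + (-3)*u^3*l^4 + (-4)*u^4*l^3 + (1)*u^4*l^4

theorem qq2_nonneg {u l : ℝ} (hu : 0 ≤ u) (hu1 : u ≤ 1) (hl : 0 ≤ l) (hl1 : l ≤ 1) : 0 ≤ qq2 u l := by
  obtain ⟨w, hw⟩ : ∃ w, w = 1 - u := ⟨_, rfl⟩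
  obtain ⟨z, hz⟩ : ∃ z, z = 1 - l := ⟨_, rfl⟩
  have hw0 : 0 ≤ w := by linarith
  have hz0 : 0 ≤ z := by linarith
  have e : qq2 u l = (24)*w^4*z^4 + (90)*w^4*l^1*z^3 + (126)*w^4*l^2*z^2 + (78)*w^4*l^3*z^1 + (18)*w^4*l^4
    + (52)*u^1*w^3*z^4 + (195)*u^1*w^3*l^1*z^3 + (261)*u^1*w^3*l^2*z^2 + (152)*u^1*w^3*l^3*z^1
    + (33)*u^1*w^3*l^4 + (42)*u^2*w^2*z^4 + (165)*u^2*w^2*l^1*z^3 + (231)*u^2*w^2*l^2*z^2
    + (138)*u^2*w^2*l^3*z^1 + (30)*u^2*w^2*l^4 + (15)*u^3*w^1*z^4 + (63)*u^3*w^1*l^1*z^3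
    + (96)*u^3*w^1*l^2*z^2 + (63)*u^3*w^1*l^3*z^1 + (15)*u^3*w^1*l^4 + (2)*u^4*z^4
    + (9)*u^4*l^1*z^3 + (15)*u^4*l^2*z^2 + (11)*u^4*l^3*z^1 + (3)*u^4*l^4 := by
    rw [hw, hz]; unfold qq2; ring
  rw [e]; (clear * - hu hl hw0 hz0; positivity)

/-- Newton and AM-GM -/
theorem edge_newton {x p : ℝ} (hx1 : x ≤ 1) (hp : 0 ≤ p) (hN : p^3 ≤ (1-x)^2) :
    2*p^2 ≤ (1-x)*(1+p) := by
  by_contra hcon
  push Not at hcon
  have h2 : ((1-x)*(1+p))^2 < (2*p^2)^2 := by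
    apply pow_lt_pow_left₀ hcon _ (by norm_num)
    apply mul_nonneg <;> linarith
  have h3 : p^3*(1+p)^2 ≤ (1-x)^2*(1+p)^2 := by
    apply mul_le_mul_of_nonneg_right hN (by positivity)
  have h4 : 0 ≤ p^3*(1-p)^2 := by positivity
  nlinarith only [h2, h3, h4]

theorem edge_mono {y z k : ℝ} (hz0 : 0 ≤ z) (hzy : z ≤ y) (hy1 : y ≤ 1) (hk : 0 ≤ k) (hk1 : k ≤ 1) :
    z^2*(3-k*z) ≤ y^2*(3-k*y) := by
  have hy0 : 0 ≤ y := by linarith only [hz0, hzy]
  have hz1 : z ≤ 1 := by linarith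
  have h2 : y^2+y*z+z^2 ≤ 3*(y+z) := by
    have a1 : y^2 ≤ y := by nlinarith only [hz0, hzy, hy1]
    have a2 : z^2 ≤ z := by nlinarith only [hz0, hzy, hy1]
    have a3 : y*z ≤ z := by nlinarith only [hz0, hy1]
    linarith
  have h3 : 0 ≤ y^2+y*z+z^2 := by positivity
  have h4 := mul_le_mul_of_nonneg_right hk1 h3
  have h1 : 0 ≤ 3*(y+z) - k*(y^2+y*z+z^2) := by linarith
  have h5 := mul_nonneg (sub_nonneg.2 hzy) h1
  have h6 : (y-z)*(3*(y+z) - k*(y^2+y*z+z^2)) = y^2*(3-k*y) - z^2*(3-k*z) := by ring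
  linarith only [h5]

theorem edge_fin {u l D y : ℝ} (hu0 : 0 ≤ u) (hu1 : u ≤ 1) (hl : 0 ≤ l) (hl1 : l ≤ 1)
    (hD : D = 3 - 2*u - l*(1-u)) (hyw : y*(2-u) = u*D) : l*(y^2*(3-l^2*y)) ≤ u^2*(3-u) := by
  have hq := qq2_nonneg hu0 hu1 hl hl1
  have hw : 0 < 2 - u := by linarith
  have hw3 : 0 < (2-u)^3 := by positivity
  have e1 : l*(y^2*(3-l^2*y))*(2-u)^3 = l*(u*D)^2*(3*(2-u)-l^2*(u*D)) := by
    rw [← hyw]; ring
  have e2 : u^2*(3-u)*(2-u)^3 - l*(u*D)^2*(3*(2-u)-l^2*(u*D)) = u^2*((1-l)^2*qq2 u l) := by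
    rw [hD]; unfold qq2; ring
  have e3 : 0 ≤ u^2*((1-l)^2*qq2 u l) := by (clear * - hq; positivity)
  have : l*(y^2*(3-l^2*y))*(2-u)^3 ≤ u^2*(3-u)*(2-u)^3 := by rw [e1]; linarith
  exact le_of_mul_le_mul_right this hw3

theorem edge_core {x s p p' l : ℝ} (hx : 0 ≤ x) (hx1 : x ≤ 1) (hp : 0 ≤ p)
    (hP : p^3 = 1 - 3*x + 2*s) (hN : p^3 ≤ (1-x)^2) (hp' : 0 ≤ p')
    (hP' : p'^3 = 1 - 3*(l^2*x) + 2*(l^3*s)) (hl : 0 ≤ l) (hl1 : l < 1) :
    l^3*(4 - 9*(1-x) + 3*p + 2*p^3) ≤ 4 - 9*(1-l^2*x) + 3*p' + 2*p'^3 := by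
  obtain ⟨u, hu⟩ : ∃ u, u = 1 - p := ⟨_, rfl⟩
  have hp1 : p ≤ 1 := by
    by_contra hcon
    push Not at hcon
    have := pow_lt_pow_left₀ hcon (by norm_num) (n := 3) (by norm_num)
    nlinarith only [hx, hx1, hN, this]
  have hu0 : 0 ≤ u := by linarith only [hu, hp1]
  have hu1 : u ≤ 1 := by linarith
  have hpu : p = 1 - u := by linarith only [hu]
  have hl' : 0 ≤ 1 - l := by linarith only [hl1]
  have hu' : 0 ≤ 1 - u := by linarith only [hp, hu]
  have hxu : x*(2-u) ≤ u*(3-2*u) := by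
    have h1 := edge_newton hx1 hp hN
    rw [hpu] at h1
    linarith only [h1]
  obtain ⟨z, hz⟩ : ∃ z, z = l*u + (1-l)*x := ⟨_, rfl⟩
  have hz0 : 0 ≤ z := by
    have a1 := mul_nonneg hl hu0
    have a2 := mul_nonneg hl' hx
    linarith only [hz, a1, a2]
  have hw : 0 < 2 - u := by linarith only [hp, hu]
  obtain ⟨D, hD⟩ : ∃ D, D = 3 - 2*u - l*(1-u) := ⟨_, rfl⟩
  have hzD : z*(2-u) ≤ u*D := by
    rw [hz, hD]
    linarith only [mul_le_mul_of_nonneg_left hxu hl', hl', hxu]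
  have hD0 : 0 ≤ D := by
    have a1 := mul_nonneg hl' hu'
    linarith only [hp, hu, hD, a1]
  obtain ⟨y, hy⟩ : ∃ y, y = u*D/(2-u) := ⟨_, rfl⟩
  have hyw : y*(2-u) = u*D := by rw [hy]; (clear * - hw; field_simp)
  have hy0 : 0 ≤ y := by rw [hy]; (clear * - hu0 hw hD0; positivity)
  have hzy : z ≤ y := by rw [hy, le_div_iff₀ hw]; exact hzD
  have hy1 : y ≤ 1 := by
    rw [hy, div_le_one hw, hD]
    have a1 := mul_nonneg (mul_nonneg hu0 hl) hu'
    have a2 := sq_nonneg (1-u)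
    linarith only [a1, a2]
  have hl2 : l^2 ≤ 1 := by nlinarith only [hl, hl1]
  have hl20 : 0 ≤ l^2 := by (clear * -; positivity)
  have hmono := edge_mono hz0 hzy hy1 hl20 hl2
  have hfin := edge_fin hu0 hu1 hl hl1.le hD hyw
  have hL : 1 - l^2*z ≤ p' := by
    by_contra hcon
    push Not at hcon
    have h1 := pow_lt_pow_left₀ hcon hp' (n := 3) (by norm_num)
    have h2 : p'^3 - (1-l^2*z)^3 = l^3*(u^2*(3-u) - l*(z^2*(3-l^2*z))) := by
      rw [hP', hz]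
      have : 2*s = (1-u)^3 - 1 + 3*x := by rw [← hpu]; linarith only [hP]
      linear_combination l^3*this
    have h3 : 0 ≤ l^3*(u^2*(3-u) - l*(z^2*(3-l^2*z))) := by
      apply mul_nonneg (by (clear * - hl; positivity))
      linarith only [mul_le_mul_of_nonneg_left hmono hl, hl, hmono, hfin]
    linarith only [h1, h2, h3]
  rw [hz] at hL
  have : 2*s = (1-u)^3 - 1 + 3*x := by rw [← hpu]; linarith only [hP]
  rw [hP', hpu]
  have e : 4 - 9*(1-l^2*x) + 3*p' + 2*(1 - 3*(l^2*x) + 2*(l^3*s))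
      - l^3*(4 - 9*(1-x) + 3*(1-u) + 2*(1-u)^3) = 3*(p' - (1 - l^2*(l*u+(1-l)*x))) := by
    linear_combination 2*l^3*this
  linarith only [hL, e]

end Vale.Agent.P154.Q3
end

section

namespace Vale.Agent.P154.Q3

/-- the quadratic form bound used for one permutation -/
noncomputable def QQ (x y X Y D F0 F1 F2 a0 a1 a2 b0 b1 b2 : ℝ) : ℝ :=
  (F0+F1+F2)/3 - (Y*((F0*(a0-1)+F1*(a1-1)+F2*(a2-1))/3) + X*((F0*(b0-1)+F1*(b1-1)+F2*(b2-1))/3))/D
    + (Y^2*x*((F0+F1+F2)/3) + X^2*y*((F0+F1+F2)/3) + X*Y*((F0+F1+F2)/3*((F0+F1+F2)/3-1)))/D^2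

theorem e2_div_le {F0 F1 F2 h0 h1 h2 : ℝ} (hF : 0 < F0+F1+F2) (hh : h0+h1+h2 = 0) :
    (F0*F1+F1*F2+F2*F0)/((F0+F1+F2)/3) ≤ 3*((F0+F1+F2)/3 - (F0*h0+F1*h1+F2*h2)/3
      + (F0+F1+F2)/3*((h0^2+h1^2+h2^2)/6)) := by
  obtain ⟨Z, hZ⟩ : ∃ Z, Z = (F0+F1+F2)/3 := ⟨_, rfl⟩
  have hZ0 : 0 < Z := by rw [hZ]; linarith only [hF]
  rw [← hZ, div_le_iff₀ hZ0]
  have k2 : F2 = 3*Z - F0 - F1 := by linarith only [hZ]
  have k3 : h2 = -h0-h1 := by linarith only [hh]
  rw [k2, k3]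
  nlinarith only [sq_nonneg (F0 - Z - Z*h0), sq_nonneg (F1 - Z - Z*h1),
    sq_nonneg (3*Z-F0-F1 - Z - Z*(-h0-h1))]

theorem fx_low {a0 a1 a2 b0 b1 b2 x y X Y D p q : ℝ} (ha0 : 0 < a0) (ha1 : 0 < a1) (ha2 : 0 < a2)
    (hb0 : 0 < b0) (hb1 : 0 < b1) (hb2 : 0 < b2) (hsa : a0+a1+a2 = 3) (hsb : b0+b1+b2 = 3)
    (hx : x = 1 - (a0*a1+a1*a2+a2*a0)/3) (hy : y = 1 - (b0*b1+b1*b2+b2*b0)/3) (hD : D ≠ 0)
    (hp : p = (a0*a1*a2)^((1:ℝ)/3)) (hq : q = (b0*b1*b2)^((1:ℝ)/3)) :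
    4*((a0*b0+a1*b1+a2*b2)/3) - 9*QQ x y X Y D (a0*b0) (a1*b1) (a2*b2) a0 a1 a2 b0 b1 b2
      + 3*(p*q) + 2*(a0*a1*a2*(b0*b1*b2)*(3 - 2*((a0*b0+a1*b1+a2*b2)/3)))
      ≤ fx (a0*b0) (a1*b1) (a2*b2) := by
  have hF : 0 < a0*b0+a1*b1+a2*b2 := by positivity
  have hZ0 : 0 < (a0*b0+a1*b1+a2*b2)/3 := by linarith only [hF]
  unfold fx
  have hc : (a0*b0*(a1*b1)*(a2*b2))^((1:ℝ)/3) = p*q := by
    rw [hp, hq, ← cbrt_mul (by positivity) (by positivity)]
    congr 1; ring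
  rw [hc]
  have h1 := e2_div_le (h0 := (Y*(a0-1)+X*(b0-1))/D) (h1 := (Y*(a1-1)+X*(b1-1))/D)
    (h2 := (Y*(a2-1)+X*(b2-1))/D) hF (by
      field_simp
      have ea : a2 = 3 - a0 - a1 := by linarith only [hsa]
      have eb : b2 = 3 - b0 - b1 := by linarith only [hsb]
      subst ea eb; ring)
  have h2 : (a0*b0+a1*b1+a2*b2)/3 - (a0*b0*((Y*(a0-1)+X*(b0-1))/D)+a1*b1*((Y*(a1-1)+X*(b1-1))/D)
      +a2*b2*((Y*(a2-1)+X*(b2-1))/D))/3
      + (a0*b0+a1*b1+a2*b2)/3*((((Y*(a0-1)+X*(b0-1))/D)^2+((Y*(a1-1)+X*(b1-1))/D)^2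
      +((Y*(a2-1)+X*(b2-1))/D)^2)/6) = QQ x y X Y D (a0*b0) (a1*b1) (a2*b2) a0 a1 a2 b0 b1 b2 := by
    unfold QQ
    have ea : a2 = 3 - a0 - a1 := by linarith only [hsa]
    have eb : b2 = 3 - b0 - b1 := by linarith only [hsb]
    subst hx hy ea eb
    field_simp
    ring
  rw [h2] at h1
  have h3 : 3 - 2*((a0*b0+a1*b1+a2*b2)/3) ≤ 1/((a0*b0+a1*b1+a2*b2)/3)^2 := by
    rw [le_div_iff₀ (by positivity)]
    obtain ⟨Z, hZ⟩ : ∃ Z, Z = (a0*b0+a1*b1+a2*b2)/3 := ⟨_, rfl⟩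
    rw [← hZ] at hZ0 ⊢
    nlinarith only [mul_nonneg (sq_nonneg (1-Z)) (by linarith : (0:ℝ) ≤ 1 + 2*Z), hZ0]
  have hPQ : 0 ≤ a0*a1*a2*(b0*b1*b2) := by positivity
  have h4 := mul_le_mul_of_nonneg_left h3 hPQ
  have h5 : a0*b0*(a1*b1)*(a2*b2)/((a0*b0+a1*b1+a2*b2)/3)^2
      = a0*a1*a2*(b0*b1*b2)*(1/((a0*b0+a1*b1+a2*b2)/3)^2) := by ring
  rw [h5]
  linarith only [h1, h4]

theorem sum_Z (a0 a1 a2 b0 b1 b2 : ℝ) (hsa : a0+a1+a2 = 3) (hsb : b0+b1+b2 = 3) :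
    (a0*b0+a1*b1+a2*b2)/3 + (a0*b1+a1*b2+a2*b0)/3 + (a0*b2+a1*b0+a2*b1)/3
    + (a0*b0+a1*b2+a2*b1)/3 + (a0*b2+a1*b1+a2*b0)/3 + (a0*b1+a1*b0+a2*b2)/3 = 6 := by
  have ea : a2 = 3 - a0 - a1 := by linarith
  have eb : b2 = 3 - b0 - b1 := by linarith
  subst ea eb; ring

theorem sum_QQ {a0 a1 a2 b0 b1 b2 x y D : ℝ} (hsa : a0+a1+a2 = 3) (hsb : b0+b1+b2 = 3)
    (hx : x = 1 - (a0*a1+a1*a2+a2*a0)/3) (hy : y = 1 - (b0*b1+b1*b2+b2*b0)/3)
    (hD : D ≠ 0) (hDD : D = 1 - x*y) :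
    QQ x y (1-x) (1-y) D (a0*b0) (a1*b1) (a2*b2) a0 a1 a2 b0 b1 b2
    + QQ x y (1-x) (1-y) D (a0*b1) (a1*b2) (a2*b0) a0 a1 a2 b1 b2 b0
    + QQ x y (1-x) (1-y) D (a0*b2) (a1*b0) (a2*b1) a0 a1 a2 b2 b0 b1
    + QQ x y (1-x) (1-y) D (a0*b0) (a1*b2) (a2*b1) a0 a1 a2 b0 b2 b1
    + QQ x y (1-x) (1-y) D (a0*b2) (a1*b1) (a2*b0) a0 a1 a2 b2 b1 b0
    + QQ x y (1-x) (1-y) D (a0*b1) (a1*b0) (a2*b2) a0 a1 a2 b1 b0 b2
      = 6*((1-x)*(1-y)/D) := by
  have hZ := sum_Z a0 a1 a2 b0 b1 b2 hsa hsb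
  have ea : a2 = 3 - a0 - a1 := by linarith only [hsa]
  have eb : b2 = 3 - b0 - b1 := by linarith only [hsb]
  have hA : (a0*b0*(a0-1)+a1*b1*(a1-1)+a2*b2*(a2-1))/3 + (a0*b1*(a0-1)+a1*b2*(a1-1)+a2*b0*(a2-1))/3
      + (a0*b2*(a0-1)+a1*b0*(a1-1)+a2*b1*(a2-1))/3 + (a0*b0*(a0-1)+a1*b2*(a1-1)+a2*b1*(a2-1))/3
      + (a0*b2*(a0-1)+a1*b1*(a1-1)+a2*b0*(a2-1))/3 + (a0*b1*(a0-1)+a1*b0*(a1-1)+a2*b2*(a2-1))/3
      = 12*x := by subst hx ea eb; ring
  have hB : (a0*b0*(b0-1)+a1*b1*(b1-1)+a2*b2*(b2-1))/3 + (a0*b1*(b1-1)+a1*b2*(b2-1)+a2*b0*(b0-1))/3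
      + (a0*b2*(b2-1)+a1*b0*(b0-1)+a2*b1*(b1-1))/3 + (a0*b0*(b0-1)+a1*b2*(b2-1)+a2*b1*(b1-1))/3
      + (a0*b2*(b2-1)+a1*b1*(b1-1)+a2*b0*(b0-1))/3 + (a0*b1*(b1-1)+a1*b0*(b0-1)+a2*b2*(b2-1))/3
      = 12*y := by subst hy ea eb; ring
  have hC : (a0*b0+a1*b1+a2*b2)/3*((a0*b0+a1*b1+a2*b2)/3-1) + (a0*b1+a1*b2+a2*b0)/3*((a0*b1+a1*b2+a2*b0)/3-1)
      + (a0*b2+a1*b0+a2*b1)/3*((a0*b2+a1*b0+a2*b1)/3-1) + (a0*b0+a1*b2+a2*b1)/3*((a0*b0+a1*b2+a2*b1)/3-1)
      + (a0*b2+a1*b1+a2*b0)/3*((a0*b2+a1*b1+a2*b0)/3-1) + (a0*b1+a1*b0+a2*b2)/3*((a0*b1+a1*b0+a2*b2)/3-1)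
      = 12*x*y := by subst hx hy ea eb; ring
  unfold QQ
  have key : (6:ℝ) - ((1-y)*(12*x) + (1-x)*(12*y))/D + ((1-y)^2*x*6+(1-x)^2*y*6+(1-x)*(1-y)*(12*x*y))/D^2
      = 6*((1-x)*(1-y)/D) := by
    field_simp
    rw [hDD]
    ring
  linear_combination (1 + ((1-y)^2*x+(1-x)^2*y)/D^2)*hZ - ((1-y)/D)*hA - ((1-x)/D)*hB
    + ((1-x)*(1-y)/D^2)*hC + key

end Vale.Agent.P154.Q3
end

section

namespace Vale.Agent.P154.Q3

theorem fx_norm {a0 a1 a2 x p : ℝ} (hs : a0+a1+a2 = 3) (hx : x = 1 - (a0*a1+a1*a2+a2*a0)/3)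
    (hp : p = (a0*a1*a2)^((1:ℝ)/3)) (hp3 : p^3 = a0*a1*a2) :
    fx a0 a1 a2 = 4 - 9*(1-x) + 3*p + 2*p^3 := by
  unfold fx
  rw [← hp, ← hp3, hs, hx]
  ring

theorem edge_norm {a0 a1 a2 l : ℝ} (h0 : 0 ≤ a0) (h1 : 0 ≤ a1) (h2 : 0 ≤ a2) (hs : a0+a1+a2 = 3)
    (hl : 0 ≤ l) (hl1 : l < 1) :
    l^3 * fx a0 a1 a2 ≤ fx (l*a0+(1-l)) (l*a1+(1-l)) (l*a2+(1-l)) := by
  have hl' : 0 ≤ 1 - l := by linarith
  obtain ⟨x, s, p, hx, hsd, hp, hp3, hx0, hx1, hsx, hp0, hP, hN⟩ := chan h0 h1 h2 hs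
  have hs' : (l*a0+(1-l)) + (l*a1+(1-l)) + (l*a2+(1-l)) = 3 := by linear_combination l*hs
  obtain ⟨x', s', p', hx', hsd', hp', hp3', hx0', hx1', hsx', hp0', hP', hN'⟩ :=
    chan (a0 := l*a0+(1-l)) (a1 := l*a1+(1-l)) (a2 := l*a2+(1-l)) (by (clear * - h0 hl hl1; positivity)) (by (clear * - h1 hl hl1; positivity))
      (by positivity) hs'
  have ea : a2 = 3 - a0 - a1 := by linarith only [hs]
  have e1 : x' = l^2*x := by rw [hx', hx, ea]; ring
  have e2 : s' = l^3*s := by rw [hsd', hsd, hx', hx, ea]; ring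
  rw [fx_norm hs hx hp hp3, fx_norm hs' hx' hp' hp3', e1]
  rw [e1, e2] at hP'
  exact edge_core hx0 hx1 hp0 hP hN hp0' hP' hl hl1

theorem pairX_norm {a0 a1 a2 b0 b1 b2 : ℝ} (ha0 : 0 < a0) (ha1 : 0 < a1) (ha2 : 0 < a2)
    (hb0 : 0 < b0) (hb1 : 0 < b1) (hb2 : 0 < b2) (hsa : a0+a1+a2 = 3) (hsb : b0+b1+b2 = 3) :
    (a0*a1+a1*a2+a2*a0)/3 * fx b0 b1 b2 + (b0*b1+b1*b2+b2*b0)/3 * fx a0 a1 a2 ≤
      (fx (a0*b0) (a1*b1) (a2*b2) + fx (a0*b1) (a1*b2) (a2*b0) + fx (a0*b2) (a1*b0) (a2*b1)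
      + fx (a0*b0) (a1*b2) (a2*b1) + fx (a0*b2) (a1*b1) (a2*b0) + fx (a0*b1) (a1*b0) (a2*b2))/6 := by
  obtain ⟨x, s, p, hx, hsd, hp, hp3, hx0, hx1, hsx, hp0, hP, hN⟩ := chan ha0.le ha1.le ha2.le hsa
  obtain ⟨y, v, q, hy, hvd, hq, hq3, hy0, hy1, hvy, hq0, hQ, hM⟩ := chan hb0.le hb1.le hb2.le hsb
  have hx1' : x < 1 := by
    have : 0 < a0*a1+a1*a2+a2*a0 := by positivity
    linarith only [hx, this]
  have hy1' : y < 1 := by
    have : 0 < b0*b1+b1*b2+b2*b0 := by positivity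
    linarith only [hy, this]
  have hxy : x*y < 1 := by nlinarith only [hx0, hy1, hx1']
  obtain ⟨D, hD⟩ : ∃ D, D = 1 - x*y := ⟨_, rfl⟩
  have hD0 : D ≠ 0 := by rw [hD]; linarith only [hxy]
  have eX : (a0*a1+a1*a2+a2*a0)/3 = 1 - x := by rw [hx]; ring
  have eY : (b0*b1+b1*b2+b2*b0)/3 = 1 - y := by rw [hy]; ring
  rw [eX, eY, fx_norm hsa hx hp hp3, fx_norm hsb hy hq hq3]
  have l1 := fx_low (X := 1-x) (Y := 1-y) ha0 ha1 ha2 hb0 hb1 hb2 hsa hsb hx hy hD0 hp hq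
  have l2 := fx_low (X := 1-x) (Y := 1-y) (y := y) (q := q) ha0 ha1 ha2 hb1 hb2 hb0 hsa
    (by linarith only [hsb]) hx (by rw [hy]; ring) hD0 hp (by rw [hq]; congr 1; ring)
  have l3 := fx_low (X := 1-x) (Y := 1-y) (y := y) (q := q) ha0 ha1 ha2 hb2 hb0 hb1 hsa
    (by linarith only [hsb]) hx (by rw [hy]; ring) hD0 hp (by rw [hq]; congr 1; ring)
  have l4 := fx_low (X := 1-x) (Y := 1-y) (y := y) (q := q) ha0 ha1 ha2 hb0 hb2 hb1 hsa
    (by linarith only [hsb]) hx (by rw [hy]; ring) hD0 hp (by rw [hq]; congr 1; ring)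
  have l5 := fx_low (X := 1-x) (Y := 1-y) (y := y) (q := q) ha0 ha1 ha2 hb2 hb1 hb0 hsa
    (by linarith only [hsb]) hx (by rw [hy]; ring) hD0 hp (by rw [hq]; congr 1; ring)
  have l6 := fx_low (X := 1-x) (Y := 1-y) (y := y) (q := q) ha0 ha1 ha2 hb1 hb0 hb2 hsa
    (by linarith only [hsb]) hx (by rw [hy]; ring) hD0 hp (by rw [hq]; congr 1; ring)
  have hQQ := sum_QQ hsa hsb hx hy hD0 hD
  have hZ := sum_Z a0 a1 a2 b0 b1 b2 hsa hsb
  have c1 : b0*b1*b2 = q^3 := hq3.symm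
  have c2 : b1*b2*b0 = q^3 := by rw [hq3]; ring
  have c3 : b2*b0*b1 = q^3 := by rw [hq3]; ring
  have c4 : b0*b2*b1 = q^3 := by rw [hq3]; ring
  have c5 : b2*b1*b0 = q^3 := by rw [hq3]; ring
  have c6 : b1*b0*b2 = q^3 := by rw [hq3]; ring
  rw [← hp3, c1] at l1
  rw [← hp3, c2] at l2
  rw [← hp3, c3] at l3
  rw [← hp3, c4] at l4
  rw [← hp3, c5] at l5
  rw [← hp3, c6] at l6
  obtain ⟨E, hE⟩ : ∃ E, E = (1-x)*(1-y)/D := ⟨_, rfl⟩
  have hE' : E * (1-x*y) = (1-x)*(1-y) := by rw [hE, ← hD]; (clear * - hD0; field_simp)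
  have hcore := coreA hx0 hx1' hsx hp0 hP hy0 hy1' hvy hq0 hQ hE'
  rw [← hE] at hQQ
  generalize QQ x y (1-x) (1-y) D (a0*b0) (a1*b1) (a2*b2) a0 a1 a2 b0 b1 b2 = q1 at *
  generalize QQ x y (1-x) (1-y) D (a0*b1) (a1*b2) (a2*b0) a0 a1 a2 b1 b2 b0 = q2 at *
  generalize QQ x y (1-x) (1-y) D (a0*b2) (a1*b0) (a2*b1) a0 a1 a2 b2 b0 b1 = q3 at *
  generalize QQ x y (1-x) (1-y) D (a0*b0) (a1*b2) (a2*b1) a0 a1 a2 b0 b2 b1 = q4 at *
  generalize QQ x y (1-x) (1-y) D (a0*b2) (a1*b1) (a2*b0) a0 a1 a2 b2 b1 b0 = q5 at *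
  generalize QQ x y (1-x) (1-y) D (a0*b1) (a1*b0) (a2*b2) a0 a1 a2 b1 b0 b2 = q6 at *
  generalize fx (a0*b0) (a1*b1) (a2*b2) = f1 at *
  generalize fx (a0*b1) (a1*b2) (a2*b0) = f2 at *
  generalize fx (a0*b2) (a1*b0) (a2*b1) = f3 at *
  generalize fx (a0*b0) (a1*b2) (a2*b1) = f4 at *
  generalize fx (a0*b2) (a1*b1) (a2*b0) = f5 at *
  generalize fx (a0*b1) (a1*b0) (a2*b2) = f6 at *
  generalize (a0*b0+a1*b1+a2*b2)/3 = z1 at *
  generalize (a0*b1+a1*b2+a2*b0)/3 = z2 at *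
  generalize (a0*b2+a1*b0+a2*b1)/3 = z3 at *
  generalize (a0*b0+a1*b2+a2*b1)/3 = z4 at *
  generalize (a0*b2+a1*b1+a2*b0)/3 = z5 at *
  generalize (a0*b1+a1*b0+a2*b2)/3 = z6 at *
  have hsum : 4*(z1+z2+z3+z4+z5+z6) - 9*(q1+q2+q3+q4+q5+q6) + 18*(p*q)
      + 2*(p^3*q^3)*(18 - 2*(z1+z2+z3+z4+z5+z6)) ≤ f1+f2+f3+f4+f5+f6 := by
    have := add_le_add (add_le_add (add_le_add l1 l2) (add_le_add l3 l4)) (add_le_add l5 l6)
    refine le_trans (le_of_eq ?_) (this.trans (le_of_eq ?_)) <;> ring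
  rw [hZ, hQQ] at hsum
  linarith only [hcore, hsum]

/-- quadratic lower bound for the Rayleigh quotient -/
noncomputable def lowA (f0 f1 f2 : ℝ) : ℝ :=
  (f0*f1+f1*f2+f2*f0)/3 * (2*(7/4-3/4*((f0+f1+f2)/3)) - (7/4-3/4*((f0+f1+f2)/3))^2*((f0+f1+f2)/3))

theorem avg_low (a0 a1 a2 b0 b1 b2 : ℝ) (ha : a2 = 3 - a0 - a1) (hb : b2 = 3 - b0 - b1)
    (x s y v : ℝ) (hx : x = 1 - (a0*a1+a1*a2+a2*a0)/3) (hs : s = (a0*a1*a2 - 1 + 3*x)/2)
    (hy : y = 1 - (b0*b1+b1*b2+b2*b0)/3) (hv : v = (b0*b1*b2 - 1 + 3*y)/2) :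
    (lowA (a0*b0) (a1*b1) (a2*b2) + lowA (a0*b1) (a1*b2) (a2*b0) + lowA (a0*b2) (a1*b0) (a2*b1)
    + lowA (a0*b0) (a1*b2) (a2*b1) + lowA (a0*b2) (a1*b1) (a2*b0) + lowA (a0*b1) (a1*b0) (a2*b2))/6
     = 1 - x - y + U8 x s y v / 8 := by
  obtain ⟨α, hα⟩ : ∃ α, α = a0 - 1 := ⟨_, rfl⟩
  obtain ⟨α', hα'⟩ : ∃ α', α' = a1 - 1 := ⟨_, rfl⟩
  obtain ⟨β, hβ⟩ : ∃ β, β = b0 - 1 := ⟨_, rfl⟩
  obtain ⟨β', hβ'⟩ : ∃ β', β' = b1 - 1 := ⟨_, rfl⟩
  obtain rfl : a0 = 1 + α := by rw [hα]; ring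
  obtain rfl : a1 = 1 + α' := by rw [hα']; ring
  obtain rfl : b0 = 1 + β := by rw [hβ]; ring
  obtain rfl : b1 = 1 + β' := by rw [hβ']; ring
  have ha2 : a2 = 1 - α - α' := by rw [ha]; ring
  have hb2 : b2 = 1 - β - β' := by rw [hb]; ring
  have hx2 : x = (α^2+α*α'+α'^2)/3 := by rw [hx, ha2]; ring
  have hy2 : y = (β^2+β*β'+β'^2)/3 := by rw [hy, hb2]; ring
  have hs2 : s = -(α*α'*(α+α'))/2 := by rw [hs, hx2, ha2]; ring
  have hv2 : v = -(β*β'*(β+β'))/2 := by rw [hv, hy2, hb2]; ring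
  rw [ha2, hb2, hx2, hy2, hs2, hv2]
  unfold lowA U8
  ring

theorem ch_up {f0 f1 f2 : ℝ} (h0 : 0 < f0) (h1 : 0 < f1) (h2 : 0 < f2) :
    ch f0 f1 f2 ≤ (f0+f1+f2)/3 - lowA f0 f1 f2 := by
  unfold ch lowA
  obtain ⟨Z, hZ⟩ : ∃ Z, Z = (f0+f1+f2)/3 := ⟨_, rfl⟩
  obtain ⟨e, he⟩ : ∃ e, e = f0*f1+f1*f2+f2*f0 := ⟨_, rfl⟩
  have hZ0 : 0 < Z := by rw [hZ]; positivity
  have he0 : 0 < e := by rw [he]; positivity
  rw [← hZ, ← he]
  have h3 : 2*(7/4-3/4*Z) - (7/4-3/4*Z)^2*Z ≤ 1/Z := by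
    rw [le_div_iff₀ hZ0]
    linarith [sq_nonneg (1 - (7/4-3/4*Z)*Z)]
  have h4 := mul_le_mul_of_nonneg_left h3 (by positivity : 0 ≤ e/3)
  have h5 : e/(3*Z) = e/3*(1/Z) := by field_simp
  rw [h5]
  linarith only [h4]

theorem pairA_norm {a0 a1 a2 b0 b1 b2 : ℝ} (ha0 : 0 < a0) (ha1 : 0 < a1) (ha2 : 0 < a2)
    (hb0 : 0 < b0) (hb1 : 0 < b1) (hb2 : 0 < b2) (hsa : a0+a1+a2 = 3) (hsb : b0+b1+b2 = 3) :
    (ch (a0*b0) (a1*b1) (a2*b2) + ch (a0*b1) (a1*b2) (a2*b0) + ch (a0*b2) (a1*b0) (a2*b1)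
      + ch (a0*b0) (a1*b2) (a2*b1) + ch (a0*b2) (a1*b1) (a2*b0) + ch (a0*b1) (a1*b0) (a2*b2))/6
    + 13/144*((a0*a1+a1*a2+a2*a0)/3 - a0*a1*a2) * fx b0 b1 b2
    + 13/144*((b0*b1+b1*b2+b2*b0)/3 - b0*b1*b2) * fx a0 a1 a2
    + 1/48*(fx a0 a1 a2 * fx b0 b1 b2)
    + 1/80*(ch a0 a1 a2 * ch b0 b1 b2^2 + ch a0 a1 a2^2 * ch b0 b1 b2)
      ≤ ch a0 a1 a2 + ch b0 b1 b2 := by
  obtain ⟨x, s, p, hx, hsd, hp, hp3, hx0, hx1, hsx, hp0, hP, hN⟩ := chan ha0.le ha1.le ha2.le hsa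
  obtain ⟨y, v, q, hy, hvd, hq, hq3, hy0, hy1, hvy, hq0, hQ, hM⟩ := chan hb0.le hb1.le hb2.le hsb
  have hx1' : x < 1 := by
    have : 0 < a0*a1+a1*a2+a2*a0 := by positivity
    linarith only [hx, this]
  have hy1' : y < 1 := by
    have : 0 < b0*b1+b1*b2+b2*b0 := by positivity
    linarith only [hy, this]
  have eX : (a0*a1+a1*a2+a2*a0)/3 = 1 - x := by rw [hx]; ring
  have eY : (b0*b1+b1*b2+b2*b0)/3 = 1 - y := by rw [hy]; ring
  have ex : ch a0 a1 a2 = x := by unfold ch; rw [hsa, hx]; ring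
  have ey : ch b0 b1 b2 = y := by unfold ch; rw [hsb, hy]; ring
  rw [eX, eY, ex, ey, fx_norm hsa hx hp hp3, fx_norm hsb hy hq hq3, ← hp3, ← hq3]
  have hcore := coreB hx0 hx1' hsx hp0 hP hy0 hy1' hvy hq0 hQ
  have hlow := avg_low a0 a1 a2 b0 b1 b2 (by linarith only [hsa]) (by linarith only [hsb]) x s y v hx hsd hy hvd
  have hZ := sum_Z a0 a1 a2 b0 b1 b2 hsa hsb
  have l1 := ch_up (mul_pos ha0 hb0) (mul_pos ha1 hb1) (mul_pos ha2 hb2)
  have l2 := ch_up (mul_pos ha0 hb1) (mul_pos ha1 hb2) (mul_pos ha2 hb0)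
  have l3 := ch_up (mul_pos ha0 hb2) (mul_pos ha1 hb0) (mul_pos ha2 hb1)
  have l4 := ch_up (mul_pos ha0 hb0) (mul_pos ha1 hb2) (mul_pos ha2 hb1)
  have l5 := ch_up (mul_pos ha0 hb2) (mul_pos ha1 hb1) (mul_pos ha2 hb0)
  have l6 := ch_up (mul_pos ha0 hb1) (mul_pos ha1 hb0) (mul_pos ha2 hb2)
  have hxy : x*y^2 + x^2*y ≤ 2*(x*y) := by
    have a1 : x*y^2 ≤ x*y := by
      have := mul_le_mul_of_nonneg_left hy1 (mul_nonneg hx0 hy0)
      linarith only [this]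
    have a2 : x^2*y ≤ x*y := by
      have := mul_le_mul_of_nonneg_left hx1 (mul_nonneg hx0 hy0)
      linarith only [this]
    linarith only [a1, a2]
  generalize ch (a0*b0) (a1*b1) (a2*b2) = f1 at *
  generalize ch (a0*b1) (a1*b2) (a2*b0) = f2 at *
  generalize ch (a0*b2) (a1*b0) (a2*b1) = f3 at *
  generalize ch (a0*b0) (a1*b2) (a2*b1) = f4 at *
  generalize ch (a0*b2) (a1*b1) (a2*b0) = f5 at *
  generalize ch (a0*b1) (a1*b0) (a2*b2) = f6 at *
  generalize lowA (a0*b0) (a1*b1) (a2*b2) = g1 at *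
  generalize lowA (a0*b1) (a1*b2) (a2*b0) = g2 at *
  generalize lowA (a0*b2) (a1*b0) (a2*b1) = g3 at *
  generalize lowA (a0*b0) (a1*b2) (a2*b1) = g4 at *
  generalize lowA (a0*b2) (a1*b1) (a2*b0) = g5 at *
  generalize lowA (a0*b1) (a1*b0) (a2*b2) = g6 at *
  generalize (a0*b0+a1*b1+a2*b2)/3 = z1 at *
  generalize (a0*b1+a1*b2+a2*b0)/3 = z2 at *
  generalize (a0*b2+a1*b0+a2*b1)/3 = z3 at *
  generalize (a0*b0+a1*b2+a2*b1)/3 = z4 at *
  generalize (a0*b2+a1*b1+a2*b0)/3 = z5 at *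
  generalize (a0*b1+a1*b0+a2*b2)/3 = z6 at *
  linarith only [hcore, hxy, hlow, l1, l2, l3, l4, l5, l6, hZ]

end Vale.Agent.P154.Q3
end

section

namespace Vale.Agent.P154.Q4

open Finset

variable {A B : Type*} [CommSemiring A] [CommSemiring B]

/-- Symmetrised monomial `∑_σ ∏_i v (σ i) ^ l i`. -/
def PS (l : Fin 4 → ℕ) (v : Fin 4 → A) : A :=
  ∑ σ : Equiv.Perm (Fin 4), ∏ i, v (σ i) ^ l i

lemma PS_perm (l : Fin 4 → ℕ) (v : Fin 4 → A) (τ : Equiv.Perm (Fin 4)) :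
    PS l (fun i => v (τ i)) = PS l v := by
  unfold PS
  exact Fintype.sum_equiv (Equiv.mulLeft τ) _ _ (fun σ => rfl)

lemma sum_PS_mul (l : Fin 4 → ℕ) (v w : Fin 4 → A) :
    ∑ τ : Equiv.Perm (Fin 4), PS l (fun i => v i * w (τ i)) = PS l v * PS l w := by
  unfold PS
  rw [Finset.sum_comm, Finset.sum_mul]
  refine Finset.sum_congr rfl fun σ _ => ?_
  have h : ∀ τ : Equiv.Perm (Fin 4), ∏ i, (v (σ i) * w (τ (σ i))) ^ l i =
      (∏ i, v (σ i) ^ l i) * ∏ i, w ((τ * σ) i) ^ l i := by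
    intro τ
    rw [← Finset.prod_mul_distrib]
    refine Finset.prod_congr rfl fun i _ => ?_
    rw [mul_pow]; rfl
  simp_rw [h]
  rw [← Finset.mul_sum]
  congr 1
  exact Fintype.sum_equiv (Equiv.mulRight σ) _ _ (fun τ => rfl)

lemma PS_smul (l : Fin 4 → ℕ) (t : A) (v : Fin 4 → A) :
    PS l (fun i => t * v i) = t ^ (∑ i, l i) * PS l v := by
  unfold PS
  rw [Finset.mul_sum]
  refine Finset.sum_congr rfl fun σ _ => ?_
  simp_rw [mul_pow]
  rw [Finset.prod_mul_distrib, Finset.prod_pow_eq_pow_sum]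

lemma map_PS (φ : A →+* B) (l : Fin 4 → ℕ) (v : Fin 4 → A) :
    φ (PS l v) = PS l (fun i => φ (v i)) := by
  unfold PS
  simp [map_sum, map_prod, map_pow]

/-- the 24 terms -/
def P24 (a b c d : ℕ) (m : ℕ → ℕ → ℕ → ℕ → A) : A :=
  (m a b c d + m a b d c + m a c b d + m a c d b + m a d b c + m a d c b) +
  (m b a c d + m b a d c + m b c a d + m b c d a + m b d a c + m b d c a) +
  (m c a b d + m c a d b + m c b a d + m c b d a + m c d a b + m c d b a) +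
  (m d a b c + m d a c b + m d b a c + m d b c a + m d c a b + m d c b a)

def permList : List (Fin 4 × Fin 4 × Fin 4 × Fin 4) :=
  [(0,1,2,3),(0,1,3,2),(0,2,1,3),(0,2,3,1),(0,3,1,2),(0,3,2,1),
   (1,0,2,3),(1,0,3,2),(1,2,0,3),(1,2,3,0),(1,3,0,2),(1,3,2,0),
   (2,0,1,3),(2,0,3,1),(2,1,0,3),(2,1,3,0),(2,3,0,1),(2,3,1,0),
   (3,0,1,2),(3,0,2,1),(3,1,0,2),(3,1,2,0),(3,2,0,1),(3,2,1,0)]

lemma univ_perm4 :
    (Finset.univ : Finset (Equiv.Perm (Fin 4))).val.map (fun σ => (σ 0, σ 1, σ 2, σ 3)) =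
      (permList : Multiset (Fin 4 × Fin 4 × Fin 4 × Fin 4)) := by
  decide +kernel

lemma sum_perm4 (F : Fin 4 → Fin 4 → Fin 4 → Fin 4 → A) :
    ∑ σ : Equiv.Perm (Fin 4), F (σ 0) (σ 1) (σ 2) (σ 3) =
      (permList.map fun t => F t.1 t.2.1 t.2.2.1 t.2.2.2).sum := by
  have h := congrArg (fun M : Multiset (Fin 4 × Fin 4 × Fin 4 × Fin 4) =>
    (M.map fun t => F t.1 t.2.1 t.2.2.1 t.2.2.2).sum) univ_perm4
  simp only [Multiset.map_map, Multiset.map_coe, Multiset.sum_coe] at h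
  exact h

lemma PS_explicit (l : Fin 4 → ℕ) (v : Fin 4 → A) :
    PS l v = P24 (l 0) (l 1) (l 2) (l 3)
      (fun i j k m => v 0 ^ i * (v 1 ^ j * (v 2 ^ k * v 3 ^ m))) := by
  have h : PS l v = ∑ σ : Equiv.Perm (Fin 4),
      (fun a b c d => v a ^ l 0 * v b ^ l 1 * v c ^ l 2 * v d ^ l 3) (σ 0) (σ 1) (σ 2) (σ 3) := by
    unfold PS
    refine Finset.sum_congr rfl fun σ _ => ?_
    rw [Fin.prod_univ_four]
  rw [h, sum_perm4 (fun a b c d => v a ^ l 0 * v b ^ l 1 * v c ^ l 2 * v d ^ l 3)]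
  simp only [permList, List.map_cons, List.map_nil, List.sum_cons, List.sum_nil, P24]
  ring

end Vale.Agent.P154.Q4
end

section

namespace Vale.Agent.P154.Q4

open Finset

/-- base `X = 2^(w+1)`, half `h = 2^w` : digitwise comparison by one mask test -/
lemma mask_sound (w : ℕ) : ∀ (n : ℕ) (c d : ℕ → ℕ), (∀ s < n, c s < 2 ^ w) → (∀ s < n, d s < 2 ^ w) →
    (((∑ s ∈ range n, c s * (2 ^ (w + 1)) ^ s) + (∑ s ∈ range n, 2 ^ w * (2 ^ (w + 1)) ^ s)
        - ∑ s ∈ range n, d s * (2 ^ (w + 1)) ^ s) &&& (∑ s ∈ range n, 2 ^ w * (2 ^ (w + 1)) ^ s)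
      = ∑ s ∈ range n, 2 ^ w * (2 ^ (w + 1)) ^ s) → ∀ s < n, d s ≤ c s := by
  intro n
  induction n with
  | zero => intro c d _ _ _ s hs; omega
  | succ n ih =>
    intro c d hc hd hm
    set X := 2 ^ (w + 1) with hX
    have hXpos : 0 < X := by positivity
    have hX2 : X = 2 * 2 ^ w := by rw [hX, pow_succ]; ring
    have ex : ∀ f : ℕ → ℕ, ∑ s ∈ range (n + 1), f s * X ^ s =
        f 0 + X * ∑ s ∈ range n, f (s + 1) * X ^ s := by
      intro f
      rw [Finset.sum_range_succ', Finset.mul_sum]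
      simp only [pow_zero, mul_one, add_comm]
      congr 1
      refine Finset.sum_congr rfl fun s _ => ?_
      rw [pow_succ]; ring
    rw [ex c, ex d, ex (fun _ => 2 ^ w)] at hm
    set P := ∑ s ∈ range n, c (s + 1) * X ^ s with hP
    set M := ∑ s ∈ range n, d (s + 1) * X ^ s with hM
    set H := ∑ s ∈ range n, 2 ^ w * X ^ s with hH
    have hMH : M ≤ H := by
      rw [hM, hH]
      refine Finset.sum_le_sum fun s hs => ?_
      have := hd (s + 1) (by have := Finset.mem_range.1 hs; omega)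
      exact Nat.mul_le_mul_right _ this.le
    have hd0 := hd 0 (by omega)
    have hc0 := hc 0 (by omega)
    have hN : c 0 + X * P + (2 ^ w + X * H) - (d 0 + X * M) =
        (c 0 + 2 ^ w - d 0) + X * (P + H - M) := by
      have h1 : X * M ≤ X * H := Nat.mul_le_mul_left _ hMH
      have h2 : X * (P + H - M) = X * P + X * H - X * M := by
        rw [Nat.mul_sub, Nat.mul_add]
      rw [h2]
      omega
    rw [hN] at hm
    set D0 := c 0 + 2 ^ w - d 0 with hD0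
    set N := P + H - M with hNdef
    have hD0lt : D0 < X := by rw [hX2]; omega
    have hlow : D0 &&& 2 ^ w = 2 ^ w := by
      have := congrArg (fun t => t % 2 ^ (w + 1)) hm
      simp only [Nat.and_mod_two_pow] at this
      rw [← hX] at this
      have e1 : (D0 + X * N) % X = D0 := by
        rw [Nat.add_mul_mod_self_left]; exact Nat.mod_eq_of_lt hD0lt
      have e2 : (2 ^ w + X * H) % X = 2 ^ w := by
        rw [Nat.add_mul_mod_self_left]; exact Nat.mod_eq_of_lt (by rw [hX2]; have : 0 < 2 ^ w := by positivity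
                                                                   omega)
      rwa [e1, e2] at this
    have hhigh : N &&& H = H := by
      have := congrArg (fun t => t / 2 ^ (w + 1)) hm
      simp only [Nat.and_div_two_pow] at this
      rw [← hX] at this
      have e1 : (D0 + X * N) / X = N := by
        rw [Nat.add_mul_div_left _ _ hXpos, Nat.div_eq_of_lt hD0lt, zero_add]
      have e2 : (2 ^ w + X * H) / X = H := by
        rw [Nat.add_mul_div_left _ _ hXpos, Nat.div_eq_of_lt (by rw [hX2]; have : 0 < 2 ^ w := by positivity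
                                                                 omega), zero_add]
      rwa [e1, e2] at this
    have h0 : d 0 ≤ c 0 := by
      have : D0 &&& 2 ^ w ≤ D0 := Nat.and_le_left
      rw [hlow] at this
      omega
    have hrec := ih (fun s => c (s + 1)) (fun s => d (s + 1)) (fun s hs => hc _ (by omega))
      (fun s hs => hd _ (by omega)) hhigh
    intro s hs
    cases s with
    | zero => exact h0
    | succ s => exact hrec s (by omega)

/-- digit extraction -/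
lemma digit_eq (k : ℕ) : ∀ (t n : ℕ) (c : ℕ → ℕ), t < n → (∀ s < n, c s < 2 ^ k) →
    ((∑ s ∈ range n, c s * (2 ^ k) ^ s) >>> (k * t)) % 2 ^ k = c t := by
  intro t
  induction t with
  | zero =>
    intro n c ht hc
    obtain ⟨m, rfl⟩ : ∃ m, n = m + 1 := ⟨n - 1, by omega⟩
    rw [Nat.mul_zero, Nat.shiftRight_zero, Finset.sum_range_succ']
    simp only [pow_zero, mul_one]
    have : ∑ s ∈ range m, c (s + 1) * (2 ^ k) ^ (s + 1) =
        2 ^ k * ∑ s ∈ range m, c (s + 1) * (2 ^ k) ^ s := by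
      rw [Finset.mul_sum]
      refine Finset.sum_congr rfl fun s _ => ?_
      rw [pow_succ]; ring
    rw [this, Nat.mul_add_mod]
    exact Nat.mod_eq_of_lt (hc 0 (by omega))
  | succ t ih =>
    intro n c ht hc
    obtain ⟨m, rfl⟩ : ∃ m, n = m + 1 := ⟨n - 1, by omega⟩
    rw [Finset.sum_range_succ']
    simp only [pow_zero, mul_one]
    have : ∑ s ∈ range m, c (s + 1) * (2 ^ k) ^ (s + 1) =
        2 ^ k * ∑ s ∈ range m, c (s + 1) * (2 ^ k) ^ s := by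
      rw [Finset.mul_sum]
      refine Finset.sum_congr rfl fun s _ => ?_
      rw [pow_succ]; ring
    rw [this, Nat.mul_succ, Nat.add_comm (k * t) k, Nat.shiftRight_add,
      Nat.shiftRight_eq_div_pow _ k, Nat.mul_add_div (by positivity),
      Nat.div_eq_of_lt (hc 0 (by omega)), add_zero]
    exact ih m (fun s => c (s + 1)) (by omega) (fun s hs => hc _ (by omega))

/-- the exponent attached to a slot -/
noncomputable def ex3 (s : ℕ) : Fin 3 →₀ ℕ :=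
  Finsupp.equivFunOnFinite.symm ![s % 11, s / 11 % 11, s / 121]

lemma ex3_apply (s : ℕ) : ex3 s 0 = s % 11 ∧ ex3 s 1 = s / 11 % 11 ∧ ex3 s 2 = s / 121 := by
  refine ⟨rfl, rfl, rfl⟩

open MvPolynomial in
/-- evaluation of a polynomial of total degree at most ten as a sum over slots -/
lemma eval_slots {A : Type*} [CommSemiring A] (p : MvPolynomial (Fin 3) ℕ)
    (hp : p.totalDegree ≤ 10) (x : Fin 3 → A) :
    aeval x p = ∑ s ∈ range 1331, ((coeff (ex3 s) p : ℕ) : A) *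
      (x 0 ^ (s % 11) * x 1 ^ (s / 11 % 11) * x 2 ^ (s / 121)) := by
  have h1 : aeval x p = ∑ e ∈ p.support, ((coeff e p : ℕ) : A) * (x 0 ^ e 0 * x 1 ^ e 1 * x 2 ^ e 2) := by
    rw [aeval_def, eval₂_eq']
    refine Finset.sum_congr rfl fun e _ => ?_
    rw [Fin.prod_univ_three]
    simp
  rw [h1]
  have key : ∀ e ∈ p.support, e 0 ≤ 10 ∧ e 1 ≤ 10 ∧ e 2 ≤ 10 := by
    intro e he
    have h := le_totalDegree he
    have h2 : e 0 + e 1 + e 2 ≤ 10 := by
      have h3 : (e.sum fun _ n => n) = e 0 + e 1 + e 2 := by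
        rw [Finsupp.sum_fintype _ _ (fun _ => rfl), Fin.sum_univ_three]
      omega
    omega
  have inv : ∀ e : Fin 3 →₀ ℕ, e 0 ≤ 10 → e 1 ≤ 10 → e 2 ≤ 10 →
      ex3 (e 0 + 11 * e 1 + 121 * e 2) = e := by
    intro e h0 h1 h2
    ext i
    fin_cases i
    · show (e 0 + 11 * e 1 + 121 * e 2) % 11 = e 0
      omega
    · show (e 0 + 11 * e 1 + 121 * e 2) / 11 % 11 = e 1
      omega
    · show (e 0 + 11 * e 1 + 121 * e 2) / 121 = e 2
      omega
  symm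
  rw [← Finset.sum_filter_of_ne (s := range 1331) (p := fun s => ex3 s ∈ p.support)]
  · refine Finset.sum_nbij' (fun s => ex3 s) (fun e => e 0 + 11 * e 1 + 121 * e 2) ?_ ?_ ?_ ?_ ?_
    · intro s hs; exact (Finset.mem_filter.1 hs).2
    · intro e he
      obtain ⟨h0, h1, h2⟩ := key e he
      refine Finset.mem_filter.2 ⟨Finset.mem_range.2 (by omega), ?_⟩
      show ex3 (e 0 + 11 * e 1 + 121 * e 2) ∈ p.support
      rw [inv e h0 h1 h2]; exact he
    · intro s hs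
      have := Finset.mem_range.1 (Finset.mem_filter.1 hs).1
      show s % 11 + 11 * (s / 11 % 11) + 121 * (s / 121) = s
      omega
    · intro e he
      obtain ⟨h0, h1, h2⟩ := key e he
      exact inv e h0 h1 h2
    · intro s hs
      rfl
  · intro s hs hne
    rw [mem_support_iff]
    intro h0
    apply hne
    rw [h0]; simp

end Vale.Agent.P154.Q4
end
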