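import Mathlib
import Vale.Agent.P154.Bdl.B1

set_option linter.all false

section

namespace Vale.Agent.P154.Q4

open Finset

variable {A B : Type*} [CommSemiring A] [CommSemiring B]

/-- exponent vectors -/
abbrev Lm := ℕ × ℕ × ℕ × ℕ

def toF (l : Lm) : Fin 4 → ℕ := ![l.1, l.2.1, l.2.2.1, l.2.2.2]

def wt (l : Lm) : ℕ := l.1 + l.2.1 + l.2.2.1 + l.2.2.2

/-- sorted vector with smallest entry one -/
def vv (a b c : A) : Fin 4 → A := ![1 + a + b + c, 1 + a + b, 1 + a, 1]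

def sv (a b c : A) : A := 4 + 3 * a + 2 * b + c

def gg (l : Lm) (a b c : A) : A := PS (toF l) (vv a b c) * sv a b c ^ (10 - wt l)

lemma map_vv (φ : A →+* B) (a b c : A) : (fun i => φ (vv a b c i)) = vv (φ a) (φ b) (φ c) := by
  funext i
  fin_cases i <;> simp [vv]

lemma map_gg (φ : A →+* B) (l : Lm) (a b c : A) :
    φ (gg l a b c) = gg l (φ a) (φ b) (φ c) := by
  unfold gg
  rw [map_mul, map_PS, map_vv, map_pow]
  simp [sv, map_ofNat]

open MvPolynomial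

noncomputable def gp (l : Lm) : MvPolynomial (Fin 3) ℕ := gg l (X 0) (X 1) (X 2)

lemma aeval_gp (x : Fin 3 → A) (l : Lm) : aeval x (gp l) = gg l (x 0) (x 1) (x 2) := by
  have := map_gg ((aeval x : MvPolynomial (Fin 3) ℕ →ₐ[ℕ] A) : MvPolynomial (Fin 3) ℕ →+* A) l
    (X 0) (X 1) (X 2)
  simpa [gp] using this

lemma deg_one_le (i : Fin 4) :
    (vv (X 0 : MvPolynomial (Fin 3) ℕ) (X 1) (X 2) i).totalDegree ≤ 1 := by
  have h1 : (1 : MvPolynomial (Fin 3) ℕ).totalDegree ≤ 1 := by simp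
  have hX : ∀ j, (X j : MvPolynomial (Fin 3) ℕ).totalDegree ≤ 1 := by
    intro j; rw [totalDegree_X]
  have hadd : ∀ p q : MvPolynomial (Fin 3) ℕ, p.totalDegree ≤ 1 → q.totalDegree ≤ 1 →
      (p + q).totalDegree ≤ 1 := by
    intro p q hp hq
    exact (totalDegree_add p q).trans (max_le hp hq)
  fin_cases i
  · exact hadd _ _ (hadd _ _ (hadd _ _ h1 (hX 0)) (hX 1)) (hX 2)
  · exact hadd _ _ (hadd _ _ h1 (hX 0)) (hX 1)
  · exact hadd _ _ h1 (hX 0)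
  · exact h1

lemma deg_sv : (sv (X 0 : MvPolynomial (Fin 3) ℕ) (X 1) (X 2)).totalDegree ≤ 1 := by
  have hX : ∀ j, (X j : MvPolynomial (Fin 3) ℕ).totalDegree ≤ 1 := by
    intro j; rw [totalDegree_X]
  have hc : ∀ n : ℕ, ((n : MvPolynomial (Fin 3) ℕ)).totalDegree ≤ 0 := by
    intro n
    have : (n : MvPolynomial (Fin 3) ℕ) = C n := by simp
    rw [this, totalDegree_C]
  have hadd : ∀ p q : MvPolynomial (Fin 3) ℕ, p.totalDegree ≤ 1 → q.totalDegree ≤ 1 →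
      (p + q).totalDegree ≤ 1 := by
    intro p q hp hq
    exact (totalDegree_add p q).trans (max_le hp hq)
  have hmul : ∀ (n : ℕ) (q : MvPolynomial (Fin 3) ℕ), q.totalDegree ≤ 1 →
      ((n : MvPolynomial (Fin 3) ℕ) * q).totalDegree ≤ 1 := by
    intro n q hq
    refine (totalDegree_mul _ _).trans ?_
    have := hc n
    omega
  unfold sv
  refine hadd _ _ (hadd _ _ (hadd _ _ ?_ ?_) ?_) (hX 2)
  · exact (hc 4).trans (by norm_num)
  · exact hmul 3 _ (hX 0)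
  · exact hmul 2 _ (hX 1)

lemma deg_gp (l : Lm) (hl : wt l ≤ 10) : (gp l).totalDegree ≤ 10 := by
  unfold gp gg
  refine (totalDegree_mul _ _).trans ?_
  have h1 : (PS (toF l) (vv (X 0 : MvPolynomial (Fin 3) ℕ) (X 1) (X 2))).totalDegree ≤ wt l := by
    unfold PS
    refine (totalDegree_finsetSum _ _).trans ?_
    refine Finset.sup_le fun σ _ => ?_
    refine (totalDegree_finsetProd _ _).trans ?_
    have : ∀ i ∈ (Finset.univ : Finset (Fin 4)),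
        ((vv (X 0 : MvPolynomial (Fin 3) ℕ) (X 1) (X 2) (σ i)) ^ toF l i).totalDegree ≤ toF l i := by
      intro i _
      refine (totalDegree_pow _ _).trans ?_
      have := deg_one_le (σ i)
      exact (Nat.mul_le_mul_left _ this).trans (by simp)
    refine (Finset.sum_le_sum this).trans ?_
    rw [Fin.sum_univ_four]
    simp [toF, wt]
  have h2 : (sv (X 0 : MvPolynomial (Fin 3) ℕ) (X 1) (X 2) ^ (10 - wt l)).totalDegree ≤
      10 - wt l := by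
    refine (totalDegree_pow _ _).trans ?_
    exact (Nat.mul_le_mul_left _ deg_sv).trans (by simp)
  omega

/-! ### integer vectors as differences of naturals -/

def dotP : List (ℕ × ℕ) → List ℕ → ℕ
  | e :: es, n :: ns => e.1 * n + dotP es ns
  | _, _ => 0

def dotM : List (ℕ × ℕ) → List ℕ → ℕ
  | e :: es, n :: ns => e.2 * n + dotM es ns
  | _, _ => 0

def dP : List (ℕ × ℕ) → List Lm → (Lm → A) → A
  | e :: es, l :: ls, f => (e.1 : A) * f l + dP es ls f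
  | _, _, _ => 0

def dM : List (ℕ × ℕ) → List Lm → (Lm → A) → A
  | e :: es, l :: ls, f => (e.2 : A) * f l + dM es ls f
  | _, _, _ => 0

lemma dotP_map : ∀ (E : List (ℕ × ℕ)) (L : List Lm) (f : Lm → ℕ), dotP E (L.map f) = dP E L f
  | [], _, _ => by simp only [dotP, dP]
  | _ :: _, [], _ => by simp [dotP, dP]
  | e :: es, l :: ls, f => by simp only [List.map_cons, dotP, dotP_map es ls f, dP, Nat.cast_id,
                                Nat.add_left_cancel_iff]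

lemma dotM_map : ∀ (E : List (ℕ × ℕ)) (L : List Lm) (f : Lm → ℕ), dotM E (L.map f) = dM E L f
  | [], _, _ => by simp only [dotM, dM]
  | _ :: _, [], _ => by simp [dotM, dM]
  | e :: es, l :: ls, f => by simp only [List.map_cons, dotM, dotM_map es ls f, dM, Nat.cast_id,
                                Nat.add_left_cancel_iff]

lemma map_dP (φ : A →+* B) : ∀ (E : List (ℕ × ℕ)) (L : List Lm) (f : Lm → A),
    φ (dP E L f) = dP E L (fun l => φ (f l))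
  | [], _, _ => by simp [dP]
  | _ :: _, [], _ => by simp [dP]
  | e :: es, l :: ls, f => by simp only [dP, map_add, map_mul, map_natCast, map_dP φ es ls f]

lemma map_dM (φ : A →+* B) : ∀ (E : List (ℕ × ℕ)) (L : List Lm) (f : Lm → A),
    φ (dM E L f) = dM E L (fun l => φ (f l))
  | [], _, _ => by simp [dM]
  | _ :: _, [], _ => by simp [dM]
  | e :: es, l :: ls, f => by simp only [dM, map_add, map_mul, map_natCast, map_dM φ es ls f]

lemma deg_dP : ∀ (E : List (ℕ × ℕ)) (L : List Lm), (∀ l ∈ L, wt l ≤ 10) →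
    (dP E L gp).totalDegree ≤ 10
  | [], _, _ => by simp [dP]
  | _ :: _, [], _ => by simp [dP]
  | e :: es, l :: ls, h => by
    have h1 := deg_gp l (h l (by simp))
    have h2 := deg_dP es ls (fun x hx => h x (by simp [hx]))
    have h3 : ((e.1 : MvPolynomial (Fin 3) ℕ) * gp l).totalDegree ≤ 10 := by
      refine (totalDegree_mul _ _).trans ?_
      have : (e.1 : MvPolynomial (Fin 3) ℕ) = C e.1 := by simp
      rw [this, totalDegree_C]
      omega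
    exact (totalDegree_add _ _).trans (max_le h3 h2)

lemma deg_dM : ∀ (E : List (ℕ × ℕ)) (L : List Lm), (∀ l ∈ L, wt l ≤ 10) →
    (dM E L gp).totalDegree ≤ 10
  | [], _, _ => by simp [dM]
  | _ :: _, [], _ => by simp [dM]
  | e :: es, l :: ls, h => by
    have h1 := deg_gp l (h l (by simp))
    have h2 := deg_dM es ls (fun x hx => h x (by simp [hx]))
    have h3 : ((e.2 : MvPolynomial (Fin 3) ℕ) * gp l).totalDegree ≤ 10 := by
      refine (totalDegree_mul _ _).trans ?_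
      have : (e.2 : MvPolynomial (Fin 3) ℕ) = C e.2 := by simp
      rw [this, totalDegree_C]
      omega
    exact (totalDegree_add _ _).trans (max_le h3 h2)

/-- Kronecker point -/
def kap : Fin 3 → ℕ := ![2 ^ 120, (2 ^ 120) ^ 11, (2 ^ 120) ^ 121]

lemma slot_mon (X s : ℕ) : X ^ (s % 11) * (X ^ 11) ^ (s / 11 % 11) * (X ^ 121) ^ (s / 121) =
    X ^ s := by
  rw [← pow_mul, ← pow_mul, ← pow_add, ← pow_add]
  congr 1
  omega

lemma kap_mon (s : ℕ) : kap 0 ^ (s % 11) * kap 1 ^ (s / 11 % 11) * kap 2 ^ (s / 121) =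
    (2 ^ 120) ^ s := slot_mon (2 ^ 120) s

lemma eval_kap (p : MvPolynomial (Fin 3) ℕ) (hp : p.totalDegree ≤ 10) :
    aeval kap p = ∑ s ∈ range 1331, coeff (ex3 s) p * (2 ^ 120) ^ s := by
  rw [eval_slots p hp kap]
  refine Finset.sum_congr rfl fun s _ => ?_
  rw [kap_mon]; simp

lemma coeff_le_eval_one (p : MvPolynomial (Fin 3) ℕ) (hp : p.totalDegree ≤ 10) (s : ℕ)
    (hs : s < 1331) : coeff (ex3 s) p ≤ aeval (fun _ => (1 : ℕ)) p := by
  rw [eval_slots p hp]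
  simp only [one_pow, mul_one, Nat.cast_id]
  exact Finset.single_le_sum (f := fun s => coeff (ex3 s) p) (fun _ _ => Nat.zero_le _)
    (Finset.mem_range.2 hs)

/-- the mask with all half digits -/
def HH : ℕ := 2 ^ 119 * (((2 ^ 120) ^ 1331 - 1) / (2 ^ 120 - 1))

lemma HH_eq : HH = ∑ s ∈ range 1331, 2 ^ 119 * (2 ^ 120) ^ s := by
  unfold HH
  rw [← Finset.mul_sum, Nat.geomSum_eq (by norm_num)]

/-- comparison of two packed polynomials -/
def cmp (p m : ℕ) : Bool := Nat.beq (Nat.land (p + HH - m) HH) HH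

lemma cmp_sound (p m : MvPolynomial (Fin 3) ℕ) (hp : p.totalDegree ≤ 10) (hm : m.totalDegree ≤ 10)
    (hp1 : aeval (fun _ => (1 : ℕ)) p < 2 ^ 119) (hm1 : aeval (fun _ => (1 : ℕ)) m < 2 ^ 119)
    (h : cmp (aeval kap p) (aeval kap m) = true) (x : Fin 3 → ℝ) (hx : ∀ i, 0 ≤ x i) :
    aeval x m ≤ aeval x p := by
  have h1 := Nat.eq_of_beq_eq_true h
  rw [HH_eq, eval_kap p hp, eval_kap m hm] at h1
  have h2 := mask_sound 119 1331 (fun s => coeff (ex3 s) p) (fun s => coeff (ex3 s) m)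
    (fun s hs => (coeff_le_eval_one p hp s hs).trans_lt hp1)
    (fun s hs => (coeff_le_eval_one m hm s hs).trans_lt hm1) h1
  rw [eval_slots p hp, eval_slots m hm]
  refine Finset.sum_le_sum fun s hs => ?_
  have h3 : ((coeff (ex3 s) m : ℕ) : ℝ) ≤ ((coeff (ex3 s) p : ℕ) : ℝ) := by
    exact_mod_cast h2 s (Finset.mem_range.1 hs)
  have h4 : 0 ≤ x 0 ^ (s % 11) * x 1 ^ (s / 11 % 11) * x 2 ^ (s / 121) := by
    have := hx 0
    have := hx 1
    have := hx 2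
    positivity
  exact mul_le_mul_of_nonneg_right h3 h4

/-- check that an integer combination of the `gg l` has nonnegative coefficients -/
def posCheck (Ns G1 : List ℕ) (E : List (ℕ × ℕ)) : Bool :=
  Nat.blt (dotP E G1) (2 ^ 119) && Nat.blt (dotM E G1) (2 ^ 119) && cmp (dotP E Ns) (dotM E Ns)

noncomputable def NLf (l : Lm) : ℕ := gg l (kap 0) (kap 1) (kap 2)
noncomputable def G1f (l : Lm) : ℕ := gg l 1 1 1

lemma posCheck_sound (L : List Lm) (hL : ∀ l ∈ L, wt l ≤ 10) (E : List (ℕ × ℕ))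
    (h : posCheck (L.map NLf) (L.map G1f) E = true) (a b c : ℝ) (ha : 0 ≤ a) (hb : 0 ≤ b)
    (hc : 0 ≤ c) :
    dM E L (fun l => gg l a b c) ≤ dP E L (fun l => gg l a b c) := by
  simp only [posCheck, Bool.and_eq_true, dotP_map, dotM_map] at h
  obtain ⟨⟨h1, h2⟩, h3⟩ := h
  have h1' : dP E L G1f < 2 ^ 119 := by
    have := Nat.le_of_ble_eq_true h1
    omega
  have h2' : dM E L G1f < 2 ^ 119 := by
    have := Nat.le_of_ble_eq_true h2
    omega
  have e1 : ∀ {A : Type} [CommSemiring A] (x : Fin 3 → A),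
      aeval x (dP E L gp) = dP E L (fun l => gg l (x 0) (x 1) (x 2)) := by
    intro A _ x
    have := map_dP ((aeval x : MvPolynomial (Fin 3) ℕ →ₐ[ℕ] A) : MvPolynomial (Fin 3) ℕ →+* A) E L gp
    simpa [aeval_gp] using this
  have e2 : ∀ {A : Type} [CommSemiring A] (x : Fin 3 → A),
      aeval x (dM E L gp) = dM E L (fun l => gg l (x 0) (x 1) (x 2)) := by
    intro A _ x
    have := map_dM ((aeval x : MvPolynomial (Fin 3) ℕ →ₐ[ℕ] A) : MvPolynomial (Fin 3) ℕ →+* A) E L gp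
    simpa [aeval_gp] using this
  have key := cmp_sound (dP E L gp) (dM E L gp) (deg_dP E L hL) (deg_dM E L hL)
    (by rw [e1]; exact h1') (by rw [e2]; exact h2') (by rw [e1, e2]; exact h3) ![a, b, c]
    (by intro i; fin_cases i <;> simpa)
  rw [e1, e2] at key
  exact key

end Vale.Agent.P154.Q4
end

section

namespace Vale.Agent.P154.Q4

open Finset MvPolynomial

/-! ### fast numbers -/

def P24N (m : ℕ → ℕ → ℕ → ℕ) (a b c d : ℕ) : ℕ :=
  (m a b c + m a b d + m a c b + m a c d + m a d b + m a d c) +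
  (m b a c + m b a d + m b c a + m b c d + m b d a + m b d c) +
  (m c a b + m c a d + m c b a + m c b d + m c d a + m c d b) +
  (m d a b + m d a c + m d b a + m d b c + m d c a + m d c b)

def moN (x y z : ℕ) (i j k : ℕ) : ℕ := x ^ i * (y ^ j * z ^ k)

lemma gg_nat (l : Lm) (a b c : ℕ) : gg l a b c =
    P24N (moN (1 + a + b + c) (1 + a + b) (1 + a)) l.1 l.2.1 l.2.2.1 l.2.2.2 *
      (4 + 3 * a + 2 * b + c) ^ (10 - wt l) := by
  unfold gg
  rw [PS_explicit]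
  refine congrArg (fun X : ℕ => X * (4 + 3 * a + 2 * b + c) ^ (10 - wt l)) ?_
  simp only [P24, vv, Fin.isValue, Matrix.cons_val_zero, toF, Matrix.cons_val_one,
    Matrix.cons_val, one_pow, mul_one, P24N, moN, Nat.add_left_cancel_iff]

def u0 : ℕ := 1 + 2 ^ 120 + (2 ^ 120) ^ 11 + (2 ^ 120) ^ 121
def u1 : ℕ := 1 + 2 ^ 120 + (2 ^ 120) ^ 11
def u2 : ℕ := 1 + 2 ^ 120
def uS : ℕ := 4 + 3 * 2 ^ 120 + 2 * (2 ^ 120) ^ 11 + (2 ^ 120) ^ 121

def NL (l : Lm) : ℕ := P24N (moN u0 u1 u2) l.1 l.2.1 l.2.2.1 l.2.2.2 * uS ^ (10 - wt l)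
def G1 (l : Lm) : ℕ := P24N (moN 4 3 2) l.1 l.2.1 l.2.2.1 l.2.2.2 * 10 ^ (10 - wt l)

lemma NLf_eq : NLf = NL := by
  funext l
  unfold NLf
  rw [gg_nat]
  rfl

lemma G1f_eq : G1f = G1 := by
  funext l
  unfold G1f
  rw [gg_nat]
  rfl

/-! ### coefficient extraction -/

def dig (N s : ℕ) : ℕ := (N >>> (120 * s)) % 2 ^ 120

lemma dig_eq (p : MvPolynomial (Fin 3) ℕ) (hp : p.totalDegree ≤ 10)
    (hp1 : aeval (fun _ => (1 : ℕ)) p < 2 ^ 120) (s : ℕ) (hs : s < 1331) :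
    dig (aeval kap p) s = coeff (ex3 s) p := by
  unfold dig
  rw [eval_kap p hp]
  exact digit_eq 120 s 1331 (fun s => coeff (ex3 s) p) hs
    (fun s hs => (coeff_le_eval_one p hp s hs).trans_lt hp1)

/-! ### signed lists -/

noncomputable def zv (a : ℕ × ℕ) : ℝ := (a.1 : ℝ) - a.2

def zmul (a b : ℕ × ℕ) : ℕ × ℕ := (a.1 * b.1 + a.2 * b.2, a.1 * b.2 + a.2 * b.1)

lemma zv_zmul (a b : ℕ × ℕ) : zv (zmul a b) = zv a * zv b := by
  unfold zv zmul
  push_cast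
  ring

def addL : List (ℕ × ℕ) → List (ℕ × ℕ) → List (ℕ × ℕ)
  | a :: as, b :: bs => (a.1 + b.1, a.2 + b.2) :: addL as bs
  | [], bs => bs
  | as, [] => as

def scL (z : ℕ × ℕ) : List (ℕ × ℕ) → List (ℕ × ℕ)
  | [] => []
  | a :: as => zmul z a :: scL z as

def diL : List (ℕ × ℕ) → List ℕ → List (ℕ × ℕ)
  | c :: cs, d :: ds => (c.1 * d, c.2 * d) :: diL cs ds
  | _, _ => []

noncomputable def val : List (ℕ × ℕ) → List Lm → (Lm → ℝ) → ℝ
  | e :: es, l :: ls, f => zv e * f l + val es ls f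
  | _, _, _ => 0

noncomputable def tri : List (ℕ × ℕ) → List Lm → (Lm → ℝ) → (Lm → ℝ) → ℝ
  | e :: es, l :: ls, f, g => zv e * f l * g l + tri es ls f g
  | _, _, _, _ => 0

lemma val_eq : ∀ (E : List (ℕ × ℕ)) (L : List Lm) (f : Lm → ℝ), val E L f = dP E L f - dM E L f
  | [], _, _ => by simp only [val, dP, dM, sub_self]
  | _ :: _, [], _ => by simp [val, dP, dM]
  | e :: es, l :: ls, f => by
    simp only [val, dP, dM, val_eq es ls f, zv]
    ring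

lemma val_addL : ∀ (E E' : List (ℕ × ℕ)) (L : List Lm) (f : Lm → ℝ),
    val (addL E E') L f = val E L f + val E' L f
  | a :: as, b :: bs, [], f => by simp only [addL, val, add_zero]
  | a :: as, b :: bs, l :: ls, f => by
    simp only [addL, val, val_addL as bs ls f, zv]
    push_cast
    ring
  | [], bs, L, f => by cases bs <;> simp only [addL, val, zero_add]
  | a :: as, [], L, f => by simp only [addL, val, add_zero]

lemma val_scL (z : ℕ × ℕ) : ∀ (E : List (ℕ × ℕ)) (L : List Lm) (f : Lm → ℝ),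
    val (scL z E) L f = zv z * val E L f
  | [], _, _ => by simp [scL, val]
  | _ :: _, [], _ => by simp [scL, val]
  | e :: es, l :: ls, f => by
    simp only [scL, val, val_scL z es ls f, zv_zmul]
    ring

lemma val_diL : ∀ (C : List (ℕ × ℕ)) (L : List Lm) (δ : Lm → ℕ) (f : Lm → ℝ),
    val (diL C (L.map δ)) L f = tri C L (fun l => (δ l : ℝ)) f
  | [], _, _, _ => by simp only [diL, val, tri]
  | _ :: _, [], _, _ => by simp [diL, val, tri]
  | c :: cs, l :: ls, δ, f => by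
    simp only [List.map_cons, diL, val, tri, val_diL cs ls δ f, zv]
    push_cast
    ring

/-- bilinear part: list of `(s, U, V)` standing for `s (U ⊗ V + V ⊗ U)` -/
abbrev Prs := List ((ℕ × ℕ) × List (ℕ × ℕ) × List (ℕ × ℕ))

def rowP : Prs → List ℕ → List (ℕ × ℕ)
  | [], _ => []
  | (s, U, V) :: Ps, D =>
    addL (addL (scL (zmul s (dotP U D, dotM U D)) V) (scL (zmul s (dotP V D, dotM V D)) U))
      (rowP Ps D)

def rowE (C : List (ℕ × ℕ)) (Ps : Prs) (D : List ℕ) : List (ℕ × ℕ) :=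
  addL (diL C D) (rowP Ps D)

noncomputable def bilP : Prs → List Lm → (Lm → ℝ) → (Lm → ℝ) → ℝ
  | [], _, _, _ => 0
  | (s, U, V) :: Ps, L, f, g =>
    zv s * (val U L f * val V L g + val V L f * val U L g) + bilP Ps L f g

noncomputable def bil (C : List (ℕ × ℕ)) (Ps : Prs) (L : List Lm) (f g : Lm → ℝ) : ℝ :=
  tri C L f g + bilP Ps L f g

lemma cast_dP (E : List (ℕ × ℕ)) (L : List Lm) (δ : Lm → ℕ) :
    ((dP E L δ : ℕ) : ℝ) = dP E L (fun l => (δ l : ℝ)) := map_dP (Nat.castRingHom ℝ) E L δ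

lemma cast_dM (E : List (ℕ × ℕ)) (L : List Lm) (δ : Lm → ℕ) :
    ((dM E L δ : ℕ) : ℝ) = dM E L (fun l => (δ l : ℝ)) := map_dM (Nat.castRingHom ℝ) E L δ

lemma zv_dot (E : List (ℕ × ℕ)) (L : List Lm) (δ : Lm → ℕ) :
    zv (dotP E (L.map δ), dotM E (L.map δ)) = val E L (fun l => (δ l : ℝ)) := by
  rw [val_eq, dotP_map, dotM_map]
  simp only [zv, cast_dP, cast_dM]

lemma val_rowP : ∀ (Ps : Prs) (L : List Lm) (δ : Lm → ℕ) (f : Lm → ℝ),
    val (rowP Ps (L.map δ)) L f = bilP Ps L (fun l => (δ l : ℝ)) f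
  | [], _, _, _ => by simp only [rowP, val, bilP]
  | (s, U, V) :: Ps, L, δ, f => by
    simp only [rowP, bilP, val_addL, val_scL, zv_zmul, zv_dot, val_rowP Ps L δ f]
    ring

lemma val_rowE (C : List (ℕ × ℕ)) (Ps : Prs) (L : List Lm) (δ : Lm → ℕ) (f : Lm → ℝ) :
    val (rowE C Ps (L.map δ)) L f = bil C Ps L (fun l => (δ l : ℝ)) f := by
  simp only [rowE, bil, val_addL, val_diL, val_rowP]

/-! linearity in the first argument -/

lemma val_sum {ι : Type*} (S : Finset ι) (m : ι → ℝ) (F : ι → Lm → ℝ) :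
    ∀ (E : List (ℕ × ℕ)) (L : List Lm),
    val E L (fun l => ∑ s ∈ S, m s * F s l) = ∑ s ∈ S, m s * val E L (F s)
  | [], _ => by simp [val]
  | _ :: _, [] => by simp [val]
  | e :: es, l :: ls => by
    simp only [val, val_sum S m F es ls, mul_add, Finset.sum_add_distrib, Finset.mul_sum]
    congr 1
    refine Finset.sum_congr rfl fun s _ => ?_
    ring

lemma tri_sum {ι : Type*} (S : Finset ι) (m : ι → ℝ) (F : ι → Lm → ℝ) (g : Lm → ℝ) :
    ∀ (E : List (ℕ × ℕ)) (L : List Lm),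
    tri E L (fun l => ∑ s ∈ S, m s * F s l) g = ∑ s ∈ S, m s * tri E L (F s) g
  | [], _ => by simp [tri]
  | _ :: _, [] => by simp [tri]
  | e :: es, l :: ls => by
    simp only [tri, tri_sum S m F g es ls, mul_add, Finset.sum_add_distrib, Finset.mul_sum,
      Finset.sum_mul]
    congr 1
    refine Finset.sum_congr rfl fun s _ => ?_
    ring

lemma bilP_sum {ι : Type*} (S : Finset ι) (m : ι → ℝ) (F : ι → Lm → ℝ) (g : Lm → ℝ) :
    ∀ (Ps : Prs) (L : List Lm),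
    bilP Ps L (fun l => ∑ s ∈ S, m s * F s l) g = ∑ s ∈ S, m s * bilP Ps L (F s) g
  | [], _ => by simp [bilP]
  | (s, U, V) :: Ps, L => by
    simp only [bilP, bilP_sum S m F g Ps L, val_sum, mul_add, Finset.sum_add_distrib,
      Finset.mul_sum, Finset.sum_mul]
    congr 1
    congr 1
    · refine Finset.sum_congr rfl fun s _ => ?_
      ring
    · refine Finset.sum_congr rfl fun s _ => ?_
      ring

lemma bil_sum {ι : Type*} (S : Finset ι) (m : ι → ℝ) (F : ι → Lm → ℝ) (g : Lm → ℝ)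
    (C : List (ℕ × ℕ)) (Ps : Prs) (L : List Lm) :
    bil C Ps L (fun l => ∑ s ∈ S, m s * F s l) g = ∑ s ∈ S, m s * bil C Ps L (F s) g := by
  simp only [bil, tri_sum, bilP_sum, mul_add, Finset.sum_add_distrib]

lemma val_zero : ∀ (E : List (ℕ × ℕ)) (L : List Lm), val E L (fun _ => 0) = 0
  | [], _ => by simp [val]
  | _ :: _, [] => by simp [val]
  | e :: es, l :: ls => by simp [val, val_zero es ls]

lemma tri_zero (g : Lm → ℝ) : ∀ (E : List (ℕ × ℕ)) (L : List Lm), tri E L (fun _ => 0) g = 0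
  | [], _ => by simp [tri]
  | _ :: _, [] => by simp [tri]
  | e :: es, l :: ls => by simp [tri, tri_zero g es ls]

lemma bilP_zero (g : Lm → ℝ) : ∀ (Ps : Prs) (L : List Lm), bilP Ps L (fun _ => 0) g = 0
  | [], _ => by simp [bilP]
  | (s, U, V) :: Ps, L => by simp [bilP, bilP_zero g Ps L, val_zero]

lemma val_congr (f g : Lm → ℝ) : ∀ (E : List (ℕ × ℕ)) (L : List Lm), (∀ l ∈ L, f l = g l) →
    val E L f = val E L g
  | [], _, _ => by simp [val]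
  | _ :: _, [], _ => by simp [val]
  | e :: es, l :: ls, h => by
    simp only [val, h l (by simp), val_congr f g es ls (fun x hx => h x (by simp [hx]))]

lemma tri_congr (f f' g : Lm → ℝ) : ∀ (E : List (ℕ × ℕ)) (L : List Lm), (∀ l ∈ L, f l = f' l) →
    tri E L f g = tri E L f' g
  | [], _, _ => by simp [tri]
  | _ :: _, [], _ => by simp [tri]
  | e :: es, l :: ls, h => by
    simp only [tri, h l (by simp), tri_congr f f' g es ls (fun x hx => h x (by simp [hx]))]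

lemma bilP_congr (f f' g : Lm → ℝ) (L : List Lm) (h : ∀ l ∈ L, f l = f' l) :
    ∀ (Ps : Prs), bilP Ps L f g = bilP Ps L f' g
  | [] => by simp [bilP]
  | (s, U, V) :: Ps => by
    simp only [bilP, bilP_congr f f' g L h Ps, val_congr f f' _ L h]

lemma bil_congr (C : List (ℕ × ℕ)) (Ps : Prs) (L : List Lm) (f f' g : Lm → ℝ)
    (h : ∀ l ∈ L, f l = f' l) : bil C Ps L f g = bil C Ps L f' g := by
  simp only [bil, tri_congr f f' g C L h, bilP_congr f f' g L h Ps]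

/-! ### the main check -/

def tot (s : ℕ) : ℕ := s % 11 + s / 11 % 11 + s / 121

def rowCheck (Ns Gs : List ℕ) (C : List (ℕ × ℕ)) (Ps : Prs) (s : ℕ) : Bool :=
  Nat.blt 10 (tot s) || posCheck Ns Gs (rowE C Ps (Ns.map fun N => dig N s))

def allRows (Ns Gs : List ℕ) (C : List (ℕ × ℕ)) (Ps : Prs) : Bool :=
  (List.range 1331).all fun s => rowCheck Ns Gs C Ps s

noncomputable def mon (s : ℕ) (a b c : ℝ) : ℝ := a ^ (s % 11) * b ^ (s / 11 % 11) * c ^ (s / 121)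

lemma mon_nonneg (s : ℕ) {a b c : ℝ} (ha : 0 ≤ a) (hb : 0 ≤ b) (hc : 0 ≤ c) : 0 ≤ mon s a b c := by
  unfold mon; positivity

lemma gg_slots (l : Lm) (hl : wt l ≤ 10) (a b c : ℝ) :
    gg l a b c = ∑ s ∈ range 1331, mon s a b c * (coeff (ex3 s) (gp l) : ℕ) := by
  have h := eval_slots (gp l) (deg_gp l hl) ![a, b, c]
  rw [aeval_gp] at h
  rw [show gg l a b c = gg l ((![a, b, c] : Fin 3 → ℝ) 0) ((![a, b, c] : Fin 3 → ℝ) 1)
    ((![a, b, c] : Fin 3 → ℝ) 2) from rfl, h]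
  refine Finset.sum_congr rfl fun s _ => ?_
  simp only [mon, Matrix.cons_val_zero, Matrix.cons_val_one, Matrix.cons_val]
  ring

theorem bil_nonneg (L : List Lm) (hL : ∀ l ∈ L, wt l ≤ 10) (hG : ∀ l ∈ L, G1 l < 2 ^ 120)
    (C : List (ℕ × ℕ)) (Ps : Prs) (h : allRows (L.map NL) (L.map G1) C Ps = true)
    {a b c a' b' c' : ℝ} (ha : 0 ≤ a) (hb : 0 ≤ b) (hc : 0 ≤ c) (ha' : 0 ≤ a') (hb' : 0 ≤ b')
    (hc' : 0 ≤ c') :
    0 ≤ bil C Ps L (fun l => gg l a b c) (fun l => gg l a' b' c') := by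
  have e1 : bil C Ps L (fun l => gg l a b c) (fun l => gg l a' b' c') =
      bil C Ps L (fun l => ∑ s ∈ range 1331, mon s a b c * ((coeff (ex3 s) (gp l) : ℕ) : ℝ))
        (fun l => gg l a' b' c') :=
    bil_congr C Ps L _ _ _ fun l hl => gg_slots l (hL l hl) a b c
  rw [e1, bil_sum (range 1331) (fun s => mon s a b c)
    (fun s l => ((coeff (ex3 s) (gp l) : ℕ) : ℝ))]
  refine Finset.sum_nonneg fun s hs => mul_nonneg (mon_nonneg s ha hb hc) ?_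
  have hs' := Finset.mem_range.1 hs
  have hrow : rowCheck (L.map NL) (L.map G1) C Ps s = true := by
    have := List.all_eq_true.1 h s (List.mem_range.2 hs')
    exact this
  simp only [rowCheck, Bool.or_eq_true] at hrow
  rcases hrow with h10 | hrow
  · have h10' : 10 < tot s := by
      have := Nat.le_of_ble_eq_true h10
      omega
    have hz : ∀ l ∈ L, ((coeff (ex3 s) (gp l) : ℕ) : ℝ) = 0 := by
      intro l hl
      have : coeff (ex3 s) (gp l) = 0 := by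
        apply coeff_eq_zero_of_totalDegree_lt
        have h1 := deg_gp l (hL l hl)
        have h2 : ∑ i ∈ (ex3 s).support, (ex3 s) i = tot s := by
          have : (ex3 s).sum (fun _ n => n) = tot s := by
            rw [Finsupp.sum_fintype _ _ (fun _ => rfl), Fin.sum_univ_three]
            rfl
          exact this
        rw [h2]
        omega
      rw [this]; simp
    rw [bil_congr C Ps L _ (fun _ => 0) _ hz]
    simp [bil, tri_zero, bilP_zero]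
  · have hdig : (L.map NL).map (fun N => dig N s) = L.map (fun l => coeff (ex3 s) (gp l)) := by
      rw [List.map_map]
      refine List.map_congr_left fun l hl => ?_
      show dig (NL l) s = _
      have hev : NL l = aeval kap (gp l) := by
        rw [aeval_gp, ← NLf_eq]; rfl
      rw [hev]
      refine dig_eq (gp l) (deg_gp l (hL l hl)) ?_ s hs'
      have : aeval (fun _ => (1 : ℕ)) (gp l) = G1 l := by
        rw [aeval_gp, ← G1f_eq]; rfl
      rw [this]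
      exact hG l hl
    rw [hdig] at hrow
    have h2 := posCheck_sound L hL _ (by rw [NLf_eq, G1f_eq]; exact hrow) a' b' c' ha' hb' hc'
    have h3 := val_rowE C Ps L (fun l => coeff (ex3 s) (gp l)) (fun l => gg l a' b' c')
    rw [val_eq] at h3
    rw [← h3]
    linarith only [h2]

end Vale.Agent.P154.Q4
end

section

namespace Vale.Agent.P154.Q4

def LX : List Lm := [(0, 0, 0, 0), (1, 0, 0, 0), (2, 0, 0, 0), (1, 1, 0, 0), (3, 0, 0, 0), (2,
  1, 0, 0), (1, 1, 1, 0), (4, 0, 0, 0), (3, 1, 0, 0), (2, 2, 0, 0), (2, 1, 1, 0), (1, 1, 1, 1),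
  (5, 0, 0, 0), (4, 1, 0, 0), (3, 2, 0, 0), (3, 1, 1, 0), (2, 2, 1, 0), (2, 1, 1, 1), (6, 0, 0,
  0), (5, 1, 0, 0), (4, 2, 0, 0), (4, 1, 1, 0), (3, 3, 0, 0), (3, 2, 1, 0), (3, 1, 1, 1), (2, 2,
  2, 0), (2, 2, 1, 1), (7, 0, 0, 0), (6, 1, 0, 0), (5, 2, 0, 0), (5, 1, 1, 0), (4, 3, 0, 0), (4,
  2, 1, 0), (4, 1, 1, 1), (3, 3, 1, 0), (3, 2, 2, 0), (3, 2, 1, 1), (2, 2, 2, 1), (8, 0, 0, 0),
  (7, 1, 0, 0), (6, 2, 0, 0), (6, 1, 1, 0), (5, 3, 0, 0), (5, 2, 1, 0), (5, 1, 1, 1), (4, 4, 0,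
  0), (4, 3, 1, 0), (4, 2, 2, 0), (4, 2, 1, 1), (3, 3, 2, 0), (3, 3, 1, 1), (3, 2, 2, 1), (2, 2,
  2, 2), (9, 0, 0, 0), (8, 1, 0, 0), (7, 2, 0, 0), (7, 1, 1, 0), (6, 3, 0, 0), (6, 2, 1, 0), (6,
  1, 1, 1), (5, 4, 0, 0), (5, 3, 1, 0), (5, 2, 2, 0), (5, 2, 1, 1), (4, 4, 1, 0), (4, 3, 2, 0),
  (4, 3, 1, 1), (4, 2, 2, 1), (3, 3, 3, 0), (3, 3, 2, 1), (3, 2, 2, 2)]
def LR : List Lm := LX.take 38

/-- class function, scaled by 150 -/
def Xi : List (ℕ × ℕ) := [(13, 0), (0, 0), (0, 296), (0, 0), (736, 0), (0, 0), (0, 0), (0, 776),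
  (0, 0), (0, 1080), (0, 0), (0, 0), (320, 0), (0, 0), (960, 0)]
/-- closure multiplier, scaled by 240000000 -/
def Ri : List (ℕ × ℕ) := [(0, 72625267), (0, 0), (3708126304, 0), (0, 0), (0, 6387141888), (0,
  0), (0, 0), (1109166656, 0), (0, 0), (0, 23966223936), (0, 0), (0, 0), (3858123776, 0), (0,
  0), (11574371328, 0), (0, 0), (0, 0), (0, 0), (0, 1997018880), (0, 0), (27971812608, 0), (0,
  0), (20987556864, 0), (0, 0), (0, 0), (54950426112, 0)]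
/-- lower bound polynomial for closure, divided by 24 and scaled by 144000000000 -/
def CX : List (ℕ × ℕ) := [(0, 27286325), (1160731200, 0), (114926412800, 0), (0, 1286976940800),
  (0, 1025781830400), (37623785299200, 0), (25523262912000, 0), (4860327910400, 0), (0,
  254615867904000), (0, 377491236480000), (0, 58569114316800), (0, 268739180083200), (0,
  13586364416000), (957637736448000, 0), (5235064614912000, 0), (0, 3866443250073600), (0,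
  15052078382284800), (7982126879539200, 0), (22956909363200, 0), (0, 2124894845337600), (0,
  17914137287884800), (23463405084672000, 0), (0, 15580531207372800), (282522370670592000, 0),
  (0, 39176716910592000), (128077838141030400, 0), (0, 65399984421273600), (0, 22853210931200),
  (2762757975244800, 0), (32540421857280000, 0), (0, 58282533883084800), (80406274183987200, 0),
  (0, 1028751999732940800), (154886821311283200, 0), (0, 910450619036467200), (0,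
  2240465448989491200), (411626554530201600, 0), (286148896230604800, 0), (12228938956800, 0),
  (0, 1939312056729600), (0, 29808781059686400), (66689510984908800, 0), (0, 91248742681804800),
  (1694626841257574400, 0), (0, 352398342094848000), (0, 63415960495718400),
  (4443504084045004800, 0), (5122497851582054400, 0), (0, 1195308226078310400),
  (8507640235268505600, 0), (0, 54534753327513600), (0, 2154123348462796800), (0,
  865738562784460800), (0, 2695574323200), (563452418457600, 0), (10687427798630400, 0), (0,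
  28931555485286400), (34364827946188800, 0), (0, 1058351823716352000), (307891397669683200, 0),
  (53674292281344000, 0), (0, 3788030477756006400), (0, 4139457230300774400),
  (1549495922432409600, 0), (0, 2788668669847142400), (0, 19516555339078041600), (0,
  293599151181004800), (2778833046051225600, 0), (0, 5228207761312972800), (1325838187993497600,
  0), (5584901527044096000, 0)]
/-- potential multiplier, scaled by 1800000 -/
def Rho : List (ℕ × ℕ) := [(0, 106111), (0, 0), (3182900, 0), (0, 0), (0, 1672240), (0, 0), (0,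
  0), (0, 5791056), (0, 0), (0, 21929904), (0, 0), (0, 0), (7650240, 0), (0, 0), (22950720, 0),
  (0, 0), (0, 0), (0, 0), (0, 2908032), (0, 0), (16117632, 0), (0, 0), (4955904, 0), (0, 0), (0,
  0), (29797632, 0)]
/-- chi-square, scaled by 24 -/
def R1i : List (ℕ × ℕ) := [(0, 1), (0, 0), (16, 0)]
/-- its square, scaled by 24 -/
def R2i : List (ℕ × ℕ) := [(1, 0), (0, 0), (0, 32), (0, 0), (0, 0), (0, 0), (0, 0), (64, 0), (0,
  0), (192, 0)]
/-- lower bound polynomial for minus chi-square, divided by 24 and scaled by 4320000000 -/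
def CR : List (ℕ × ℕ) := [(0, 216825), (0, 349408800), (0, 34166400), (27339350400, 0), (0,
  104025600), (0, 431076902400), (0, 420241075200), (1048089600, 0), (1783525478400, 0),
  (1781553484800, 0), (8498876313600, 0), (1645647206400, 0), (0, 2979840000), (0,
  4074670080000), (0, 12203731353600), (0, 26644738867200), (0, 45182604902400), (0,
  32381308108800), (3688857600, 0), (4860252979200, 0), (19424224051200, 0), (40336220160000,
  0), (14575037644800, 0), (194034814156800, 0), (66765304627200, 0), (51804522086400, 0),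
  (160186893926400, 0), (0, 1710489600), (0, 2360888524800), (0, 11823199027200), (0,
  24022115942400), (0, 23701074739200), (0, 150802071552000), (0, 51050210918400), (0,
  107479616716800), (0, 167936458752000), (0, 341040011673600), (0, 177472025395200)]
def PX : Prs := [((0, 4), Xi, Ri)]
def PR : Prs := [((0, 16), Xi, Rho), ((7500000, 0), R1i, [(1, 0)]), ((0, 7500), R2i, R1i)]
-- constants: closure den 144000000000 dx 150 dr 240000000 k 4 kA 160000000 ; potential den 4320000000 drho 1800000 d1 24 d2 24 kR 16 k1 7500000 k2 7500 kAR 30000000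

end Vale.Agent.P154.Q4
end

section

namespace Vale.Agent.P154.Q4

open Finset

/-! ### homogeneous binary forms as coefficient lists -/

noncomputable def evH : List ℕ → ℝ → ℝ → ℝ
  | [], _, _ => 0
  | x :: xs, t, h => (x : ℝ) * h ^ xs.length + t * evH xs t h

def mulLin (p q : ℕ) : List ℕ → ℕ → List ℕ
  | [], c => [q * c]
  | x :: xs, c => (p * x + q * c) :: mulLin p q xs x

lemma len_mulLin (p q : ℕ) : ∀ (l : List ℕ) (c : ℕ), (mulLin p q l c).length = l.length + 1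
  | [], c => rfl
  | x :: xs, c => by simp [mulLin, len_mulLin p q xs x]

lemma evH_mulLin (p q : ℕ) (t h : ℝ) : ∀ (l : List ℕ) (c : ℕ),
    evH (mulLin p q l c) t h = (p * h + q * t) * evH l t h + q * c * h ^ l.length
  | [], c => by simp [mulLin, evH]
  | x :: xs, c => by
    simp only [mulLin, evH, len_mulLin, evH_mulLin p q t h xs x, List.length_cons]
    push_cast
    ring

lemma evH_sum (t h : ℝ) : ∀ l : List ℕ, evH l t h =
    ∑ j ∈ range l.length, (t ^ j * h ^ (l.length - 1 - j)) * (l.getD j 0 : ℕ)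
  | [] => by simp [evH]
  | x :: xs => by
    simp only [evH, evH_sum t h xs, List.length_cons]
    rw [Finset.sum_range_succ', Finset.mul_sum, add_comm]
    congr 1
    · refine Finset.sum_congr rfl fun j hj => ?_
      have hj' := Finset.mem_range.1 hj
      have e : xs.length + 1 - 1 - (j + 1) = xs.length - 1 - j := by omega
      rw [e, pow_succ]
      simp only [List.getD_cons_succ]
      ring
    · simp only [List.getD_cons_zero, pow_zero, one_mul, Nat.sub_zero, Nat.add_sub_cancel]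
      ring

def powLin (p q : ℕ) : ℕ → List ℕ → List ℕ
  | 0, l => l
  | n + 1, l => mulLin p q (powLin p q n l) 0

lemma len_powLin (p q : ℕ) (l : List ℕ) : ∀ n, (powLin p q n l).length = l.length + n
  | 0 => rfl
  | n + 1 => by simp [powLin, len_mulLin, len_powLin p q l n, add_assoc]

lemma evH_powLin (p q : ℕ) (t h : ℝ) (l : List ℕ) : ∀ n,
    evH (powLin p q n l) t h = (p * h + q * t) ^ n * evH l t h
  | 0 => by simp [powLin]
  | n + 1 => by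
    simp only [powLin, evH_mulLin, evH_powLin p q t h l n, pow_succ]
    push_cast
    ring

/-- coefficients of `(p h + q t)^m (4 h + 4 t)^(9-m)` -/
def Wl (p q m : ℕ) : List ℕ := powLin p q m (powLin 4 4 (9 - m) [1])

lemma len_Wl (p q m : ℕ) (hm : m ≤ 9) : (Wl p q m).length = 10 := by
  unfold Wl
  rw [len_powLin, len_powLin]
  simp
  omega

lemma evH_Wl (p q m : ℕ) (t h : ℝ) :
    evH (Wl p q m) t h = (p * h + q * t) ^ m * (4 * h + 4 * t) ^ (9 - m) := by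
  unfold Wl
  rw [evH_powLin, evH_powLin]
  simp [evH]

lemma Wl_sum (p q m : ℕ) (hm : m ≤ 9) (t h : ℝ) :
    (p * h + q * t) ^ m * (4 * h + 4 * t) ^ (9 - m) =
      ∑ j ∈ range 10, (t ^ j * h ^ (9 - j)) * ((Wl p q m).getD j 0 : ℕ) := by
  rw [← evH_Wl, evH_sum, len_Wl p q m hm]

/-! ### weighted lists -/

def negW : List (ℕ × ℕ) → List Lm → (ℕ → ℕ) → List (ℕ × ℕ)
  | c :: cs, l :: ls, w => (c.2 * w (wt l), c.1 * w (wt l)) :: negW cs ls w
  | _, _, _ => []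

noncomputable def valW : List (ℕ × ℕ) → List Lm → (ℕ → ℝ) → (Lm → ℝ) → ℝ
  | c :: cs, l :: ls, w, f => zv c * w (wt l) * f l + valW cs ls w f
  | _, _, _, _ => 0

lemma val_negW (w : ℕ → ℕ) (f : Lm → ℝ) : ∀ (C : List (ℕ × ℕ)) (L : List Lm),
    val (negW C L w) L f = - valW C L (fun m => (w m : ℝ)) f
  | [], _ => by simp [negW, val, valW]
  | _ :: _, [] => by simp [negW, val, valW]
  | c :: cs, l :: ls => by
    simp only [negW, val, valW, val_negW w f cs ls, zv]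
    push_cast
    ring

lemma valW_sum {ι : Type*} (S : Finset ι) (m : ι → ℝ) (w : ι → ℕ → ℝ) (f : Lm → ℝ) :
    ∀ (C : List (ℕ × ℕ)) (L : List Lm),
    valW C L (fun n => ∑ j ∈ S, m j * w j n) f = ∑ j ∈ S, m j * valW C L (w j) f
  | [], _ => by simp [valW]
  | _ :: _, [] => by simp [valW]
  | c :: cs, l :: ls => by
    simp only [valW, valW_sum S m w f cs ls, mul_add, Finset.sum_add_distrib, Finset.mul_sum,
      Finset.sum_mul]
    congr 1
    refine Finset.sum_congr rfl fun s _ => ?_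
    ring

lemma valW_congr (w w' : ℕ → ℝ) (f : Lm → ℝ) : ∀ (C : List (ℕ × ℕ)) (L : List Lm),
    (∀ l ∈ L, w (wt l) = w' (wt l)) → valW C L w f = valW C L w' f
  | [], _, _ => by simp [valW]
  | _ :: _, [], _ => by simp [valW]
  | c :: cs, l :: ls, h => by
    simp only [valW, h l (by simp), valW_congr w w' f cs ls (fun x hx => h x (by simp [hx]))]

/-- the combination to be checked for coefficient `j` -/
def EA (p q kA : ℕ) (U C : List (ℕ × ℕ)) (L : List Lm) (sgn : ℕ × ℕ) (j : ℕ) : List (ℕ × ℕ) :=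
  addL (scL (zmul sgn (kA * (Wl p q 1).getD j 0, 0)) U) (negW C L (fun m => (Wl p q m).getD j 0))

def checkA (Ns Gs : List ℕ) (p q kA : ℕ) (U C : List (ℕ × ℕ)) (L : List Lm) (sgn : ℕ × ℕ) : Bool :=
  (List.range 10).all fun j => posCheck Ns Gs (EA p q kA U C L sgn j)

theorem checkA_sound (L : List Lm) (hL : ∀ l ∈ L, wt l ≤ 9) (p q kA : ℕ) (U C : List (ℕ × ℕ))
    (sgn : ℕ × ℕ) (h : checkA (L.map NL) (L.map G1) p q kA U C L sgn = true)
    {a b c t h' : ℝ} (ha : 0 ≤ a) (hb : 0 ≤ b) (hc : 0 ≤ c) (ht : 0 ≤ t) (hh : 0 ≤ h') :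
    valW C L (fun m => (p * h' + q * t) ^ m * (4 * h' + 4 * t) ^ (9 - m)) (fun l => gg l a b c) ≤
      zv sgn * (kA * ((p * h' + q * t) * (4 * h' + 4 * t) ^ 8) * val U L (fun l => gg l a b c)) := by
  set f : Lm → ℝ := fun l => gg l a b c with hf
  have hj : ∀ j ∈ range 10, valW C L (fun m => (((Wl p q m).getD j 0 : ℕ) : ℝ)) f ≤
      zv sgn * (kA * (((Wl p q 1).getD j 0 : ℕ) : ℝ) * val U L f) := by
    intro j hj
    have h1 : posCheck (L.map NL) (L.map G1) (EA p q kA U C L sgn j) = true :=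
      List.all_eq_true.1 h j (List.mem_range.2 (Finset.mem_range.1 hj))
    have h2 := posCheck_sound L (fun l hl => (hL l hl).trans (by norm_num)) _
      (by rw [NLf_eq, G1f_eq]; exact h1) a b c ha hb hc
    have h3 : 0 ≤ val (EA p q kA U C L sgn j) L f := by
      rw [val_eq]; linarith
    rw [EA, val_addL, val_scL, val_negW, zv_zmul] at h3
    have e : zv (kA * (Wl p q 1).getD j 0, 0) = kA * (((Wl p q 1).getD j 0 : ℕ) : ℝ) := by
      simp [zv]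
    rw [e] at h3
    linarith
  have e1 : valW C L (fun m => (p * h' + q * t) ^ m * (4 * h' + 4 * t) ^ (9 - m)) f =
      ∑ j ∈ range 10, (t ^ j * h' ^ (9 - j)) * valW C L (fun m => (((Wl p q m).getD j 0 : ℕ) : ℝ)) f := by
    rw [← valW_sum (range 10) (fun j => t ^ j * h' ^ (9 - j))
      (fun j m => (((Wl p q m).getD j 0 : ℕ) : ℝ)) f C L]
    exact valW_congr _ _ f C L fun l hl => Wl_sum p q (wt l) (hL l hl) t h'
  have e2 : (p * h' + q * t) * (4 * h' + 4 * t) ^ 8 =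
      ∑ j ∈ range 10, (t ^ j * h' ^ (9 - j)) * (((Wl p q 1).getD j 0 : ℕ) : ℝ) := by
    have := Wl_sum p q 1 (by norm_num) t h'
    simpa using this
  rw [e1, e2, Finset.mul_sum, Finset.sum_mul, Finset.mul_sum]
  refine Finset.sum_le_sum fun j hj' => ?_
  have h5 : 0 ≤ t ^ j * h' ^ (9 - j) := by positivity
  calc _ ≤ (t ^ j * h' ^ (9 - j)) * (zv sgn * (kA * (((Wl p q 1).getD j 0 : ℕ) : ℝ) * val U L f)) :=
        mul_le_mul_of_nonneg_left (hj j hj') h5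
    _ = _ := by ring

end Vale.Agent.P154.Q4
end

section

namespace Vale.Agent.P154.Q4

open Finset

noncomputable def pf (f : Fin 4 → ℝ) (l : Lm) : ℝ := PS (toF l) f

lemma sum_toF (l : Lm) : ∑ i, toF l i = wt l := by
  rw [Fin.sum_univ_four]
  simp [toF, wt]

lemma pf_smul (t : ℝ) (f : Fin 4 → ℝ) (l : Lm) : pf (fun i => t * f i) l = t ^ wt l * pf f l := by
  unfold pf
  rw [PS_smul, sum_toF]

lemma exists_sorted (f : Fin 4 → ℝ) : ∃ τ : Equiv.Perm (Fin 4),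
    f (τ 1) ≤ f (τ 0) ∧ f (τ 2) ≤ f (τ 1) ∧ f (τ 3) ≤ f (τ 2) := by
  have hm := Tuple.monotone_sort f
  refine ⟨(Fin.revPerm).trans (Tuple.sort f), ?_, ?_, ?_⟩
  · exact hm (show (2 : Fin 4) ≤ 3 by decide)
  · exact hm (show (1 : Fin 4) ≤ 2 by decide)
  · exact hm (show (0 : Fin 4) ≤ 1 by decide)

lemma chamber (f : Fin 4 → ℝ) (hf : ∀ i, 0 < f i) (hs : ∑ i, f i = 1) :
    ∃ a b c : ℝ, 0 ≤ a ∧ 0 ≤ b ∧ 0 ≤ c ∧ 0 < sv a b c ∧
      ∀ l : Lm, wt l ≤ 10 → gg l a b c = (sv a b c) ^ 10 * pf f l := by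
  obtain ⟨τ, h01, h12, h23⟩ := exists_sorted f
  set g : Fin 4 → ℝ := fun i => f (τ i) with hg
  have g3 : 0 < g 3 := hf _
  have hsum : g 0 + g 1 + g 2 + g 3 = 1 := by
    have : ∑ i, g i = ∑ i, f i := Equiv.sum_comp τ f
    rw [← hs, ← this, Fin.sum_univ_four]
  refine ⟨(g 2 - g 3) / g 3, (g 1 - g 2) / g 3, (g 0 - g 1) / g 3,
    div_nonneg (sub_nonneg.2 h23) g3.le, div_nonneg (sub_nonneg.2 h12) g3.le,
    div_nonneg (sub_nonneg.2 h01) g3.le, ?_⟩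
  set a := (g 2 - g 3) / g 3
  set b := (g 1 - g 2) / g 3
  set c := (g 0 - g 1) / g 3
  have hv : g = fun i => g 3 * vv a b c i := by
    funext i
    fin_cases i
    · show g 0 = g 3 * (1 + a + b + c)
      simp only [a, b, c]; field_simp; ring
    · show g 1 = g 3 * (1 + a + b)
      simp only [a, b]; field_simp; ring
    · show g 2 = g 3 * (1 + a)
      simp only [a]; field_simp; ring
    · show g 3 = g 3 * 1
      ring
  have hsv : g 3 * sv a b c = 1 := by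
    have : g 3 * sv a b c = g 0 + g 1 + g 2 + g 3 := by
      simp only [sv, a, b, c]; field_simp; ring
    rw [this, hsum]
  have hpos : 0 < sv a b c := by
    by_contra hneg
    have : g 3 * sv a b c ≤ 0 := mul_nonpos_of_nonneg_of_nonpos g3.le (not_lt.1 hneg)
    linarith
  refine ⟨hpos, fun l hl => ?_⟩
  have e1 : pf f l = pf g l := by
    unfold pf
    exact (PS_perm (toF l) f τ).symm
  have e2 : pf g l = g 3 ^ wt l * PS (toF l) (vv a b c) :=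
    (congrArg (fun x => pf x l) hv).trans (pf_smul (g 3) (vv a b c) l)
  rw [e1, e2, gg]
  obtain ⟨k, hk⟩ : ∃ k, 10 = wt l + k := ⟨10 - wt l, by omega⟩
  have hk2 : 10 - wt l = k := by omega
  rw [hk2]
  have : sv a b c ^ 10 = sv a b c ^ wt l * sv a b c ^ k := by rw [← pow_add, ← hk]
  rw [this]
  have h1 : sv a b c ^ wt l * g 3 ^ wt l = 1 := by
    rw [← mul_pow, mul_comm, hsv, one_pow]
  calc PS (toF l) (vv a b c) * sv a b c ^ k
      = (sv a b c ^ wt l * g 3 ^ wt l) * (PS (toF l) (vv a b c) * sv a b c ^ k) := by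
        rw [h1, one_mul]
    _ = _ := by ring

lemma val_smul (k : ℝ) (f : Lm → ℝ) : ∀ (E : List (ℕ × ℕ)) (L : List Lm),
    val E L (fun l => k * f l) = k * val E L f
  | [], _ => by simp [val]
  | _ :: _, [] => by simp [val]
  | e :: es, l :: ls => by
    simp only [val, val_smul k f es ls]; ring

lemma tri_smul (k k' : ℝ) (f g : Lm → ℝ) : ∀ (E : List (ℕ × ℕ)) (L : List Lm),
    tri E L (fun l => k * f l) (fun l => k' * g l) = k * k' * tri E L f g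
  | [], _ => by simp [tri]
  | _ :: _, [] => by simp [tri]
  | e :: es, l :: ls => by
    simp only [tri, tri_smul k k' f g es ls]; ring

lemma bilP_smul (k k' : ℝ) (f g : Lm → ℝ) (L : List Lm) : ∀ (Ps : Prs),
    bilP Ps L (fun l => k * f l) (fun l => k' * g l) = k * k' * bilP Ps L f g
  | [] => by simp [bilP]
  | (s, U, V) :: Ps => by
    simp only [bilP, bilP_smul k k' f g L Ps, val_smul]; ring

lemma bil_smul (k k' : ℝ) (f g : Lm → ℝ) (L : List Lm) (C : List (ℕ × ℕ)) (Ps : Prs) :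
    bil C Ps L (fun l => k * f l) (fun l => k' * g l) = k * k' * bil C Ps L f g := by
  simp only [bil, bilP_smul, tri_smul]; ring

lemma tri_congr2 (f f' g g' : Lm → ℝ) : ∀ (E : List (ℕ × ℕ)) (L : List Lm),
    (∀ l ∈ L, f l = f' l) → (∀ l ∈ L, g l = g' l) → tri E L f g = tri E L f' g'
  | [], _, _, _ => by simp [tri]
  | _ :: _, [], _, _ => by simp [tri]
  | e :: es, l :: ls, h, h' => by
    simp only [tri, h l (by simp), h' l (by simp),
      tri_congr2 f f' g g' es ls (fun x hx => h x (by simp [hx])) (fun x hx => h' x (by simp [hx]))]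

lemma bilP_congr2 (f f' g g' : Lm → ℝ) (L : List Lm) (h : ∀ l ∈ L, f l = f' l)
    (h' : ∀ l ∈ L, g l = g' l) : ∀ (Ps : Prs), bilP Ps L f g = bilP Ps L f' g'
  | [] => by simp [bilP]
  | (s, U, V) :: Ps => by
    simp only [bilP, bilP_congr2 f f' g g' L h h' Ps, val_congr f f' _ L h, val_congr g g' _ L h']

lemma bil_congr2 (C : List (ℕ × ℕ)) (Ps : Prs) (L : List Lm) (f f' g g' : Lm → ℝ)
    (h : ∀ l ∈ L, f l = f' l) (h' : ∀ l ∈ L, g l = g' l) :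
    bil C Ps L f g = bil C Ps L f' g' := by
  simp only [bil, tri_congr2 f f' g g' C L h h', bilP_congr2 f f' g g' L h h' Ps]

/-- bilinear certificate on the open simplex -/
theorem bil_pos (L : List Lm) (hL : ∀ l ∈ L, wt l ≤ 10) (hG : ∀ l ∈ L, G1 l < 2 ^ 120)
    (C : List (ℕ × ℕ)) (Ps : Prs) (h : allRows (L.map NL) (L.map G1) C Ps = true)
    (f g : Fin 4 → ℝ) (hf : ∀ i, 0 < f i) (hfs : ∑ i, f i = 1) (hg : ∀ i, 0 < g i)
    (hgs : ∑ i, g i = 1) : 0 ≤ bil C Ps L (pf f) (pf g) := by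
  obtain ⟨a, b, c, ha, hb, hc, hs, hgg⟩ := chamber f hf hfs
  obtain ⟨a', b', c', ha', hb', hc', hs', hgg'⟩ := chamber g hg hgs
  have h1 := bil_nonneg L hL hG C Ps h ha hb hc ha' hb' hc'
  rw [bil_congr2 C Ps L (fun l => gg l a b c) (fun l => (sv a b c) ^ 10 * pf f l)
    (fun l => gg l a' b' c') (fun l => (sv a' b' c') ^ 10 * pf g l)
    (fun l hl => hgg l (hL l hl)) (fun l hl => hgg' l (hL l hl)), bil_smul] at h1
  have h2 : 0 < sv a b c ^ 10 * sv a' b' c' ^ 10 := by positivity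
  exact nonneg_of_mul_nonneg_right h1 h2

/-- positivity of a checked combination on the open simplex -/
theorem val_pos (L : List Lm) (hL : ∀ l ∈ L, wt l ≤ 10) (E : List (ℕ × ℕ))
    (h : posCheck (L.map NL) (L.map G1) E = true) (f : Fin 4 → ℝ) (hf : ∀ i, 0 < f i)
    (hfs : ∑ i, f i = 1) : 0 ≤ val E L (pf f) := by
  obtain ⟨a, b, c, ha, hb, hc, hs, hgg⟩ := chamber f hf hfs
  have h1 := posCheck_sound L hL E (by rw [NLf_eq, G1f_eq]; exact h) a b c ha hb hc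
  have h2 : 0 ≤ val E L (fun l => gg l a b c) := by rw [val_eq]; linarith
  rw [val_congr (fun l => gg l a b c) (fun l => (sv a b c) ^ 10 * pf f l) E L
    (fun l hl => hgg l (hL l hl)), val_smul] at h2
  have h3 : 0 < sv a b c ^ 10 := by positivity
  exact nonneg_of_mul_nonneg_right h2 h3

lemma valW_pf (k s : ℝ) (f : Fin 4 → ℝ) (w : ℕ → ℝ) (u : ℝ)
    (hw : ∀ m ≤ 9, w m = u * s ^ m) : ∀ (C : List (ℕ × ℕ)) (L : List Lm), (∀ l ∈ L, wt l ≤ 9) →
    valW C L w (fun l => k * pf f l) = u * k * val C L (pf fun i => s * f i)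
  | [], _, _ => by simp [valW, val]
  | _ :: _, [], _ => by simp [valW, val]
  | c :: cs, l :: ls, h => by
    simp only [valW, val, valW_pf k s f w u hw cs ls (fun x hx => h x (by simp [hx])), pf_smul,
      hw (wt l) (h l (by simp))]
    ring

lemma valW_congrf (w : ℕ → ℝ) (f f' : Lm → ℝ) : ∀ (C : List (ℕ × ℕ)) (L : List Lm),
    (∀ l ∈ L, f l = f' l) → valW C L w f = valW C L w f'
  | [], _, _ => by simp [valW]
  | _ :: _, [], _ => by simp [valW]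
  | c :: cs, l :: ls, h => by
    simp only [valW, h l (by simp), valW_congrf w f f' cs ls (fun x hx => h x (by simp [hx]))]

/-- one-sided bound on one interval -/
theorem oneSided (L : List Lm) (hL : ∀ l ∈ L, wt l ≤ 9) (p q kA : ℕ) (hpq : p < q)
    (U C : List (ℕ × ℕ)) (sgn : ℕ × ℕ)
    (h : checkA (L.map NL) (L.map G1) p q kA U C L sgn = true)
    (f : Fin 4 → ℝ) (hf : ∀ i, 0 < f i) (hfs : ∑ i, f i = 1) (s : ℝ) (h1 : (p : ℝ) ≤ 4 * s)
    (h2 : 4 * s ≤ q) :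
    val C L (pf fun i => s * f i) ≤ zv sgn * (kA * s * val U L (pf f)) := by
  obtain ⟨a, b, c, ha, hb, hc, hs, hgg⟩ := chamber f hf hfs
  have hpq' : (0 : ℝ) < q - p := by
    have : (p : ℝ) < q := by exact_mod_cast hpq
    linarith
  set t : ℝ := (4 * s - p) / (q - p) with ht
  set h' : ℝ := (q - 4 * s) / (q - p) with hh
  have ht0 : 0 ≤ t := div_nonneg (by linarith) hpq'.le
  have hh0 : 0 ≤ h' := div_nonneg (by linarith) hpq'.le
  have hsum : h' + t = 1 := by rw [ht, hh]; field_simp; ring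
  have hlin : (p : ℝ) * h' + q * t = 4 * s := by rw [ht, hh]; field_simp; ring
  have key := checkA_sound L hL p q kA U C sgn h ha hb hc ht0 hh0
  have h4 : 4 * h' + 4 * t = 4 := by linarith
  rw [hlin, h4] at key
  have hc1 : ∀ l ∈ L, gg l a b c = (sv a b c) ^ 10 * pf f l :=
    fun l hl => hgg l ((hL l hl).trans (by norm_num))
  rw [valW_congrf _ (fun l => gg l a b c) (fun l => (sv a b c) ^ 10 * pf f l) C L hc1,
    val_congr (fun l => gg l a b c) (fun l => (sv a b c) ^ 10 * pf f l) U L hc1, val_smul,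
    valW_pf ((sv a b c) ^ 10) s f _ ((4 : ℝ) ^ 9)
      (by
        intro m hm
        show (4 * s) ^ m * 4 ^ (9 - m) = _
        rw [mul_pow]
        have : (4 : ℝ) ^ m * 4 ^ (9 - m) = 4 ^ 9 := by rw [← pow_add]; congr 1; omega
        rw [← this]; ring) C L hL] at key
  have h3 : 0 < (4 : ℝ) ^ 9 * sv a b c ^ 10 := by positivity
  have h5 : (4 : ℝ) ^ 9 * sv a b c ^ 10 * val C L (pf fun i => s * f i) ≤
      (4 : ℝ) ^ 9 * sv a b c ^ 10 * (zv sgn * (kA * s * val U L (pf f))) := by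
    refine key.trans (le_of_eq ?_)
    ring
  exact le_of_mul_le_mul_left h5 h3

end Vale.Agent.P154.Q4
end

section

namespace Vale.Agent.P154.Q4

set_option maxRecDepth 100000 in
theorem chkX : allRows (LX.map NL) (LX.map G1) CX PX = true := by decide +kernel

set_option maxRecDepth 100000 in
theorem chkR : allRows (LR.map NL) (LR.map G1) CR PR = true := by decide +kernel

set_option maxRecDepth 100000 in
theorem chkRi : posCheck (LX.map NL) (LX.map G1) Ri = true := by decide +kernel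

set_option maxRecDepth 100000 in
theorem chkRho : posCheck (LX.map NL) (LX.map G1) Rho = true := by decide +kernel

theorem wtLX : ∀ l ∈ LX, wt l ≤ 9 := by decide +kernel

theorem g1LX : ∀ l ∈ LX, G1 l < 2 ^ 120 := by decide +kernel

end Vale.Agent.P154.Q4
end

section

namespace Vale.Agent.P154.Q4

set_option maxRecDepth 100000 in
theorem chkAX1 : checkA (LX.map NL) (LX.map G1) 0 1 160000000 Xi CX LX (1, 0) = true := by
  decide +kernel

set_option maxRecDepth 100000 in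
theorem chkAX2 : checkA (LX.map NL) (LX.map G1) 1 2 160000000 Xi CX LX (1, 0) = true := by
  decide +kernel

set_option maxRecDepth 100000 in
theorem chkAX3 : checkA (LX.map NL) (LX.map G1) 2 4 160000000 Xi CX LX (1, 0) = true := by
  decide +kernel

set_option maxRecDepth 100000 in
theorem chkAR1 : checkA (LR.map NL) (LR.map G1) 0 1 30000000 R1i CR LR (0, 1) = true := by
  decide +kernel

set_option maxRecDepth 100000 in
theorem chkAR2 : checkA (LR.map NL) (LR.map G1) 1 2 30000000 R1i CR LR (0, 1) = true := by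
  decide +kernel

set_option maxRecDepth 100000 in
theorem chkAR3 : checkA (LR.map NL) (LR.map G1) 2 4 30000000 R1i CR LR (0, 1) = true := by
  decide +kernel

end Vale.Agent.P154.Q4
end

section

/-!
# P154: kernel-checked nonnegativity certificates for polynomials in two variables

A polynomial is a matrix of integers as in `AFBern`.  A certificate writes a positive multiple of
it as a sum of products of nonnegative factors with natural number coefficients.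
-/

namespace Vale.Agent.P154.Bern

/-- Horner scheme: `p₀ + F (p₁ + F (p₂ + ...))` -/
def horP (F : List (List ℤ)) : List (List (List ℤ)) → List (List ℤ)
  | [] => []
  | p :: l => addP p (mulP F (horP F l))

def natP (n : ℕ) : List (List ℤ) := [[Int.ofNat n]]

/-- `∑ A i j k * q0 ^ i * q1 ^ j * q2 ^ k` -/
def triP (q0 q1 q2 : List (List ℤ)) (A : List (List (List ℕ))) : List (List ℤ) :=
  horP q0 (A.map fun B => horP q1 (B.map fun C => horP q2 (C.map natP)))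

def certP (q0 q1 q2 : List (List ℤ)) :
    List (List (List ℤ) × List (List (List ℕ))) → List (List ℤ)
  | [] => []
  | t :: l => addP (mulP t.1 (triP q0 q1 q2 t.2)) (certP q0 q1 q2 l)

def zeroM : List (List ℤ) → Bool
  | [] => true
  | r :: P => and (zeroRow r) (zeroM P)

section
variable {x y : ℝ}

theorem evP_zeroM : ∀ {P : List (List ℤ)}, zeroM P = true → evP P x 1 y 1 = 0
  | [], _ => rfl
  | r :: P, h => by
    have h2 := (Bool.and_eq_true _ _).mp h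
    rw [evP_cons, evP_zeroM h2.2, evR_zeroRow y h2.1]; ring

theorem horP_nonneg {F : List (List ℤ)} (hF : 0 ≤ evP F x 1 y 1) :
    ∀ l : List (List (List ℤ)), (∀ p ∈ l, 0 ≤ evP p x 1 y 1) → 0 ≤ evP (horP F l) x 1 y 1
  | [], _ => le_rfl
  | p :: l, h => by
    rw [horP, evP_addP, evP_mulP]
    exact add_nonneg (h p (by simp)) (mul_nonneg hF (horP_nonneg hF l fun q hq => h q (by simp [hq])))

theorem natP_nonneg (n : ℕ) : 0 ≤ evP (natP n) x 1 y 1 := by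
  rw [natP, evP_cons, evP_nil, evR_cons, evR_nil]
  have : 0 ≤ zr (Int.ofNat n) := by unfold zr; exact Int.cast_nonneg (Int.natCast_nonneg n)
  simpa using this

theorem triP_nonneg {q0 q1 q2 : List (List ℤ)} (h0 : 0 ≤ evP q0 x 1 y 1)
    (h1 : 0 ≤ evP q1 x 1 y 1) (h2 : 0 ≤ evP q2 x 1 y 1) (A : List (List (List ℕ))) :
    0 ≤ evP (triP q0 q1 q2 A) x 1 y 1 := by
  refine horP_nonneg h0 _ fun p hp => ?_
  obtain ⟨B, _, rfl⟩ := List.mem_map.1 hp
  refine horP_nonneg h1 _ fun p hp => ?_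
  obtain ⟨C, _, rfl⟩ := List.mem_map.1 hp
  refine horP_nonneg h2 _ fun p hp => ?_
  obtain ⟨n, _, rfl⟩ := List.mem_map.1 hp
  exact natP_nonneg n

theorem certP_nonneg {q0 q1 q2 : List (List ℤ)} (h0 : 0 ≤ evP q0 x 1 y 1)
    (h1 : 0 ≤ evP q1 x 1 y 1) (h2 : 0 ≤ evP q2 x 1 y 1) :
    ∀ l : List (List (List ℤ) × List (List (List ℕ))), (∀ t ∈ l, 0 ≤ evP t.1 x 1 y 1) →
      0 ≤ evP (certP q0 q1 q2 l) x 1 y 1
  | [], _ => le_rfl
  | t :: l, h => by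
    rw [certP, evP_addP, evP_mulP]
    exact add_nonneg (mul_nonneg (h t (by simp)) (triP_nonneg h0 h1 h2 _))
      (certP_nonneg h0 h1 h2 l fun s hs => h s (by simp [hs]))

theorem evP_map_smulL (c : ℤ) : ∀ P : List (List ℤ),
    evP (P.map (smulL c)) x 1 y 1 = zr c * evP P x 1 y 1
  | [] => by rw [List.map_nil, evP_nil, mul_zero]
  | r :: P => by rw [List.map_cons, evP_cons, evP_cons, evR_smulL, evP_map_smulL c P]; ring

/-- the certificate test -/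
def tcheck (q0 q1 q2 : List (List ℤ)) (l : List (List (List ℤ) × List (List (List ℕ))))
    (D : ℕ) (P : List (List ℤ)) : Bool :=
  and (Nat.ble 1 D) (zeroM (addP (certP q0 q1 q2 l) (P.map (smulL (Int.neg (Int.ofNat D))))))

theorem tcheck_sound {q0 q1 q2 : List (List ℤ)}
    {l : List (List (List ℤ) × List (List (List ℕ)))} {D : ℕ} {P : List (List ℤ)}
    (h : tcheck q0 q1 q2 l D P = true) (h0 : 0 ≤ evP q0 x 1 y 1)
    (h1 : 0 ≤ evP q1 x 1 y 1) (h2 : 0 ≤ evP q2 x 1 y 1)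
    (hl : ∀ t ∈ l, 0 ≤ evP t.1 x 1 y 1) : 0 ≤ evP P x 1 y 1 := by
  have h3 := (Bool.and_eq_true _ _).mp h
  have hD : 1 ≤ D := Nat.le_of_ble_eq_true h3.1
  have h4 := evP_zeroM (x := x) (y := y) h3.2
  rw [evP_addP, evP_map_smulL] at h4
  have h5 := certP_nonneg h0 h1 h2 l hl
  have h6 : zr (Int.neg (Int.ofNat D)) = -(D : ℝ) := by
    unfold zr
    exact (Int.cast_neg _).trans (by simp)
  rw [h6] at h4
  have h7 : (0 : ℝ) < D := by exact_mod_cast hD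
  by_contra hn
  push Not at hn
  nlinarith

/-- value of a matrix with explicit entries -/
theorem zr_ofNat (n : ℕ) [n.AtLeastTwo] : zr (OfNat.ofNat n : ℤ) = (OfNat.ofNat n : ℝ) := by
  unfold zr
  exact Int.cast_ofNat n

end

end Vale.Agent.P154.Bern
end

section

/-!
# P154: three-point comparison, polynomial inequalities

Polynomial inequalities in `x = R(u)`, `s = T(u)` on the moment region
`1 - 3x + 2s ≥ 0`, `x ≥ s ≥ -x/2`, `s² ≤ x³`.
-/

set_option linter.unusedVariables false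

open Vale.Agent.P154.Bern

namespace Vale.Agent.P154.Cmp3

theorem Lp {x s a b : ℝ} (ha : 0 < a) (hab : a * b = 1) (hx : 0 ≤ x) (hd : 0 ≤ x^3 - s^2) :
    0 ≤ a*x + b*x^2 + 2*s := by
  have hb : 0 < b := by
    by_contra h
    push Not at h
    nlinarith only [ha, hab, h]
  have h1 : (2*s)^2 ≤ (a*x + b*x^2)^2 := by
    have e : (a*x + b*x^2)^2 = (a*x - b*x^2)^2 + 4*(a*b)*x^3 := by ring
    rw [e, hab]
    nlinarith only [sq_nonneg (a*x - b*x^2), hd]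
  have h2 : 0 ≤ a*x + b*x^2 := by positivity
  have h3 := abs_le_of_sq_le_sq' h1 h2
  linarith [h3.1]

theorem Lm {x s a b : ℝ} (ha : 0 < a) (hab : a * b = 1) (hx : 0 ≤ x) (hd : 0 ≤ x^3 - s^2) :
    0 ≤ a*x + b*x^2 - 2*s := by
  have h := Lp (s := -s) ha hab hx (by rw [neg_sq]; exact hd)
  linarith

theorem one_nn {x s : ℝ} : 0 ≤ evP [[1]] x 1 s 1 := by
  have e : evP [[1]] x 1 s 1 = 1 := by
    simp only [evP_cons, evP_nil, evR_cons, evR_nil, zr]; push_cast; ring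
  rw [e]; exact zero_le_one

theorem fac0 {x s : ℝ} (h : 0 ≤ x^3 - s^2) : 0 ≤ evP [[0, 0, -1], [], [], [1]] x 1 s 1 := by
  have e : evP [[0, 0, -1], [], [], [1]] x 1 s 1 = 1 * (x^3 - s^2) := by
    simp only [evP_cons, evP_nil, evR_cons, evR_nil, zr]; push_cast; ring
  rw [e]; exact mul_nonneg (by norm_num) h

theorem fac1 {x s : ℝ} (h : 0 ≤ 1 - 3*x + 2*s) : 0 ≤ evP [[1, 2], [-3]] x 1 s 1 := by
  have e : evP [[1, 2], [-3]] x 1 s 1 = 1 * (1 - 3*x + 2*s) := by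
    simp only [evP_cons, evP_nil, evR_cons, evR_nil, zr]; push_cast; ring
  rw [e]; exact mul_nonneg (by norm_num) h

theorem fac2 {x s : ℝ} (h : 0 ≤ 8/3*(x - s)) : 0 ≤ evP [[0, -1], [1]] x 1 s 1 := by
  have e : evP [[0, -1], [1]] x 1 s 1 = 3/8 * (8/3*(x - s)) := by
    simp only [evP_cons, evP_nil, evR_cons, evR_nil, zr]; push_cast; ring
  rw [e]; exact mul_nonneg (by norm_num) h

theorem fac3 {x s : ℝ} (h : 0 ≤ (x + 2*s)/3) : 0 ≤ evP [[0, 2], [1]] x 1 s 1 := by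
  have e : evP [[0, 2], [1]] x 1 s 1 = 3 * ((x + 2*s)/3) := by
    simp only [evP_cons, evP_nil, evR_cons, evR_nil, zr]; push_cast; ring
  rw [e]; exact mul_nonneg (by norm_num) h

theorem fac4 {x s : ℝ} (h : 0 ≤ 1/10*x + 10*x^2 + 2*s) : 0 ≤ evP [[0, 20], [1], [100]] x 1 s 1 := by
  have e : evP [[0, 20], [1], [100]] x 1 s 1 = 10 * (1/10*x + 10*x^2 + 2*s) := by
    simp only [evP_cons, evP_nil, evR_cons, evR_nil, zr]; push_cast; ring
  rw [e]; exact mul_nonneg (by norm_num) h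

theorem fac5 {x s : ℝ} (h : 0 ≤ 1/5*x + 5*x^2 + 2*s) : 0 ≤ evP [[0, 10], [1], [25]] x 1 s 1 := by
  have e : evP [[0, 10], [1], [25]] x 1 s 1 = 5 * (1/5*x + 5*x^2 + 2*s) := by
    simp only [evP_cons, evP_nil, evR_cons, evR_nil, zr]; push_cast; ring
  rw [e]; exact mul_nonneg (by norm_num) h

theorem fac6 {x s : ℝ} (h : 0 ≤ 1 - 10*x) : 0 ≤ evP [[1], [-10]] x 1 s 1 := by
  have e : evP [[1], [-10]] x 1 s 1 = 1 * (1 - 10*x) := by
    simp only [evP_cons, evP_nil, evR_cons, evR_nil, zr]; push_cast; ring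
  rw [e]; exact mul_nonneg (by norm_num) h

theorem fac7 {x s : ℝ} (h : 0 ≤ x - 1/10) : 0 ≤ evP [[-1], [10]] x 1 s 1 := by
  have e : evP [[-1], [10]] x 1 s 1 = 10 * (x - 1/10) := by
    simp only [evP_cons, evP_nil, evR_cons, evR_nil, zr]; push_cast; ring
  rw [e]; exact mul_nonneg (by norm_num) h

theorem fac8 {x s : ℝ} (h : 0 ≤ 1/3*x + 3*x^2 + 2*s) : 0 ≤ evP [[0, 6], [1], [9]] x 1 s 1 := by
  have e : evP [[0, 6], [1], [9]] x 1 s 1 = 3 * (1/3*x + 3*x^2 + 2*s) := by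
    simp only [evP_cons, evP_nil, evR_cons, evR_nil, zr]; push_cast; ring
  rw [e]; exact mul_nonneg (by norm_num) h

theorem fac9 {x s : ℝ} (h : 0 ≤ 1/8*x + 8*x^2 + 2*s) : 0 ≤ evP [[0, 16], [1], [64]] x 1 s 1 := by
  have e : evP [[0, 16], [1], [64]] x 1 s 1 = 8 * (1/8*x + 8*x^2 + 2*s) := by
    simp only [evP_cons, evP_nil, evR_cons, evR_nil, zr]; push_cast; ring
  rw [e]; exact mul_nonneg (by norm_num) h

theorem fac10 {x s : ℝ} (h : 0 ≤ 1/10*x + 10*x^2 - 2*s) : 0 ≤ evP [[0, -20], [1], [100]] x 1 s 1 := by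
  have e : evP [[0, -20], [1], [100]] x 1 s 1 = 10 * (1/10*x + 10*x^2 - 2*s) := by
    simp only [evP_cons, evP_nil, evR_cons, evR_nil, zr]; push_cast; ring
  rw [e]; exact mul_nonneg (by norm_num) h

theorem fac11 {x s : ℝ} (h : 0 ≤ 1/2*x + 2*x^2 - 2*s) : 0 ≤ evP [[0, -4], [1], [4]] x 1 s 1 := by
  have e : evP [[0, -4], [1], [4]] x 1 s 1 = 2 * (1/2*x + 2*x^2 - 2*s) := by
    simp only [evP_cons, evP_nil, evR_cons, evR_nil, zr]; push_cast; ring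
  rw [e]; exact mul_nonneg (by norm_num) h

theorem fac12 {x s : ℝ} (h : 0 ≤ 1/5*x + 5*x^2 - 2*s) : 0 ≤ evP [[0, -10], [1], [25]] x 1 s 1 := by
  have e : evP [[0, -10], [1], [25]] x 1 s 1 = 5 * (1/5*x + 5*x^2 - 2*s) := by
    simp only [evP_cons, evP_nil, evR_cons, evR_nil, zr]; push_cast; ring
  rw [e]; exact mul_nonneg (by norm_num) h

theorem a_001 {x s : ℝ} (h0 : 0 ≤ 1 - 3*x + 2*s) (h1 : 0 ≤ x - s) (h2 : 0 ≤ x + 2*s) (hd : 0 ≤ x^3 - s^2) (hx : 0 ≤ x) :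
    0 ≤ 6*s + 8*x + 3*s^2 - 15*x*s - 22*x^2 + x*s^2 - 11*x^2*s + 30*x^3 := by
  have h := tcheck_sound (x := x) (y := s) (q0 := [[1, 2], [-3]]) (q1 := [[0, -1], [1]])
    (q2 := [[0, 2], [1]]) (l := [([[1]], [[[], [], [0, 99], [162]], [[0, 0, 1], [0, 121], [112]], [[0, 42], [30]]]),
      ([[0, 0, -1], [], [], [1]], [[[63]]])])
    (D := 9) (P := [[0, 6, 3], [8, -15, 1], [-22, -11], [30]])
    (by decide +kernel) (fac1 (by exact h0)) (fac2 (by linarith only [h1])) (fac3 (by linarith))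
    (List.forall_mem_cons.2 ⟨one_nn, List.forall_mem_cons.2 ⟨(fac0 (by exact hd)), List.forall_mem_nil _⟩⟩)
  refine le_of_le_of_eq h ?_
  simp only [evP_cons, evP_nil, evR_cons, evR_nil, zr]; push_cast; ring

theorem a_002 {x s : ℝ} (h0 : 0 ≤ 1 - 3*x + 2*s) (h1 : 0 ≤ x - s) (h2 : 0 ≤ x + 2*s) (hd : 0 ≤ x^3 - s^2) (hx : 0 ≤ x) :
    0 ≤ 3*s + 2*x - 3*s^2 - 9*x*s - x^2 + x*s^2 + 4*x^2*s + 3*x^3 := by
  have h := tcheck_sound (x := x) (y := s) (q0 := [[1, 2], [-3]]) (q1 := [[0, -1], [1]])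
    (q2 := [[0, 2], [1]]) (l := [([[1]], [[[], [], [0, 27], [18]], [[], [0, 23], [10]], [[0, 5], [1]]]),
      ([[0, 0, -1], [], [], [1]], [[[9]]])])
    (D := 3) (P := [[0, 3, -3], [2, -9, 1], [-1, 4], [3]])
    (by decide +kernel) (fac1 (by exact h0)) (fac2 (by linarith only [h1])) (fac3 (by linarith))
    (List.forall_mem_cons.2 ⟨one_nn, List.forall_mem_cons.2 ⟨(fac0 (by exact hd)), List.forall_mem_nil _⟩⟩)
  refine le_of_le_of_eq h ?_
  simp only [evP_cons, evP_nil, evR_cons, evR_nil, zr]; push_cast; ring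

theorem a_112 {x s : ℝ} (h0 : 0 ≤ 1 - 3*x + 2*s) (h1 : 0 ≤ x - s) (h2 : 0 ≤ x + 2*s) (hd : 0 ≤ x^3 - s^2) (hx : 0 ≤ x) :
    0 ≤ 224*s + 128*x - 292*s^2 - 616*x*s + 32*x^2 - 22*s^3 + 119*x*s^2 + 332*x^2*s + 24*x^3 - 13*x^2*s^2 + 12*x^3*s + 72*x^4 := by
  have h := tcheck_sound (x := x) (y := s) (q0 := [[1, 2], [-3]]) (q1 := [[0, -1], [1]])
    (q2 := [[0, 2], [1]]) (l := [([[1]], [[[], [], [0, 0, 6552], [0, 69984], [26244]], [[0, 0, 0, 1], [0, 0, 3886], [0, 72901], [22356]], [[0, 0, 540], [0, 25920], [5508]], [[0, 3168], [288]]]),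
      ([[0, 0, -1], [], [], [1]], [[[0, 2196]]])])
    (D := 27) (P := [[0, 224, -292, -22], [128, -616, 119], [32, 332, -13], [24, 12], [72]])
    (by decide +kernel) (fac1 (by exact h0)) (fac2 (by linarith only [h1])) (fac3 (by linarith))
    (List.forall_mem_cons.2 ⟨one_nn, List.forall_mem_cons.2 ⟨(fac0 (by exact hd)), List.forall_mem_nil _⟩⟩)
  refine le_of_le_of_eq h ?_
  simp only [evP_cons, evP_nil, evR_cons, evR_nil, zr]; push_cast; ring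

theorem a_012 {x s : ℝ} (h0 : 0 ≤ 1 - 3*x + 2*s) (h1 : 0 ≤ x - s) (h2 : 0 ≤ x + 2*s) (hd : 0 ≤ x^3 - s^2) (hx : 0 ≤ x) :
    0 ≤ 5184*s + 3328*x - 5508*s^2 - 16232*x*s - 2048*x^2 - 405*s^3 + 2745*x*s^2 + 11022*x^2*s + 4824*x^3 + 86*x*s^3 - 267*x^2*s^2 - 1791*x^3*s - 1458*x^4 + 2*x*s^4 - 13*x^2*s^3 - 36*x^3*s^2 + 189*x^4*s + 378*x^5 := by
  have h := tcheck_sound (x := x) (y := s) (q0 := [[1, 2], [-3]]) (q1 := [[0, -1], [1]])
    (q2 := [[0, 2], [1]]) (l := [([[1]], [[[], [], [0, 0, 0, 118089], [0, 0, 2716254], [0, 12479022], [5196312]], [[0, 0, 0, 0, 1], [0, 0, 0, 28429], [0, 0, 2534707], [0, 17627220], [6613488]], [[0, 0, 0, 3], [0, 0, 821577], [0, 9584895], [3047949]], [[0, 0, 92340], [0, 2383776], [592812]], [[0, 229824], [39744]]]),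
      ([[0, 0, -1], [], [], [1]], [[[0, 0, 39375]], [[0, 56889]]])])
    (D := 81) (P := [[0, 5184, -5508, -405], [3328, -16232, 2745, 86, 2], [-2048, 11022, -267, -13], [4824, -1791, -36], [-1458, 189], [378]])
    (by decide +kernel) (fac1 (by exact h0)) (fac2 (by linarith only [h1])) (fac3 (by linarith))
    (List.forall_mem_cons.2 ⟨one_nn, List.forall_mem_cons.2 ⟨(fac0 (by exact hd)), List.forall_mem_nil _⟩⟩)
  refine le_of_le_of_eq h ?_
  simp only [evP_cons, evP_nil, evR_cons, evR_nil, zr]; push_cast; ring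

theorem b_001 {x s : ℝ} (h0 : 0 ≤ 1 - 3*x + 2*s) (h1 : 0 ≤ x - s) (h2 : 0 ≤ x + 2*s) (hd : 0 ≤ x^3 - s^2) (hx : 0 ≤ x) :
    0 ≤ 8192 + 392512*s + 172928*x + 354383*s^2 - 1793096*x*s - 6712*x^2 + 62625*s^3 - 590000*x*s^2 + 1307000*x^2*s + 235500*x^3 + 1000*s^4 - 14875*x*s^3 + 66875*x^2*s^2 - 60000*x^3*s - 130500*x^4 := by
  have h := tcheck_sound (x := x) (y := s) (q0 := [[1, 2], [-3]]) (q1 := [[0, -1], [1]])
    (q2 := [[0, 2], [1]]) (l := [([[1]], [[[0, 0, 0, 0, 1944], [0, 0, 0, 66096], [0, 0, 6629760], [0, 75836412], [74047446]], [[0, 0, 0, 1], [0, 0, 4456213], [0, 84915055], [65852271]], [[0, 0, 900141], [0, 35064942], [17819133]], [[0, 5383872], [1939392]], [[221184]]]),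
      ([[0, 0, -1], [], [], [1]], [[[0, 1319742]]])])
    (D := 27) (P := [[8192, 392512, 354383, 62625, 1000], [172928, -1793096, -590000, -14875], [-6712, 1307000, 66875], [235500, -60000], [-130500]])
    (by decide +kernel) (fac1 (by exact h0)) (fac2 (by linarith only [h1])) (fac3 (by linarith))
    (List.forall_mem_cons.2 ⟨one_nn, List.forall_mem_cons.2 ⟨(fac0 (by exact hd)), List.forall_mem_nil _⟩⟩)
  refine le_of_le_of_eq h ?_
  simp only [evP_cons, evP_nil, evR_cons, evR_nil, zr]; push_cast; ring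

theorem b_011 {x s : ℝ} (h0 : 0 ≤ 1 - 3*x + 2*s) (h1 : 0 ≤ x - s) (h2 : 0 ≤ x + 2*s) (hd : 0 ≤ x^3 - s^2) (hx : 0 ≤ x) :
    0 ≤ 16384 + 393024*s + 169856*x + 352516*s^2 - 1778192*x*s - 36424*x^2 + 58500*s^3 - 549125*x*s^2 + 1178000*x^2*s + 361500*x^3 + 250*s^4 - 3250*x*s^3 + 3125*x^2*s^2 + 84000*x^3*s - 238500*x^4 := by
  have h := tcheck_sound (x := x) (y := s) (q0 := [[1, 2], [-3]]) (q1 := [[0, -1], [1]])
    (q2 := [[0, 2], [1]]) (l := [([[1]], [[[0, 0, 0, 0, 3888], [0, 0, 0, 132192], [0, 0, 7700904], [0, 80595324], [84125142]], [[0, 0, 0, 1], [0, 0, 5064928], [0, 89842609], [80553042]], [[0, 0, 974532], [0, 36879384], [26325516]], [[0, 5655744], [4238784]], [[442368]]]),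
      ([[0, 0, -1], [], [], [1]], [[[0, 1090350]]])])
    (D := 27) (P := [[16384, 393024, 352516, 58500, 250], [169856, -1778192, -549125, -3250], [-36424, 1178000, 3125], [361500, 84000], [-238500]])
    (by decide +kernel) (fac1 (by exact h0)) (fac2 (by linarith only [h1])) (fac3 (by linarith))
    (List.forall_mem_cons.2 ⟨one_nn, List.forall_mem_cons.2 ⟨(fac0 (by exact hd)), List.forall_mem_nil _⟩⟩)
  refine le_of_le_of_eq h ?_
  simp only [evP_cons, evP_nil, evR_cons, evR_nil, zr]; push_cast; ring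

theorem b_002_a {x s : ℝ} (h0 : 0 ≤ 1 - 3*x + 2*s) (h1 : 0 ≤ x - s) (h2 : 0 ≤ x + 2*s) (hd : 0 ≤ x^3 - s^2) (hx : 0 ≤ x) (hhi : 0 ≤ 1/10 - x) :
    0 ≤ 23*s + 2*x - 67*s^2 - 99*x*s + 77*x^2 + 8*s^3 + 37*x*s^2 + 34*x^2*s - 15*x^3 := by
  have h := tcheck_sound (x := x) (y := s) (q0 := [[1], [-10]]) (q1 := [[0, -1], [1]])
    (q2 := [[0, 2], [1]]) (l := [([[1]], [[[0, 0, 0, 2640], [0, 0, 16600], [0, 63280], [72640]], [[0, 0, 690], [0, 1140], [1500]], [[0, 135], [270]]]),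
      ([[0, 20], [1], [100]], [[[0, 2970], [3960]], [[729]]]),
      ([[0, 10], [1], [25]], [[], [[1026]]]),
      ([[0, 0, -1], [], [], [1]], [[[113940]]])])
    (D := 1080) (P := [[0, 23, -67, 8], [2, -99, 37], [77, 34], [-15]])
    (by decide +kernel) (fac6 (by linarith only [hhi])) (fac2 (by linarith only [h1])) (fac3 (by linarith only [h2]))
    (List.forall_mem_cons.2 ⟨one_nn, List.forall_mem_cons.2 ⟨(fac4 (by exact Lp (by norm_num) (by norm_num) hx hd)), List.forall_mem_cons.2 ⟨(fac5 (by exact Lp (by norm_num) (by norm_num) hx hd)), List.forall_mem_cons.2 ⟨(fac0 (by exact hd)), List.forall_mem_nil _⟩⟩⟩⟩)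
  refine le_of_le_of_eq h ?_
  simp only [evP_cons, evP_nil, evR_cons, evR_nil, zr]; push_cast; ring

theorem b_002_b {x s : ℝ} (h0 : 0 ≤ 1 - 3*x + 2*s) (h1 : 0 ≤ x - s) (h2 : 0 ≤ x + 2*s) (hd : 0 ≤ x^3 - s^2) (hx : 0 ≤ x) (hlo : 0 ≤ x - 1/10) :
    0 ≤ 23*s + 2*x - 67*s^2 - 99*x*s + 77*x^2 + 8*s^3 + 37*x*s^2 + 34*x^2*s - 15*x^3 := by
  have h := tcheck_sound (x := x) (y := s) (q0 := [[1, 2], [-3]]) (q1 := [[0, -1], [1]])
    (q2 := [[0, 2], [1]]) (l := [([[1]], [[[], [], [0, 99], [822]], [[0, 0, 350], [0, 1247], [308]], [[0, 375], [111]]]),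
      ([[0, 0, -1], [], [], [1]], [[[4905]]]),
      ([[-1], [10]], [[[], [], [672]], [[], [396]]])])
    (D := 45) (P := [[0, 23, -67, 8], [2, -99, 37], [77, 34], [-15]])
    (by decide +kernel) (fac1 (by exact h0)) (fac2 (by linarith only [h1])) (fac3 (by linarith only [h2]))
    (List.forall_mem_cons.2 ⟨one_nn, List.forall_mem_cons.2 ⟨(fac0 (by exact hd)), List.forall_mem_cons.2 ⟨(fac7 (by exact by linarith)), List.forall_mem_nil _⟩⟩⟩)
  refine le_of_le_of_eq h ?_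
  simp only [evP_cons, evP_nil, evR_cons, evR_nil, zr]; push_cast; ring

theorem b_002 {x s : ℝ} (h0 : 0 ≤ 1 - 3*x + 2*s) (h1 : 0 ≤ x - s) (h2 : 0 ≤ x + 2*s) (hd : 0 ≤ x^3 - s^2) (hx : 0 ≤ x) :
    0 ≤ 23*s + 2*x - 67*s^2 - 99*x*s + 77*x^2 + 8*s^3 + 37*x*s^2 + 34*x^2*s - 15*x^3 := by
  rcases le_total x (1/10) with h | h
  · exact b_002_a h0 h1 h2 hd hx (by linarith only [h])
  · exact b_002_b h0 h1 h2 hd hx (by linarith)

theorem b_022_a {x s : ℝ} (h0 : 0 ≤ 1 - 3*x + 2*s) (h1 : 0 ≤ x - s) (h2 : 0 ≤ x + 2*s) (hd : 0 ≤ x^3 - s^2) (hx : 0 ≤ x) (hhi : 0 ≤ 1/10 - x) :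
    0 ≤ 23*s + 2*x - 70*s^2 - 111*x*s + 65*x^2 + 2*s^3 + 22*x*s^2 + 46*x^2*s + 21*x^3 := by
  have h := tcheck_sound (x := x) (y := s) (q0 := [[1], [-10]]) (q1 := [[0, -1], [1]])
    (q2 := [[0, 2], [1]]) (l := [([[1]], [[[0, 0, 0, 1790], [0, 0, 24900], [0, 106380], [123160]], [[0, 0, 480], [0, 480], [1470]], [[0, 99], [198]]]),
      ([[0, 20], [1], [100]], [[[0, 5490], [7200]], [[945]]]),
      ([[0, 10], [1], [25]], [[], [[3078]]]),
      ([[0, 0, -1], [], [], [1]], [[[229230]]])])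
    (D := 2160) (P := [[0, 23, -70, 2], [2, -111, 22], [65, 46], [21]])
    (by decide +kernel) (fac6 (by linarith only [hhi])) (fac2 (by linarith only [h1])) (fac3 (by linarith only [h2]))
    (List.forall_mem_cons.2 ⟨one_nn, List.forall_mem_cons.2 ⟨(fac4 (by exact Lp (by norm_num) (by norm_num) hx hd)), List.forall_mem_cons.2 ⟨(fac5 (by exact Lp (by norm_num) (by norm_num) hx hd)), List.forall_mem_cons.2 ⟨(fac0 (by exact hd)), List.forall_mem_nil _⟩⟩⟩⟩)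
  refine le_of_le_of_eq h ?_
  simp only [evP_cons, evP_nil, evR_cons, evR_nil, zr]; push_cast; ring

theorem b_022_b {x s : ℝ} (h0 : 0 ≤ 1 - 3*x + 2*s) (h1 : 0 ≤ x - s) (h2 : 0 ≤ x + 2*s) (hd : 0 ≤ x^3 - s^2) (hx : 0 ≤ x) (hlo : 0 ≤ x - 1/10) :
    0 ≤ 23*s + 2*x - 70*s^2 - 111*x*s + 65*x^2 + 2*s^3 + 22*x*s^2 + 46*x^2*s + 21*x^3 := by
  have h := tcheck_sound (x := x) (y := s) (q0 := [[1, 2], [-3]]) (q1 := [[0, -1], [1]])
    (q2 := [[0, 2], [1]]) (l := [([[1]], [[[], [], [0, 93], [694]], [[0, 0, 205], [0, 1033], [243]], [[0, 375], [99]]]),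
      ([[0, 0, -1], [], [], [1]], [[[4815]]]),
      ([[-1], [10]], [[[], [], [704]], [[], [384]]])])
    (D := 45) (P := [[0, 23, -70, 2], [2, -111, 22], [65, 46], [21]])
    (by decide +kernel) (fac1 (by exact h0)) (fac2 (by linarith only [h1])) (fac3 (by linarith only [h2]))
    (List.forall_mem_cons.2 ⟨one_nn, List.forall_mem_cons.2 ⟨(fac0 (by exact hd)), List.forall_mem_cons.2 ⟨(fac7 (by exact by linarith)), List.forall_mem_nil _⟩⟩⟩)
  refine le_of_le_of_eq h ?_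
  simp only [evP_cons, evP_nil, evR_cons, evR_nil, zr]; push_cast; ring

theorem b_022 {x s : ℝ} (h0 : 0 ≤ 1 - 3*x + 2*s) (h1 : 0 ≤ x - s) (h2 : 0 ≤ x + 2*s) (hd : 0 ≤ x^3 - s^2) (hx : 0 ≤ x) :
    0 ≤ 23*s + 2*x - 70*s^2 - 111*x*s + 65*x^2 + 2*s^3 + 22*x*s^2 + 46*x^2*s + 21*x^3 := by
  rcases le_total x (1/10) with h | h
  · exact b_022_a h0 h1 h2 hd hx (by linarith only [h])
  · exact b_022_b h0 h1 h2 hd hx (by linarith)

theorem b_112_a {x s : ℝ} (h0 : 0 ≤ 1 - 3*x + 2*s) (h1 : 0 ≤ x - s) (h2 : 0 ≤ x + 2*s) (hd : 0 ≤ x^3 - s^2) (hx : 0 ≤ x) (hhi : 0 ≤ 1/10 - x) :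
    0 ≤ 262144 + 42509312*s - 2795520*x - 241263552*s^2 - 171816192*x*s + 233440128*x^2 + 18239396*s^3 + 163432152*x*s^2 + 72818352*x^2*s - 117033120*x^3 - 807734*s^4 - 1918221*x*s^3 - 15680682*x^2*s^2 + 3444228*x^3*s + 22847184*x^4 + 52875*x^2*s^3 + 1680750*x^3*s^2 - 1093500*x^4*s - 6318000*x^5 := by
  have h := tcheck_sound (x := x) (y := s) (q0 := [[1], [-10]]) (q1 := [[0, -1], [1]])
    (q2 := [[0, 2], [1]]) (l := [([[1]], [[[0, 0, 0, 0, 0, 143073084375], [0, 0, 0, 0, 1737691997625], [0, 0, 0, 7080065125425], [0, 0, 12195042045975], [0, 7979320372500], [594260302500]], [[0, 0, 0, 0, 201379172625], [0, 0, 0, 1697106514275], [0, 0, 3837862034415], [0, 2505323746025], [13875662500]], [[0, 0, 0, 105989917500], [0, 0, 363680420940], [0, 140951751860], [41500]], [[0, 0, 19525954500], [0, 3240], [7534773360]], [[0, 1022750172], [864]], [[35389440]]]),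
      ([[0, 10], [1], [25]], [[], [[], [], [32736120000]], [[], [11820916440]], [[369325764]]])])
    (D := 135) (P := [[262144, 42509312, -241263552, 18239396, -807734], [-2795520, -171816192, 163432152, -1918221], [233440128, 72818352, -15680682, 52875], [-117033120, 3444228, 1680750], [22847184, -1093500], [-6318000]])
    (by decide +kernel) (fac6 (by linarith only [hhi])) (fac2 (by linarith only [h1])) (fac3 (by linarith only [h2]))
    (List.forall_mem_cons.2 ⟨one_nn, List.forall_mem_cons.2 ⟨(fac5 (by exact Lp (by norm_num) (by norm_num) hx hd)), List.forall_mem_nil _⟩⟩)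
  refine le_of_le_of_eq h ?_
  simp only [evP_cons, evP_nil, evR_cons, evR_nil, zr]; push_cast; ring

theorem b_112_b {x s : ℝ} (h0 : 0 ≤ 1 - 3*x + 2*s) (h1 : 0 ≤ x - s) (h2 : 0 ≤ x + 2*s) (hd : 0 ≤ x^3 - s^2) (hx : 0 ≤ x) (hlo : 0 ≤ x - 1/10) :
    0 ≤ 262144 + 42509312*s - 2795520*x - 241263552*s^2 - 171816192*x*s + 233440128*x^2 + 18239396*s^3 + 163432152*x*s^2 + 72818352*x^2*s - 117033120*x^3 - 807734*s^4 - 1918221*x*s^3 - 15680682*x^2*s^2 + 3444228*x^3*s + 22847184*x^4 + 52875*x^2*s^3 + 1680750*x^3*s^2 - 1093500*x^4*s - 6318000*x^5 := by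
  have h := tcheck_sound (x := x) (y := s) (q0 := [[1, 2], [-3]]) (q1 := [[0, -1], [1]])
    (q2 := [[0, 2], [1]]) (l := [([[1]], [[[], [], [0, 0, 0, 12968046090], [0, 0, 288456431220], [0, 1298576083500], [475522777980]], [[0, 0, 0, 0, 5], [0, 0, 0, 45], [0, 0, 192873323100], [0, 1418735915011], [312712662348]], [[0, 0, 0, 15], [0, 0, 32239835430], [0, 525374457090], [7668]], [[0, 0, 45], [0, 89549864190], [2925]], [[0, 5538309120], [1080]], [[106168320]]]),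
      ([[0, 0, -1], [], [], [1]], [[[0, 0, 4317958170], [0, 5533187040]], [[0, 21675313395]], [[7356018645]]]),
      ([[-1], [10]], [[], [[], [], [], [36036476928]], [[], [], [34583490720]], [[], [5077971000]]])])
    (D := 405) (P := [[262144, 42509312, -241263552, 18239396, -807734], [-2795520, -171816192, 163432152, -1918221], [233440128, 72818352, -15680682, 52875], [-117033120, 3444228, 1680750], [22847184, -1093500], [-6318000]])
    (by decide +kernel) (fac1 (by exact h0)) (fac2 (by linarith only [h1])) (fac3 (by linarith only [h2]))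
    (List.forall_mem_cons.2 ⟨one_nn, List.forall_mem_cons.2 ⟨(fac0 (by exact hd)), List.forall_mem_cons.2 ⟨(fac7 (by exact by linarith)), List.forall_mem_nil _⟩⟩⟩)
  refine le_of_le_of_eq h ?_
  simp only [evP_cons, evP_nil, evR_cons, evR_nil, zr]; push_cast; ring

theorem b_112 {x s : ℝ} (h0 : 0 ≤ 1 - 3*x + 2*s) (h1 : 0 ≤ x - s) (h2 : 0 ≤ x + 2*s) (hd : 0 ≤ x^3 - s^2) (hx : 0 ≤ x) :
    0 ≤ 262144 + 42509312*s - 2795520*x - 241263552*s^2 - 171816192*x*s + 233440128*x^2 + 18239396*s^3 + 163432152*x*s^2 + 72818352*x^2*s - 117033120*x^3 - 807734*s^4 - 1918221*x*s^3 - 15680682*x^2*s^2 + 3444228*x^3*s + 22847184*x^4 + 52875*x^2*s^3 + 1680750*x^3*s^2 - 1093500*x^4*s - 6318000*x^5 := by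
  rcases le_total x (1/10) with h | h
  · exact b_112_a h0 h1 h2 hd hx (by linarith only [h])
  · exact b_112_b h0 h1 h2 hd hx (by linarith)

theorem b_122_a {x s : ℝ} (h0 : 0 ≤ 1 - 3*x + 2*s) (h1 : 0 ≤ x - s) (h2 : 0 ≤ x + 2*s) (hd : 0 ≤ x^3 - s^2) (hx : 0 ≤ x) (hhi : 0 ≤ 1/10 - x) :
    0 ≤ 131072 + 42566656*s - 2549760*x - 254389776*s^2 - 206868096*x*s + 209960064*x^2 - 8005052*s^3 + 135000576*x*s^2 + 134068176*x^2*s - 47014560*x^3 - 807742*s^4 + 2455827*x*s^3 - 16500591*x^2*s^2 - 5304636*x^3*s + 22844592*x^4 - 129375*x^2*s^3 + 1954125*x^3*s^2 - 1093500*x^4*s - 6318000*x^5 := by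
  have h := tcheck_sound (x := x) (y := s) (q0 := [[1], [-10]]) (q1 := [[0, -1], [1]])
    (q2 := [[0, 2], [1]]) (l := [([[1]], [[[0, 0, 0, 0, 0, 81513135000], [0, 0, 0, 0, 1151551266300], [0, 0, 0, 4978166875920], [0, 0, 7453132552140], [0, 3088754312000], [373913482000]], [[0, 0, 0, 0, 127354015800], [0, 0, 0, 658572644460], [0, 0, 1149704563216], [0, 281105247460], [212800]], [[0, 0, 0, 23332883310], [0, 0, 31088291596], [0, 18104], [30720]], [[0, 0, 985], [0, 1678], [4888]], [[0, 282], [780]], [[14155776]]]),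
      ([[0, 6], [1], [9]], [[], [], [], [[157639896]]]),
      ([[0, 10], [1], [25]], [[], [], [], [[124170084]]]),
      ([[0, 16], [1], [64]], [[[], [], [], [50361144000]], [[], [0, 19527019500], [35105635800]], [[0, 1871192565], [5459516460]], [[150603678]]])])
    (D := 108) (P := [[131072, 42566656, -254389776, -8005052, -807742], [-2549760, -206868096, 135000576, 2455827], [209960064, 134068176, -16500591, -129375], [-47014560, -5304636, 1954125], [22844592, -1093500], [-6318000]])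
    (by decide +kernel) (fac6 (by linarith only [hhi])) (fac2 (by linarith only [h1])) (fac3 (by linarith only [h2]))
    (List.forall_mem_cons.2 ⟨one_nn, List.forall_mem_cons.2 ⟨(fac8 (by exact Lp (by norm_num) (by norm_num) hx hd)), List.forall_mem_cons.2 ⟨(fac5 (by exact Lp (by norm_num) (by norm_num) hx hd)), List.forall_mem_cons.2 ⟨(fac9 (by exact Lp (by norm_num) (by norm_num) hx hd)), List.forall_mem_nil _⟩⟩⟩⟩)
  refine le_of_le_of_eq h ?_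
  simp only [evP_cons, evP_nil, evR_cons, evR_nil, zr]; push_cast; ring

theorem b_122_b {x s : ℝ} (h0 : 0 ≤ 1 - 3*x + 2*s) (h1 : 0 ≤ x - s) (h2 : 0 ≤ x + 2*s) (hd : 0 ≤ x^3 - s^2) (hx : 0 ≤ x) (hlo : 0 ≤ x - 1/10) :
    0 ≤ 131072 + 42566656*s - 2549760*x - 254389776*s^2 - 206868096*x*s + 209960064*x^2 - 8005052*s^3 + 135000576*x*s^2 + 134068176*x^2*s - 47014560*x^3 - 807742*s^4 + 2455827*x*s^3 - 16500591*x^2*s^2 - 5304636*x^3*s + 22844592*x^4 - 129375*x^2*s^3 + 1954125*x^3*s^2 - 1093500*x^4*s - 6318000*x^5 := by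
  have h := tcheck_sound (x := x) (y := s) (q0 := [[1, 2], [-3]]) (q1 := [[0, -1], [1]])
    (q2 := [[0, 2], [1]]) (l := [([[1]], [[[], [], [0, 0, 0, 9971604585], [0, 0, 228428398980], [0, 1296981760500], [470931127740]], [[0, 0, 0, 0, 5], [0, 0, 0, 25], [0, 0, 130168402720], [0, 1286909041607], [158060601216]], [[0, 0, 0, 15], [0, 0, 7926868950], [0, 458498440050], [7236]], [[0, 0, 45], [0, 76092770430], [2925]], [[0, 5490754560], [1080]], [[53084160]]]),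
      ([[0, 0, -1], [], [], [1]], [[[0, 0, 7307313795], [0, 65376986400]], [[0, 40288345515]], [[36417399525]]]),
      ([[-1], [10]], [[], [[], [], [], [69352310016]], [[], [], [38763228960]], [[], [5727146040]]])])
    (D := 405) (P := [[131072, 42566656, -254389776, -8005052, -807742], [-2549760, -206868096, 135000576, 2455827], [209960064, 134068176, -16500591, -129375], [-47014560, -5304636, 1954125], [22844592, -1093500], [-6318000]])
    (by decide +kernel) (fac1 (by exact h0)) (fac2 (by linarith only [h1])) (fac3 (by linarith only [h2]))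
    (List.forall_mem_cons.2 ⟨one_nn, List.forall_mem_cons.2 ⟨(fac0 (by exact hd)), List.forall_mem_cons.2 ⟨(fac7 (by exact by linarith)), List.forall_mem_nil _⟩⟩⟩)
  refine le_of_le_of_eq h ?_
  simp only [evP_cons, evP_nil, evR_cons, evR_nil, zr]; push_cast; ring

theorem b_122 {x s : ℝ} (h0 : 0 ≤ 1 - 3*x + 2*s) (h1 : 0 ≤ x - s) (h2 : 0 ≤ x + 2*s) (hd : 0 ≤ x^3 - s^2) (hx : 0 ≤ x) :
    0 ≤ 131072 + 42566656*s - 2549760*x - 254389776*s^2 - 206868096*x*s + 209960064*x^2 - 8005052*s^3 + 135000576*x*s^2 + 134068176*x^2*s - 47014560*x^3 - 807742*s^4 + 2455827*x*s^3 - 16500591*x^2*s^2 - 5304636*x^3*s + 22844592*x^4 - 129375*x^2*s^3 + 1954125*x^3*s^2 - 1093500*x^4*s - 6318000*x^5 := by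
  rcases le_total x (1/10) with h | h
  · exact b_122_a h0 h1 h2 hd hx (by linarith)
  · exact b_122_b h0 h1 h2 hd hx (by linarith only [h])

theorem b_012 {x s : ℝ} (h0 : 0 ≤ 1 - 3*x + 2*s) (h1 : 0 ≤ x - s) (h2 : 0 ≤ x + 2*s) (hd : 0 ≤ x^3 - s^2) (hx : 0 ≤ x) :
    0 ≤ 262144 + 142989312*s + 8212480*x - 504011552*s^2 - 668712192*x*s + 533456128*x^2 + 24822396*s^3 + 425280152*x*s^2 + 535582352*x^2*s - 318105120*x^3 + 1441641*s^4 + 2653529*x*s^3 - 95997432*x^2*s^2 - 167564772*x^3*s + 40208184*x^4 + 71750*s^5 - 342000*x*s^4 - 2401375*x^2*s^3 + 7891875*x^3*s^2 + 28161000*x^4*s + 9976500*x^5 + 500*s^6 - 3500*x*s^5 - 24125*x^2*s^4 + 165000*x^3*s^3 + 334125*x^4*s^2 - 1633500*x^5*s - 2713500*x^6 := by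
  have h := tcheck_sound (x := x) (y := s) (q0 := [[1, 2], [-3]]) (q1 := [[0, -1], [1]])
    (q2 := [[0, 2], [1]]) (l := [([[1]], [[[], [], [0, 0, 0, 0, 30588372990], [0, 0, 0, 1640021610420], [0, 0, 16213251629160], [0, 51625804949460], [20665869817680]], [[0, 0, 0, 0, 0, 5], [0, 0, 0, 0, 120], [0, 0, 0, 957887611530], [0, 0, 18751720506430], [0, 80687650916880], [28204852871340]], [[0, 0, 0, 0, 30], [0, 0, 0, 43144793310], [0, 0, 7061181822930], [0, 49261267177110], [12493122004530]], [[0, 0, 0, 90], [0, 0, 684], [0, 8730157713480], [120526958664]], [[0, 0, 405], [0, 235298276622], [17064]], [[0, 810], [6480]], [[637009920]]]),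
      ([[0, -20], [1], [100]], [[], [], [[], [0, 945052920]]]),
      ([[0, -4], [1], [4]], [[], [[0, 0, 0, 21255467985]], [[0, 0, 46531927575]], [[0, 117281141325]]]),
      ([[0, 20], [1], [100]], [[], [], [], [], [[2559493728]]]),
      ([[0, 10], [1], [25]], [[], [], [], [[], [257268226464]], [[28863003942]]]),
      ([[0, 0, -1], [], [], [1]], [[[0, 0, 0, 38527300530], [0, 0, 174484481760]]])])
    (D := 2430) (P := [[262144, 142989312, -504011552, 24822396, 1441641, 71750, 500], [8212480, -668712192, 425280152, 2653529, -342000, -3500], [533456128, 535582352, -95997432, -2401375, -24125], [-318105120, -167564772, 7891875, 165000], [40208184, 28161000, 334125], [9976500, -1633500], [-2713500]])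
    (by decide +kernel) (fac1 (by exact h0)) (fac2 (by linarith only [h1])) (fac3 (by linarith))
    (List.forall_mem_cons.2 ⟨one_nn, List.forall_mem_cons.2 ⟨(fac10 (by exact Lm (by norm_num) (by norm_num) hx hd)), List.forall_mem_cons.2 ⟨(fac11 (by exact Lm (by norm_num) (by norm_num) hx hd)), List.forall_mem_cons.2 ⟨(fac4 (by exact Lp (by norm_num) (by norm_num) hx hd)), List.forall_mem_cons.2 ⟨(fac5 (by exact Lp (by norm_num) (by norm_num) hx hd)), List.forall_mem_cons.2 ⟨(fac0 (by exact hd)), List.forall_mem_nil _⟩⟩⟩⟩⟩⟩)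
  refine le_of_le_of_eq h ?_
  simp only [evP_cons, evP_nil, evR_cons, evR_nil, zr]; push_cast; ring

theorem c_001 {x s : ℝ} (h0 : 0 ≤ 1 - 3*x + 2*s) (h1 : 0 ≤ x - s) (h2 : 0 ≤ x + 2*s) (hd : 0 ≤ x^3 - s^2) (hx : 0 ≤ x) :
    0 ≤ 620*s + 800*x + 279*s^2 - 1599*x*s - 2140*x^2 + 81*x*s^2 - 981*x^2*s + 2940*x^3 := by
  have h := tcheck_sound (x := x) (y := s) (q0 := [[1, 2], [-3]]) (q1 := [[0, -1], [1]])
    (q2 := [[0, 2], [1]]) (l := [([[1]], [[[], [], [0, 11337], [16554]], [[0, 0, 1], [0, 12721], [11218]], [[0, 4260], [2940]]]),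
      ([[0, 0, -1], [], [], [1]], [[[5589]]])])
    (D := 9) (P := [[0, 620, 279], [800, -1599, 81], [-2140, -981], [2940]])
    (by decide +kernel) (fac1 (by exact h0)) (fac2 (by linarith only [h1])) (fac3 (by linarith))
    (List.forall_mem_cons.2 ⟨one_nn, List.forall_mem_cons.2 ⟨(fac0 (by exact hd)), List.forall_mem_nil _⟩⟩)
  refine le_of_le_of_eq h ?_
  simp only [evP_cons, evP_nil, evR_cons, evR_nil, zr]; push_cast; ring

theorem c_002 {x s : ℝ} (h0 : 0 ≤ 1 - 3*x + 2*s) (h1 : 0 ≤ x - s) (h2 : 0 ≤ x + 2*s) (hd : 0 ≤ x^3 - s^2) (hx : 0 ≤ x) :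
    0 ≤ 290*s + 200*x - 261*s^2 - 879*x*s - 130*x^2 + 81*x*s^2 + 369*x^2*s + 330*x^3 := by
  have h := tcheck_sound (x := x) (y := s) (q0 := [[1, 2], [-3]]) (q1 := [[0, -1], [1]])
    (q2 := [[0, 2], [1]]) (l := [([[1]], [[[], [], [0, 7647], [5394]], [[0, 0, 1], [0, 6601], [3028]], [[0, 1470], [330]]]),
      ([[0, 0, -1], [], [], [1]], [[[2619]]])])
    (D := 9) (P := [[0, 290, -261], [200, -879, 81], [-130, 369], [330]])
    (by decide +kernel) (fac1 (by exact h0)) (fac2 (by linarith only [h1])) (fac3 (by linarith))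
    (List.forall_mem_cons.2 ⟨one_nn, List.forall_mem_cons.2 ⟨(fac0 (by exact hd)), List.forall_mem_nil _⟩⟩)
  refine le_of_le_of_eq h ?_
  simp only [evP_cons, evP_nil, evR_cons, evR_nil, zr]; push_cast; ring

theorem c_112 {x s : ℝ} (h0 : 0 ≤ 1 - 3*x + 2*s) (h1 : 0 ≤ x - s) (h2 : 0 ≤ x + 2*s) (hd : 0 ≤ x^3 - s^2) (hx : 0 ≤ x) :
    0 ≤ 214400000*s + 128000000*x - 258238800*s^2 - 607128000*x*s + 3200000*x^2 - 14683518*s^3 + 96862959*x*s^2 + 315068400*x^2*s + 72312000*x^3 - 8404641*x^2*s^2 + 6123600*x^3*s + 52488000*x^4 := by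
  have h := tcheck_sound (x := x) (y := s) (q0 := [[1, 2], [-3]]) (q1 := [[0, -1], [1]])
    (q2 := [[0, 2], [1]]) (l := [([[1]], [[[], [], [0, 0, 6126346068], [0, 66431619384], [26757918708]], [[0, 0, 0, 1], [0, 0, 3577610634], [0, 69190306329], [23014907036]], [[0, 0, 495099600], [0, 24793648800], [5901651600]], [[0, 3081600000], [374400000]]]),
      ([[0, 0, -1], [], [], [1]], [[[0, 2048163840]]])])
    (D := 27) (P := [[0, 214400000, -258238800, -14683518], [128000000, -607128000, 96862959], [3200000, 315068400, -8404641], [72312000, 6123600], [52488000]])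
    (by decide +kernel) (fac1 (by exact h0)) (fac2 (by linarith only [h1])) (fac3 (by linarith))
    (List.forall_mem_cons.2 ⟨one_nn, List.forall_mem_cons.2 ⟨(fac0 (by exact hd)), List.forall_mem_nil _⟩⟩)
  refine le_of_le_of_eq h ?_
  simp only [evP_cons, evP_nil, evR_cons, evR_nil, zr]; push_cast; ring

theorem c_012 {x s : ℝ} (h0 : 0 ≤ 1 - 3*x + 2*s) (h1 : 0 ≤ x - s) (h2 : 0 ≤ x + 2*s) (hd : 0 ≤ x^3 - s^2) (hx : 0 ≤ x) :
    0 ≤ 249920000000*s + 166400000000*x - 242650260000*s^2 - 784842000000*x*s - 121120000000*x^2 - 13267949445*s^3 + 108081122850*x*s^2 + 484276689000*x^2*s + 270762720000*x^3 + 4782969*s^4 + 2413864071*x*s^3 - 8278046505*x^2*s^2 - 64402885350*x^3*s - 64132317000*x^4 + 43046721*x*s^4 - 306110016*x^2*s^3 - 980508645*x^3*s^2 + 5500414350*x^4*s + 12577437000*x^5 := by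
  have h := tcheck_sound (x := x) (y := s) (q0 := [[1, 2], [-3]]) (q1 := [[0, -1], [1]])
    (q2 := [[0, 2], [1]]) (l := [([[1]], [[[], [], [0, 0, 0, 5734003624062], [0, 0, 132072651909162], [0, 604564226599428], [265373504160294]], [[0, 0, 0, 0, 1], [0, 0, 0, 1360294383431], [0, 0, 123356432078520], [0, 851514732300029], [338294532145927]], [[0, 0, 0, 3], [0, 0, 40398969480429], [0, 463553025962133], [157516904877435]], [[0, 0, 4650009660000], [0, 115827646680000], [31452423660000]], [[0, 11240640000000], [2237760000000]]]),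
      ([[0, 0, -1], [], [], [1]], [[[0, 0, 1937215953054]], [[0, 2647733335092]]])])
    (D := 81) (P := [[0, 249920000000, -242650260000, -13267949445, 4782969], [166400000000, -784842000000, 108081122850, 2413864071, 43046721], [-121120000000, 484276689000, -8278046505, -306110016], [270762720000, -64402885350, -980508645], [-64132317000, 5500414350], [12577437000]])
    (by decide +kernel) (fac1 (by exact h0)) (fac2 (by linarith only [h1])) (fac3 (by linarith))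
    (List.forall_mem_cons.2 ⟨one_nn, List.forall_mem_cons.2 ⟨(fac0 (by exact hd)), List.forall_mem_nil _⟩⟩)
  refine le_of_le_of_eq h ?_
  simp only [evP_cons, evP_nil, evR_cons, evR_nil, zr]; push_cast; ring

theorem d_001 {x s : ℝ} (h0 : 0 ≤ 1 - 3*x + 2*s) (h1 : 0 ≤ x - s) (h2 : 0 ≤ x + 2*s) (hd : 0 ≤ x^3 - s^2) (hx : 0 ≤ x) :
    0 ≤ 118784000*s + 62720000*x + 92227437*s^2 - 516389160*x*s - 34695200*x^2 + 13414761*s^3 - 137613186*x*s^2 + 320964880*x^2*s + 116823600*x^3 + 157464*s^4 - 2565351*x*s^3 + 12389355*x^2*s^2 - 9768600*x^3*s - 36450000*x^4 := by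
  have h := tcheck_sound (x := x) (y := s) (q0 := [[1, 2], [-3]]) (q1 := [[0, -1], [1]])
    (q2 := [[0, 2], [1]]) (l := [([[1]], [[[], [], [0, 0, 1822047342], [0, 23087698260], [20324256270]], [[0, 0, 0, 1], [0, 0, 1215567937], [0, 25621287403], [16419639459]], [[0, 0, 256965231], [0, 10609317498], [3437906871]], [[0, 1633536000], [59904000]]]),
      ([[0, 0, -1], [], [], [1]], [[[0, 536506128]]])])
    (D := 27) (P := [[0, 118784000, 92227437, 13414761, 157464], [62720000, -516389160, -137613186, -2565351], [-34695200, 320964880, 12389355], [116823600, -9768600], [-36450000]])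
    (by decide +kernel) (fac1 (by exact h0)) (fac2 (by linarith only [h1])) (fac3 (by linarith))
    (List.forall_mem_cons.2 ⟨one_nn, List.forall_mem_cons.2 ⟨(fac0 (by exact hd)), List.forall_mem_nil _⟩⟩)
  refine le_of_le_of_eq h ?_
  simp only [evP_cons, evP_nil, evR_cons, evR_nil, zr]; push_cast; ring

theorem d_011 {x s : ℝ} (h0 : 0 ≤ 1 - 3*x + 2*s) (h1 : 0 ≤ x - s) (h2 : 0 ≤ x + 2*s) (hd : 0 ≤ x^3 - s^2) (hx : 0 ≤ x) :
    0 ≤ 118784000*s + 62720000*x + 91892826*s^2 - 513414840*x*s - 41304800*x^2 + 12686490*s^3 - 129742173*x*s^2 + 294157120*x^2*s + 144428400*x^3 + 39366*s^4 - 551124*x*s^3 + 302535*x^2*s^2 + 19780200*x^3*s - 59778000*x^4 := by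
  have h := tcheck_sound (x := x) (y := s) (q0 := [[1, 2], [-3]]) (q1 := [[0, -1], [1]])
    (q2 := [[0, 2], [1]]) (l := [([[1]], [[[], [], [0, 0, 1822047342], [0, 23087698260], [20324256270]], [[0, 0, 0, 1], [0, 0, 1193850298], [0, 25496586121], [16240632780]], [[0, 0, 245055558], [0, 10540932924], [3339741918]], [[0, 1633536000], [59904000]]]),
      ([[0, 0, -1], [], [], [1]], [[[0, 536506128]]])])
    (D := 27) (P := [[0, 118784000, 91892826, 12686490, 39366], [62720000, -513414840, -129742173, -551124], [-41304800, 294157120, 302535], [144428400, 19780200], [-59778000]])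
    (by decide +kernel) (fac1 (by exact h0)) (fac2 (by linarith only [h1])) (fac3 (by linarith))
    (List.forall_mem_cons.2 ⟨one_nn, List.forall_mem_cons.2 ⟨(fac0 (by exact hd)), List.forall_mem_nil _⟩⟩)
  refine le_of_le_of_eq h ?_
  simp only [evP_cons, evP_nil, evR_cons, evR_nil, zr]; push_cast; ring

theorem d_002 {x s : ℝ} (h0 : 0 ≤ 1 - 3*x + 2*s) (h1 : 0 ≤ x - s) (h2 : 0 ≤ x + 2*s) (hd : 0 ≤ x^3 - s^2) (hx : 0 ≤ x) :
    0 ≤ 3928000*s + 880000*x - 9179757*s^2 - 18287880*x*s + 8961800*x^2 + 2555199*s^3 + 13152366*x*s^2 + 13541840*x^2*s - 7173900*x^3 - 157464*s^4 - 1371249*x*s^3 - 3860055*x^2*s^2 - 3353400*x^3*s + 364500*x^4 := by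
  have h := tcheck_sound (x := x) (y := s) (q0 := [[1, 2], [-3]]) (q1 := [[0, -1], [1]])
    (q2 := [[0, 2], [1]]) (l := [([[1]], [[[], [], [0, 0, 38559000], [0, 1353445572], [751626930]], [[0, 0, 0, 1], [0, 0, 11], [0, 1007103917], [518909773]], [[0, 0, 3], [0, 205052718], [45879123]], [[0, 16442901], [72]]]),
      ([[0, 10], [1], [25]], [[], [], [[7317027]]]),
      ([[0, 0, -1], [], [], [1]], [[[0, 4609530], [99751968]], [[373622598]]])])
    (D := 27) (P := [[0, 3928000, -9179757, 2555199, -157464], [880000, -18287880, 13152366, -1371249], [8961800, 13541840, -3860055], [-7173900, -3353400], [364500]])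
    (by decide +kernel) (fac1 (by exact h0)) (fac2 (by linarith only [h1])) (fac3 (by linarith))
    (List.forall_mem_cons.2 ⟨one_nn, List.forall_mem_cons.2 ⟨(fac5 (by exact Lp (by norm_num) (by norm_num) hx hd)), List.forall_mem_cons.2 ⟨(fac0 (by exact hd)), List.forall_mem_nil _⟩⟩⟩)
  refine le_of_le_of_eq h ?_
  simp only [evP_cons, evP_nil, evR_cons, evR_nil, zr]; push_cast; ring

theorem d_022 {x s : ℝ} (h0 : 0 ≤ 1 - 3*x + 2*s) (h1 : 0 ≤ x - s) (h2 : 0 ≤ x + 2*s) (hd : 0 ≤ x^3 - s^2) (hx : 0 ≤ x) :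
    0 ≤ 3928000*s + 880000*x - 9435636*s^2 - 19425120*x*s + 7698200*x^2 + 2102490*s^3 + 12104793*x*s^2 + 15592760*x^2*s - 2411100*x^3 - 39366*s^4 - 629856*x*s^3 - 2905065*x^2*s^2 - 4908600*x^3*s - 2551500*x^4 := by
  have h := tcheck_sound (x := x) (y := s) (q0 := [[1, 2], [-3]]) (q1 := [[0, -1], [1]])
    (q2 := [[0, 2], [1]]) (l := [([[1]], [[[], [], [0, 0, 38559000], [0, 1193429388], [751626930]], [[0, 0, 0, 1], [0, 0, 6], [0, 861801834], [516372848]], [[0, 0, 3], [0, 172072758], [44741883]], [[0, 16442901], [72]]]),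
      ([[0, 10], [1], [25]], [[], [], [[7317027]]]),
      ([[0, 0, -1], [], [], [1]], [[[0, 4609530], [259768152]], [[445354011]]])])
    (D := 27) (P := [[0, 3928000, -9435636, 2102490, -39366], [880000, -19425120, 12104793, -629856], [7698200, 15592760, -2905065], [-2411100, -4908600], [-2551500]])
    (by decide +kernel) (fac1 (by exact h0)) (fac2 (by linarith only [h1])) (fac3 (by linarith))
    (List.forall_mem_cons.2 ⟨one_nn, List.forall_mem_cons.2 ⟨(fac5 (by exact Lp (by norm_num) (by norm_num) hx hd)), List.forall_mem_cons.2 ⟨(fac0 (by exact hd)), List.forall_mem_nil _⟩⟩⟩)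
  refine le_of_le_of_eq h ?_
  simp only [evP_cons, evP_nil, evR_cons, evR_nil, zr]; push_cast; ring

theorem d_112 {x s : ℝ} (h0 : 0 ≤ 1 - 3*x + 2*s) (h1 : 0 ≤ x - s) (h2 : 0 ≤ x + 2*s) (hd : 0 ≤ x^3 - s^2) (hx : 0 ≤ x) :
    0 ≤ 73072640000000000*s + 10649600000000000*x - 284005958400000000*s^2 - 320652364800000000*x*s + 253860352000000000*x^2 + 76123425520800000*s^3 + 400450649731200000*x*s^2 + 243231240640000000*x^2*s - 277064893440000000*x^3 - 4053820823168400*s^4 - 47103780456115200*x*s^3 - 145083593521656000*x^2*s^2 - 62084591652960000*x^3*s + 83148809212800000*x^4 + 104930256642390*s^5 + 646861856809905*x*s^4 + 3718957804260579*x^2*s^3 + 9981226613767860*x^3*s^2 - 2186150837763600*x^4*s - 16291004990400000*x^5 - 6676417286937*x^2*s^4 - 240595742938617*x^3*s^3 - 592029302322780*x^4*s^2 + 1277402836330800*x^5*s + 3099363912000000*x^6 := by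
  have h := tcheck_sound (x := x) (y := s) (q0 := [[1, 2], [-3]]) (q1 := [[0, -1], [1]])
    (q2 := [[0, 2], [1]]) (l := [([[1]], [[[], [], [0, 0, 0, 0, 4306584329533050285], [0, 0, 0, 220717506215192755200], [0, 0, 3047058124795179388800], [0, 12022925104505476357800], [4577785417311087546300]], [[0, 0, 0, 0, 0, 5], [0, 0, 0, 0, 25], [0, 0, 0, 139608672934768306675], [0, 0, 3724148450177464354205], [0, 19675958350430137975035], [6494028901189916917920]], [[0, 0, 0, 0, 15], [0, 0, 0, 2007602761181144130], [0, 0, 1385958047713864565685], [0, 12509768442212598180960], [3063556550881639770000]], [[0, 0, 0, 90], [0, 0, 2196], [0, 2811696107600951832330], [186197280509771981856]], [[], [0, 227789326547999952588], [7236]], [[0, 5076172799999995545], [3240]]]),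
      ([[0, -10], [1], [25]], [[], [], [[], [0, 3235047623676011160]], [[0, 7432526304000001620]]]),
      ([[0, 10], [1], [25]], [[], [], [], [[], [47140881228000004536]], [[7863091200000001215]]]),
      ([[0, 0, -1], [], [], [1]], [[[0, 0, 0, 483234805029693015], [0, 0, 19135135524341208600]], [[0, 0, 15460353506488446135]], [[0, 168828191114940026730]]])])
    (D := 1215) (P := [[0, 73072640000000000, -284005958400000000, 76123425520800000, -4053820823168400, 104930256642390], [10649600000000000, -320652364800000000, 400450649731200000, -47103780456115200, 646861856809905], [253860352000000000, 243231240640000000, -145083593521656000, 3718957804260579, -6676417286937], [-277064893440000000, -62084591652960000, 9981226613767860, -240595742938617], [83148809212800000, -2186150837763600, -592029302322780], [-16291004990400000, 1277402836330800], [3099363912000000]])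
    (by decide +kernel) (fac1 (by exact h0)) (fac2 (by linarith only [h1])) (fac3 (by linarith))
    (List.forall_mem_cons.2 ⟨one_nn, List.forall_mem_cons.2 ⟨(fac12 (by exact Lm (by norm_num) (by norm_num) hx hd)), List.forall_mem_cons.2 ⟨(fac5 (by exact Lp (by norm_num) (by norm_num) hx hd)), List.forall_mem_cons.2 ⟨(fac0 (by exact hd)), List.forall_mem_nil _⟩⟩⟩⟩)
  refine le_of_le_of_eq h ?_
  simp only [evP_cons, evP_nil, evR_cons, evR_nil, zr]; push_cast; ring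

theorem d_122 {x s : ℝ} (h0 : 0 ≤ 1 - 3*x + 2*s) (h1 : 0 ≤ x - s) (h2 : 0 ≤ x + 2*s) (hd : 0 ≤ x^3 - s^2) (hx : 0 ≤ x) :
    0 ≤ 73072640000000000*s + 10649600000000000*x - 293869503360000000*s^2 - 349877683200000000*x*s + 232211968000000000*x^2 + 58837562978400000*s^3 + 387577810267200000*x*s^2 + 316933163968000000*x^2*s - 195829332480000000*x^3 + 828633932031600*s^4 - 22782703372891200*x*s^3 - 135934807759524000*x^2*s^2 - 118956445633440000*x^3*s + 34277582332800000*x^4 + 104930256642390*s^5 - 12269535142095*x*s^4 + 1648379482691769*x^2*s^3 + 11651714892896670*x^3*s^2 + 2267239711676400*x^4*s - 16291004990400000*x^5 + 15569267191443*x^2*s^4 - 206328400686567*x^3*s^3 - 693483105777210*x^4*s^2 + 1277402836330800*x^5*s + 3099363912000000*x^6 := by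
  have h := tcheck_sound (x := x) (y := s) (q0 := [[1, 2], [-3]]) (q1 := [[0, -1], [1]])
    (q2 := [[0, 2], [1]]) (l := [([[1]], [[[], [], [0, 0, 0, 0, 4306584329533050285], [0, 0, 0, 203277992706942944640], [0, 0, 3047058124795179388800], [0, 12022925104505476357800], [4577785417311087546300]], [[0, 0, 0, 0, 0, 5], [0, 0, 0, 0, 15], [0, 0, 0, 93060195154004135295], [0, 0, 2707965415379692639795], [0, 19446882525328747926435], [6410610232026432326520]], [[0, 0, 0, 0, 15], [0, 0, 0, 330], [0, 0, 747112372893149253285], [0, 11533203908967509837160], [2964409604274720570000]], [[0, 0, 0, 90], [0, 0, 2196], [0, 2474275885070759832330], [139369459986179981856]], [[], [0, 196829287621199952588], [7236]], [[0, 5076172799999995545], [3240]]]),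
      ([[0, -10], [1], [25]], [[], [], [[], [0, 40147792253460011160]], [[0, 10165702435200001620]]]),
      ([[0, 10], [1], [25]], [[], [], [], [[], [49064957463600004536]], [[7863091200000001215]]]),
      ([[0, 0, -1], [], [], [1]], [[[0, 0, 0, 483234805029693015], [0, 0, 36574649032591019160]], [[0, 0, 23219870084130186135], [0, 835426875123368785800]], [[0, 260417943113292026730]]])])
    (D := 1215) (P := [[0, 73072640000000000, -293869503360000000, 58837562978400000, 828633932031600, 104930256642390], [10649600000000000, -349877683200000000, 387577810267200000, -22782703372891200, -12269535142095], [232211968000000000, 316933163968000000, -135934807759524000, 1648379482691769, 15569267191443], [-195829332480000000, -118956445633440000, 11651714892896670, -206328400686567], [34277582332800000, 2267239711676400, -693483105777210], [-16291004990400000, 1277402836330800], [3099363912000000]])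
    (by decide +kernel) (fac1 (by exact h0)) (fac2 (by linarith only [h1])) (fac3 (by linarith))
    (List.forall_mem_cons.2 ⟨one_nn, List.forall_mem_cons.2 ⟨(fac12 (by exact Lm (by norm_num) (by norm_num) hx hd)), List.forall_mem_cons.2 ⟨(fac5 (by exact Lp (by norm_num) (by norm_num) hx hd)), List.forall_mem_cons.2 ⟨(fac0 (by exact hd)), List.forall_mem_nil _⟩⟩⟩⟩)
  refine le_of_le_of_eq h ?_
  simp only [evP_cons, evP_nil, evR_cons, evR_nil, zr]; push_cast; ring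

theorem d_012 {x s : ℝ} (h0 : 0 ≤ 1 - 3*x + 2*s) (h1 : 0 ≤ x - s) (h2 : 0 ≤ x + 2*s) (hd : 0 ≤ x^3 - s^2) (hx : 0 ≤ x) :
    0 ≤ 101040128000000000000*s + 21217280000000000000*x - 272815909056000000000*s^2 - 496702087680000000000*x*s + 246955571200000000000*x^2 + 65373837651072000000*s^3 + 443703938889600000000*x*s^2 + 523650156870400000000*x^2*s - 285377677632000000000*x^3 - 1737318482322084000*s^4 - 44796483935699040000*x*s^3 - 217260811802718000000*x^2*s^2 - 249095473294320000000*x^3*s + 73046663136000000000*x^4 - 67864127608413459*s^5 - 527248046810548440*x*s^4 + 5657643719066188800*x^2*s^3 + 39234525373954170000*x^3*s^2 + 58476307257587880000*x^4*s + 4451843630977200000*x^5 - 2928898896840000*s^6 + 4696130242289637*x*s^5 + 173134712315776995*x^2*s^4 + 31188860304407100*x^3*s^3 - 3224105238197812500*x^4*s^2 - 7914848778833940000*x^5*s - 4513732805208600000*x^6 - 15251194969974*s^7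 + 61004779879896*x*s^6 + 1361310365838420*x^2*s^5 - 3617451646427475*x^3*s^4 - 40716924842677500*x^4*s^3 + 27275370976822500*x^5*s^2 + 459906862491900000*x^6*s + 575319426165000000*x^7 := by
  have h := tcheck_sound (x := x) (y := s) (q0 := [[1, 2], [-3]]) (q1 := [[0, -1], [1]])
    (q2 := [[0, 2], [1]]) (l := [([[1]], [[[], [], [0, 0, 0, 0, 0, 4027228362030026865585], [0, 0, 0, 0, 243512553111278969444970], [0, 0, 0, 4912957019764981206381000], [0, 0, 37610715349713792996541500], [0, 109952578528123320856495500], [45400502585521835643019650]], [[0, 0, 0, 0, 0, 0, 5], [0, 0, 0, 0, 0, 25], [0, 0, 0, 0, 128783351253425036186545], [0, 0, 0, 5600522963663471478431750], [0, 0, 61421718321570800145978450], [0, 221802952762204966429428555], [83164845519496485861029850]], [[0, 0, 0, 0, 0, 15], [0, 0, 0, 0, 105], [0, 0, 0, 1968998775543103381905255], [0, 0, 38889808004696935598032530], [0, 184640580379490737826612775],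 [57564224591227084622180685]], [[0, 0, 0, 0, 99], [0, 0, 0, 194660559888935130735930], [0, 0, 11681282841074954278240419], [0, 81341832148959886611120000], [17183845931227454699820000]], [[0, 0, 0, 216], [0, 0, 789376595989500799904016], [0, 15770318007465116159581944], [318839057422001279937792]], [[0, 0, 162], [0, 1329614973385559999850420], [26892]], [[0, 50634823679999999986635], [9720]]]),
      ([[0, -10], [1], [25]], [[], [], [], [[0, 0, 5641476518421760002984]], [[0, 7120309527360000004914]]]),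
      ([[0, 10], [1], [25]], [[], [], [], [], [[], [207822981151080000015552]], [[26702161920000000003645]]]),
      ([[0, 0, -1], [], [], [1]], [[[0, 0, 0, 0, 467689954717401163515], [0, 0, 0, 22431426147265330088280]], [[0, 0, 0, 16195499912103150838500], [0, 0, 112314721469553915106320]], [[0, 0, 183785615426970465268635]]])])
    (D := 3645) (P := [[0, 101040128000000000000, -272815909056000000000, 65373837651072000000, -1737318482322084000, -67864127608413459, -2928898896840000, -15251194969974], [21217280000000000000, -496702087680000000000, 443703938889600000000, -44796483935699040000, -527248046810548440, 4696130242289637, 61004779879896], [246955571200000000000, 523650156870400000000, -217260811802718000000, 5657643719066188800, 173134712315776995, 1361310365838420], [-285377677632000000000, -249095473294320000000, 39234525373954170000, 31188860304407100, -3617451646427475],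 [73046663136000000000, 58476307257587880000, -3224105238197812500, -40716924842677500], [4451843630977200000, -7914848778833940000, 27275370976822500], [-4513732805208600000, 459906862491900000], [575319426165000000]])
    (by decide +kernel) (fac1 (by exact h0)) (fac2 (by linarith only [h1])) (fac3 (by linarith))
    (List.forall_mem_cons.2 ⟨one_nn, List.forall_mem_cons.2 ⟨(fac12 (by exact Lm (by norm_num) (by norm_num) hx hd)), List.forall_mem_cons.2 ⟨(fac5 (by exact Lp (by norm_num) (by norm_num) hx hd)), List.forall_mem_cons.2 ⟨(fac0 (by exact hd)), List.forall_mem_nil _⟩⟩⟩⟩)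
  refine le_of_le_of_eq h ?_
  simp only [evP_cons, evP_nil, evR_cons, evR_nil, zr]; push_cast; ring

end Vale.Agent.P154.Cmp3
end

section

/-!
# P154: three-point comparison, expansion of the gap in the weights
-/

namespace Vale.Agent.P154.Cmp3

theorem nn {C D r : ℝ} (h : C * D = r) (hD : 0 < D) (hr : 0 ≤ r) : 0 ≤ C := by
  by_contra hc
  push Not at hc
  have := mul_neg_of_neg_of_pos hc hD
  linarith

def c001 (c1 c2 ε X P DE EE BE yE αE βE : ℝ) : ℝ :=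
    - c1*X^2*BE - 2*c1*X^2*yE + c1*X^2 - c1*X*DE + c1*X*BE + c1*X + c1*P*yE - c1*αE + 4*c2*P*DE
     - 6*c2*P*EE - c2*P*BE + 2*c2*P + c2*βE + ε

def c011 (c1 c2 ε X P DE EE BE yE αE βE : ℝ) : ℝ :=
    - c1*X^2*DE*BE - 2*c1*X^2*DE*yE + c1*X^2*DE - c1*X^2*BE + c1*X^2*yE^2 - 2*c1*X^2*yE + c1*X^2
     - c1*X*DE^2 + c1*X*DE*BE + c1*X*DE + c1*X*BE + c1*P*DE*yE - c1*P*yE^2 + c1*P*yE
     - 2*c1*DE*αE + c2*P*DE^2 + 2*c2*P*DE*BE + 2*c2*P*DE - 3*c2*P*EE^2 - 6*c2*P*EE*BE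
     + 2*c2*P*BE + 2*c2*DE*βE + 2*ε*DE

def c002 (c1 c2 X P DV EV BV yV αV βV : ℝ) : ℝ :=
    - c1*X^2*BV - 2*c1*X^2*yV + c1*X^2 - c1*X*DV + c1*X*BV + c1*X + c1*P*yV - c1*αV + 4*c2*P*DV
     - 6*c2*P*EV - c2*P*BV + 2*c2*P + c2*βV

def c022 (c1 c2 X P DV EV BV yV αV βV : ℝ) : ℝ :=
    - c1*X^2*DV*BV - 2*c1*X^2*DV*yV + c1*X^2*DV - c1*X^2*BV + c1*X^2*yV^2 - 2*c1*X^2*yV + c1*X^2
     - c1*X*DV^2 + c1*X*DV*BV + c1*X*DV + c1*X*BV + c1*P*DV*yV - c1*P*yV^2 + c1*P*yV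
     - 2*c1*DV*αV + c2*P*DV^2 + 2*c2*P*DV*BV + 2*c2*P*DV - 3*c2*P*EV^2 - 6*c2*P*EV*BV
     + 2*c2*P*BV + 2*c2*DV*βV

def c112 (c1 c2 ε X P DE DV EE EV BE BV yE yV αE βE αV βV : ℝ) : ℝ :=
    - c1*X^2*DE*BE - c1*X^2*DE*BV + 2*c1*X^2*DE*yE*yV - 2*c1*X^2*DE*yE - 2*c1*X^2*DE*yV
     + 2*c1*X^2*DE - c1*X^2*DV*BE + c1*X^2*DV*yE^2 - 2*c1*X^2*DV*yE + c1*X^2*DV + c1*X*DE*BE
     + c1*X*DE*BV + c1*X*DV*BE - 2*c1*P*DE*yE*yV + c1*P*DE*yE + c1*P*DE*yV - c1*P*DV*yE^2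
     + c1*P*DV*yE - c1*DE^2*αV - 2*c1*DE*DV*αE + 2*c2*P*DE*BE + 2*c2*P*DE*BV + 2*c2*P*DV*BE
     - 3*c2*P*EE^2*BV - 6*c2*P*EE*EV*BE + c2*DE^2*βV + 2*c2*DE*DV*βE + 2*ε*DE*DV

def c122 (c1 c2 ε X P DE DV EE EV BE BV yE yV αE βE αV βV : ℝ) : ℝ :=
    - c1*X^2*DE*BV + c1*X^2*DE*yV^2 - 2*c1*X^2*DE*yV + c1*X^2*DE - c1*X^2*DV*BE - c1*X^2*DV*BV
     + 2*c1*X^2*DV*yE*yV - 2*c1*X^2*DV*yE - 2*c1*X^2*DV*yV + 2*c1*X^2*DV + c1*X*DE*BV
     + c1*X*DV*BE + c1*X*DV*BV - c1*P*DE*yV^2 + c1*P*DE*yV - 2*c1*P*DV*yE*yV + c1*P*DV*yE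
     + c1*P*DV*yV - 2*c1*DE*DV*αV - c1*DV^2*αE + 2*c2*P*DE*BV + 2*c2*P*DV*BE + 2*c2*P*DV*BV
     - 6*c2*P*EE*EV*BV - 3*c2*P*EV^2*BE + 2*c2*DE*DV*βV + c2*DV^2*βE + ε*DV^2

def c012 (c1 c2 ε X P DE DV EE EV BE BV yE yV αE βE αV βV : ℝ) : ℝ :=
    - c1*X^2*DE*BV - 2*c1*X^2*DE*yV + c1*X^2*DE - c1*X^2*DV*BE - 2*c1*X^2*DV*yE + c1*X^2*DV
     - c1*X^2*BE - c1*X^2*BV + 2*c1*X^2*yE*yV - 2*c1*X^2*yE - 2*c1*X^2*yV + 2*c1*X^2
     - 2*c1*X*DE*DV + c1*X*DE*BV + c1*X*DE + c1*X*DV*BE + c1*X*DV + c1*X*BE + c1*X*BV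
     + c1*P*DE*yV + c1*P*DV*yE - 2*c1*P*yE*yV + c1*P*yE + c1*P*yV - 2*c1*DE*αV - 2*c1*DV*αE
     + 2*c2*P*DE*DV + 2*c2*P*DE*BV + 2*c2*P*DE + 2*c2*P*DV*BE + 2*c2*P*DV - 6*c2*P*EE*EV
     - 6*c2*P*EE*BV - 6*c2*P*EV*BE + 2*c2*P*BE + 2*c2*P*BV + 2*c2*DE*βV + 2*c2*DV*βE + 2*ε*DV

def c111 (c1 c2 ε X P DE EE BE yE αE βE : ℝ) : ℝ :=
    - c1*X^2*DE*BE + c1*X^2*DE*yE^2 - 2*c1*X^2*DE*yE + c1*X^2*DE + c1*X*DE*BE - c1*P*DE*yE^2
     + c1*P*DE*yE - c1*DE^2*αE + 2*c2*P*DE*BE - 3*c2*P*EE^2*BE + c2*DE^2*βE + ε*DE^2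

def c222 (c1 c2 X P DV EV BV yV αV βV : ℝ) : ℝ :=
    - c1*X^2*DV*BV + c1*X^2*DV*yV^2 - 2*c1*X^2*DV*yV + c1*X^2*DV + c1*X*DV*BV - c1*P*DV*yV^2
     + c1*P*DV*yV - c1*DV^2*αV + 2*c2*P*DV*BV - 3*c2*P*EV^2*BV + c2*DV^2*βV

/-- Expansion of the gap in the weights. -/
theorem expand (c1 c2 ε X P DE DV EE EV BE BV yE yV αE βE αV βV e f D0 E0 B0 y A0 : ℝ)
    (hD : D0 = (1 - e - f) + e*DE + f*DV) (hE : E0 = (1 - e - f) + e*EE + f*EV)
    (hB : B0 = (1 - e - f) + e*BE + f*BV) (hy : y = e*yE + f*yV)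
    (hA : A0 = X^2*(1 - y)^2 + X*(1 - X)*B0 + y*(1 - y)*P) :
    ((1 - e - f)*(-(c1*X) + c2*P) + e*(-(c1*αE) + c2*βE) + f*(-(c1*αV) + c2*βV) + ε*e)*D0^2
      + c1*A0*D0 - c2*(P*B0*(3*E0^2 - 2*D0))
    = (1 - e - f)^2*e*(c001 c1 c2 ε X P DE EE BE yE αE βE)
      + (1 - e - f)*e^2*(c011 c1 c2 ε X P DE EE BE yE αE βE)
      + (1 - e - f)^2*f*(c002 c1 c2 X P DV EV BV yV αV βV)
      + (1 - e - f)*f^2*(c022 c1 c2 X P DV EV BV yV αV βV)
      + e^2*f*(c112 c1 c2 ε X P DE DV EE EV BE BV yE yV αE βE αV βV)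
      + e*f^2*(c122 c1 c2 ε X P DE DV EE EV BE BV yE yV αE βE αV βV)
      + (1 - e - f)*e*f*(c012 c1 c2 ε X P DE DV EE EV BE BV yE yV αE βE αV βV)
      + e^3*(c111 c1 c2 ε X P DE EE BE yE αE βE)
      + f^3*(c222 c1 c2 X P DV EV BV yV αV βV) := by
  subst hA hy hB hE hD
  simp only [c001, c011, c002, c022, c112, c122, c012, c111, c222]
  ring

end Vale.Agent.P154.Cmp3
end

section

/-!
# P154: three-point comparison, coefficients (case a)
-/

set_option linter.unusedVariables false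

namespace Vale.Agent.P154.Cmp3

theorem a_c001_nn {x s αE βE αV βV : ℝ} (h0 : 0 ≤ 1 - 3*x + 2*s) (h1 : 0 ≤ x - s)
    (h2 : 0 ≤ x + 2*s) (hd : 0 ≤ x^3 - s^2) (hx : 0 ≤ x)
    (hDE : 0 < 1 + 1/32*s - 3/16*x) (hDV : 0 < 1 - 1/4*s - 3/4*x)
    (haE : αE*(1 + 1/32*s - 3/16*x) = ((1 - x)^2*(1 - (1/16))^2 + (1 - x)*(1 - (1 - x))*(27/32) + (1/16)*(1 - (1/16))*(1 - 3*x + 2*s)))
    (hbE : βE*(1 + 1/32*s - 3/16*x)^2 = (1 - 3*x + 2*s)*(27/32)*(3*(1 - 1/16*x)^2 - 2*(1 + 1/32*s - 3/16*x)))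
    (haV : αV*(1 - 1/4*s - 3/4*x) = ((1 - x)^2*(1 - (1/4))^2 + (1 - x)*(1 - (1 - x))*0 + (1/4)*(1 - (1/4))*(1 - 3*x + 2*s)))
    (hbV : βV*(1 - 1/4*s - 3/4*x)^2 = (1 - 3*x + 2*s)*0*(3*(1 - 1/4*x)^2 - 2*(1 - 1/4*s - 3/4*x))) :
    0 ≤ c001 1 0 0 (1 - x) (1 - 3*x + 2*s) (1 + 1/32*s - 3/16*x) (1 - 1/16*x) (27/32) (1/16) αE βE := by
  have e : (c001 1 0 0 (1 - x) (1 - 3*x + 2*s) (1 + 1/32*s - 3/16*x) (1 - 1/16*x) (27/32) (1/16) αE βE)*((1 + 1/32*s - 3/16*x)^2)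
      = (1/1024)*(6*s + 8*x + 3*s^2 - 15*x*s - 22*x^2 + x*s^2 - 11*x^2*s + 30*x^3)*(1 + 1/32*s - 3/16*x)^1 := by
    simp only [c001]
    linear_combination -(1)*(1)*(1 + 1/32*s - 3/16*x)*haE
      + (0)*(1)*hbE
  exact nn e (pow_pos hDE 2) (mul_nonneg (mul_nonneg (by norm_num) (a_001 h0 h1 h2 hd hx)) (pow_nonneg hDE.le _))

theorem a_c011_nn {x s αE βE αV βV : ℝ} (h0 : 0 ≤ 1 - 3*x + 2*s) (h1 : 0 ≤ x - s)
    (h2 : 0 ≤ x + 2*s) (hd : 0 ≤ x^3 - s^2) (hx : 0 ≤ x)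
    (hDE : 0 < 1 + 1/32*s - 3/16*x) (hDV : 0 < 1 - 1/4*s - 3/4*x)
    (haE : αE*(1 + 1/32*s - 3/16*x) = ((1 - x)^2*(1 - (1/16))^2 + (1 - x)*(1 - (1 - x))*(27/32) + (1/16)*(1 - (1/16))*(1 - 3*x + 2*s)))
    (hbE : βE*(1 + 1/32*s - 3/16*x)^2 = (1 - 3*x + 2*s)*(27/32)*(3*(1 - 1/16*x)^2 - 2*(1 + 1/32*s - 3/16*x)))
    (haV : αV*(1 - 1/4*s - 3/4*x) = ((1 - x)^2*(1 - (1/4))^2 + (1 - x)*(1 - (1 - x))*0 + (1/4)*(1 - (1/4))*(1 - 3*x + 2*s)))
    (hbV : βV*(1 - 1/4*s - 3/4*x)^2 = (1 - 3*x + 2*s)*0*(3*(1 - 1/4*x)^2 - 2*(1 - 1/4*s - 3/4*x))) :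
    0 ≤ c011 1 0 0 (1 - x) (1 - 3*x + 2*s) (1 + 1/32*s - 3/16*x) (1 - 1/16*x) (27/32) (1/16) αE βE := by
  have e : (c011 1 0 0 (1 - x) (1 - 3*x + 2*s) (1 + 1/32*s - 3/16*x) (1 - 1/16*x) (27/32) (1/16) αE βE)*((1 + 1/32*s - 3/16*x)^2)
      = (1/1024)*(6*s + 8*x + 3*s^2 - 15*x*s - 22*x^2 + x*s^2 - 11*x^2*s + 30*x^3)*(1 + 1/32*s - 3/16*x)^2 := by
    simp only [c011]
    linear_combination -(1)*(2*(1 + 1/32*s - 3/16*x))*(1 + 1/32*s - 3/16*x)*haE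
      + (0)*(2*(1 + 1/32*s - 3/16*x))*hbE
  exact nn e (pow_pos hDE 2) (mul_nonneg (mul_nonneg (by norm_num) (a_001 h0 h1 h2 hd hx)) (pow_nonneg hDE.le _))

theorem a_c002_nn {x s αE βE αV βV : ℝ} (h0 : 0 ≤ 1 - 3*x + 2*s) (h1 : 0 ≤ x - s)
    (h2 : 0 ≤ x + 2*s) (hd : 0 ≤ x^3 - s^2) (hx : 0 ≤ x)
    (hDE : 0 < 1 + 1/32*s - 3/16*x) (hDV : 0 < 1 - 1/4*s - 3/4*x)
    (haE : αE*(1 + 1/32*s - 3/16*x) = ((1 - x)^2*(1 - (1/16))^2 + (1 - x)*(1 - (1 - x))*(27/32) + (1/16)*(1 - (1/16))*(1 - 3*x + 2*s)))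
    (hbE : βE*(1 + 1/32*s - 3/16*x)^2 = (1 - 3*x + 2*s)*(27/32)*(3*(1 - 1/16*x)^2 - 2*(1 + 1/32*s - 3/16*x)))
    (haV : αV*(1 - 1/4*s - 3/4*x) = ((1 - x)^2*(1 - (1/4))^2 + (1 - x)*(1 - (1 - x))*0 + (1/4)*(1 - (1/4))*(1 - 3*x + 2*s)))
    (hbV : βV*(1 - 1/4*s - 3/4*x)^2 = (1 - 3*x + 2*s)*0*(3*(1 - 1/4*x)^2 - 2*(1 - 1/4*s - 3/4*x))) :
    0 ≤ c002 1 0 (1 - x) (1 - 3*x + 2*s) (1 - 1/4*s - 3/4*x) (1 - 1/4*x) 0 (1/4) αV βV := by
  have e : (c002 1 0 (1 - x) (1 - 3*x + 2*s) (1 - 1/4*s - 3/4*x) (1 - 1/4*x) 0 (1/4) αV βV)*((1 - 1/4*s - 3/4*x)^2)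
      = (1/16)*(3*s + 2*x - 3*s^2 - 9*x*s - x^2 + x*s^2 + 4*x^2*s + 3*x^3)*(1 - 1/4*s - 3/4*x)^1 := by
    simp only [c002]
    linear_combination -(1)*(1)*(1 - 1/4*s - 3/4*x)*haV
      + (0)*(1)*hbV
  exact nn e (pow_pos hDV 2) (mul_nonneg (mul_nonneg (by norm_num) (a_002 h0 h1 h2 hd hx)) (pow_nonneg hDV.le _))

theorem a_c022_nn {x s αE βE αV βV : ℝ} (h0 : 0 ≤ 1 - 3*x + 2*s) (h1 : 0 ≤ x - s)
    (h2 : 0 ≤ x + 2*s) (hd : 0 ≤ x^3 - s^2) (hx : 0 ≤ x)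
    (hDE : 0 < 1 + 1/32*s - 3/16*x) (hDV : 0 < 1 - 1/4*s - 3/4*x)
    (haE : αE*(1 + 1/32*s - 3/16*x) = ((1 - x)^2*(1 - (1/16))^2 + (1 - x)*(1 - (1 - x))*(27/32) + (1/16)*(1 - (1/16))*(1 - 3*x + 2*s)))
    (hbE : βE*(1 + 1/32*s - 3/16*x)^2 = (1 - 3*x + 2*s)*(27/32)*(3*(1 - 1/16*x)^2 - 2*(1 + 1/32*s - 3/16*x)))
    (haV : αV*(1 - 1/4*s - 3/4*x) = ((1 - x)^2*(1 - (1/4))^2 + (1 - x)*(1 - (1 - x))*0 + (1/4)*(1 - (1/4))*(1 - 3*x + 2*s)))
    (hbV : βV*(1 - 1/4*s - 3/4*x)^2 = (1 - 3*x + 2*s)*0*(3*(1 - 1/4*x)^2 - 2*(1 - 1/4*s - 3/4*x))) :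
    0 ≤ c022 1 0 (1 - x) (1 - 3*x + 2*s) (1 - 1/4*s - 3/4*x) (1 - 1/4*x) 0 (1/4) αV βV := by
  have e : (c022 1 0 (1 - x) (1 - 3*x + 2*s) (1 - 1/4*s - 3/4*x) (1 - 1/4*x) 0 (1/4) αV βV)*((1 - 1/4*s - 3/4*x)^2)
      = (1/16)*(3*s + 2*x - 3*s^2 - 9*x*s - x^2 + x*s^2 + 4*x^2*s + 3*x^3)*(1 - 1/4*s - 3/4*x)^2 := by
    simp only [c022]
    linear_combination -(1)*(2*(1 - 1/4*s - 3/4*x))*(1 - 1/4*s - 3/4*x)*haV
      + (0)*(2*(1 - 1/4*s - 3/4*x))*hbV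
  exact nn e (pow_pos hDV 2) (mul_nonneg (mul_nonneg (by norm_num) (a_002 h0 h1 h2 hd hx)) (pow_nonneg hDV.le _))

theorem a_c112_nn {x s αE βE αV βV : ℝ} (h0 : 0 ≤ 1 - 3*x + 2*s) (h1 : 0 ≤ x - s)
    (h2 : 0 ≤ x + 2*s) (hd : 0 ≤ x^3 - s^2) (hx : 0 ≤ x)
    (hDE : 0 < 1 + 1/32*s - 3/16*x) (hDV : 0 < 1 - 1/4*s - 3/4*x)
    (haE : αE*(1 + 1/32*s - 3/16*x) = ((1 - x)^2*(1 - (1/16))^2 + (1 - x)*(1 - (1 - x))*(27/32) + (1/16)*(1 - (1/16))*(1 - 3*x + 2*s)))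
    (hbE : βE*(1 + 1/32*s - 3/16*x)^2 = (1 - 3*x + 2*s)*(27/32)*(3*(1 - 1/16*x)^2 - 2*(1 + 1/32*s - 3/16*x)))
    (haV : αV*(1 - 1/4*s - 3/4*x) = ((1 - x)^2*(1 - (1/4))^2 + (1 - x)*(1 - (1 - x))*0 + (1/4)*(1 - (1/4))*(1 - 3*x + 2*s)))
    (hbV : βV*(1 - 1/4*s - 3/4*x)^2 = (1 - 3*x + 2*s)*0*(3*(1 - 1/4*x)^2 - 2*(1 - 1/4*s - 3/4*x))) :
    0 ≤ c112 1 0 0 (1 - x) (1 - 3*x + 2*s) (1 + 1/32*s - 3/16*x) (1 - 1/4*s - 3/4*x) (1 - 1/16*x) (1 - 1/4*x) (27/32) 0 (1/16) (1/4) αE βE αV βV := by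
  have e : (c112 1 0 0 (1 - x) (1 - 3*x + 2*s) (1 + 1/32*s - 3/16*x) (1 - 1/4*s - 3/4*x) (1 - 1/16*x) (1 - 1/4*x) (27/32) 0 (1/16) (1/4) αE βE αV βV)*((1 + 1/32*s - 3/16*x)^2*(1 - 1/4*s - 3/4*x)^2)
      = (9/16384)*(224*s + 128*x - 292*s^2 - 616*x*s + 32*x^2 - 22*s^3 + 119*x*s^2 + 332*x^2*s + 24*x^3 - 13*x^2*s^2 + 12*x^3*s + 72*x^4)*(1 + 1/32*s - 3/16*x)^2*(1 - 1/4*s - 3/4*x)^1 := by
    simp only [c112]
    linear_combination -(1)*(2*(1 + 1/32*s - 3/16*x)*(1 - 1/4*s - 3/4*x))*(1 + 1/32*s - 3/16*x)*(1 - 1/4*s - 3/4*x)^2*haE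
      + (0)*(2*(1 + 1/32*s - 3/16*x)*(1 - 1/4*s - 3/4*x))*(1 - 1/4*s - 3/4*x)^2*hbE
      + -(1)*((1 + 1/32*s - 3/16*x)^2)*(1 - 1/4*s - 3/4*x)*(1 + 1/32*s - 3/16*x)^2*haV
      + (0)*((1 + 1/32*s - 3/16*x)^2)*(1 + 1/32*s - 3/16*x)^2*hbV
  exact nn e (mul_pos (pow_pos hDE 2) (pow_pos hDV 2)) (mul_nonneg (mul_nonneg (mul_nonneg (by norm_num) (a_112 h0 h1 h2 hd hx)) (pow_nonneg hDE.le _)) (pow_nonneg hDV.le _))

theorem a_c122_nn {x s αE βE αV βV : ℝ} (h0 : 0 ≤ 1 - 3*x + 2*s) (h1 : 0 ≤ x - s)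
    (h2 : 0 ≤ x + 2*s) (hd : 0 ≤ x^3 - s^2) (hx : 0 ≤ x)
    (hDE : 0 < 1 + 1/32*s - 3/16*x) (hDV : 0 < 1 - 1/4*s - 3/4*x)
    (haE : αE*(1 + 1/32*s - 3/16*x) = ((1 - x)^2*(1 - (1/16))^2 + (1 - x)*(1 - (1 - x))*(27/32) + (1/16)*(1 - (1/16))*(1 - 3*x + 2*s)))
    (hbE : βE*(1 + 1/32*s - 3/16*x)^2 = (1 - 3*x + 2*s)*(27/32)*(3*(1 - 1/16*x)^2 - 2*(1 + 1/32*s - 3/16*x)))
    (haV : αV*(1 - 1/4*s - 3/4*x) = ((1 - x)^2*(1 - (1/4))^2 + (1 - x)*(1 - (1 - x))*0 + (1/4)*(1 - (1/4))*(1 - 3*x + 2*s)))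
    (hbV : βV*(1 - 1/4*s - 3/4*x)^2 = (1 - 3*x + 2*s)*0*(3*(1 - 1/4*x)^2 - 2*(1 - 1/4*s - 3/4*x))) :
    0 ≤ c122 1 0 0 (1 - x) (1 - 3*x + 2*s) (1 + 1/32*s - 3/16*x) (1 - 1/4*s - 3/4*x) (1 - 1/16*x) (1 - 1/4*x) (27/32) 0 (1/16) (1/4) αE βE αV βV := by
  have e : (c122 1 0 0 (1 - x) (1 - 3*x + 2*s) (1 + 1/32*s - 3/16*x) (1 - 1/4*s - 3/4*x) (1 - 1/16*x) (1 - 1/4*x) (27/32) 0 (1/16) (1/4) αE βE αV βV)*((1 + 1/32*s - 3/16*x)^2*(1 - 1/4*s - 3/4*x)^2)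
      = (9/16384)*(224*s + 128*x - 292*s^2 - 616*x*s + 32*x^2 - 22*s^3 + 119*x*s^2 + 332*x^2*s + 24*x^3 - 13*x^2*s^2 + 12*x^3*s + 72*x^4)*(1 + 1/32*s - 3/16*x)^1*(1 - 1/4*s - 3/4*x)^2 := by
    simp only [c122]
    linear_combination -(1)*((1 - 1/4*s - 3/4*x)^2)*(1 + 1/32*s - 3/16*x)*(1 - 1/4*s - 3/4*x)^2*haE
      + (0)*((1 - 1/4*s - 3/4*x)^2)*(1 - 1/4*s - 3/4*x)^2*hbE
      + -(1)*(2*(1 + 1/32*s - 3/16*x)*(1 - 1/4*s - 3/4*x))*(1 - 1/4*s - 3/4*x)*(1 + 1/32*s - 3/16*x)^2*haV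
      + (0)*(2*(1 + 1/32*s - 3/16*x)*(1 - 1/4*s - 3/4*x))*(1 + 1/32*s - 3/16*x)^2*hbV
  exact nn e (mul_pos (pow_pos hDE 2) (pow_pos hDV 2)) (mul_nonneg (mul_nonneg (mul_nonneg (by norm_num) (a_112 h0 h1 h2 hd hx)) (pow_nonneg hDE.le _)) (pow_nonneg hDV.le _))

theorem a_c012_nn {x s αE βE αV βV : ℝ} (h0 : 0 ≤ 1 - 3*x + 2*s) (h1 : 0 ≤ x - s)
    (h2 : 0 ≤ x + 2*s) (hd : 0 ≤ x^3 - s^2) (hx : 0 ≤ x)
    (hDE : 0 < 1 + 1/32*s - 3/16*x) (hDV : 0 < 1 - 1/4*s - 3/4*x)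
    (haE : αE*(1 + 1/32*s - 3/16*x) = ((1 - x)^2*(1 - (1/16))^2 + (1 - x)*(1 - (1 - x))*(27/32) + (1/16)*(1 - (1/16))*(1 - 3*x + 2*s)))
    (hbE : βE*(1 + 1/32*s - 3/16*x)^2 = (1 - 3*x + 2*s)*(27/32)*(3*(1 - 1/16*x)^2 - 2*(1 + 1/32*s - 3/16*x)))
    (haV : αV*(1 - 1/4*s - 3/4*x) = ((1 - x)^2*(1 - (1/4))^2 + (1 - x)*(1 - (1 - x))*0 + (1/4)*(1 - (1/4))*(1 - 3*x + 2*s)))
    (hbV : βV*(1 - 1/4*s - 3/4*x)^2 = (1 - 3*x + 2*s)*0*(3*(1 - 1/4*x)^2 - 2*(1 - 1/4*s - 3/4*x))) :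
    0 ≤ c012 1 0 0 (1 - x) (1 - 3*x + 2*s) (1 + 1/32*s - 3/16*x) (1 - 1/4*s - 3/4*x) (1 - 1/16*x) (1 - 1/4*x) (27/32) 0 (1/16) (1/4) αE βE αV βV := by
  have e : (c012 1 0 0 (1 - x) (1 - 3*x + 2*s) (1 + 1/32*s - 3/16*x) (1 - 1/4*s - 3/4*x) (1 - 1/16*x) (1 - 1/4*x) (27/32) 0 (1/16) (1/4) αE βE αV βV)*((1 + 1/32*s - 3/16*x)^2*(1 - 1/4*s - 3/4*x)^2)
      = (1/16384)*(5184*s + 3328*x - 5508*s^2 - 16232*x*s - 2048*x^2 - 405*s^3 + 2745*x*s^2 + 11022*x^2*s + 4824*x^3 + 86*x*s^3 - 267*x^2*s^2 - 1791*x^3*s - 1458*x^4 + 2*x*s^4 - 13*x^2*s^3 - 36*x^3*s^2 + 189*x^4*s + 378*x^5)*(1 + 1/32*s - 3/16*x)^1*(1 - 1/4*s - 3/4*x)^1 := by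
    simp only [c012]
    linear_combination -(1)*(2*(1 - 1/4*s - 3/4*x))*(1 + 1/32*s - 3/16*x)*(1 - 1/4*s - 3/4*x)^2*haE
      + (0)*(2*(1 - 1/4*s - 3/4*x))*(1 - 1/4*s - 3/4*x)^2*hbE
      + -(1)*(2*(1 + 1/32*s - 3/16*x))*(1 - 1/4*s - 3/4*x)*(1 + 1/32*s - 3/16*x)^2*haV
      + (0)*(2*(1 + 1/32*s - 3/16*x))*(1 + 1/32*s - 3/16*x)^2*hbV
  exact nn e (mul_pos (pow_pos hDE 2) (pow_pos hDV 2)) (mul_nonneg (mul_nonneg (mul_nonneg (by norm_num) (a_012 h0 h1 h2 hd hx)) (pow_nonneg hDE.le _)) (pow_nonneg hDV.le _))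

theorem a_c111_nn {x s αE βE αV βV : ℝ} (h0 : 0 ≤ 1 - 3*x + 2*s) (h1 : 0 ≤ x - s)
    (h2 : 0 ≤ x + 2*s) (hd : 0 ≤ x^3 - s^2) (hx : 0 ≤ x)
    (hDE : 0 < 1 + 1/32*s - 3/16*x) (hDV : 0 < 1 - 1/4*s - 3/4*x)
    (haE : αE*(1 + 1/32*s - 3/16*x) = ((1 - x)^2*(1 - (1/16))^2 + (1 - x)*(1 - (1 - x))*(27/32) + (1/16)*(1 - (1/16))*(1 - 3*x + 2*s)))
    (hbE : βE*(1 + 1/32*s - 3/16*x)^2 = (1 - 3*x + 2*s)*(27/32)*(3*(1 - 1/16*x)^2 - 2*(1 + 1/32*s - 3/16*x)))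
    (haV : αV*(1 - 1/4*s - 3/4*x) = ((1 - x)^2*(1 - (1/4))^2 + (1 - x)*(1 - (1 - x))*0 + (1/4)*(1 - (1/4))*(1 - 3*x + 2*s)))
    (hbV : βV*(1 - 1/4*s - 3/4*x)^2 = (1 - 3*x + 2*s)*0*(3*(1 - 1/4*x)^2 - 2*(1 - 1/4*s - 3/4*x))) :
    0 ≤ c111 1 0 0 (1 - x) (1 - 3*x + 2*s) (1 + 1/32*s - 3/16*x) (1 - 1/16*x) (27/32) (1/16) αE βE := by
  have e : (c111 1 0 0 (1 - x) (1 - 3*x + 2*s) (1 + 1/32*s - 3/16*x) (1 - 1/16*x) (27/32) (1/16) αE βE)*((1 + 1/32*s - 3/16*x)^2)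
      = (0)*((1 + 1/32*s - 3/16*x)^2*(1 + 1/32*s - 3/16*x)^2) := by
    simp only [c111]
    linear_combination -(1)*((1 + 1/32*s - 3/16*x)^2)*(1 + 1/32*s - 3/16*x)*haE
      + (0)*((1 + 1/32*s - 3/16*x)^2)*hbE
  exact nn e (pow_pos hDE 2) (mul_nonneg (by norm_num) (mul_nonneg (sq_nonneg _) (sq_nonneg _)))

theorem a_c222_nn {x s αE βE αV βV : ℝ} (h0 : 0 ≤ 1 - 3*x + 2*s) (h1 : 0 ≤ x - s)
    (h2 : 0 ≤ x + 2*s) (hd : 0 ≤ x^3 - s^2) (hx : 0 ≤ x)
    (hDE : 0 < 1 + 1/32*s - 3/16*x) (hDV : 0 < 1 - 1/4*s - 3/4*x)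
    (haE : αE*(1 + 1/32*s - 3/16*x) = ((1 - x)^2*(1 - (1/16))^2 + (1 - x)*(1 - (1 - x))*(27/32) + (1/16)*(1 - (1/16))*(1 - 3*x + 2*s)))
    (hbE : βE*(1 + 1/32*s - 3/16*x)^2 = (1 - 3*x + 2*s)*(27/32)*(3*(1 - 1/16*x)^2 - 2*(1 + 1/32*s - 3/16*x)))
    (haV : αV*(1 - 1/4*s - 3/4*x) = ((1 - x)^2*(1 - (1/4))^2 + (1 - x)*(1 - (1 - x))*0 + (1/4)*(1 - (1/4))*(1 - 3*x + 2*s)))
    (hbV : βV*(1 - 1/4*s - 3/4*x)^2 = (1 - 3*x + 2*s)*0*(3*(1 - 1/4*x)^2 - 2*(1 - 1/4*s - 3/4*x))) :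
    0 ≤ c222 1 0 (1 - x) (1 - 3*x + 2*s) (1 - 1/4*s - 3/4*x) (1 - 1/4*x) 0 (1/4) αV βV := by
  have e : (c222 1 0 (1 - x) (1 - 3*x + 2*s) (1 - 1/4*s - 3/4*x) (1 - 1/4*x) 0 (1/4) αV βV)*((1 - 1/4*s - 3/4*x)^2)
      = 0 := by
    simp only [c222]
    linear_combination -(1)*((1 - 1/4*s - 3/4*x)^2)*(1 - 1/4*s - 3/4*x)*haV
      + (0)*((1 - 1/4*s - 3/4*x)^2)*hbV
  exact nn e (pow_pos hDV 2) (le_refl (0:ℝ))

end Vale.Agent.P154.Cmp3
end

section

/-!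
# P154: three-point comparison, coefficients (case b)
-/

set_option linter.unusedVariables false

namespace Vale.Agent.P154.Cmp3

theorem b_c001_nn {x s αE βE αV βV : ℝ} (h0 : 0 ≤ 1 - 3*x + 2*s) (h1 : 0 ≤ x - s)
    (h2 : 0 ≤ x + 2*s) (hd : 0 ≤ x^3 - s^2) (hx : 0 ≤ x)
    (hDE : 0 < 1 + 1/32*s - 3/16*x) (hDV : 0 < 1 - 1/4*s - 3/4*x)
    (haE : αE*(1 + 1/32*s - 3/16*x) = ((1 - x)^2*(1 - (1/16))^2 + (1 - x)*(1 - (1 - x))*(27/32) + (1/16)*(1 - (1/16))*(1 - 3*x + 2*s)))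
    (hbE : βE*(1 + 1/32*s - 3/16*x)^2 = (1 - 3*x + 2*s)*(27/32)*(3*(1 - 1/16*x)^2 - 2*(1 + 1/32*s - 3/16*x)))
    (haV : αV*(1 - 1/4*s - 3/4*x) = ((1 - x)^2*(1 - (1/4))^2 + (1 - x)*(1 - (1 - x))*0 + (1/4)*(1 - (1/4))*(1 - 3*x + 2*s)))
    (hbV : βV*(1 - 1/4*s - 3/4*x)^2 = (1 - 3*x + 2*s)*0*(3*(1 - 1/4*x)^2 - 2*(1 - 1/4*s - 3/4*x))) :
    0 ≤ c001 (13/10) (1/10) (1/5000) (1 - x) (1 - 3*x + 2*s) (1 + 1/32*s - 3/16*x) (1 - 1/16*x) (27/32) (1/16) αE βE := by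
  have e : (c001 (13/10) (1/10) (1/5000) (1 - x) (1 - 3*x + 2*s) (1 + 1/32*s - 3/16*x) (1 - 1/16*x) (27/32) (1/16) αE βE)*((1 + 1/32*s - 3/16*x)^2)
      = (1/40960000)*(8192 + 392512*s + 172928*x + 354383*s^2 - 1793096*x*s - 6712*x^2 + 62625*s^3 - 590000*x*s^2 + 1307000*x^2*s + 235500*x^3 + 1000*s^4 - 14875*x*s^3 + 66875*x^2*s^2 - 60000*x^3*s - 130500*x^4) := by
    simp only [c001]
    linear_combination -((13/10))*(1)*(1 + 1/32*s - 3/16*x)*haE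
      + ((1/10))*(1)*hbE
  exact nn e (pow_pos hDE 2) (mul_nonneg (by norm_num) (b_001 h0 h1 h2 hd hx))

theorem b_c011_nn {x s αE βE αV βV : ℝ} (h0 : 0 ≤ 1 - 3*x + 2*s) (h1 : 0 ≤ x - s)
    (h2 : 0 ≤ x + 2*s) (hd : 0 ≤ x^3 - s^2) (hx : 0 ≤ x)
    (hDE : 0 < 1 + 1/32*s - 3/16*x) (hDV : 0 < 1 - 1/4*s - 3/4*x)
    (haE : αE*(1 + 1/32*s - 3/16*x) = ((1 - x)^2*(1 - (1/16))^2 + (1 - x)*(1 - (1 - x))*(27/32) + (1/16)*(1 - (1/16))*(1 - 3*x + 2*s)))
    (hbE : βE*(1 + 1/32*s - 3/16*x)^2 = (1 - 3*x + 2*s)*(27/32)*(3*(1 - 1/16*x)^2 - 2*(1 + 1/32*s - 3/16*x)))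
    (haV : αV*(1 - 1/4*s - 3/4*x) = ((1 - x)^2*(1 - (1/4))^2 + (1 - x)*(1 - (1 - x))*0 + (1/4)*(1 - (1/4))*(1 - 3*x + 2*s)))
    (hbV : βV*(1 - 1/4*s - 3/4*x)^2 = (1 - 3*x + 2*s)*0*(3*(1 - 1/4*x)^2 - 2*(1 - 1/4*s - 3/4*x))) :
    0 ≤ c011 (13/10) (1/10) (1/5000) (1 - x) (1 - 3*x + 2*s) (1 + 1/32*s - 3/16*x) (1 - 1/16*x) (27/32) (1/16) αE βE := by
  have e : (c011 (13/10) (1/10) (1/5000) (1 - x) (1 - 3*x + 2*s) (1 + 1/32*s - 3/16*x) (1 - 1/16*x) (27/32) (1/16) αE βE)*((1 + 1/32*s - 3/16*x)^2)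
      = (1/40960000)*(16384 + 393024*s + 169856*x + 352516*s^2 - 1778192*x*s - 36424*x^2 + 58500*s^3 - 549125*x*s^2 + 1178000*x^2*s + 361500*x^3 + 250*s^4 - 3250*x*s^3 + 3125*x^2*s^2 + 84000*x^3*s - 238500*x^4)*(1 + 1/32*s - 3/16*x)^1 := by
    simp only [c011]
    linear_combination -((13/10))*(2*(1 + 1/32*s - 3/16*x))*(1 + 1/32*s - 3/16*x)*haE
      + ((1/10))*(2*(1 + 1/32*s - 3/16*x))*hbE
  exact nn e (pow_pos hDE 2) (mul_nonneg (mul_nonneg (by norm_num) (b_011 h0 h1 h2 hd hx)) (pow_nonneg hDE.le _))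

theorem b_c002_nn {x s αE βE αV βV : ℝ} (h0 : 0 ≤ 1 - 3*x + 2*s) (h1 : 0 ≤ x - s)
    (h2 : 0 ≤ x + 2*s) (hd : 0 ≤ x^3 - s^2) (hx : 0 ≤ x)
    (hDE : 0 < 1 + 1/32*s - 3/16*x) (hDV : 0 < 1 - 1/4*s - 3/4*x)
    (haE : αE*(1 + 1/32*s - 3/16*x) = ((1 - x)^2*(1 - (1/16))^2 + (1 - x)*(1 - (1 - x))*(27/32) + (1/16)*(1 - (1/16))*(1 - 3*x + 2*s)))
    (hbE : βE*(1 + 1/32*s - 3/16*x)^2 = (1 - 3*x + 2*s)*(27/32)*(3*(1 - 1/16*x)^2 - 2*(1 + 1/32*s - 3/16*x)))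
    (haV : αV*(1 - 1/4*s - 3/4*x) = ((1 - x)^2*(1 - (1/4))^2 + (1 - x)*(1 - (1 - x))*0 + (1/4)*(1 - (1/4))*(1 - 3*x + 2*s)))
    (hbV : βV*(1 - 1/4*s - 3/4*x)^2 = (1 - 3*x + 2*s)*0*(3*(1 - 1/4*x)^2 - 2*(1 - 1/4*s - 3/4*x))) :
    0 ≤ c002 (13/10) (1/10) (1 - x) (1 - 3*x + 2*s) (1 - 1/4*s - 3/4*x) (1 - 1/4*x) 0 (1/4) αV βV := by
  have e : (c002 (13/10) (1/10) (1 - x) (1 - 3*x + 2*s) (1 - 1/4*s - 3/4*x) (1 - 1/4*x) 0 (1/4) αV βV)*((1 - 1/4*s - 3/4*x)^2)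
      = (1/160)*(23*s + 2*x - 67*s^2 - 99*x*s + 77*x^2 + 8*s^3 + 37*x*s^2 + 34*x^2*s - 15*x^3)*(1 - 1/4*s - 3/4*x)^1 := by
    simp only [c002]
    linear_combination -((13/10))*(1)*(1 - 1/4*s - 3/4*x)*haV
      + ((1/10))*(1)*hbV
  exact nn e (pow_pos hDV 2) (mul_nonneg (mul_nonneg (by norm_num) (b_002 h0 h1 h2 hd hx)) (pow_nonneg hDV.le _))

theorem b_c022_nn {x s αE βE αV βV : ℝ} (h0 : 0 ≤ 1 - 3*x + 2*s) (h1 : 0 ≤ x - s)
    (h2 : 0 ≤ x + 2*s) (hd : 0 ≤ x^3 - s^2) (hx : 0 ≤ x)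
    (hDE : 0 < 1 + 1/32*s - 3/16*x) (hDV : 0 < 1 - 1/4*s - 3/4*x)
    (haE : αE*(1 + 1/32*s - 3/16*x) = ((1 - x)^2*(1 - (1/16))^2 + (1 - x)*(1 - (1 - x))*(27/32) + (1/16)*(1 - (1/16))*(1 - 3*x + 2*s)))
    (hbE : βE*(1 + 1/32*s - 3/16*x)^2 = (1 - 3*x + 2*s)*(27/32)*(3*(1 - 1/16*x)^2 - 2*(1 + 1/32*s - 3/16*x)))
    (haV : αV*(1 - 1/4*s - 3/4*x) = ((1 - x)^2*(1 - (1/4))^2 + (1 - x)*(1 - (1 - x))*0 + (1/4)*(1 - (1/4))*(1 - 3*x + 2*s)))
    (hbV : βV*(1 - 1/4*s - 3/4*x)^2 = (1 - 3*x + 2*s)*0*(3*(1 - 1/4*x)^2 - 2*(1 - 1/4*s - 3/4*x))) :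
    0 ≤ c022 (13/10) (1/10) (1 - x) (1 - 3*x + 2*s) (1 - 1/4*s - 3/4*x) (1 - 1/4*x) 0 (1/4) αV βV := by
  have e : (c022 (13/10) (1/10) (1 - x) (1 - 3*x + 2*s) (1 - 1/4*s - 3/4*x) (1 - 1/4*x) 0 (1/4) αV βV)*((1 - 1/4*s - 3/4*x)^2)
      = (1/160)*(23*s + 2*x - 70*s^2 - 111*x*s + 65*x^2 + 2*s^3 + 22*x*s^2 + 46*x^2*s + 21*x^3)*(1 - 1/4*s - 3/4*x)^2 := by
    simp only [c022]
    linear_combination -((13/10))*(2*(1 - 1/4*s - 3/4*x))*(1 - 1/4*s - 3/4*x)*haV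
      + ((1/10))*(2*(1 - 1/4*s - 3/4*x))*hbV
  exact nn e (pow_pos hDV 2) (mul_nonneg (mul_nonneg (by norm_num) (b_022 h0 h1 h2 hd hx)) (pow_nonneg hDV.le _))

theorem b_c112_nn {x s αE βE αV βV : ℝ} (h0 : 0 ≤ 1 - 3*x + 2*s) (h1 : 0 ≤ x - s)
    (h2 : 0 ≤ x + 2*s) (hd : 0 ≤ x^3 - s^2) (hx : 0 ≤ x)
    (hDE : 0 < 1 + 1/32*s - 3/16*x) (hDV : 0 < 1 - 1/4*s - 3/4*x)
    (haE : αE*(1 + 1/32*s - 3/16*x) = ((1 - x)^2*(1 - (1/16))^2 + (1 - x)*(1 - (1 - x))*(27/32) + (1/16)*(1 - (1/16))*(1 - 3*x + 2*s)))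
    (hbE : βE*(1 + 1/32*s - 3/16*x)^2 = (1 - 3*x + 2*s)*(27/32)*(3*(1 - 1/16*x)^2 - 2*(1 + 1/32*s - 3/16*x)))
    (haV : αV*(1 - 1/4*s - 3/4*x) = ((1 - x)^2*(1 - (1/4))^2 + (1 - x)*(1 - (1 - x))*0 + (1/4)*(1 - (1/4))*(1 - 3*x + 2*s)))
    (hbV : βV*(1 - 1/4*s - 3/4*x)^2 = (1 - 3*x + 2*s)*0*(3*(1 - 1/4*x)^2 - 2*(1 - 1/4*s - 3/4*x))) :
    0 ≤ c112 (13/10) (1/10) (1/5000) (1 - x) (1 - 3*x + 2*s) (1 + 1/32*s - 3/16*x) (1 - 1/4*s - 3/4*x) (1 - 1/16*x) (1 - 1/4*x) (27/32) 0 (1/16) (1/4) αE βE αV βV := by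
  have e : (c112 (13/10) (1/10) (1/5000) (1 - x) (1 - 3*x + 2*s) (1 + 1/32*s - 3/16*x) (1 - 1/4*s - 3/4*x) (1 - 1/16*x) (1 - 1/4*x) (27/32) 0 (1/16) (1/4) αE βE αV βV)*((1 + 1/32*s - 3/16*x)^2*(1 - 1/4*s - 3/4*x)^2)
      = (1/655360000)*(262144 + 42509312*s - 2795520*x - 241263552*s^2 - 171816192*x*s + 233440128*x^2 + 18239396*s^3 + 163432152*x*s^2 + 72818352*x^2*s - 117033120*x^3 - 807734*s^4 - 1918221*x*s^3 - 15680682*x^2*s^2 + 3444228*x^3*s + 22847184*x^4 + 52875*x^2*s^3 + 1680750*x^3*s^2 - 1093500*x^4*s - 6318000*x^5)*(1 + 1/32*s - 3/16*x)^1*(1 - 1/4*s - 3/4*x)^1 := by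
    simp only [c112]
    linear_combination -((13/10))*(2*(1 + 1/32*s - 3/16*x)*(1 - 1/4*s - 3/4*x))*(1 + 1/32*s - 3/16*x)*(1 - 1/4*s - 3/4*x)^2*haE
      + ((1/10))*(2*(1 + 1/32*s - 3/16*x)*(1 - 1/4*s - 3/4*x))*(1 - 1/4*s - 3/4*x)^2*hbE
      + -((13/10))*((1 + 1/32*s - 3/16*x)^2)*(1 - 1/4*s - 3/4*x)*(1 + 1/32*s - 3/16*x)^2*haV
      + ((1/10))*((1 + 1/32*s - 3/16*x)^2)*(1 + 1/32*s - 3/16*x)^2*hbV
  exact nn e (mul_pos (pow_pos hDE 2) (pow_pos hDV 2)) (mul_nonneg (mul_nonneg (mul_nonneg (by norm_num) (b_112 h0 h1 h2 hd hx)) (pow_nonneg hDE.le _)) (pow_nonneg hDV.le _))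

theorem b_c122_nn {x s αE βE αV βV : ℝ} (h0 : 0 ≤ 1 - 3*x + 2*s) (h1 : 0 ≤ x - s)
    (h2 : 0 ≤ x + 2*s) (hd : 0 ≤ x^3 - s^2) (hx : 0 ≤ x)
    (hDE : 0 < 1 + 1/32*s - 3/16*x) (hDV : 0 < 1 - 1/4*s - 3/4*x)
    (haE : αE*(1 + 1/32*s - 3/16*x) = ((1 - x)^2*(1 - (1/16))^2 + (1 - x)*(1 - (1 - x))*(27/32) + (1/16)*(1 - (1/16))*(1 - 3*x + 2*s)))
    (hbE : βE*(1 + 1/32*s - 3/16*x)^2 = (1 - 3*x + 2*s)*(27/32)*(3*(1 - 1/16*x)^2 - 2*(1 + 1/32*s - 3/16*x)))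
    (haV : αV*(1 - 1/4*s - 3/4*x) = ((1 - x)^2*(1 - (1/4))^2 + (1 - x)*(1 - (1 - x))*0 + (1/4)*(1 - (1/4))*(1 - 3*x + 2*s)))
    (hbV : βV*(1 - 1/4*s - 3/4*x)^2 = (1 - 3*x + 2*s)*0*(3*(1 - 1/4*x)^2 - 2*(1 - 1/4*s - 3/4*x))) :
    0 ≤ c122 (13/10) (1/10) (1/5000) (1 - x) (1 - 3*x + 2*s) (1 + 1/32*s - 3/16*x) (1 - 1/4*s - 3/4*x) (1 - 1/16*x) (1 - 1/4*x) (27/32) 0 (1/16) (1/4) αE βE αV βV := by
  have e : (c122 (13/10) (1/10) (1/5000) (1 - x) (1 - 3*x + 2*s) (1 + 1/32*s - 3/16*x) (1 - 1/4*s - 3/4*x) (1 - 1/16*x) (1 - 1/4*x) (27/32) 0 (1/16) (1/4) αE βE αV βV)*((1 + 1/32*s - 3/16*x)^2*(1 - 1/4*s - 3/4*x)^2)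
      = (1/655360000)*(131072 + 42566656*s - 2549760*x - 254389776*s^2 - 206868096*x*s + 209960064*x^2 - 8005052*s^3 + 135000576*x*s^2 + 134068176*x^2*s - 47014560*x^3 - 807742*s^4 + 2455827*x*s^3 - 16500591*x^2*s^2 - 5304636*x^3*s + 22844592*x^4 - 129375*x^2*s^3 + 1954125*x^3*s^2 - 1093500*x^4*s - 6318000*x^5)*(1 - 1/4*s - 3/4*x)^2 := by
    simp only [c122]
    linear_combination -((13/10))*((1 - 1/4*s - 3/4*x)^2)*(1 + 1/32*s - 3/16*x)*(1 - 1/4*s - 3/4*x)^2*haE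
      + ((1/10))*((1 - 1/4*s - 3/4*x)^2)*(1 - 1/4*s - 3/4*x)^2*hbE
      + -((13/10))*(2*(1 + 1/32*s - 3/16*x)*(1 - 1/4*s - 3/4*x))*(1 - 1/4*s - 3/4*x)*(1 + 1/32*s - 3/16*x)^2*haV
      + ((1/10))*(2*(1 + 1/32*s - 3/16*x)*(1 - 1/4*s - 3/4*x))*(1 + 1/32*s - 3/16*x)^2*hbV
  exact nn e (mul_pos (pow_pos hDE 2) (pow_pos hDV 2)) (mul_nonneg (mul_nonneg (by norm_num) (b_122 h0 h1 h2 hd hx)) (pow_nonneg hDV.le _))

theorem b_c012_nn {x s αE βE αV βV : ℝ} (h0 : 0 ≤ 1 - 3*x + 2*s) (h1 : 0 ≤ x - s)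
    (h2 : 0 ≤ x + 2*s) (hd : 0 ≤ x^3 - s^2) (hx : 0 ≤ x)
    (hDE : 0 < 1 + 1/32*s - 3/16*x) (hDV : 0 < 1 - 1/4*s - 3/4*x)
    (haE : αE*(1 + 1/32*s - 3/16*x) = ((1 - x)^2*(1 - (1/16))^2 + (1 - x)*(1 - (1 - x))*(27/32) + (1/16)*(1 - (1/16))*(1 - 3*x + 2*s)))
    (hbE : βE*(1 + 1/32*s - 3/16*x)^2 = (1 - 3*x + 2*s)*(27/32)*(3*(1 - 1/16*x)^2 - 2*(1 + 1/32*s - 3/16*x)))
    (haV : αV*(1 - 1/4*s - 3/4*x) = ((1 - x)^2*(1 - (1/4))^2 + (1 - x)*(1 - (1 - x))*0 + (1/4)*(1 - (1/4))*(1 - 3*x + 2*s)))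
    (hbV : βV*(1 - 1/4*s - 3/4*x)^2 = (1 - 3*x + 2*s)*0*(3*(1 - 1/4*x)^2 - 2*(1 - 1/4*s - 3/4*x))) :
    0 ≤ c012 (13/10) (1/10) (1/5000) (1 - x) (1 - 3*x + 2*s) (1 + 1/32*s - 3/16*x) (1 - 1/4*s - 3/4*x) (1 - 1/16*x) (1 - 1/4*x) (27/32) 0 (1/16) (1/4) αE βE αV βV := by
  have e : (c012 (13/10) (1/10) (1/5000) (1 - x) (1 - 3*x + 2*s) (1 + 1/32*s - 3/16*x) (1 - 1/4*s - 3/4*x) (1 - 1/16*x) (1 - 1/4*x) (27/32) 0 (1/16) (1/4) αE βE αV βV)*((1 + 1/32*s - 3/16*x)^2*(1 - 1/4*s - 3/4*x)^2)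
      = (1/655360000)*(262144 + 142989312*s + 8212480*x - 504011552*s^2 - 668712192*x*s + 533456128*x^2 + 24822396*s^3 + 425280152*x*s^2 + 535582352*x^2*s - 318105120*x^3 + 1441641*s^4 + 2653529*x*s^3 - 95997432*x^2*s^2 - 167564772*x^3*s + 40208184*x^4 + 71750*s^5 - 342000*x*s^4 - 2401375*x^2*s^3 + 7891875*x^3*s^2 + 28161000*x^4*s + 9976500*x^5 + 500*s^6 - 3500*x*s^5 - 24125*x^2*s^4 + 165000*x^3*s^3 + 334125*x^4*s^2 - 1633500*x^5*s - 2713500*x^6)*(1 - 1/4*s - 3/4*x)^1 := by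
    simp only [c012]
    linear_combination -((13/10))*(2*(1 - 1/4*s - 3/4*x))*(1 + 1/32*s - 3/16*x)*(1 - 1/4*s - 3/4*x)^2*haE
      + ((1/10))*(2*(1 - 1/4*s - 3/4*x))*(1 - 1/4*s - 3/4*x)^2*hbE
      + -((13/10))*(2*(1 + 1/32*s - 3/16*x))*(1 - 1/4*s - 3/4*x)*(1 + 1/32*s - 3/16*x)^2*haV
      + ((1/10))*(2*(1 + 1/32*s - 3/16*x))*(1 + 1/32*s - 3/16*x)^2*hbV
  exact nn e (mul_pos (pow_pos hDE 2) (pow_pos hDV 2)) (mul_nonneg (mul_nonneg (by norm_num) (b_012 h0 h1 h2 hd hx)) (pow_nonneg hDV.le _))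

theorem b_c111_nn {x s αE βE αV βV : ℝ} (h0 : 0 ≤ 1 - 3*x + 2*s) (h1 : 0 ≤ x - s)
    (h2 : 0 ≤ x + 2*s) (hd : 0 ≤ x^3 - s^2) (hx : 0 ≤ x)
    (hDE : 0 < 1 + 1/32*s - 3/16*x) (hDV : 0 < 1 - 1/4*s - 3/4*x)
    (haE : αE*(1 + 1/32*s - 3/16*x) = ((1 - x)^2*(1 - (1/16))^2 + (1 - x)*(1 - (1 - x))*(27/32) + (1/16)*(1 - (1/16))*(1 - 3*x + 2*s)))
    (hbE : βE*(1 + 1/32*s - 3/16*x)^2 = (1 - 3*x + 2*s)*(27/32)*(3*(1 - 1/16*x)^2 - 2*(1 + 1/32*s - 3/16*x)))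
    (haV : αV*(1 - 1/4*s - 3/4*x) = ((1 - x)^2*(1 - (1/4))^2 + (1 - x)*(1 - (1 - x))*0 + (1/4)*(1 - (1/4))*(1 - 3*x + 2*s)))
    (hbV : βV*(1 - 1/4*s - 3/4*x)^2 = (1 - 3*x + 2*s)*0*(3*(1 - 1/4*x)^2 - 2*(1 - 1/4*s - 3/4*x))) :
    0 ≤ c111 (13/10) (1/10) (1/5000) (1 - x) (1 - 3*x + 2*s) (1 + 1/32*s - 3/16*x) (1 - 1/16*x) (27/32) (1/16) αE βE := by
  have e : (c111 (13/10) (1/10) (1/5000) (1 - x) (1 - 3*x + 2*s) (1 + 1/32*s - 3/16*x) (1 - 1/16*x) (27/32) (1/16) αE βE)*((1 + 1/32*s - 3/16*x)^2)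
      = (1/5000)*((1 + 1/32*s - 3/16*x)^2*(1 + 1/32*s - 3/16*x)^2) := by
    simp only [c111]
    linear_combination -((13/10))*((1 + 1/32*s - 3/16*x)^2)*(1 + 1/32*s - 3/16*x)*haE
      + ((1/10))*((1 + 1/32*s - 3/16*x)^2)*hbE
  exact nn e (pow_pos hDE 2) (mul_nonneg (by norm_num) (mul_nonneg (sq_nonneg _) (sq_nonneg _)))

theorem b_c222_nn {x s αE βE αV βV : ℝ} (h0 : 0 ≤ 1 - 3*x + 2*s) (h1 : 0 ≤ x - s)
    (h2 : 0 ≤ x + 2*s) (hd : 0 ≤ x^3 - s^2) (hx : 0 ≤ x)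
    (hDE : 0 < 1 + 1/32*s - 3/16*x) (hDV : 0 < 1 - 1/4*s - 3/4*x)
    (haE : αE*(1 + 1/32*s - 3/16*x) = ((1 - x)^2*(1 - (1/16))^2 + (1 - x)*(1 - (1 - x))*(27/32) + (1/16)*(1 - (1/16))*(1 - 3*x + 2*s)))
    (hbE : βE*(1 + 1/32*s - 3/16*x)^2 = (1 - 3*x + 2*s)*(27/32)*(3*(1 - 1/16*x)^2 - 2*(1 + 1/32*s - 3/16*x)))
    (haV : αV*(1 - 1/4*s - 3/4*x) = ((1 - x)^2*(1 - (1/4))^2 + (1 - x)*(1 - (1 - x))*0 + (1/4)*(1 - (1/4))*(1 - 3*x + 2*s)))
    (hbV : βV*(1 - 1/4*s - 3/4*x)^2 = (1 - 3*x + 2*s)*0*(3*(1 - 1/4*x)^2 - 2*(1 - 1/4*s - 3/4*x))) :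
    0 ≤ c222 (13/10) (1/10) (1 - x) (1 - 3*x + 2*s) (1 - 1/4*s - 3/4*x) (1 - 1/4*x) 0 (1/4) αV βV := by
  have e : (c222 (13/10) (1/10) (1 - x) (1 - 3*x + 2*s) (1 - 1/4*s - 3/4*x) (1 - 1/4*x) 0 (1/4) αV βV)*((1 - 1/4*s - 3/4*x)^2)
      = 0 := by
    simp only [c222]
    linear_combination -((13/10))*((1 - 1/4*s - 3/4*x)^2)*(1 - 1/4*s - 3/4*x)*haV
      + ((1/10))*((1 - 1/4*s - 3/4*x)^2)*hbV
  exact nn e (pow_pos hDV 2) (le_refl (0:ℝ))

end Vale.Agent.P154.Cmp3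
end

section

/-!
# P154: three-point comparison, coefficients (case c)
-/

set_option linter.unusedVariables false

namespace Vale.Agent.P154.Cmp3

theorem c_c001_nn {x s αE βE αV βV : ℝ} (h0 : 0 ≤ 1 - 3*x + 2*s) (h1 : 0 ≤ x - s)
    (h2 : 0 ≤ x + 2*s) (hd : 0 ≤ x^3 - s^2) (hx : 0 ≤ x)
    (hDE : 0 < 1 + 729/32000*s - 243/1600*x) (hDV : 0 < 1 - 729/4000*s - 243/400*x)
    (haE : αE*(1 + 729/32000*s - 243/1600*x) = ((1 - x)^2*(1 - (81/1600))^2 + (1 - x)*(1 - (1 - x))*(27869/32000) + (81/1600)*(1 - (81/1600))*(1 - 3*x + 2*s)))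
    (hbE : βE*(1 + 729/32000*s - 243/1600*x)^2 = (1 - 3*x + 2*s)*(27869/32000)*(3*(1 - 81/1600*x)^2 - 2*(1 + 729/32000*s - 243/1600*x)))
    (haV : αV*(1 - 729/4000*s - 243/400*x) = ((1 - x)^2*(1 - (81/400))^2 + (1 - x)*(1 - (1 - x))*(841/4000) + (81/400)*(1 - (81/400))*(1 - 3*x + 2*s)))
    (hbV : βV*(1 - 729/4000*s - 243/400*x)^2 = (1 - 3*x + 2*s)*(841/4000)*(3*(1 - 81/400*x)^2 - 2*(1 - 729/4000*s - 243/400*x))) :
    0 ≤ c001 1 0 0 (1 - x) (1 - 3*x + 2*s) (1 + 729/32000*s - 243/1600*x) (1 - 81/1600*x) (27869/32000) (81/1600) αE βE := by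
  have e : (c001 1 0 0 (1 - x) (1 - 3*x + 2*s) (1 + 729/32000*s - 243/1600*x) (1 - 81/1600*x) (27869/32000) (81/1600) αE βE)*((1 + 729/32000*s - 243/1600*x)^2)
      = (6561/1024000000)*(620*s + 800*x + 279*s^2 - 1599*x*s - 2140*x^2 + 81*x*s^2 - 981*x^2*s + 2940*x^3)*(1 + 729/32000*s - 243/1600*x)^1 := by
    simp only [c001]
    linear_combination -(1)*(1)*(1 + 729/32000*s - 243/1600*x)*haE
      + (0)*(1)*hbE
  exact nn e (pow_pos hDE 2) (mul_nonneg (mul_nonneg (by norm_num) (c_001 h0 h1 h2 hd hx)) (pow_nonneg hDE.le _))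

theorem c_c011_nn {x s αE βE αV βV : ℝ} (h0 : 0 ≤ 1 - 3*x + 2*s) (h1 : 0 ≤ x - s)
    (h2 : 0 ≤ x + 2*s) (hd : 0 ≤ x^3 - s^2) (hx : 0 ≤ x)
    (hDE : 0 < 1 + 729/32000*s - 243/1600*x) (hDV : 0 < 1 - 729/4000*s - 243/400*x)
    (haE : αE*(1 + 729/32000*s - 243/1600*x) = ((1 - x)^2*(1 - (81/1600))^2 + (1 - x)*(1 - (1 - x))*(27869/32000) + (81/1600)*(1 - (81/1600))*(1 - 3*x + 2*s)))
    (hbE : βE*(1 + 729/32000*s - 243/1600*x)^2 = (1 - 3*x + 2*s)*(27869/32000)*(3*(1 - 81/1600*x)^2 - 2*(1 + 729/32000*s - 243/1600*x)))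
    (haV : αV*(1 - 729/4000*s - 243/400*x) = ((1 - x)^2*(1 - (81/400))^2 + (1 - x)*(1 - (1 - x))*(841/4000) + (81/400)*(1 - (81/400))*(1 - 3*x + 2*s)))
    (hbV : βV*(1 - 729/4000*s - 243/400*x)^2 = (1 - 3*x + 2*s)*(841/4000)*(3*(1 - 81/400*x)^2 - 2*(1 - 729/4000*s - 243/400*x))) :
    0 ≤ c011 1 0 0 (1 - x) (1 - 3*x + 2*s) (1 + 729/32000*s - 243/1600*x) (1 - 81/1600*x) (27869/32000) (81/1600) αE βE := by
  have e : (c011 1 0 0 (1 - x) (1 - 3*x + 2*s) (1 + 729/32000*s - 243/1600*x) (1 - 81/1600*x) (27869/32000) (81/1600) αE βE)*((1 + 729/32000*s - 243/1600*x)^2)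
      = (6561/1024000000)*(620*s + 800*x + 279*s^2 - 1599*x*s - 2140*x^2 + 81*x*s^2 - 981*x^2*s + 2940*x^3)*(1 + 729/32000*s - 243/1600*x)^2 := by
    simp only [c011]
    linear_combination -(1)*(2*(1 + 729/32000*s - 243/1600*x))*(1 + 729/32000*s - 243/1600*x)*haE
      + (0)*(2*(1 + 729/32000*s - 243/1600*x))*hbE
  exact nn e (pow_pos hDE 2) (mul_nonneg (mul_nonneg (by norm_num) (c_001 h0 h1 h2 hd hx)) (pow_nonneg hDE.le _))

theorem c_c002_nn {x s αE βE αV βV : ℝ} (h0 : 0 ≤ 1 - 3*x + 2*s) (h1 : 0 ≤ x - s)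
    (h2 : 0 ≤ x + 2*s) (hd : 0 ≤ x^3 - s^2) (hx : 0 ≤ x)
    (hDE : 0 < 1 + 729/32000*s - 243/1600*x) (hDV : 0 < 1 - 729/4000*s - 243/400*x)
    (haE : αE*(1 + 729/32000*s - 243/1600*x) = ((1 - x)^2*(1 - (81/1600))^2 + (1 - x)*(1 - (1 - x))*(27869/32000) + (81/1600)*(1 - (81/1600))*(1 - 3*x + 2*s)))
    (hbE : βE*(1 + 729/32000*s - 243/1600*x)^2 = (1 - 3*x + 2*s)*(27869/32000)*(3*(1 - 81/1600*x)^2 - 2*(1 + 729/32000*s - 243/1600*x)))
    (haV : αV*(1 - 729/4000*s - 243/400*x) = ((1 - x)^2*(1 - (81/400))^2 + (1 - x)*(1 - (1 - x))*(841/4000) + (81/400)*(1 - (81/400))*(1 - 3*x + 2*s)))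
    (hbV : βV*(1 - 729/4000*s - 243/400*x)^2 = (1 - 3*x + 2*s)*(841/4000)*(3*(1 - 81/400*x)^2 - 2*(1 - 729/4000*s - 243/400*x))) :
    0 ≤ c002 1 0 (1 - x) (1 - 3*x + 2*s) (1 - 729/4000*s - 243/400*x) (1 - 81/400*x) (841/4000) (81/400) αV βV := by
  have e : (c002 1 0 (1 - x) (1 - 3*x + 2*s) (1 - 729/4000*s - 243/400*x) (1 - 81/400*x) (841/4000) (81/400) αV βV)*((1 - 729/4000*s - 243/400*x)^2)
      = (6561/16000000)*(290*s + 200*x - 261*s^2 - 879*x*s - 130*x^2 + 81*x*s^2 + 369*x^2*s + 330*x^3)*(1 - 729/4000*s - 243/400*x)^1 := by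
    simp only [c002]
    linear_combination -(1)*(1)*(1 - 729/4000*s - 243/400*x)*haV
      + (0)*(1)*hbV
  exact nn e (pow_pos hDV 2) (mul_nonneg (mul_nonneg (by norm_num) (c_002 h0 h1 h2 hd hx)) (pow_nonneg hDV.le _))

theorem c_c022_nn {x s αE βE αV βV : ℝ} (h0 : 0 ≤ 1 - 3*x + 2*s) (h1 : 0 ≤ x - s)
    (h2 : 0 ≤ x + 2*s) (hd : 0 ≤ x^3 - s^2) (hx : 0 ≤ x)
    (hDE : 0 < 1 + 729/32000*s - 243/1600*x) (hDV : 0 < 1 - 729/4000*s - 243/400*x)
    (haE : αE*(1 + 729/32000*s - 243/1600*x) = ((1 - x)^2*(1 - (81/1600))^2 + (1 - x)*(1 - (1 - x))*(27869/32000) + (81/1600)*(1 - (81/1600))*(1 - 3*x + 2*s)))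
    (hbE : βE*(1 + 729/32000*s - 243/1600*x)^2 = (1 - 3*x + 2*s)*(27869/32000)*(3*(1 - 81/1600*x)^2 - 2*(1 + 729/32000*s - 243/1600*x)))
    (haV : αV*(1 - 729/4000*s - 243/400*x) = ((1 - x)^2*(1 - (81/400))^2 + (1 - x)*(1 - (1 - x))*(841/4000) + (81/400)*(1 - (81/400))*(1 - 3*x + 2*s)))
    (hbV : βV*(1 - 729/4000*s - 243/400*x)^2 = (1 - 3*x + 2*s)*(841/4000)*(3*(1 - 81/400*x)^2 - 2*(1 - 729/4000*s - 243/400*x))) :
    0 ≤ c022 1 0 (1 - x) (1 - 3*x + 2*s) (1 - 729/4000*s - 243/400*x) (1 - 81/400*x) (841/4000) (81/400) αV βV := by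
  have e : (c022 1 0 (1 - x) (1 - 3*x + 2*s) (1 - 729/4000*s - 243/400*x) (1 - 81/400*x) (841/4000) (81/400) αV βV)*((1 - 729/4000*s - 243/400*x)^2)
      = (6561/16000000)*(290*s + 200*x - 261*s^2 - 879*x*s - 130*x^2 + 81*x*s^2 + 369*x^2*s + 330*x^3)*(1 - 729/4000*s - 243/400*x)^2 := by
    simp only [c022]
    linear_combination -(1)*(2*(1 - 729/4000*s - 243/400*x))*(1 - 729/4000*s - 243/400*x)*haV
      + (0)*(2*(1 - 729/4000*s - 243/400*x))*hbV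
  exact nn e (pow_pos hDV 2) (mul_nonneg (mul_nonneg (by norm_num) (c_002 h0 h1 h2 hd hx)) (pow_nonneg hDV.le _))

theorem c_c112_nn {x s αE βE αV βV : ℝ} (h0 : 0 ≤ 1 - 3*x + 2*s) (h1 : 0 ≤ x - s)
    (h2 : 0 ≤ x + 2*s) (hd : 0 ≤ x^3 - s^2) (hx : 0 ≤ x)
    (hDE : 0 < 1 + 729/32000*s - 243/1600*x) (hDV : 0 < 1 - 729/4000*s - 243/400*x)
    (haE : αE*(1 + 729/32000*s - 243/1600*x) = ((1 - x)^2*(1 - (81/1600))^2 + (1 - x)*(1 - (1 - x))*(27869/32000) + (81/1600)*(1 - (81/1600))*(1 - 3*x + 2*s)))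
    (hbE : βE*(1 + 729/32000*s - 243/1600*x)^2 = (1 - 3*x + 2*s)*(27869/32000)*(3*(1 - 81/1600*x)^2 - 2*(1 + 729/32000*s - 243/1600*x)))
    (haV : αV*(1 - 729/4000*s - 243/400*x) = ((1 - x)^2*(1 - (81/400))^2 + (1 - x)*(1 - (1 - x))*(841/4000) + (81/400)*(1 - (81/400))*(1 - 3*x + 2*s)))
    (hbV : βV*(1 - 729/4000*s - 243/400*x)^2 = (1 - 3*x + 2*s)*(841/4000)*(3*(1 - 81/400*x)^2 - 2*(1 - 729/4000*s - 243/400*x))) :
    0 ≤ c112 1 0 0 (1 - x) (1 - 3*x + 2*s) (1 + 729/32000*s - 243/1600*x) (1 - 729/4000*s - 243/400*x) (1 - 81/1600*x) (1 - 81/400*x) (27869/32000) (841/4000) (81/1600) (81/400) αE βE αV βV := by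
  have e : (c112 1 0 0 (1 - x) (1 - 3*x + 2*s) (1 + 729/32000*s - 243/1600*x) (1 - 729/4000*s - 243/400*x) (1 - 81/1600*x) (1 - 81/400*x) (27869/32000) (841/4000) (81/1600) (81/400) αE βE αV βV)*((1 + 729/32000*s - 243/1600*x)^2*(1 - 729/4000*s - 243/400*x)^2)
      = (59049/163840000000000)*(214400000*s + 128000000*x - 258238800*s^2 - 607128000*x*s + 3200000*x^2 - 14683518*s^3 + 96862959*x*s^2 + 315068400*x^2*s + 72312000*x^3 - 8404641*x^2*s^2 + 6123600*x^3*s + 52488000*x^4)*(1 + 729/32000*s - 243/1600*x)^2*(1 - 729/4000*s - 243/400*x)^1 := by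
    simp only [c112]
    linear_combination -(1)*(2*(1 + 729/32000*s - 243/1600*x)*(1 - 729/4000*s - 243/400*x))*(1 + 729/32000*s - 243/1600*x)*(1 - 729/4000*s - 243/400*x)^2*haE
      + (0)*(2*(1 + 729/32000*s - 243/1600*x)*(1 - 729/4000*s - 243/400*x))*(1 - 729/4000*s - 243/400*x)^2*hbE
      + -(1)*((1 + 729/32000*s - 243/1600*x)^2)*(1 - 729/4000*s - 243/400*x)*(1 + 729/32000*s - 243/1600*x)^2*haV
      + (0)*((1 + 729/32000*s - 243/1600*x)^2)*(1 + 729/32000*s - 243/1600*x)^2*hbV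
  exact nn e (mul_pos (pow_pos hDE 2) (pow_pos hDV 2)) (mul_nonneg (mul_nonneg (mul_nonneg (by norm_num) (c_112 h0 h1 h2 hd hx)) (pow_nonneg hDE.le _)) (pow_nonneg hDV.le _))

theorem c_c122_nn {x s αE βE αV βV : ℝ} (h0 : 0 ≤ 1 - 3*x + 2*s) (h1 : 0 ≤ x - s)
    (h2 : 0 ≤ x + 2*s) (hd : 0 ≤ x^3 - s^2) (hx : 0 ≤ x)
    (hDE : 0 < 1 + 729/32000*s - 243/1600*x) (hDV : 0 < 1 - 729/4000*s - 243/400*x)
    (haE : αE*(1 + 729/32000*s - 243/1600*x) = ((1 - x)^2*(1 - (81/1600))^2 + (1 - x)*(1 - (1 - x))*(27869/32000) + (81/1600)*(1 - (81/1600))*(1 - 3*x + 2*s)))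
    (hbE : βE*(1 + 729/32000*s - 243/1600*x)^2 = (1 - 3*x + 2*s)*(27869/32000)*(3*(1 - 81/1600*x)^2 - 2*(1 + 729/32000*s - 243/1600*x)))
    (haV : αV*(1 - 729/4000*s - 243/400*x) = ((1 - x)^2*(1 - (81/400))^2 + (1 - x)*(1 - (1 - x))*(841/4000) + (81/400)*(1 - (81/400))*(1 - 3*x + 2*s)))
    (hbV : βV*(1 - 729/4000*s - 243/400*x)^2 = (1 - 3*x + 2*s)*(841/4000)*(3*(1 - 81/400*x)^2 - 2*(1 - 729/4000*s - 243/400*x))) :
    0 ≤ c122 1 0 0 (1 - x) (1 - 3*x + 2*s) (1 + 729/32000*s - 243/1600*x) (1 - 729/4000*s - 243/400*x) (1 - 81/1600*x) (1 - 81/400*x) (27869/32000) (841/4000) (81/1600) (81/400) αE βE αV βV := by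
  have e : (c122 1 0 0 (1 - x) (1 - 3*x + 2*s) (1 + 729/32000*s - 243/1600*x) (1 - 729/4000*s - 243/400*x) (1 - 81/1600*x) (1 - 81/400*x) (27869/32000) (841/4000) (81/1600) (81/400) αE βE αV βV)*((1 + 729/32000*s - 243/1600*x)^2*(1 - 729/4000*s - 243/400*x)^2)
      = (59049/163840000000000)*(214400000*s + 128000000*x - 258238800*s^2 - 607128000*x*s + 3200000*x^2 - 14683518*s^3 + 96862959*x*s^2 + 315068400*x^2*s + 72312000*x^3 - 8404641*x^2*s^2 + 6123600*x^3*s + 52488000*x^4)*(1 + 729/32000*s - 243/1600*x)^1*(1 - 729/4000*s - 243/400*x)^2 := by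
    simp only [c122]
    linear_combination -(1)*((1 - 729/4000*s - 243/400*x)^2)*(1 + 729/32000*s - 243/1600*x)*(1 - 729/4000*s - 243/400*x)^2*haE
      + (0)*((1 - 729/4000*s - 243/400*x)^2)*(1 - 729/4000*s - 243/400*x)^2*hbE
      + -(1)*(2*(1 + 729/32000*s - 243/1600*x)*(1 - 729/4000*s - 243/400*x))*(1 - 729/4000*s - 243/400*x)*(1 + 729/32000*s - 243/1600*x)^2*haV
      + (0)*(2*(1 + 729/32000*s - 243/1600*x)*(1 - 729/4000*s - 243/400*x))*(1 + 729/32000*s - 243/1600*x)^2*hbV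
  exact nn e (mul_pos (pow_pos hDE 2) (pow_pos hDV 2)) (mul_nonneg (mul_nonneg (mul_nonneg (by norm_num) (c_112 h0 h1 h2 hd hx)) (pow_nonneg hDE.le _)) (pow_nonneg hDV.le _))

theorem c_c012_nn {x s αE βE αV βV : ℝ} (h0 : 0 ≤ 1 - 3*x + 2*s) (h1 : 0 ≤ x - s)
    (h2 : 0 ≤ x + 2*s) (hd : 0 ≤ x^3 - s^2) (hx : 0 ≤ x)
    (hDE : 0 < 1 + 729/32000*s - 243/1600*x) (hDV : 0 < 1 - 729/4000*s - 243/400*x)
    (haE : αE*(1 + 729/32000*s - 243/1600*x) = ((1 - x)^2*(1 - (81/1600))^2 + (1 - x)*(1 - (1 - x))*(27869/32000) + (81/1600)*(1 - (81/1600))*(1 - 3*x + 2*s)))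
    (hbE : βE*(1 + 729/32000*s - 243/1600*x)^2 = (1 - 3*x + 2*s)*(27869/32000)*(3*(1 - 81/1600*x)^2 - 2*(1 + 729/32000*s - 243/1600*x)))
    (haV : αV*(1 - 729/4000*s - 243/400*x) = ((1 - x)^2*(1 - (81/400))^2 + (1 - x)*(1 - (1 - x))*(841/4000) + (81/400)*(1 - (81/400))*(1 - 3*x + 2*s)))
    (hbV : βV*(1 - 729/4000*s - 243/400*x)^2 = (1 - 3*x + 2*s)*(841/4000)*(3*(1 - 81/400*x)^2 - 2*(1 - 729/4000*s - 243/400*x))) :
    0 ≤ c012 1 0 0 (1 - x) (1 - 3*x + 2*s) (1 + 729/32000*s - 243/1600*x) (1 - 729/4000*s - 243/400*x) (1 - 81/1600*x) (1 - 81/400*x) (27869/32000) (841/4000) (81/1600) (81/400) αE βE αV βV := by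
  have e : (c012 1 0 0 (1 - x) (1 - 3*x + 2*s) (1 + 729/32000*s - 243/1600*x) (1 - 729/4000*s - 243/400*x) (1 - 81/1600*x) (1 - 81/400*x) (27869/32000) (841/4000) (81/1600) (81/400) αE βE αV βV)*((1 + 729/32000*s - 243/1600*x)^2*(1 - 729/4000*s - 243/400*x)^2)
      = (6561/8192000000000000)*(249920000000*s + 166400000000*x - 242650260000*s^2 - 784842000000*x*s - 121120000000*x^2 - 13267949445*s^3 + 108081122850*x*s^2 + 484276689000*x^2*s + 270762720000*x^3 + 4782969*s^4 + 2413864071*x*s^3 - 8278046505*x^2*s^2 - 64402885350*x^3*s - 64132317000*x^4 + 43046721*x*s^4 - 306110016*x^2*s^3 - 980508645*x^3*s^2 + 5500414350*x^4*s + 12577437000*x^5)*(1 + 729/32000*s - 243/1600*x)^1*(1 - 729/4000*s - 243/400*x)^1 := by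
    simp only [c012]
    linear_combination -(1)*(2*(1 - 729/4000*s - 243/400*x))*(1 + 729/32000*s - 243/1600*x)*(1 - 729/4000*s - 243/400*x)^2*haE
      + (0)*(2*(1 - 729/4000*s - 243/400*x))*(1 - 729/4000*s - 243/400*x)^2*hbE
      + -(1)*(2*(1 + 729/32000*s - 243/1600*x))*(1 - 729/4000*s - 243/400*x)*(1 + 729/32000*s - 243/1600*x)^2*haV
      + (0)*(2*(1 + 729/32000*s - 243/1600*x))*(1 + 729/32000*s - 243/1600*x)^2*hbV
  exact nn e (mul_pos (pow_pos hDE 2) (pow_pos hDV 2)) (mul_nonneg (mul_nonneg (mul_nonneg (by norm_num) (c_012 h0 h1 h2 hd hx)) (pow_nonneg hDE.le _)) (pow_nonneg hDV.le _))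

theorem c_c111_nn {x s αE βE αV βV : ℝ} (h0 : 0 ≤ 1 - 3*x + 2*s) (h1 : 0 ≤ x - s)
    (h2 : 0 ≤ x + 2*s) (hd : 0 ≤ x^3 - s^2) (hx : 0 ≤ x)
    (hDE : 0 < 1 + 729/32000*s - 243/1600*x) (hDV : 0 < 1 - 729/4000*s - 243/400*x)
    (haE : αE*(1 + 729/32000*s - 243/1600*x) = ((1 - x)^2*(1 - (81/1600))^2 + (1 - x)*(1 - (1 - x))*(27869/32000) + (81/1600)*(1 - (81/1600))*(1 - 3*x + 2*s)))
    (hbE : βE*(1 + 729/32000*s - 243/1600*x)^2 = (1 - 3*x + 2*s)*(27869/32000)*(3*(1 - 81/1600*x)^2 - 2*(1 + 729/32000*s - 243/1600*x)))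
    (haV : αV*(1 - 729/4000*s - 243/400*x) = ((1 - x)^2*(1 - (81/400))^2 + (1 - x)*(1 - (1 - x))*(841/4000) + (81/400)*(1 - (81/400))*(1 - 3*x + 2*s)))
    (hbV : βV*(1 - 729/4000*s - 243/400*x)^2 = (1 - 3*x + 2*s)*(841/4000)*(3*(1 - 81/400*x)^2 - 2*(1 - 729/4000*s - 243/400*x))) :
    0 ≤ c111 1 0 0 (1 - x) (1 - 3*x + 2*s) (1 + 729/32000*s - 243/1600*x) (1 - 81/1600*x) (27869/32000) (81/1600) αE βE := by
  have e : (c111 1 0 0 (1 - x) (1 - 3*x + 2*s) (1 + 729/32000*s - 243/1600*x) (1 - 81/1600*x) (27869/32000) (81/1600) αE βE)*((1 + 729/32000*s - 243/1600*x)^2)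
      = (0)*((1 + 729/32000*s - 243/1600*x)^2*(1 + 729/32000*s - 243/1600*x)^2) := by
    simp only [c111]
    linear_combination -(1)*((1 + 729/32000*s - 243/1600*x)^2)*(1 + 729/32000*s - 243/1600*x)*haE
      + (0)*((1 + 729/32000*s - 243/1600*x)^2)*hbE
  exact nn e (pow_pos hDE 2) (mul_nonneg (by norm_num) (mul_nonneg (sq_nonneg _) (sq_nonneg _)))

theorem c_c222_nn {x s αE βE αV βV : ℝ} (h0 : 0 ≤ 1 - 3*x + 2*s) (h1 : 0 ≤ x - s)
    (h2 : 0 ≤ x + 2*s) (hd : 0 ≤ x^3 - s^2) (hx : 0 ≤ x)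
    (hDE : 0 < 1 + 729/32000*s - 243/1600*x) (hDV : 0 < 1 - 729/4000*s - 243/400*x)
    (haE : αE*(1 + 729/32000*s - 243/1600*x) = ((1 - x)^2*(1 - (81/1600))^2 + (1 - x)*(1 - (1 - x))*(27869/32000) + (81/1600)*(1 - (81/1600))*(1 - 3*x + 2*s)))
    (hbE : βE*(1 + 729/32000*s - 243/1600*x)^2 = (1 - 3*x + 2*s)*(27869/32000)*(3*(1 - 81/1600*x)^2 - 2*(1 + 729/32000*s - 243/1600*x)))
    (haV : αV*(1 - 729/4000*s - 243/400*x) = ((1 - x)^2*(1 - (81/400))^2 + (1 - x)*(1 - (1 - x))*(841/4000) + (81/400)*(1 - (81/400))*(1 - 3*x + 2*s)))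
    (hbV : βV*(1 - 729/4000*s - 243/400*x)^2 = (1 - 3*x + 2*s)*(841/4000)*(3*(1 - 81/400*x)^2 - 2*(1 - 729/4000*s - 243/400*x))) :
    0 ≤ c222 1 0 (1 - x) (1 - 3*x + 2*s) (1 - 729/4000*s - 243/400*x) (1 - 81/400*x) (841/4000) (81/400) αV βV := by
  have e : (c222 1 0 (1 - x) (1 - 3*x + 2*s) (1 - 729/4000*s - 243/400*x) (1 - 81/400*x) (841/4000) (81/400) αV βV)*((1 - 729/4000*s - 243/400*x)^2)
      = 0 := by
    simp only [c222]
    linear_combination -(1)*((1 - 729/4000*s - 243/400*x)^2)*(1 - 729/4000*s - 243/400*x)*haV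
      + (0)*((1 - 729/4000*s - 243/400*x)^2)*hbV
  exact nn e (pow_pos hDV 2) (le_refl (0:ℝ))

end Vale.Agent.P154.Cmp3
end
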