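import Mathlib
import Vale.Agent.P154.Bdl.B2
import Vale.Agent.P154.Bdl.B1

set_option linter.all false

section

/-!
# P154: three-point comparison, coefficients (case d)
-/

set_option linter.unusedVariables false

namespace Vale.Agent.P154.Cmp3

theorem d_c001_nn {x s αE βE αV βV : ℝ} (h0 : 0 ≤ 1 - 3*x + 2*s) (h1 : 0 ≤ x - s)
    (h2 : 0 ≤ x + 2*s) (hd : 0 ≤ x^3 - s^2) (hx : 0 ≤ x)
    (hDE : 0 < 1 + 729/32000*s - 243/1600*x) (hDV : 0 < 1 - 729/4000*s - 243/400*x)
    (haE : αE*(1 + 729/32000*s - 243/1600*x) = ((1 - x)^2*(1 - (81/1600))^2 + (1 - x)*(1 - (1 - x))*(27869/32000) + (81/1600)*(1 - (81/1600))*(1 - 3*x + 2*s)))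
    (hbE : βE*(1 + 729/32000*s - 243/1600*x)^2 = (1 - 3*x + 2*s)*(27869/32000)*(3*(1 - 81/1600*x)^2 - 2*(1 + 729/32000*s - 243/1600*x)))
    (haV : αV*(1 - 729/4000*s - 243/400*x) = ((1 - x)^2*(1 - (81/400))^2 + (1 - x)*(1 - (1 - x))*(841/4000) + (81/400)*(1 - (81/400))*(1 - 3*x + 2*s)))
    (hbV : βV*(1 - 729/4000*s - 243/400*x)^2 = (1 - 3*x + 2*s)*(841/4000)*(3*(1 - 81/400*x)^2 - 2*(1 - 729/4000*s - 243/400*x))) :
    0 ≤ c001 (5/4) (1/12) 0 (1 - x) (1 - 3*x + 2*s) (1 + 729/32000*s - 243/1600*x) (1 - 81/1600*x) (27869/32000) (81/1600) αE βE := by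
  have e : (c001 (5/4) (1/12) 0 (1 - x) (1 - 3*x + 2*s) (1 + 729/32000*s - 243/1600*x) (1 - 81/1600*x) (27869/32000) (81/1600) αE βE)*((1 + 729/32000*s - 243/1600*x)^2)
      = (6561/131072000000000)*(118784000*s + 62720000*x + 92227437*s^2 - 516389160*x*s - 34695200*x^2 + 13414761*s^3 - 137613186*x*s^2 + 320964880*x^2*s + 116823600*x^3 + 157464*s^4 - 2565351*x*s^3 + 12389355*x^2*s^2 - 9768600*x^3*s - 36450000*x^4) := by
    simp only [c001]
    linear_combination -((5/4))*(1)*(1 + 729/32000*s - 243/1600*x)*haE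
      + ((1/12))*(1)*hbE
  exact nn e (pow_pos hDE 2) (mul_nonneg (by norm_num) (d_001 h0 h1 h2 hd hx))

theorem d_c011_nn {x s αE βE αV βV : ℝ} (h0 : 0 ≤ 1 - 3*x + 2*s) (h1 : 0 ≤ x - s)
    (h2 : 0 ≤ x + 2*s) (hd : 0 ≤ x^3 - s^2) (hx : 0 ≤ x)
    (hDE : 0 < 1 + 729/32000*s - 243/1600*x) (hDV : 0 < 1 - 729/4000*s - 243/400*x)
    (haE : αE*(1 + 729/32000*s - 243/1600*x) = ((1 - x)^2*(1 - (81/1600))^2 + (1 - x)*(1 - (1 - x))*(27869/32000) + (81/1600)*(1 - (81/1600))*(1 - 3*x + 2*s)))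
    (hbE : βE*(1 + 729/32000*s - 243/1600*x)^2 = (1 - 3*x + 2*s)*(27869/32000)*(3*(1 - 81/1600*x)^2 - 2*(1 + 729/32000*s - 243/1600*x)))
    (haV : αV*(1 - 729/4000*s - 243/400*x) = ((1 - x)^2*(1 - (81/400))^2 + (1 - x)*(1 - (1 - x))*(841/4000) + (81/400)*(1 - (81/400))*(1 - 3*x + 2*s)))
    (hbV : βV*(1 - 729/4000*s - 243/400*x)^2 = (1 - 3*x + 2*s)*(841/4000)*(3*(1 - 81/400*x)^2 - 2*(1 - 729/4000*s - 243/400*x))) :
    0 ≤ c011 (5/4) (1/12) 0 (1 - x) (1 - 3*x + 2*s) (1 + 729/32000*s - 243/1600*x) (1 - 81/1600*x) (27869/32000) (81/1600) αE βE := by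
  have e : (c011 (5/4) (1/12) 0 (1 - x) (1 - 3*x + 2*s) (1 + 729/32000*s - 243/1600*x) (1 - 81/1600*x) (27869/32000) (81/1600) αE βE)*((1 + 729/32000*s - 243/1600*x)^2)
      = (6561/131072000000000)*(118784000*s + 62720000*x + 91892826*s^2 - 513414840*x*s - 41304800*x^2 + 12686490*s^3 - 129742173*x*s^2 + 294157120*x^2*s + 144428400*x^3 + 39366*s^4 - 551124*x*s^3 + 302535*x^2*s^2 + 19780200*x^3*s - 59778000*x^4)*(1 + 729/32000*s - 243/1600*x)^1 := by
    simp only [c011]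
    linear_combination -((5/4))*(2*(1 + 729/32000*s - 243/1600*x))*(1 + 729/32000*s - 243/1600*x)*haE
      + ((1/12))*(2*(1 + 729/32000*s - 243/1600*x))*hbE
  exact nn e (pow_pos hDE 2) (mul_nonneg (mul_nonneg (by norm_num) (d_011 h0 h1 h2 hd hx)) (pow_nonneg hDE.le _))

theorem d_c002_nn {x s αE βE αV βV : ℝ} (h0 : 0 ≤ 1 - 3*x + 2*s) (h1 : 0 ≤ x - s)
    (h2 : 0 ≤ x + 2*s) (hd : 0 ≤ x^3 - s^2) (hx : 0 ≤ x)
    (hDE : 0 < 1 + 729/32000*s - 243/1600*x) (hDV : 0 < 1 - 729/4000*s - 243/400*x)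
    (haE : αE*(1 + 729/32000*s - 243/1600*x) = ((1 - x)^2*(1 - (81/1600))^2 + (1 - x)*(1 - (1 - x))*(27869/32000) + (81/1600)*(1 - (81/1600))*(1 - 3*x + 2*s)))
    (hbE : βE*(1 + 729/32000*s - 243/1600*x)^2 = (1 - 3*x + 2*s)*(27869/32000)*(3*(1 - 81/1600*x)^2 - 2*(1 + 729/32000*s - 243/1600*x)))
    (haV : αV*(1 - 729/4000*s - 243/400*x) = ((1 - x)^2*(1 - (81/400))^2 + (1 - x)*(1 - (1 - x))*(841/4000) + (81/400)*(1 - (81/400))*(1 - 3*x + 2*s)))
    (hbV : βV*(1 - 729/4000*s - 243/400*x)^2 = (1 - 3*x + 2*s)*(841/4000)*(3*(1 - 81/400*x)^2 - 2*(1 - 729/4000*s - 243/400*x))) :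
    0 ≤ c002 (5/4) (1/12) (1 - x) (1 - 3*x + 2*s) (1 - 729/4000*s - 243/400*x) (1 - 81/400*x) (841/4000) (81/400) αV βV := by
  have e : (c002 (5/4) (1/12) (1 - x) (1 - 3*x + 2*s) (1 - 729/4000*s - 243/400*x) (1 - 81/400*x) (841/4000) (81/400) αV βV)*((1 - 729/4000*s - 243/400*x)^2)
      = (6561/256000000000)*(3928000*s + 880000*x - 9179757*s^2 - 18287880*x*s + 8961800*x^2 + 2555199*s^3 + 13152366*x*s^2 + 13541840*x^2*s - 7173900*x^3 - 157464*s^4 - 1371249*x*s^3 - 3860055*x^2*s^2 - 3353400*x^3*s + 364500*x^4) := by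
    simp only [c002]
    linear_combination -((5/4))*(1)*(1 - 729/4000*s - 243/400*x)*haV
      + ((1/12))*(1)*hbV
  exact nn e (pow_pos hDV 2) (mul_nonneg (by norm_num) (d_002 h0 h1 h2 hd hx))

theorem d_c022_nn {x s αE βE αV βV : ℝ} (h0 : 0 ≤ 1 - 3*x + 2*s) (h1 : 0 ≤ x - s)
    (h2 : 0 ≤ x + 2*s) (hd : 0 ≤ x^3 - s^2) (hx : 0 ≤ x)
    (hDE : 0 < 1 + 729/32000*s - 243/1600*x) (hDV : 0 < 1 - 729/4000*s - 243/400*x)
    (haE : αE*(1 + 729/32000*s - 243/1600*x) = ((1 - x)^2*(1 - (81/1600))^2 + (1 - x)*(1 - (1 - x))*(27869/32000) + (81/1600)*(1 - (81/1600))*(1 - 3*x + 2*s)))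
    (hbE : βE*(1 + 729/32000*s - 243/1600*x)^2 = (1 - 3*x + 2*s)*(27869/32000)*(3*(1 - 81/1600*x)^2 - 2*(1 + 729/32000*s - 243/1600*x)))
    (haV : αV*(1 - 729/4000*s - 243/400*x) = ((1 - x)^2*(1 - (81/400))^2 + (1 - x)*(1 - (1 - x))*(841/4000) + (81/400)*(1 - (81/400))*(1 - 3*x + 2*s)))
    (hbV : βV*(1 - 729/4000*s - 243/400*x)^2 = (1 - 3*x + 2*s)*(841/4000)*(3*(1 - 81/400*x)^2 - 2*(1 - 729/4000*s - 243/400*x))) :
    0 ≤ c022 (5/4) (1/12) (1 - x) (1 - 3*x + 2*s) (1 - 729/4000*s - 243/400*x) (1 - 81/400*x) (841/4000) (81/400) αV βV := by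
  have e : (c022 (5/4) (1/12) (1 - x) (1 - 3*x + 2*s) (1 - 729/4000*s - 243/400*x) (1 - 81/400*x) (841/4000) (81/400) αV βV)*((1 - 729/4000*s - 243/400*x)^2)
      = (6561/256000000000)*(3928000*s + 880000*x - 9435636*s^2 - 19425120*x*s + 7698200*x^2 + 2102490*s^3 + 12104793*x*s^2 + 15592760*x^2*s - 2411100*x^3 - 39366*s^4 - 629856*x*s^3 - 2905065*x^2*s^2 - 4908600*x^3*s - 2551500*x^4)*(1 - 729/4000*s - 243/400*x)^1 := by
    simp only [c022]
    linear_combination -((5/4))*(2*(1 - 729/4000*s - 243/400*x))*(1 - 729/4000*s - 243/400*x)*haV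
      + ((1/12))*(2*(1 - 729/4000*s - 243/400*x))*hbV
  exact nn e (pow_pos hDV 2) (mul_nonneg (mul_nonneg (by norm_num) (d_022 h0 h1 h2 hd hx)) (pow_nonneg hDV.le _))

theorem d_c112_nn {x s αE βE αV βV : ℝ} (h0 : 0 ≤ 1 - 3*x + 2*s) (h1 : 0 ≤ x - s)
    (h2 : 0 ≤ x + 2*s) (hd : 0 ≤ x^3 - s^2) (hx : 0 ≤ x)
    (hDE : 0 < 1 + 729/32000*s - 243/1600*x) (hDV : 0 < 1 - 729/4000*s - 243/400*x)
    (haE : αE*(1 + 729/32000*s - 243/1600*x) = ((1 - x)^2*(1 - (81/1600))^2 + (1 - x)*(1 - (1 - x))*(27869/32000) + (81/1600)*(1 - (81/1600))*(1 - 3*x + 2*s)))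
    (hbE : βE*(1 + 729/32000*s - 243/1600*x)^2 = (1 - 3*x + 2*s)*(27869/32000)*(3*(1 - 81/1600*x)^2 - 2*(1 + 729/32000*s - 243/1600*x)))
    (haV : αV*(1 - 729/4000*s - 243/400*x) = ((1 - x)^2*(1 - (81/400))^2 + (1 - x)*(1 - (1 - x))*(841/4000) + (81/400)*(1 - (81/400))*(1 - 3*x + 2*s)))
    (hbV : βV*(1 - 729/4000*s - 243/400*x)^2 = (1 - 3*x + 2*s)*(841/4000)*(3*(1 - 81/400*x)^2 - 2*(1 - 729/4000*s - 243/400*x))) :
    0 ≤ c112 (5/4) (1/12) 0 (1 - x) (1 - 3*x + 2*s) (1 + 729/32000*s - 243/1600*x) (1 - 729/4000*s - 243/400*x) (1 - 81/1600*x) (1 - 81/400*x) (27869/32000) (841/4000) (81/1600) (81/400) αE βE αV βV := by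
  have e : (c112 (5/4) (1/12) 0 (1 - x) (1 - 3*x + 2*s) (1 + 729/32000*s - 243/1600*x) (1 - 729/4000*s - 243/400*x) (1 - 81/1600*x) (1 - 81/400*x) (27869/32000) (841/4000) (81/1600) (81/400) αE βE αV βV)*((1 + 729/32000*s - 243/1600*x)^2*(1 - 729/4000*s - 243/400*x)^2)
      = (59049/83886080000000000000000)*(73072640000000000*s + 10649600000000000*x - 284005958400000000*s^2 - 320652364800000000*x*s + 253860352000000000*x^2 + 76123425520800000*s^3 + 400450649731200000*x*s^2 + 243231240640000000*x^2*s - 277064893440000000*x^3 - 4053820823168400*s^4 - 47103780456115200*x*s^3 - 145083593521656000*x^2*s^2 - 62084591652960000*x^3*s + 83148809212800000*x^4 + 104930256642390*s^5 + 646861856809905*x*s^4 + 3718957804260579*x^2*s^3 + 9981226613767860*x^3*s^2 - 2186150837763600*x^4*s - 16291004990400000*x^5 - 6676417286937*x^2*s^4 - 240595742938617*x^3*s^3 - 592029302322780*x^4*s^2 + 1277402836330800*x^5*s + 3099363912000000*x^6)*(1 + 729/32000*s -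 243/1600*x)^1 := by
    simp only [c112]
    linear_combination -((5/4))*(2*(1 + 729/32000*s - 243/1600*x)*(1 - 729/4000*s - 243/400*x))*(1 + 729/32000*s - 243/1600*x)*(1 - 729/4000*s - 243/400*x)^2*haE
      + ((1/12))*(2*(1 + 729/32000*s - 243/1600*x)*(1 - 729/4000*s - 243/400*x))*(1 - 729/4000*s - 243/400*x)^2*hbE
      + -((5/4))*((1 + 729/32000*s - 243/1600*x)^2)*(1 - 729/4000*s - 243/400*x)*(1 + 729/32000*s - 243/1600*x)^2*haV
      + ((1/12))*((1 + 729/32000*s - 243/1600*x)^2)*(1 + 729/32000*s - 243/1600*x)^2*hbV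
  exact nn e (mul_pos (pow_pos hDE 2) (pow_pos hDV 2)) (mul_nonneg (mul_nonneg (by norm_num) (d_112 h0 h1 h2 hd hx)) (pow_nonneg hDE.le _))

theorem d_c122_nn {x s αE βE αV βV : ℝ} (h0 : 0 ≤ 1 - 3*x + 2*s) (h1 : 0 ≤ x - s)
    (h2 : 0 ≤ x + 2*s) (hd : 0 ≤ x^3 - s^2) (hx : 0 ≤ x)
    (hDE : 0 < 1 + 729/32000*s - 243/1600*x) (hDV : 0 < 1 - 729/4000*s - 243/400*x)
    (haE : αE*(1 + 729/32000*s - 243/1600*x) = ((1 - x)^2*(1 - (81/1600))^2 + (1 - x)*(1 - (1 - x))*(27869/32000) + (81/1600)*(1 - (81/1600))*(1 - 3*x + 2*s)))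
    (hbE : βE*(1 + 729/32000*s - 243/1600*x)^2 = (1 - 3*x + 2*s)*(27869/32000)*(3*(1 - 81/1600*x)^2 - 2*(1 + 729/32000*s - 243/1600*x)))
    (haV : αV*(1 - 729/4000*s - 243/400*x) = ((1 - x)^2*(1 - (81/400))^2 + (1 - x)*(1 - (1 - x))*(841/4000) + (81/400)*(1 - (81/400))*(1 - 3*x + 2*s)))
    (hbV : βV*(1 - 729/4000*s - 243/400*x)^2 = (1 - 3*x + 2*s)*(841/4000)*(3*(1 - 81/400*x)^2 - 2*(1 - 729/4000*s - 243/400*x))) :
    0 ≤ c122 (5/4) (1/12) 0 (1 - x) (1 - 3*x + 2*s) (1 + 729/32000*s - 243/1600*x) (1 - 729/4000*s - 243/400*x) (1 - 81/1600*x) (1 - 81/400*x) (27869/32000) (841/4000) (81/1600) (81/400) αE βE αV βV := by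
  have e : (c122 (5/4) (1/12) 0 (1 - x) (1 - 3*x + 2*s) (1 + 729/32000*s - 243/1600*x) (1 - 729/4000*s - 243/400*x) (1 - 81/1600*x) (1 - 81/400*x) (27869/32000) (841/4000) (81/1600) (81/400) αE βE αV βV)*((1 + 729/32000*s - 243/1600*x)^2*(1 - 729/4000*s - 243/400*x)^2)
      = (59049/83886080000000000000000)*(73072640000000000*s + 10649600000000000*x - 293869503360000000*s^2 - 349877683200000000*x*s + 232211968000000000*x^2 + 58837562978400000*s^3 + 387577810267200000*x*s^2 + 316933163968000000*x^2*s - 195829332480000000*x^3 + 828633932031600*s^4 - 22782703372891200*x*s^3 - 135934807759524000*x^2*s^2 - 118956445633440000*x^3*s + 34277582332800000*x^4 + 104930256642390*s^5 - 12269535142095*x*s^4 + 1648379482691769*x^2*s^3 + 11651714892896670*x^3*s^2 + 2267239711676400*x^4*s - 16291004990400000*x^5 + 15569267191443*x^2*s^4 - 206328400686567*x^3*s^3 - 693483105777210*x^4*s^2 + 1277402836330800*x^5*s + 3099363912000000*x^6)*(1 - 729/4000*s -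 243/400*x)^1 := by
    simp only [c122]
    linear_combination -((5/4))*((1 - 729/4000*s - 243/400*x)^2)*(1 + 729/32000*s - 243/1600*x)*(1 - 729/4000*s - 243/400*x)^2*haE
      + ((1/12))*((1 - 729/4000*s - 243/400*x)^2)*(1 - 729/4000*s - 243/400*x)^2*hbE
      + -((5/4))*(2*(1 + 729/32000*s - 243/1600*x)*(1 - 729/4000*s - 243/400*x))*(1 - 729/4000*s - 243/400*x)*(1 + 729/32000*s - 243/1600*x)^2*haV
      + ((1/12))*(2*(1 + 729/32000*s - 243/1600*x)*(1 - 729/4000*s - 243/400*x))*(1 + 729/32000*s - 243/1600*x)^2*hbV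
  exact nn e (mul_pos (pow_pos hDE 2) (pow_pos hDV 2)) (mul_nonneg (mul_nonneg (by norm_num) (d_122 h0 h1 h2 hd hx)) (pow_nonneg hDV.le _))

theorem d_c012_nn {x s αE βE αV βV : ℝ} (h0 : 0 ≤ 1 - 3*x + 2*s) (h1 : 0 ≤ x - s)
    (h2 : 0 ≤ x + 2*s) (hd : 0 ≤ x^3 - s^2) (hx : 0 ≤ x)
    (hDE : 0 < 1 + 729/32000*s - 243/1600*x) (hDV : 0 < 1 - 729/4000*s - 243/400*x)
    (haE : αE*(1 + 729/32000*s - 243/1600*x) = ((1 - x)^2*(1 - (81/1600))^2 + (1 - x)*(1 - (1 - x))*(27869/32000) + (81/1600)*(1 - (81/1600))*(1 - 3*x + 2*s)))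
    (hbE : βE*(1 + 729/32000*s - 243/1600*x)^2 = (1 - 3*x + 2*s)*(27869/32000)*(3*(1 - 81/1600*x)^2 - 2*(1 + 729/32000*s - 243/1600*x)))
    (haV : αV*(1 - 729/4000*s - 243/400*x) = ((1 - x)^2*(1 - (81/400))^2 + (1 - x)*(1 - (1 - x))*(841/4000) + (81/400)*(1 - (81/400))*(1 - 3*x + 2*s)))
    (hbV : βV*(1 - 729/4000*s - 243/400*x)^2 = (1 - 3*x + 2*s)*(841/4000)*(3*(1 - 81/400*x)^2 - 2*(1 - 729/4000*s - 243/400*x))) :
    0 ≤ c012 (5/4) (1/12) 0 (1 - x) (1 - 3*x + 2*s) (1 + 729/32000*s - 243/1600*x) (1 - 729/4000*s - 243/400*x) (1 - 81/1600*x) (1 - 81/400*x) (27869/32000) (841/4000) (81/1600) (81/400) αE βE αV βV := by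
  have e : (c012 (5/4) (1/12) 0 (1 - x) (1 - 3*x + 2*s) (1 + 729/32000*s - 243/1600*x) (1 - 729/4000*s - 243/400*x) (1 - 81/1600*x) (1 - 81/400*x) (27869/32000) (841/4000) (81/1600) (81/400) αE βE αV βV)*((1 + 729/32000*s - 243/1600*x)^2*(1 - 729/4000*s - 243/400*x)^2)
      = (6561/4194304000000000000000000)*(101040128000000000000*s + 21217280000000000000*x - 272815909056000000000*s^2 - 496702087680000000000*x*s + 246955571200000000000*x^2 + 65373837651072000000*s^3 + 443703938889600000000*x*s^2 + 523650156870400000000*x^2*s - 285377677632000000000*x^3 - 1737318482322084000*s^4 - 44796483935699040000*x*s^3 - 217260811802718000000*x^2*s^2 - 249095473294320000000*x^3*s + 73046663136000000000*x^4 - 67864127608413459*s^5 - 527248046810548440*x*s^4 + 5657643719066188800*x^2*s^3 + 39234525373954170000*x^3*s^2 + 58476307257587880000*x^4*s + 4451843630977200000*x^5 - 2928898896840000*s^6 + 4696130242289637*x*s^5 + 173134712315776995*x^2*s^4 + 31188860304407100*x^3*s^3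 - 3224105238197812500*x^4*s^2 - 7914848778833940000*x^5*s - 4513732805208600000*x^6 - 15251194969974*s^7 + 61004779879896*x*s^6 + 1361310365838420*x^2*s^5 - 3617451646427475*x^3*s^4 - 40716924842677500*x^4*s^3 + 27275370976822500*x^5*s^2 + 459906862491900000*x^6*s + 575319426165000000*x^7) := by
    simp only [c012]
    linear_combination -((5/4))*(2*(1 - 729/4000*s - 243/400*x))*(1 + 729/32000*s - 243/1600*x)*(1 - 729/4000*s - 243/400*x)^2*haE
      + ((1/12))*(2*(1 - 729/4000*s - 243/400*x))*(1 - 729/4000*s - 243/400*x)^2*hbE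
      + -((5/4))*(2*(1 + 729/32000*s - 243/1600*x))*(1 - 729/4000*s - 243/400*x)*(1 + 729/32000*s - 243/1600*x)^2*haV
      + ((1/12))*(2*(1 + 729/32000*s - 243/1600*x))*(1 + 729/32000*s - 243/1600*x)^2*hbV
  exact nn e (mul_pos (pow_pos hDE 2) (pow_pos hDV 2)) (mul_nonneg (by norm_num) (d_012 h0 h1 h2 hd hx))

theorem d_c111_nn {x s αE βE αV βV : ℝ} (h0 : 0 ≤ 1 - 3*x + 2*s) (h1 : 0 ≤ x - s)
    (h2 : 0 ≤ x + 2*s) (hd : 0 ≤ x^3 - s^2) (hx : 0 ≤ x)
    (hDE : 0 < 1 + 729/32000*s - 243/1600*x) (hDV : 0 < 1 - 729/4000*s - 243/400*x)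
    (haE : αE*(1 + 729/32000*s - 243/1600*x) = ((1 - x)^2*(1 - (81/1600))^2 + (1 - x)*(1 - (1 - x))*(27869/32000) + (81/1600)*(1 - (81/1600))*(1 - 3*x + 2*s)))
    (hbE : βE*(1 + 729/32000*s - 243/1600*x)^2 = (1 - 3*x + 2*s)*(27869/32000)*(3*(1 - 81/1600*x)^2 - 2*(1 + 729/32000*s - 243/1600*x)))
    (haV : αV*(1 - 729/4000*s - 243/400*x) = ((1 - x)^2*(1 - (81/400))^2 + (1 - x)*(1 - (1 - x))*(841/4000) + (81/400)*(1 - (81/400))*(1 - 3*x + 2*s)))
    (hbV : βV*(1 - 729/4000*s - 243/400*x)^2 = (1 - 3*x + 2*s)*(841/4000)*(3*(1 - 81/400*x)^2 - 2*(1 - 729/4000*s - 243/400*x))) :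
    0 ≤ c111 (5/4) (1/12) 0 (1 - x) (1 - 3*x + 2*s) (1 + 729/32000*s - 243/1600*x) (1 - 81/1600*x) (27869/32000) (81/1600) αE βE := by
  have e : (c111 (5/4) (1/12) 0 (1 - x) (1 - 3*x + 2*s) (1 + 729/32000*s - 243/1600*x) (1 - 81/1600*x) (27869/32000) (81/1600) αE βE)*((1 + 729/32000*s - 243/1600*x)^2)
      = (0)*((1 + 729/32000*s - 243/1600*x)^2*(1 + 729/32000*s - 243/1600*x)^2) := by
    simp only [c111]
    linear_combination -((5/4))*((1 + 729/32000*s - 243/1600*x)^2)*(1 + 729/32000*s - 243/1600*x)*haE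
      + ((1/12))*((1 + 729/32000*s - 243/1600*x)^2)*hbE
  exact nn e (pow_pos hDE 2) (mul_nonneg (by norm_num) (mul_nonneg (sq_nonneg _) (sq_nonneg _)))

theorem d_c222_nn {x s αE βE αV βV : ℝ} (h0 : 0 ≤ 1 - 3*x + 2*s) (h1 : 0 ≤ x - s)
    (h2 : 0 ≤ x + 2*s) (hd : 0 ≤ x^3 - s^2) (hx : 0 ≤ x)
    (hDE : 0 < 1 + 729/32000*s - 243/1600*x) (hDV : 0 < 1 - 729/4000*s - 243/400*x)
    (haE : αE*(1 + 729/32000*s - 243/1600*x) = ((1 - x)^2*(1 - (81/1600))^2 + (1 - x)*(1 - (1 - x))*(27869/32000) + (81/1600)*(1 - (81/1600))*(1 - 3*x + 2*s)))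
    (hbE : βE*(1 + 729/32000*s - 243/1600*x)^2 = (1 - 3*x + 2*s)*(27869/32000)*(3*(1 - 81/1600*x)^2 - 2*(1 + 729/32000*s - 243/1600*x)))
    (haV : αV*(1 - 729/4000*s - 243/400*x) = ((1 - x)^2*(1 - (81/400))^2 + (1 - x)*(1 - (1 - x))*(841/4000) + (81/400)*(1 - (81/400))*(1 - 3*x + 2*s)))
    (hbV : βV*(1 - 729/4000*s - 243/400*x)^2 = (1 - 3*x + 2*s)*(841/4000)*(3*(1 - 81/400*x)^2 - 2*(1 - 729/4000*s - 243/400*x))) :
    0 ≤ c222 (5/4) (1/12) (1 - x) (1 - 3*x + 2*s) (1 - 729/4000*s - 243/400*x) (1 - 81/400*x) (841/4000) (81/400) αV βV := by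
  have e : (c222 (5/4) (1/12) (1 - x) (1 - 3*x + 2*s) (1 - 729/4000*s - 243/400*x) (1 - 81/400*x) (841/4000) (81/400) αV βV)*((1 - 729/4000*s - 243/400*x)^2)
      = 0 := by
    simp only [c222]
    linear_combination -((5/4))*((1 - 729/4000*s - 243/400*x)^2)*(1 - 729/4000*s - 243/400*x)*haV
      + ((1/12))*((1 - 729/4000*s - 243/400*x)^2)*hbV
  exact nn e (pow_pos hDV 2) (le_refl (0:ℝ))

end Vale.Agent.P154.Cmp3
end

section

/-!
# P154: polynomial expressions for the binomial sums of the closed recursion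
-/

open scoped BigOperators

namespace Vale.Agent.P154.Bern

/-- `∑_{j ≤ N} binom(N, j) e^j q^(N-j) c_j` -/
noncomputable def hs (N : ℕ) (c : ℕ → ℝ) (e q : ℝ) : ℝ :=
  ∑ j ∈ Finset.range (N + 1), (N.choose j : ℝ) * e ^ j * q ^ (N - j) * c j

theorem hs_mono {N : ℕ} {c c' : ℕ → ℝ} {e q : ℝ} (he : 0 ≤ e) (hq : 0 ≤ q)
    (h : ∀ j, j ≤ N → c j ≤ c' j) : hs N c e q ≤ hs N c' e q := by
  unfold hs
  refine Finset.sum_le_sum fun j hj => ?_
  have hj' : j ≤ N := Nat.lt_succ_iff.1 (Finset.mem_range.1 hj)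
  exact mul_le_mul_of_nonneg_left (h j hj') (by (clear * - he hq; positivity))

theorem hs_scale (N : ℕ) (c : ℕ → ℝ) (s k e q : ℝ) :
    hs N (fun j => k * c j) (s * e) (s * q) = s ^ N * k * hs N c e q := by
  unfold hs
  rw [Finset.mul_sum]
  refine Finset.sum_congr rfl fun j hj => ?_
  have hj' : j ≤ N := Nat.lt_succ_iff.1 (Finset.mem_range.1 hj)
  have h : s ^ N = s ^ j * s ^ (N - j) := by rw [← pow_add]; congr 1; omega
  rw [h, mul_pow, mul_pow]
  ring

theorem hs_sub (N : ℕ) (c c' : ℕ → ℝ) (e q : ℝ) :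
    hs N (fun j => c j - c' j) e q = hs N c e q - hs N c' e q := by
  unfold hs
  rw [← Finset.sum_sub_distrib]
  refine Finset.sum_congr rfl fun j _ => ?_
  ring

def powE (e : PE) : ℕ → PE
  | 0 => PE.c 1
  | n + 1 => PE.mul (powE e n) e

theorem powE_ev (e : PE) (x y : ℝ) : ∀ n, (powE e n).ev x y = (e.ev x y) ^ n
  | 0 => by simp only [powE, PE.ev, Int.cast_one, pow_zero]
  | n + 1 => by rw [powE, PE.ev, powE_ev e x y n, pow_succ]

/-- table lookup -/
def tab (l : List ℤ) (j : ℕ) : ℤ := l.getD j 0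

def hAux (N : ℕ) (l : List ℤ) (e q : PE) : ℕ → PE
  | 0 => PE.c (tab l 0)
  | k + 1 => PE.add (PE.mul (hAux N l e q k) q)
      (PE.mul (PE.c (Int.mul (Int.ofNat (N.choose (k + 1))) (tab l (k + 1)))) (powE e (k + 1)))

theorem hAux_ev (N : ℕ) (l : List ℤ) (e q : PE) (x y : ℝ) : ∀ k,
    (hAux N l e q k).ev x y = ∑ j ∈ Finset.range (k + 1),
      (N.choose j : ℝ) * (e.ev x y) ^ j * (q.ev x y) ^ (k - j) * (tab l j : ℝ)
  | 0 => by simp only [hAux, PE.ev, zero_add, Finset.range_one, zero_tsub, pow_zero, mul_one,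
              Finset.sum_singleton, Nat.choose_zero_right, Nat.cast_one, one_mul]
  | k + 1 => by
    rw [hAux, PE.ev, PE.ev, PE.ev, PE.ev, hAux_ev N l e q x y k, powE_ev,
      Finset.sum_range_succ _ (k + 1), Finset.sum_mul]
    congr 1
    · refine Finset.sum_congr rfl fun j hj => ?_
      have hj' : j ≤ k := Nat.lt_succ_iff.1 (Finset.mem_range.1 hj)
      have h : k + 1 - j = (k - j) + 1 := by omega
      rw [h, pow_succ]
      ring
    · rw [Nat.sub_self, pow_zero]
      have : ((Int.mul (Int.ofNat (N.choose (k + 1))) (tab l (k + 1)) : ℤ) : ℝ)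
          = (N.choose (k + 1) : ℝ) * (tab l (k + 1) : ℝ) := by
        have h : ((Int.ofNat (N.choose (k + 1)) * tab l (k + 1) : ℤ) : ℝ) = ((Int.ofNat (N.choose (k + 1)) : ℤ) : ℝ) * ((tab l (k + 1) : ℤ) : ℝ) := Int.cast_mul _ _
        exact h.trans (by simp)
      rw [this]
      ring

/-- the expression of `hs` -/
def hE (N : ℕ) (l : List ℤ) (e q : PE) : PE := hAux N l e q N

theorem hE_ev (N : ℕ) (l : List ℤ) (e q : PE) (x y : ℝ) :
    (hE N l e q).ev x y = hs N (fun j => (tab l j : ℝ)) (e.ev x y) (q.ev x y) :=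
  hAux_ev N l e q x y N

def smulE (z : ℤ) (e : PE) : PE := PE.mul (PE.c z) e

theorem smulE_ev (z : ℤ) (e : PE) (x y : ℝ) : (smulE z e).ev x y = (z : ℝ) * e.ev x y := rfl

end Vale.Agent.P154.Bern
end

section

/-!
# P154: the polynomial inequalities of the regular trees (base strength 1/2)
-/

open scoped BigOperators

namespace Vale.Agent.P154.Bern

/-- `10^6 (x3 j - x2 j)`, `10^6 x2 j`, `10^6 p3 j` with `x3, x2` lower and `p3` upper bounds of the
tables -/
def tA : List ℤ := [-500000, -437500, -387500, -345833, -310364, -279747, -253037, -229547,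
  -208758, -190259, -173726, -158893, -145542]
def tB : List ℤ := [1500000, 1375000, 1268750, 1175520, 1092501, 1017793, 950062, 888300,
  831723, 779700, 731715, 687336, 646198]
def tP : List ℤ := [1000000, 843750, 727500, 634516, 558185, 494268, 439947, 393306, 352897,
  317632, 286679, 259366, 235157]

def pz (a : ℤ) : ℕ → ℤ
  | 0 => 1
  | n + 1 => Int.mul (pz a n) a

theorem pz_eq (a : ℤ) : ∀ n, pz a n = a ^ n
  | 0 => by simp [pz]
  | n + 1 => by rw [pz, pz_eq a n, pow_succ]; rfl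

def lin4 (E V : PE) : PE := PE.add E (smulE 4 V)
def q3E (s : ℤ) (E V : PE) : PE := PE.add (PE.c (2 * s)) (PE.add (smulE (-2) E) (smulE (-2) V))
def q2E (s : ℤ) (E V : PE) : PE := PE.add (PE.c (2 * s)) (PE.add (smulE (-2) E) (smulE (-1) V))
def xxE (N : ℕ) (s : ℤ) (E V : PE) : PE :=
  PE.add (hE N tA (smulE 2 E) (q3E s E V)) (hE N tB (smulE 2 E) (q2E s E V))
def ppE (N : ℕ) (s : ℤ) (E V : PE) : PE := hE N tP (smulE 2 E) (q3E s E V)
def WW (N : ℕ) (s : ℤ) : ℤ := pz (2 * s) N * 1000000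
def quadE (a b d : ℤ) (E V : PE) : PE :=
  PE.add (smulE a (PE.mul E E)) (PE.add (smulE b (PE.mul E V)) (smulE d (PE.mul V V)))

/-- `x - xmax` where `xmax = xn / 100` -/
def C1E (t xn : ℤ) (E V : PE) : PE := PE.add (smulE 100 (lin4 E V)) (PE.c (-(16 * t * xn)))

def Q0E (N : ℕ) (t ern erd : ℤ) (E V : PE) : PE :=
  PE.add (smulE (t * erd * 1000 * WW N (t * N)) (lin4 E V))
    (PE.add (PE.c (-(16 * t * t * erd * 1000 * WW N (t * N))))
      (PE.add (smulE (16 * t * t * erd * 1000) (xxE N (t * N) E V))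
        (quadE (-(64 * ern * WW N (t * N))) (-(480 * ern * WW N (t * N)))
          (-(2000 * ern * WW N (t * N))) E V)))

def Q1E (N : ℕ) (t ern erd kn kd : ℤ) (E V : PE) : PE :=
  PE.add (smulE (10 * t * erd * 10000 * kd * WW N (t * N)) (lin4 E V))
    (PE.add (smulE (t * erd * 10000 * kn * WW N (t * N)) (PE.add (smulE 8 V) (smulE (-1) E)))
      (PE.add (PE.c (-(192 * t * t * erd * 10000 * kd * WW N (t * N))))
        (PE.add (smulE (208 * t * t * erd * 10000 * kd) (xxE N (t * N) E V))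
          (PE.add (smulE (-(16 * t * t * erd * 10000 * kd)) (ppE N (t * N) E V))
            (PE.add (quadE (-(16320 * ern * kd * WW N (t * N)))
                (-(112640 * ern * kd * WW N (t * N))) (-(420000 * ern * kd * WW N (t * N))) E V)
              (smulE (-(320 * t * erd * kd * WW N (t * N))) E))))))

section
variable {x y : ℝ} {E V : PE}

theorem xxE_ev (N : ℕ) (s : ℤ) {e v : ℝ} (hE' : E.ev x y = s * e) (hV : V.ev x y = s * v) :
    (xxE N s E V).ev x y = (2 * (s : ℝ)) ^ N * (hs N (fun j => (tab tA j : ℝ)) e (1 - e - v)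
      + hs N (fun j => (tab tB j : ℝ)) e (1 - e - v / 2)) := by
  have h1 := hs_scale N (fun j => (tab tA j : ℝ)) (2 * (s : ℝ)) 1 e (1 - e - v)
  have h2 := hs_scale N (fun j => (tab tB j : ℝ)) (2 * (s : ℝ)) 1 e (1 - e - v / 2)
  simp only [one_mul, mul_one] at h1 h2
  unfold xxE
  rw [PE.ev, hE_ev, hE_ev, smulE_ev, hE']
  have e3 : (q3E s E V).ev x y = 2 * (s : ℝ) * (1 - e - v) := by
    unfold q3E
    rw [PE.ev, PE.ev, PE.ev, smulE_ev, smulE_ev, hE', hV]
    push_cast
    ring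
  have e2 : (q2E s E V).ev x y = 2 * (s : ℝ) * (1 - e - v / 2) := by
    unfold q2E
    rw [PE.ev, PE.ev, PE.ev, smulE_ev, smulE_ev, hE', hV]
    push_cast
    ring
  have e1 : ((2 : ℤ) : ℝ) * ((s : ℝ) * e) = 2 * (s : ℝ) * e := by push_cast; ring
  rw [e3, e2, e1, h1, h2]
  ring

theorem ppE_ev (N : ℕ) (s : ℤ) {e v : ℝ} (hE' : E.ev x y = s * e) (hV : V.ev x y = s * v) :
    (ppE N s E V).ev x y = (2 * (s : ℝ)) ^ N * hs N (fun j => (tab tP j : ℝ)) e (1 - e - v) := by
  have h1 := hs_scale N (fun j => (tab tP j : ℝ)) (2 * (s : ℝ)) 1 e (1 - e - v)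
  simp only [one_mul, mul_one] at h1
  unfold ppE
  rw [hE_ev, smulE_ev, hE']
  have e3 : (q3E s E V).ev x y = 2 * (s : ℝ) * (1 - e - v) := by
    unfold q3E
    rw [PE.ev, PE.ev, PE.ev, smulE_ev, smulE_ev, hE', hV]
    push_cast
    ring
  have e1 : ((2 : ℤ) : ℝ) * ((s : ℝ) * e) = 2 * (s : ℝ) * e := by push_cast; ring
  rw [e3, e1, h1]

theorem WW_cast (N : ℕ) (s : ℤ) : ((WW N s : ℤ) : ℝ) = (2 * (s : ℝ)) ^ N * 1000000 := by
  unfold WW
  rw [pz_eq]
  push_cast
  ring

end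

/-- `10^6` times the lower bound of the sum of the `hX` table -/
noncomputable def bX (N : ℕ) (a b : ℝ) : ℝ :=
  hs N (fun j => (tab tA j : ℝ)) (a / N) (1 - a / N - b / N)
    + hs N (fun j => (tab tB j : ℝ)) (a / N) (1 - a / N - b / N / 2)

noncomputable def bP (N : ℕ) (a b : ℝ) : ℝ :=
  hs N (fun j => (tab tP j : ℝ)) (a / N) (1 - a / N - b / N)

section
variable {x y : ℝ} {E V : PE} {N : ℕ} {t ern erd kn kd : ℤ} {a b : ℝ}

theorem xxE_ev' (hN : 0 < N) (hE' : E.ev x y = t * a) (hV : V.ev x y = t * b) :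
    (xxE N (t * N) E V).ev x y = (2 * ((t * N : ℤ) : ℝ)) ^ N * bX N a b := by
  have hN0 : (N : ℝ) ≠ 0 := by exact_mod_cast hN.ne'
  have h := xxE_ev (x := x) (y := y) (E := E) (V := V) N (t * N) (e := a / N) (v := b / N)
    (by rw [hE']; push_cast; field_simp) (by rw [hV]; push_cast; field_simp)
  rw [h]; rfl

theorem ppE_ev' (hN : 0 < N) (hE' : E.ev x y = t * a) (hV : V.ev x y = t * b) :
    (ppE N (t * N) E V).ev x y = (2 * ((t * N : ℤ) : ℝ)) ^ N * bP N a b := by
  have hN0 : (N : ℝ) ≠ 0 := by exact_mod_cast hN.ne'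
  have h := ppE_ev (x := x) (y := y) (E := E) (V := V) N (t * N) (e := a / N) (v := b / N)
    (by rw [hE']; push_cast; field_simp) (by rw [hV]; push_cast; field_simp)
  rw [h]; rfl

theorem lin4_ev (hE' : E.ev x y = t * a) (hV : V.ev x y = t * b) :
    (lin4 E V).ev x y = t * (a + 4 * b) := by
  unfold lin4
  rw [PE.ev, smulE_ev, hE', hV]
  push_cast
  ring

theorem C1E_ev {xn : ℤ} (hE' : E.ev x y = t * a) (hV : V.ev x y = t * b) :
    (C1E t xn E V).ev x y = 1600 * t * ((a / 16 + b / 4) - xn / 100) := by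
  unfold C1E
  rw [PE.ev, smulE_ev, lin4_ev hE' hV, PE.ev]
  push_cast
  ring

theorem Q0E_ev (hN : 0 < N) (hE' : E.ev x y = t * a) (hV : V.ev x y = t * b)
    (herd : (erd : ℝ) ≠ 0) :
    (Q0E N t ern erd E V).ev x y
      = (16 * (t : ℝ) ^ 2 * erd * 1000 * (2 * ((t * N : ℤ) : ℝ)) ^ N * 1000000)
        * ((a / 16 + b / 4) - 1 + bX N a b / 1000000
          - (ern : ℝ) / erd * ((4 * a ^ 2 + 30 * (a * b) + 125 * b ^ 2) / 1000)) := by
  unfold Q0E quadE
  simp only [PE.ev, smulE_ev]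
  rw [lin4_ev hE' hV, xxE_ev' hN hE' hV, hE', hV]
  push_cast
  simp only [WW_cast]
  push_cast
  field_simp
  ring

theorem Q1E_ev (hN : 0 < N) (hE' : E.ev x y = t * a) (hV : V.ev x y = t * b)
    (herd : (erd : ℝ) ≠ 0) (hkd : (kd : ℝ) ≠ 0) :
    (Q1E N t ern erd kn kd E V).ev x y
      = (160 * (t : ℝ) ^ 2 * erd * 10000 * kd * (2 * ((t * N : ℤ) : ℝ)) ^ N * 1000000)
        * ((a / 16 + b / 4) + 1 / 5 * ((kn : ℝ) / kd) * (b / 4 - a / 32) - 6 / 5
          + 13 / 10 * (bX N a b / 1000000) - 1 / 10 * (bP N a b / 1000000)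
          - (ern : ℝ) / erd * ((102 * a ^ 2 + 704 * (a * b) + 2625 * b ^ 2) / 10000)
          - a / 5000) := by
  unfold Q1E quadE
  simp only [PE.ev, smulE_ev]
  rw [lin4_ev hE' hV, xxE_ev' hN hE' hV, ppE_ev' hN hE' hV, hE', hV]
  push_cast
  simp only [WW_cast]
  push_cast
  field_simp
  ring

end

/-- expressions in the sectors: large and small box of the sector `a ≤ 8 b`, sector `8 b ≤ a` -/
def vAL : PE := PE.add (PE.c 1) (smulE 19 PE.u)
def eAL : PE := smulE 8 (PE.mul vAL PE.v)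
def vAS : PE := PE.u
def eAS : PE := smulE 8 (PE.mul vAS PE.v)
def eB : PE := smulE 40 PE.u
def vB : PE := smulE 5 (PE.mul PE.u PE.v)

def listAL (N : ℕ) (ern erd kn kd xn : ℤ) : List PE :=
  [C1E 5 xn eAL vAL, Q0E N 5 ern erd eAL vAL, Q1E N 5 ern erd kn kd eAL vAL]

/-- `(8 - 3 u) * (10 kd * Q0) + 3 u * Q1` (same normalisation) -/
def QLE (N : ℕ) (ern erd kn kd : ℤ) : PE :=
  PE.add (PE.mul (PE.add (PE.c 8) (smulE (-3) PE.u)) (smulE (100 * kd) (Q0E N 5 ern erd eAS vAS)))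
    (PE.mul (smulE 3 PE.u) (Q1E N 5 ern erd kn kd eAS vAS))

/-- **The contradiction**, given the three polynomial covers. -/
theorem reg_contra {N : ℕ} (hN : 0 < N) {ern erd kn kd xn : ℤ} (herd : 0 < erd) (hkd : 0 < kd)
    (hxn : xn ≤ 100) {tr1 tr2 tr3 : CTree} (h1 : cover tr1 (listAL N ern erd kn kd xn) = true)
    (h2 : cover2 tr2 [QLE N ern erd kn kd] = true)
    (h3 : cover2 tr3 [Q0E N 10 ern erd eB vB] = true)
    {a b : ℝ} (ha : 0 ≤ a) (hb : 0 ≤ b) (hab : 0 < a + b)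
    (hx : a / 16 + b / 4 ≤ xn / 100) (hneg : 8 * b < a → a ≤ 4)
    (hI0 : a / 16 + b / 4 ≤ 1 - bX N a b / 1000000
      + (ern : ℝ) / erd * ((4 * a ^ 2 + 30 * (a * b) + 125 * b ^ 2) / 1000))
    (hI1 : a ≤ 8 * b → (a / 16 + b / 4) + 1 / 5 * ((kn : ℝ) / kd) * (b / 4 - a / 32)
      ≤ 6 / 5 - 13 / 10 * (bX N a b / 1000000) + 1 / 10 * (bP N a b / 1000000)
        + (ern : ℝ) / erd * ((102 * a ^ 2 + 704 * (a * b) + 2625 * b ^ 2) / 10000)
        + a / 5000) : False := by
  have herd' : (erd : ℝ) ≠ 0 := by exact_mod_cast herd.ne'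
  have hkd' : (kd : ℝ) ≠ 0 := by exact_mod_cast hkd.ne'
  have herd0 : (0 : ℝ) < erd := by exact_mod_cast herd
  have hkd0 : (0 : ℝ) < kd := by exact_mod_cast hkd
  have hNr : (0 : ℝ) < N := by exact_mod_cast hN
  have hxn' : (xn : ℝ) ≤ 100 := by exact_mod_cast hxn
  rcases le_or_gt a (8 * b) with hc | hc
  · -- sector A
    have hb0 : 0 < b := by
      rcases hb.eq_or_lt with h | h
      · rw [← h] at hc hab; linarith only [hab, hc]
      · exact h
    have hb4 : b ≤ 4 := by linarith only [ha, hx, hxn']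
    have hσ0 : 0 ≤ a / (8 * b) := by (clear * - ha hb0; positivity)
    have hσ1 : a / (8 * b) ≤ 1 := by rw [div_le_one (by positivity)]; exact hc
    rcases le_or_gt (1 / 5) b with hL | hS
    · obtain ⟨e, he, hpos⟩ := cover_sound h1 (u := (5 * b - 1) / 19) (v := a / (8 * b))
        (by linarith only [hL]) (by linarith only [ha, hx, hxn']) hσ0 hσ1
      have hV : vAL.ev ((5 * b - 1) / 19) (a / (8 * b)) = ((5 : ℤ) : ℝ) * b := by
        unfold vAL; simp only [PE.ev, smulE_ev]; push_cast; ring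
      have hE' : eAL.ev ((5 * b - 1) / 19) (a / (8 * b)) = ((5 : ℤ) : ℝ) * a := by
        unfold eAL; simp only [PE.ev, smulE_ev]; rw [hV]
        push_cast
        change 8 * (5 * b * (a / (8 * b))) = 5 * a
        (clear * - hb0; field_simp)
      unfold listAL at he
      rcases List.mem_cons.1 he with rfl | he
      · rw [C1E_ev hE' hV] at hpos
        push_cast at hpos
        linarith only [hpos, hx]
      rcases List.mem_cons.1 he with rfl | he
      · rw [Q0E_ev hN hE' hV herd'] at hpos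
        have := pos_of_mul_pos_right hpos (by push_cast; positivity)
        linarith only [hI0, this]
      rcases List.mem_cons.1 he with rfl | he
      · rw [Q1E_ev hN hE' hV herd' hkd'] at hpos
        have := pos_of_mul_pos_right hpos (by push_cast; positivity)
        have := hI1 hc
        linarith
      · simp at he
    · obtain ⟨e, he, hpos⟩ := cover2_sound h2 (u := 5 * b) (v := a / (8 * b))
        (by linarith only [hb0]) (by linarith only [hS]) hσ0 hσ1
      have hV : vAS.ev (5 * b) (a / (8 * b)) = ((5 : ℤ) : ℝ) * b := by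
        unfold vAS; simp only [PE.ev]; push_cast; ring
      have hE' : eAS.ev (5 * b) (a / (8 * b)) = ((5 : ℤ) : ℝ) * a := by
        unfold eAS; simp only [PE.ev, smulE_ev]; rw [hV]
        push_cast
        change 8 * (5 * b * (a / (8 * b))) = 5 * a
        (clear * - hb0; field_simp)
      rcases List.mem_cons.1 he with rfl | he
      · unfold QLE at hpos
        simp only [PE.ev, smulE_ev] at hpos
        rw [Q0E_ev hN hE' hV herd', Q1E_ev hN hE' hV herd' hkd'] at hpos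
        have hK : (0 : ℝ) < (2 * (((5 : ℤ) * N : ℤ) : ℝ)) ^ N := by push_cast; positivity
        obtain ⟨K, hKd⟩ : ∃ K : ℝ, K = (2 * (((5 : ℤ) * N : ℤ) : ℝ)) ^ N := ⟨_, rfl⟩
        rw [← hKd] at hpos hK
        have hI := hI1 hc
        obtain ⟨R0, hR0⟩ : ∃ R0 : ℝ, R0 = (a / 16 + b / 4) - 1 + bX N a b / 1000000
          - (ern : ℝ) / erd * ((4 * a ^ 2 + 30 * (a * b) + 125 * b ^ 2) / 1000) := ⟨_, rfl⟩
        obtain ⟨R1, hR1⟩ : ∃ R1 : ℝ, R1 = (a / 16 + b / 4)
          + 1 / 5 * ((kn : ℝ) / kd) * (b / 4 - a / 32) - 6 / 5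
          + 13 / 10 * (bX N a b / 1000000) - 1 / 10 * (bP N a b / 1000000)
          - (ern : ℝ) / erd * ((102 * a ^ 2 + 704 * (a * b) + 2625 * b ^ 2) / 10000)
          - a / 5000 := ⟨_, rfl⟩
        rw [← hR0, ← hR1] at hpos
        have hR0' : R0 ≤ 0 := by rw [hR0]; linarith only [hI0]
        have hR1' : R1 ≤ 0 := by rw [hR1]; linarith only [hI]
        push_cast at hpos
        have hw : 0 < erd * kd * K := by (clear * - herd hkd hK; positivity)
        have e1 : (8 + -3 * (5 * b)) * (100 * kd * (16 * 5 ^ 2 * erd * 1000 * K * 1000000 * R0))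
            + 3 * (5 * b) * (160 * 5 ^ 2 * erd * 10000 * kd * K * 1000000 * R1)
            = erd * kd * K * (40000000000000 * ((8 - 15 * b) * R0 + 15 * b * R1)) := by ring
        rw [e1] at hpos
        have h5 := pos_of_mul_pos_right hpos hw.le
        have m1 := mul_nonneg (by linarith only [hS] : (0 : ℝ) ≤ 8 - 15 * b) (neg_nonneg.2 hR0')
        have m2 := mul_nonneg hb0.le (neg_nonneg.2 hR1')
        linarith only [h5, m1, m2]
      · simp at he
  · -- sector B
    have ha4 := hneg hc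
    have ha0 : 0 < a := by linarith only [hab, hc]
    obtain ⟨e, he, hpos⟩ := cover2_sound h3 (u := a / 4) (v := 8 * b / a)
      (by linarith only [hab, hc]) (by linarith only [ha4]) (by (clear * - hb ha0; positivity)) (by rw [div_le_one ha0]; exact hc.le)
    have hE' : eB.ev (a / 4) (8 * b / a) = ((10 : ℤ) : ℝ) * a := by
      unfold eB; simp only [PE.ev, smulE_ev]; push_cast; ring
    have hV : vB.ev (a / 4) (8 * b / a) = ((10 : ℤ) : ℝ) * b := by
      unfold vB; simp only [PE.ev, smulE_ev]; push_cast; field_simp; ring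
    rcases List.mem_cons.1 he with rfl | he
    · rw [Q0E_ev hN hE' hV herd'] at hpos
      have := pos_of_mul_pos_right hpos (by push_cast; positivity)
      linarith only [hI0, this]
    · simp at he

end Vale.Agent.P154.Bern
end

section

/-!
# P154: equalising the strengths (Robin Hood) for powers of `1 + t L`

If `1 + t L` is positive for `0 ≤ t ≤ 1 / N` and `L ^ 2 φ ≤ C m` where `L m = 0`, then
`(1 + L / d) ^ d φ ≤ (1 + L / N) ^ N φ + (1 / 2) (1 / N - 1 / d) C m` for all `d ≥ N`.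
-/

open scoped BigOperators
open Polynomial

namespace Vale.Agent.P154

section
variable {V : Type*} [AddCommGroup V] [Module ℝ V]

/-- `1 + t L` -/
noncomputable def onePlus (L : Module.End ℝ V) (t : ℝ) : Module.End ℝ V := 1 + t • L

theorem onePlus_apply (L : Module.End ℝ V) (t : ℝ) (x : V) : onePlus L t x = x + t • L x := rfl

theorem onePlus_pow_eq_aeval (L : Module.End ℝ V) (t : ℝ) (n : ℕ) :
    (onePlus L t) ^ n = aeval L ((1 + C t * X : ℝ[X]) ^ n) := by
  rw [map_pow, map_add, map_one, map_mul, aeval_C, aeval_X, Algebra.algebraMap_eq_smul_one,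
    smul_mul_assoc, one_mul]
  rfl

/-- one transfer of strength -/
theorem rh_poly (a b i δ : ℝ) (hab : b = a + δ) (P Q : ℝ[X]) :
    P * (1 + C a * X) * Q * (1 + C ((i + 1) * δ) * X)
      = P * (Q * (1 + C b * X)) * (1 + C (i * δ) * X)
        + C (δ * (a - i * δ)) * (P * Q) * (X * X) := by
  subst hab
  simp only [map_add, map_mul, map_sub, map_one]
  ring

variable (Pos : V → Prop) (h0 : Pos 0) (hadd : ∀ x y, Pos x → Pos y → Pos (x + y))
  (hsmul : ∀ c : ℝ, 0 ≤ c → ∀ x, Pos x → Pos (c • x))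
include h0 hadd hsmul

omit h0 hadd hsmul in
theorem pos_onePlus_pow {L : Module.End ℝ V} {t : ℝ}
    (hA : ∀ x, Pos x → Pos (onePlus L t x)) (n : ℕ) (x : V) (hx : Pos x) :
    Pos ((onePlus L t ^ n) x) := by
  induction n with
  | zero => simpa using hx
  | succ n ih => rw [pow_succ', Module.End.mul_apply]; exact hA _ ih

omit h0 hadd hsmul in
theorem onePlus_pow_m {L : Module.End ℝ V} (t : ℝ) {m : V} (hm : L m = 0) (n : ℕ) :
    (onePlus L t ^ n) m = m := by
  induction n with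
  | zero => simp
  | succ n ih => rw [pow_succ', Module.End.mul_apply, ih, onePlus_apply, hm]; simp

/-- From `d` to `d + 1`. -/
theorem rh_step {L : Module.End ℝ V} {m φ : V} (hm : L m = 0) {K : ℝ}
    (h2 : Pos (K • m - L (L φ))) (d : ℕ) (hd : 1 ≤ d)
    (hA : ∀ t : ℝ, 0 ≤ t → t ≤ 1 / d → ∀ x, Pos x → Pos (onePlus L t x)) :
    Pos (((onePlus L (1 / (d : ℝ)) ^ d) φ + (1 / 2 * (1 / (d : ℝ) - 1 / ((d : ℝ) + 1)) * K) • m)
      - (onePlus L (1 / ((d : ℝ) + 1)) ^ (d + 1)) φ) := by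
  have hd0 : (0 : ℝ) < d := by exact_mod_cast hd
  set a : ℝ := 1 / ((d : ℝ) + 1) with ha
  set b : ℝ := 1 / (d : ℝ) with hb
  set δ : ℝ := b - a with hδ
  have hab : b = a + δ := by rw [hδ]; ring
  have hδv : δ = 1 / (d * (d + 1)) := by rw [hδ, ha, hb]; field_simp; ring
  have ha0 : 0 < a := by rw [ha]; positivity
  have hb0 : 0 < b := by rw [hb]; positivity
  have hδ0 : 0 < δ := by rw [hδv]; positivity
  have hle : a ≤ b := by linarith only [hδ0]
  -- the interpolating operators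
  let S : ℕ → V := fun i =>
    aeval L ((1 + C a * X : ℝ[X]) ^ i * (1 + C b * X) ^ (d - i) * (1 + C ((i : ℝ) * δ) * X)) φ
  have key : ∀ i, i ≤ d → Pos ((S 0 + ((∑ k ∈ Finset.range i, δ * (a - k * δ)) * K) • m) - S i) := by
    intro i
    induction i with
    | zero => intro _; simpa using h0
    | succ i ih =>
      intro hi
      have hi' : i < d := hi
      have h3 := ih hi'.le
      have hdi : d - i = (d - (i + 1)) + 1 := by omega
      have hcoef : 0 ≤ δ * (a - i * δ) := by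
        refine mul_nonneg hδ0.le ?_
        have h4 : (i : ℝ) ≤ d := by exact_mod_cast hi'.le
        have h5 : (i : ℝ) * δ ≤ d * δ := mul_le_mul_of_nonneg_right h4 hδ0.le
        have h6 : (d : ℝ) * δ = a := by rw [hδv, ha]; field_simp
        linarith only [h5, h6]
      -- difference
      have hdiff : S (i + 1) = S i + (δ * (a - i * δ)) •
          ((onePlus L a ^ i) ((onePlus L b ^ (d - (i + 1))) (L (L φ)))) := by
        change aeval L ((1 + C a * X : ℝ[X]) ^ (i + 1) * (1 + C b * X) ^ (d - (i + 1))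
            * (1 + C (((i + 1 : ℕ) : ℝ) * δ) * X)) φ = _
        have hp : (1 + C a * X : ℝ[X]) ^ (i + 1) * (1 + C b * X) ^ (d - (i + 1))
            * (1 + C (((i + 1 : ℕ) : ℝ) * δ) * X)
            = (1 + C a * X : ℝ[X]) ^ i * (1 + C b * X) ^ (d - i) * (1 + C ((i : ℝ) * δ) * X)
              + C (δ * (a - i * δ)) * ((1 + C a * X : ℝ[X]) ^ i * (1 + C b * X) ^ (d - (i + 1)))
                * (X * X) := by
          have h7 := rh_poly a b (i : ℝ) δ hab ((1 + C a * X : ℝ[X]) ^ i)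
            ((1 + C b * X) ^ (d - (i + 1)))
          rw [hdi, pow_succ, pow_succ]
          push_cast at h7 ⊢
          exact h7
        rw [hp, map_add, LinearMap.add_apply]
        congr 1
        generalize δ * (a - i * δ) = cf
        rw [map_mul, map_mul, map_mul, map_mul, aeval_C, aeval_X, Algebra.algebraMap_eq_smul_one,
          smul_mul_assoc, one_mul, ← onePlus_pow_eq_aeval, ← onePlus_pow_eq_aeval]
        rfl
      -- positivity of the difference
      have hApos : ∀ x, Pos x → Pos (onePlus L a x) := hA a ha0.le hle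
      have hBpos : ∀ x, Pos x → Pos (onePlus L b x) := hA b hb0.le le_rfl
      have h8 : Pos ((onePlus L a ^ i) ((onePlus L b ^ (d - (i + 1))) (K • m - L (L φ)))) :=
        pos_onePlus_pow Pos hApos _ _
          (pos_onePlus_pow Pos hBpos _ _ h2)
      have h9 := hadd _ _ h3 (hsmul _ hcoef _ h8)
      have e : (S 0 + ((∑ k ∈ Finset.range (i + 1), δ * (a - k * δ)) * K) • m) - S (i + 1)
          = ((S 0 + ((∑ k ∈ Finset.range i, δ * (a - k * δ)) * K) • m) - S i)
            + (δ * (a - i * δ)) • ((onePlus L a ^ i) ((onePlus L b ^ (d - (i + 1)))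
              (K • m - L (L φ)))) := by
        rw [hdiff, Finset.sum_range_succ, map_sub, map_sub, map_smul, map_smul,
          onePlus_pow_m b hm, onePlus_pow_m a hm, smul_sub, smul_smul, add_mul, add_smul]
        abel
      rw [e]
      exact h9
  have hfin := key d le_rfl
  have hS0 : S 0 = (onePlus L b ^ d) φ := by
    change aeval L ((1 + C a * X : ℝ[X]) ^ 0 * (1 + C b * X) ^ (d - 0)
      * (1 + C (((0 : ℕ) : ℝ) * δ) * X)) φ = _
    rw [onePlus_pow_eq_aeval]
    simp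
  have hSd : S d = (onePlus L a ^ (d + 1)) φ := by
    change aeval L ((1 + C a * X : ℝ[X]) ^ d * (1 + C b * X) ^ (d - d)
      * (1 + C ((d : ℝ) * δ) * X)) φ = _
    have h6 : (d : ℝ) * δ = a := by rw [hδv, ha]; field_simp
    rw [onePlus_pow_eq_aeval, h6, Nat.sub_self, pow_zero, mul_one, ← pow_succ]
  have hsum : ∑ k ∈ Finset.range d, δ * (a - k * δ) = 1 / 2 * (b - a) := by
    have h10 : ∀ n : ℕ, ∑ k ∈ Finset.range n, δ * (a - k * δ)
        = δ * (n * a - n * (n - 1) / 2 * δ) := by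
      intro n
      induction n with
      | zero => simp
      | succ n ih => rw [Finset.sum_range_succ, ih]; push_cast; ring
    rw [h10, hδv, ha, hb]
    field_simp
    ring
  rw [hS0, hSd, hsum] at hfin
  exact hfin

/-- **Robin Hood.** -/
theorem robin_hood {L : Module.End ℝ V} {m φ : V} (hm : L m = 0) {K : ℝ}
    (h2 : Pos (K • m - L (L φ))) (N : ℕ) (hN : 1 ≤ N)
    (hA : ∀ t : ℝ, 0 ≤ t → t ≤ 1 / N → ∀ x, Pos x → Pos (onePlus L t x)) (d : ℕ) (hd : N ≤ d) :
    Pos (((onePlus L (1 / (N : ℝ)) ^ N) φ + (1 / 2 * (1 / (N : ℝ) - 1 / (d : ℝ)) * K) • m)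
      - (onePlus L (1 / (d : ℝ)) ^ d) φ) := by
  induction d, hd using Nat.le_induction with
  | base => simpa only [one_div, sub_self, mul_zero, zero_mul, zero_smul, add_zero] using h0
  | succ d hd ih =>
    have hNd : (1 : ℝ) / d ≤ 1 / N := by
      have h1 : (0 : ℝ) < N := by exact_mod_cast hN
      have h3 : (N : ℝ) ≤ d := by exact_mod_cast hd
      exact one_div_le_one_div_of_le h1 h3
    have hs := rh_step Pos h0 hadd hsmul hm h2 d (hN.trans hd)
      (fun t ht ht1 => hA t ht (ht1.trans hNd))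
    have h3 := hadd _ _ ih hs
    have e : ((onePlus L (1 / (N : ℝ)) ^ N) φ + (1 / 2 * (1 / (N : ℝ) - 1 / (d : ℝ)) * K) • m)
          - (onePlus L (1 / (d : ℝ)) ^ d) φ
        + (((onePlus L (1 / (d : ℝ)) ^ d) φ + (1 / 2 * (1 / (d : ℝ) - 1 / ((d : ℝ) + 1)) * K) • m)
          - (onePlus L (1 / ((d : ℝ) + 1)) ^ (d + 1)) φ)
        = ((onePlus L (1 / (N : ℝ)) ^ N) φ
            + (1 / 2 * (1 / (N : ℝ) - 1 / ((d + 1 : ℕ) : ℝ)) * K) • m)
          - (onePlus L (1 / ((d + 1 : ℕ) : ℝ)) ^ (d + 1)) φ := by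
      push_cast
      have e2 : (1 / 2 * (1 / (N : ℝ) - 1 / ((d : ℝ) + 1)) * K) • m
          = (1 / 2 * (1 / (N : ℝ) - 1 / (d : ℝ)) * K) • m
            + (1 / 2 * (1 / (d : ℝ) - 1 / ((d : ℝ) + 1)) * K) • m := by
        rw [← add_smul]
        congr 1
        ring
      rw [e2]
      abel
    rw [e] at h3
    exact h3

end

end Vale.Agent.P154
end

section

/-!
# P154: kernel verification of the covers, regular trees
-/

namespace Vale.Agent.P154.Bern
open CTree

set_option maxRecDepth 100000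

theorem coverAL_6 : cover (sv (su (su (leaf 2) (leaf 2)) (leaf 2)) (leaf 1)) (listAL 6 0 1 1224 1000 100) = true := by
  decide +kernel

theorem coverAS_6 : cover2 (leaf 0) [QLE 6 0 1 1224 1000] = true := by
  decide +kernel

theorem coverB_6 : cover2 (leaf 0) [Q0E 6 10 0 1 eB vB] = true := by
  decide +kernel

theorem coverAL_7 : cover (su (sv (su (leaf 2) (leaf 2)) (leaf 1)) (leaf 2)) (listAL 7 0 1 1322 1000 100) = true := by
  decide +kernel

theorem coverAS_7 : cover2 (leaf 0) [QLE 7 0 1 1322 1000] = true := by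
  decide +kernel

theorem coverB_7 : cover2 (leaf 0) [Q0E 7 10 0 1 eB vB] = true := by
  decide +kernel

theorem coverAL_8 : cover (sv (su (su (leaf 2) (leaf 2)) (leaf 2)) (su (su (su (su (su (su (su (sv (leaf 2) (leaf 1)) (leaf 1)) (leaf 1)) (leaf 1)) (leaf 1)) (leaf 1)) (leaf 1)) (leaf 0))) (listAL 8 3 176 1414 1000 100) = true := by
  decide +kernel

theorem coverAS_8 : cover2 (leaf 0) [QLE 8 3 176 1414 1000] = true := by
  decide +kernel

theorem coverB_8 : cover2 (leaf 0) [Q0E 8 10 3 176 eB vB] = true := by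
  decide +kernel

theorem coverAL_12 : cover (su (sv (su (su (leaf 2) (leaf 2)) (leaf 2)) (su (su (su (su (sv (sv (leaf 2) (leaf 1)) (leaf 1)) (leaf 1)) (leaf 1)) (leaf 1)) (leaf 1))) (sv (leaf 2) (leaf 0))) (listAL 12 1 24 1732 1000 100) = true := by
  decide +kernel

theorem coverAS_12 : cover2 (leaf 0) [QLE 12 1 24 1732 1000] = true := by
  decide +kernel

theorem coverB_12 : cover2 (leaf 0) [Q0E 12 10 1 24 eB vB] = true := by
  decide +kernel

theorem coverAL_4 : cover (su (su (sv (su (su (leaf 2) (sv (leaf 2) (sv (su (leaf 2) (sv (su (leaf 2) (leaf 0)) (leaf 0))) (su (sv (su (leaf 2) (su (leaf 2) (leaf 0))) (su (sv (su (leaf 2) (leaf 1)) (leaf 1)) (leaf 0))) (leaf 0))))) (su (sv (sv (su (leaf 2) (sv (leaf 2) (leaf 0))) (su (sv (leaf 2) (leaf 0)) (leaf 0))) (leaf 0)) (leaf 0))) (su (su (su (su (su (su (sv (sv (leaf 2) (leaf 1)) (leaf 1)) (leaf 1)) (leaf 1)) (leaf 1)) (leaf 1)) (leaf 1)) (leaf 0))) (leaf 0)) (leaf 0)) (listAL 4 0 1 1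 1 22) = true := by
  decide +kernel

theorem coverAS_4 : cover2 (leaf 0) [QLE 4 0 1 1 1] = true := by
  decide +kernel

theorem coverB_4 : cover2 (leaf 0) [Q0E 4 10 0 1 eB vB] = true := by
  decide +kernel

end Vale.Agent.P154.Bern
end

section

/-!
# P154: the polynomial inequalities of the Poisson trees (base strength 1/2)

Variables: `a` = mean number of edge messages, `w = 1 - exp (-b / 2)`, `b` = mean number of
vertex messages.  The Poisson number of edge messages is replaced by a binomial number with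
parameters `12, a / 12`; `b` is bounded below by `bLog w`.
-/

open scoped BigOperators

namespace Vale.Agent.P154.Bern

/-- lower bound of `-2 log (1 - w)` -/
noncomputable def bLog (w : ℝ) : ℝ :=
  2 * (w + w ^ 2 / 2 + w ^ 3 / 3 + w ^ 4 / 4 + w ^ 5 / 5 + w ^ 6 / 6)

/-- `10^6` times the lower bound for the `hX` average -/
noncomputable def dX (a w : ℝ) : ℝ :=
  (1 - w) ^ 2 * hs 12 (fun j => (tab tA j : ℝ)) (a / 12) (1 - a / 12)
    + (1 - w) * hs 12 (fun j => (tab tB j : ℝ)) (a / 12) (1 - a / 12)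

/-- `10^6` times the upper bound for the `hP` average -/
noncomputable def dP (a w : ℝ) : ℝ :=
  (1 - w) ^ 2 * hs 12 (fun j => (tab tP j : ℝ)) (a / 12) (1 - a / 12)

noncomputable def R0 (a w : ℝ) : ℝ :=
  a / 16 + bLog w / 4 - 1 + dX a w / 1000000 - 17 / 40000 * a ^ 2

noncomputable def R1 (a w : ℝ) : ℝ :=
  a / 16 + bLog w / 4 + 1 / 5 * (bLog w / 4 - a / 32) - 6 / 5 + 13 / 10 * (dX a w / 1000000)
    - 1 / 10 * (dP a w / 1000000) - 17 / 40000 * a ^ 2 - a / 5000

def zzE (t : ℤ) (W : PE) : PE := PE.add (PE.c t) (smulE (-1) W)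
def qqE (t : ℤ) (A : PE) : PE := PE.add (PE.c (12 * t)) (smulE (-1) A)
def WP (t : ℤ) : ℤ := pz (12 * t) 12 * 1000000
def dXE (t : ℤ) (A W : PE) : PE :=
  PE.mul (zzE t W) (PE.add (PE.mul (zzE t W) (hE 12 tA A (qqE t A)))
    (smulE t (hE 12 tB A (qqE t A))))
def dPE (t : ℤ) (A W : PE) : PE := PE.mul (zzE t W) (PE.mul (zzE t W) (hE 12 tP A (qqE t A)))
def bLE (t : ℤ) (W : PE) : PE :=
  PE.mul W (PE.add (PE.c (60 * pz t 5)) (PE.mul W (PE.add (PE.c (30 * pz t 4))
    (PE.mul W (PE.add (PE.c (20 * pz t 3)) (PE.mul W (PE.add (PE.c (15 * pz t 2))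
      (PE.mul W (PE.add (PE.c (12 * t)) (smulE 10 W))))))))))

def Q0P (t : ℤ) (A W : PE) : PE :=
  PE.add (smulE (7500 * pz t 5 * WP t) A)
    (PE.add (smulE (1000 * WP t) (bLE t W))
      (PE.add (PE.c (-(120000 * pz t 6 * WP t)))
        (PE.add (smulE (120000 * pz t 4) (dXE t A W))
          (smulE (-(51 * pz t 4 * WP t)) (PE.mul A A)))))

def Q1P (t : ℤ) (A W : PE) : PE :=
  PE.add (smulE (6726 * pz t 5 * WP t) A)
    (PE.add (smulE (1200 * WP t) (bLE t W))
      (PE.add (PE.c (-(144000 * pz t 6 * WP t)))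
        (PE.add (smulE (156000 * pz t 4) (dXE t A W))
          (PE.add (smulE (-(12000 * pz t 4)) (dPE t A W))
            (smulE (-(51 * pz t 4 * WP t)) (PE.mul A A))))))

section
variable {x y : ℝ} {A W : PE} {t : ℤ} {a w : ℝ}

theorem hE12_ev (l : List ℤ) (hA : A.ev x y = t * a) :
    (hE 12 l A (qqE t A)).ev x y
      = (12 * (t : ℝ)) ^ 12 * hs 12 (fun j => (tab l j : ℝ)) (a / 12) (1 - a / 12) := by
  have h1 := hs_scale 12 (fun j => (tab l j : ℝ)) (12 * (t : ℝ)) 1 (a / 12) (1 - a / 12)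
  simp only [one_mul, mul_one] at h1
  rw [hE_ev, ← h1]
  have e1 : A.ev x y = 12 * (t : ℝ) * (a / 12) := by rw [hA]; ring
  have e2 : (qqE t A).ev x y = 12 * (t : ℝ) * (1 - a / 12) := by
    unfold qqE
    rw [PE.ev, PE.ev, smulE_ev, hA]
    push_cast
    ring
  rw [e1, e2]

theorem zzE_ev (hW : W.ev x y = t * w) : (zzE t W).ev x y = t * (1 - w) := by
  unfold zzE
  rw [PE.ev, PE.ev, smulE_ev, hW]
  push_cast
  ring

theorem dXE_ev (hA : A.ev x y = t * a) (hW : W.ev x y = t * w) :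
    (dXE t A W).ev x y = (t : ℝ) ^ 2 * (12 * (t : ℝ)) ^ 12 * dX a w := by
  unfold dXE dX
  rw [PE.ev, PE.ev, PE.ev, smulE_ev, hE12_ev _ hA, hE12_ev _ hA, zzE_ev hW]
  ring

theorem dPE_ev (hA : A.ev x y = t * a) (hW : W.ev x y = t * w) :
    (dPE t A W).ev x y = (t : ℝ) ^ 2 * (12 * (t : ℝ)) ^ 12 * dP a w := by
  unfold dPE dP
  rw [PE.ev, PE.ev, hE12_ev _ hA, zzE_ev hW]
  ring

theorem bLE_ev (hW : W.ev x y = t * w) :
    (bLE t W).ev x y = 30 * (t : ℝ) ^ 6 * bLog w := by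
  unfold bLE bLog
  simp only [PE.ev, smulE_ev, hW, pz_eq]
  push_cast
  ring

theorem WP_cast (t : ℤ) : ((WP t : ℤ) : ℝ) = (12 * (t : ℝ)) ^ 12 * 1000000 := by
  unfold WP
  rw [pz_eq]
  push_cast
  ring

theorem Q0P_ev (hA : A.ev x y = t * a) (hW : W.ev x y = t * w) :
    (Q0P t A W).ev x y = (120000 * (t : ℝ) ^ 6 * (12 * (t : ℝ)) ^ 12 * 1000000) * R0 a w := by
  unfold Q0P R0
  simp only [PE.ev, smulE_ev]
  rw [dXE_ev hA hW, bLE_ev hW, hA]
  push_cast
  simp only [WP_cast, pz_eq]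
  push_cast
  ring

theorem Q1P_ev (hA : A.ev x y = t * a) (hW : W.ev x y = t * w) :
    (Q1P t A W).ev x y = (120000 * (t : ℝ) ^ 6 * (12 * (t : ℝ)) ^ 12 * 1000000) * R1 a w := by
  unfold Q1P R1
  simp only [PE.ev, smulE_ev]
  rw [dXE_ev hA hW, dPE_ev hA hW, bLE_ev hW, hA]
  push_cast
  simp only [WP_cast, pz_eq]
  push_cast
  ring

end

/-- large box: `10 w = 1 + 8 u`, `10 a = 24 (10 w) v` -/
def wPL : PE := PE.add (PE.c 1) (smulE 8 PE.u)
def aPL : PE := smulE 24 (PE.mul wPL PE.v)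
/-- small box: `10 w = u` -/
def aPS : PE := smulE 24 (PE.mul PE.u PE.v)
/-- sector B: `4 a = 16 u`, `4 w = u v` -/
def aPB : PE := smulE 16 PE.u
def wPB : PE := PE.mul PE.u PE.v

def listPL : List PE := [Q0P 10 aPL wPL, Q1P 10 aPL wPL]

/-- `(2 - u) Q0 + u Q1` -/
def mixP : PE := PE.add (PE.mul (PE.add (PE.c 2) (smulE (-1) PE.u)) (Q0P 10 aPS PE.u))
  (PE.mul PE.u (Q1P 10 aPS PE.u))

/-- **The contradiction**, given the three polynomial covers. -/
theorem pois_contra {tr1 tr2 tr3 : CTree} (h1 : cover tr1 listPL = true)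
    (h2 : cover2 tr2 [mixP] = true) (h3 : cover2 tr3 [Q0P 4 aPB wPB] = true)
    {a w : ℝ} (ha : 0 ≤ a) (hw : 0 ≤ w) (hw9 : w ≤ 9 / 10) (haw : 0 < a + w)
    (hcase : a ≤ 24 * w ∨ (16 * w ≤ a ∧ a ≤ 4))
    (hI0 : R0 a w ≤ 0) (hI1 : a ≤ 24 * w → (R1 a w ≤ 0 ∨ (16 * w ≤ a ∧ a ≤ 4))) : False := by
  by_cases hB : 16 * w ≤ a ∧ a ≤ 4
  · obtain ⟨hB1, hB2⟩ := hB
    have ha0 : 0 < a := by
      rcases ha.eq_or_lt with h | h
      · exfalso; rw [← h] at haw hB1; linarith only [haw, hB1]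
      · exact h
    obtain ⟨e, he, hpos⟩ := cover2_sound h3 (u := a / 4) (v := 16 * w / a)
      (by linarith only [haw, hB1]) (by linarith only [hB2]) (by (clear * - hw ha0; positivity)) (by rw [div_le_one ha0]; exact hB1)
    have hE' : aPB.ev (a / 4) (16 * w / a) = ((4 : ℤ) : ℝ) * a := by
      unfold aPB; simp only [PE.ev, smulE_ev]; push_cast; ring
    have hV : wPB.ev (a / 4) (16 * w / a) = ((4 : ℤ) : ℝ) * w := by
      unfold wPB; simp only [PE.ev]; push_cast; field_simp; ring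
    rcases List.mem_cons.1 he with rfl | he
    · rw [Q0P_ev hE' hV] at hpos
      have := pos_of_mul_pos_right hpos (by push_cast; positivity)
      linarith only [hI0, this]
    · simp at he
  · have hA : a ≤ 24 * w := by
      rcases hcase with h | h
      · exact h
      · exact absurd h hB
    have hR1 : R1 a w ≤ 0 := by
      rcases hI1 hA with h | h
      · exact h
      · exact absurd h hB
    have hw0 : 0 < w := by
      rcases hw.eq_or_lt with h | h
      · exfalso; rw [← h] at haw hA; linarith only [haw, hA]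
      · exact h
    have hσ0 : 0 ≤ a / (24 * w) := by (clear * - ha hw0; positivity)
    have hσ1 : a / (24 * w) ≤ 1 := by rw [div_le_one (by positivity)]; exact hA
    rcases le_or_gt (1 / 10) w with hL | hS
    · obtain ⟨e, he, hpos⟩ := cover_sound h1 (u := (10 * w - 1) / 8) (v := a / (24 * w))
        (by linarith only [hL]) (by linarith only [hw9]) hσ0 hσ1
      have hV : wPL.ev ((10 * w - 1) / 8) (a / (24 * w)) = ((10 : ℤ) : ℝ) * w := by
        unfold wPL; simp only [PE.ev, smulE_ev]; push_cast; ring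
      have hE' : aPL.ev ((10 * w - 1) / 8) (a / (24 * w)) = ((10 : ℤ) : ℝ) * a := by
        unfold aPL; simp only [PE.ev, smulE_ev]; rw [hV]
        push_cast
        (clear * - hw0; field_simp)
      unfold listPL at he
      rcases List.mem_cons.1 he with rfl | he
      · rw [Q0P_ev hE' hV] at hpos
        have := pos_of_mul_pos_right hpos (by push_cast; positivity)
        linarith only [hI0, this]
      rcases List.mem_cons.1 he with rfl | he
      · rw [Q1P_ev hE' hV] at hpos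
        have := pos_of_mul_pos_right hpos (by push_cast; positivity)
        linarith only [hR1, this]
      · simp at he
    · obtain ⟨e, he, hpos⟩ := cover2_sound h2 (u := 10 * w) (v := a / (24 * w))
        (by linarith only [hw0]) (by linarith only [hS]) hσ0 hσ1
      have hV : PE.u.ev (10 * w) (a / (24 * w)) = ((10 : ℤ) : ℝ) * w := by
        simp only [PE.ev]; push_cast; ring
      have hE' : aPS.ev (10 * w) (a / (24 * w)) = ((10 : ℤ) : ℝ) * a := by
        unfold aPS; simp only [PE.ev, smulE_ev]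
        push_cast
        (clear * - hw0; field_simp)
      rcases List.mem_cons.1 he with rfl | he
      · unfold mixP at hpos
        simp only [PE.ev, smulE_ev] at hpos
        rw [Q0P_ev hE' hV, Q1P_ev hE' hV] at hpos
        push_cast at hpos
        have a1 : 0 ≤ (2 - 10 * w) * -(R0 a w) :=
          mul_nonneg (by linarith only [hw0, hS]) (by linarith only [hI0])
        have a2 : 0 ≤ 10 * w * -(R1 a w) := mul_nonneg (by linarith only [hw0]) (by linarith only [hR1])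
        nlinarith only [hpos, a1, a2]
      · simp at he

end Vale.Agent.P154.Bern
end

section

/-!
# P154: kernel verification of the covers, Poisson trees
-/

namespace Vale.Agent.P154.Bern
open CTree

set_option maxRecDepth 100000

theorem coverPL : cover (su (sv (su (sv (leaf 1) (sv (sv (leaf 1) (su (su (leaf 1)
    (su (leaf 1) (leaf 0))) (leaf 0))) (leaf 0))) (leaf 1)) (leaf 0)) (leaf 1)) listPL = true := by
  decide +kernel

theorem coverPS : cover2 (leaf 0) [mixP] = true := by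
  decide +kernel

theorem coverPB : cover2 (leaf 0) [Q0P 4 aPB wPB] = true := by
  decide +kernel

end Vale.Agent.P154.Bern
end

section
/-!
# P154: rigorous density evolution for the 4-ary tree, three spins, `lam = -1/2`: the computation

A finite symmetric law on the barycentric grid `g / 28`, `g ∈ ℕ^3`, `∑ g = 28`, is stored as the
list of the masses (out of `2 ^ 20`) of the 80 orbits under permutations.  A vector of 80 numbers
below `2 ^ 56` is packed into one natural number.  Everything is written with the kernel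
accelerated operations on `Nat`; the orbit of a grid point is found by a table lookup.
-/

namespace Vale.Agent.P154.DE

/-- table: the 8-bit entry number `29 * x + y` is the number of the orbit of `(x, y, 28 - x - y)` -/
def TT : Nat := 0x1010000000000000000000000000000000000000000000000000000020f02000000000000000000000000000000000000000000000000000310100300000000000000000000000000000000000000000000000004111c1104000000000000000000000000000000000000000000000005121d1d12050000000000000000000000000000000000000000000006131e281e130600000000000000000000000000000000000000000007141f29291f140700000000000000000000000000000000000000000815202a322a201508000000000000000000000000000000000000000916212b33332b2116090000000000000000000000000000000000000a17222c343b342c22170a00000000000000000000000000000000000b18232d353c3c352d23180b000000000000000000000000000000000c19242e363d423d362e24190c0000000000000000000000000000000d1a252f373e43433e372f251a0d00000000000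000000000000000000e1b2630383f4448443f3830261b0e000000000000000000000000000d1b2731394045494945403931271b0d0000000000000000000000000c1a26313a41464a4c4a46413a31261a0c00000000000000000000000b1925303941474b4d4d4b4741393025190b000000000000000000000a18242f3840464b4e4f4e4b4640382f24180a0000000000000000000917232e373f454a4d4f4f4d4a453f372e23170900000000000000000816222d363e44494c4d4e4d4c49443e362d221608000000000000000715212c353d4348494a4b4b4a4948433d352c2115070000000000000614202b343c42434445464746454443423c342b201406000000000005131f2a333b3c3d3e3f404141403f3e3d3c3b332a1f13050000000004121e2932333435363738393a3938373635343332291e120400000003111d28292a2b2c2d2e2f303131302f2e2d2c2b2a29281d1103000002101c1d1e1f2021222324252627262524232221201f1e1d1c100200010f101112131415161718191a1b1b1a191817161514131211100f01000102030405060708090a0b0c0d0e0d0c0b0a09080706050403020100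

def tm (r p : Nat) : Nat :=
  Nat.shiftLeft r (Nat.mul 56 (Nat.mod (Nat.shiftRight TT (Nat.mul 8 p)) 256))

def f0 (S _rx _ry _rz p : Nat) : Nat := tm S p

def f1 (_S rx ry rz p : Nat) : Nat :=
  Nat.add (tm rx (Nat.add p 29)) (Nat.add (tm ry (Nat.succ p)) (tm rz p))

def f2 (S rx ry rz p : Nat) : Nat :=
  Nat.add (tm (Nat.sub S rx) (Nat.succ p))
    (Nat.add (tm (Nat.sub S ry) (Nat.add p 29)) (tm (Nat.sub S rz) (Nat.add p 30)))

def spc (S rx ry rz p t : Nat) : Nat :=
  (cond (Nat.beq t 0) f0 (cond (Nat.beq t S) f1 f2)) S rx ry rz p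

def spb (S rx ry rz p : Nat) : Nat := spc S rx ry rz p (Nat.add rx (Nat.add ry rz))

def spa (S X Y Z : Nat) : Nat :=
  spb S (Nat.mod X S) (Nat.mod Y S) (Nat.mod Z S) (Nat.add (Nat.mul 29 (Nat.div X S)) (Nat.div Y S))

/-- split the vector `(x, y, z)` onto the grid -/
def splt (x y z : Nat) : Nat :=
  spa (Nat.add x (Nat.add y z)) (Nat.mul 28 x) (Nat.mul 28 y) (Nat.mul 28 z)

/-- all products of `(a, b, c)` with permutations of `(x, y, z)`, split onto the grid -/
def six (a b c x y z : Nat) : Nat :=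
  Nat.add (splt (Nat.mul a x) (Nat.mul b y) (Nat.mul c z))
   (Nat.add (splt (Nat.mul a x) (Nat.mul b z) (Nat.mul c y))
   (Nat.add (splt (Nat.mul a y) (Nat.mul b x) (Nat.mul c z))
   (Nat.add (splt (Nat.mul a y) (Nat.mul b z) (Nat.mul c x))
   (Nat.add (splt (Nat.mul a z) (Nat.mul b x) (Nat.mul c y))
    (splt (Nat.mul a z) (Nat.mul b y) (Nat.mul c x))))))

/-- product of two messages -/
def g1 (b c y z : Nat) : Nat :=
  six (Nat.add b c) (Nat.sub 28 b) (Nat.sub 28 c) (Nat.add y z) (Nat.sub 28 y) (Nat.sub 28 z)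

/-- product of two grid points -/
def g2 (b c y z : Nat) : Nat :=
  six (Nat.sub 28 (Nat.add b c)) b c (Nat.sub 28 (Nat.add y z)) y z

def orbs : List (Nat × Nat) := [(0, 0), (1, 0), (2, 0), (3, 0), (4, 0), (5, 0), (6, 0), (7, 0), (8, 0), (9, 0), (10, 0),
  (11, 0), (12, 0), (13, 0), (14, 0), (1, 1), (2, 1), (3, 1), (4, 1), (5, 1), (6, 1), (7, 1),
  (8, 1), (9, 1), (10, 1), (11, 1), (12, 1), (13, 1), (2, 2), (3, 2), (4, 2), (5, 2), (6, 2),
  (7, 2), (8, 2), (9, 2), (10, 2), (11, 2), (12, 2), (13, 2), (3, 3), (4, 3), (5, 3), (6, 3),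
  (7, 3), (8, 3), (9, 3), (10, 3), (11, 3), (12, 3), (4, 4), (5, 4), (6, 4), (7, 4), (8, 4),
  (9, 4), (10, 4), (11, 4), (12, 4), (5, 5), (6, 5), (7, 5), (8, 5), (9, 5), (10, 5), (11, 5),
  (6, 6), (7, 6), (8, 6), (9, 6), (10, 6), (11, 6), (7, 7), (8, 7), (9, 7), (10, 7), (8, 8),
  (9, 8), (10, 8), (9, 9)]

noncomputable def row (g : Nat → Nat → Nat → Nat → Nat) (b c : Nat) (ms : List Nat) :
    List (Nat × Nat) → Nat :=
  List.rec (motive := fun _ => List (Nat × Nat) → Nat) (fun _ => 0)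
    (fun m _ ih os => List.rec (motive := fun _ => Nat) 0
      (fun o os' _ => Nat.add (Nat.mul m (g b c o.1 o.2)) (ih os')) os) ms

noncomputable def prd (g : Nat → Nat → Nat → Nat → Nat) (ms : List Nat) :
    List (Nat × Nat) → Nat :=
  List.rec (motive := fun _ => List (Nat × Nat) → Nat) (fun _ => 0)
    (fun m ms' ih os => List.rec (motive := fun _ => Nat) 0
      (fun o os' _ => Nat.add (Nat.mul m (Nat.add (Nat.mul m (g o.1 o.2 o.1 o.2))
        (Nat.mul 2 (row g o.1 o.2 ms' os')))) (ih os')) os) ms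

noncomputable def unpack (den : Nat) (n : Nat) : Nat → List Nat :=
  Nat.rec (motive := fun _ => Nat → List Nat) (fun _ => [])
    (fun _ ih Z => Nat.div (Nat.mod Z 72057594037927936) den :: ih (Nat.shiftRight Z 56)) n

noncomputable def lsum (l : List Nat) : Nat :=
  List.rec (motive := fun _ => Nat) 0 (fun a _ ih => Nat.add a ih) l

/-- put the missing mass on the first orbit (the vertex) -/
noncomputable def fixl (l : List Nat) : List Nat :=
  List.rec (motive := fun _ => List Nat) [] (fun _ l _ => Nat.sub 1048576 (lsum l) :: l) l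

noncomputable def half1 (m : List Nat) : List Nat := fixl (unpack 6576668672 80 (prd g1 m orbs))

noncomputable def half2 (m : List Nat) : List Nat := fixl (unpack 1644167168 80 (prd g2 m orbs))

/-- one level of the tree -/
noncomputable def step (m : List Nat) : List Nat := half2 (half1 m)

/-- the masses stored in a packed state -/
noncomputable def msZ (Z : Nat) : List Nat := fixl (unpack 1644167168 80 Z)

/-- all mass on the vertex -/
def m0 : List Nat := 1048576 :: List.replicate 79 0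

end Vale.Agent.P154.DE
end
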