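import Mathlib
import Vale.Agent.P154.Defs

set_option linter.all false

section

namespace Vale.Agent.P154

open scoped ENNReal BigOperators

/-- product formula for sums over functions from `Fin k`. -/
lemma tsum_fin_prod {α : Type*} : ∀ (k : ℕ) (g : Fin k → α → ℝ≥0∞),
    ∑' f : Fin k → α, ∏ c, g c (f c) = ∏ c, ∑' a, g c a
  | 0, g => by
      rw [tsum_eq_single (default : Fin 0 → α)]
      · simp
      · intro b hb
        exact absurd (Subsingleton.elim b default) hb
  | k + 1, g => by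
      rw [← (Fin.consEquiv (fun _ : Fin (k + 1) => α)).tsum_eq]
      rw [ENNReal.tsum_prod']
      simp only [Fin.consEquiv_apply, Fin.prod_univ_succ, Fin.cons_zero, Fin.cons_succ]
      simp_rw [ENNReal.tsum_mul_left]
      rw [ENNReal.tsum_mul_right, tsum_fin_prod k]

/-- Expectation over the Galton-Watson tree cut at level `n`. -/
noncomputable def expT (ν : ℕ → ℝ) (n : ℕ) (g : Tree n → ℝ≥0∞) : ℝ≥0∞ :=
  ∑' t : Tree n, ENNReal.ofReal (treeProb ν n t) * g t

lemma treeProb_nonneg {ν : ℕ → ℝ} (hν : ∀ k, 0 ≤ ν k) : ∀ (n : ℕ) (t : Tree n),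
    0 ≤ treeProb ν n t
  | 0, _ => zero_le_one
  | n + 1, ⟨k, t⟩ => by
      show 0 ≤ ν k * ∏ c : Fin k, treeProb ν n (t c)
      exact mul_nonneg (hν k) (Finset.prod_nonneg fun c _ => treeProb_nonneg hν n (t c))

lemma ofReal_treeProb_succ {ν : ℕ → ℝ} (hν : ∀ k, 0 ≤ ν k) (n k : ℕ) (t : Fin k → Tree n) :
    ENNReal.ofReal (treeProb ν (n + 1) ⟨k, t⟩) =
      ENNReal.ofReal (ν k) * ∏ c, ENNReal.ofReal (treeProb ν n (t c)) := by
  show ENNReal.ofReal (ν k * ∏ c : Fin k, treeProb ν n (t c)) = _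
  rw [ENNReal.ofReal_mul (hν k), ENNReal.ofReal_prod_of_nonneg]
  intro c _
  exact treeProb_nonneg hν n (t c)

instance instUniqueTreeZero : Unique (Tree 0) := inferInstanceAs (Unique Unit)

lemma expT_zero (ν : ℕ → ℝ) (g : Tree 0 → ℝ≥0∞) : expT ν 0 g = g default := by
  unfold expT
  have h : ∑' t : Tree 0, ENNReal.ofReal (treeProb ν 0 t) * g t =
      ENNReal.ofReal (treeProb ν 0 default) * g default :=
    tsum_eq_single (default : Tree 0) (fun b hb => absurd (Subsingleton.elim b default) hb)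
  refine h.trans ?_
  have h1 : treeProb ν 0 default = 1 := rfl
  rw [h1]
  simp

lemma expT_succ {ν : ℕ → ℝ} (hν : ∀ k, 0 ≤ ν k) (n : ℕ) (g : Tree (n + 1) → ℝ≥0∞) :
    expT ν (n + 1) g = ∑' k : ℕ, ENNReal.ofReal (ν k) *
      ∑' t : Fin k → Tree n, (∏ c, ENNReal.ofReal (treeProb ν n (t c))) * g ⟨k, t⟩ := by
  unfold expT
  show (∑' t : (Σ k : ℕ, (Fin k → Tree n)), ENNReal.ofReal (treeProb ν (n + 1) t) * g t) = _
  rw [ENNReal.tsum_sigma']
  refine tsum_congr fun k => ?_
  rw [← ENNReal.tsum_mul_left]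
  refine tsum_congr fun t => ?_
  rw [ofReal_treeProb_succ hν, mul_assoc]

/-- Expectation of a product over the children. -/
lemma expT_succ_prod {ν : ℕ → ℝ} (hν : ∀ k, 0 ≤ ν k) (n : ℕ) (h : Tree n → ℝ≥0∞)
    (g : Tree (n + 1) → ℝ≥0∞) (hg : ∀ k (t : Fin k → Tree n), g ⟨k, t⟩ = ∏ c, h (t c)) :
    expT ν (n + 1) g = ∑' k : ℕ, ENNReal.ofReal (ν k) * (expT ν n h) ^ k := by
  rw [expT_succ hν]
  refine tsum_congr fun k => ?_
  congr 1
  have : ∀ t : Fin k → Tree n, (∏ c, ENNReal.ofReal (treeProb ν n (t c))) * g ⟨k, t⟩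
      = ∏ c, (fun (_ : Fin k) (s : Tree n) => ENNReal.ofReal (treeProb ν n s) * h s) c (t c) := by
    intro t
    rw [hg, ← Finset.prod_mul_distrib]
  refine (tsum_congr this).trans ?_
  refine (tsum_fin_prod k
    (fun (_ : Fin k) (s : Tree n) => ENNReal.ofReal (treeProb ν n s) * h s)).trans ?_
  simp [expT]

lemma expT_one {ν : ℕ → ℝ} (hν : ∀ k, 0 ≤ ν k) (h1 : ∑' k, ENNReal.ofReal (ν k) = 1) :
    ∀ n : ℕ, expT ν n (fun _ => 1) = 1
  | 0 => by rw [expT_zero]
  | n + 1 => by
      rw [expT_succ_prod hν n (fun _ => 1) (fun _ => 1) (by intro k t; simp), expT_one hν h1 n]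
      simpa using h1

lemma expT_mono {ν : ℕ → ℝ} {n : ℕ} {g h : Tree n → ℝ≥0∞} (hgh : ∀ t, g t ≤ h t) :
    expT ν n g ≤ expT ν n h :=
  ENNReal.tsum_le_tsum fun t => mul_le_mul_right (hgh t) _

lemma expT_add {ν : ℕ → ℝ} {n : ℕ} (g h : Tree n → ℝ≥0∞) :
    expT ν n (fun t => g t + h t) = expT ν n g + expT ν n h := by
  unfold expT
  simp_rw [mul_add]
  exact ENNReal.tsum_add

lemma expT_const_mul {ν : ℕ → ℝ} {n : ℕ} (a : ℝ≥0∞) (g : Tree n → ℝ≥0∞) :
    expT ν n (fun t => a * g t) = a * expT ν n g := by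
  unfold expT
  rw [← ENNReal.tsum_mul_left]
  refine tsum_congr fun t => ?_
  ring

/-- Real-valued expectation equals the `ENNReal` one for bounded nonnegative functions. -/
lemma tsum_treeProb_eq {ν : ℕ → ℝ} (hν : ∀ k, 0 ≤ ν k) (n : ℕ) (g : Tree n → ℝ)
    (hg : ∀ t, 0 ≤ g t) :
    ∑' t : Tree n, treeProb ν n t * g t = (expT ν n fun t => ENNReal.ofReal (g t)).toReal := by
  unfold expT
  have : ∀ t, ENNReal.ofReal (treeProb ν n t) * ENNReal.ofReal (g t)
      = ENNReal.ofReal (treeProb ν n t * g t) := fun t =>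
    (ENNReal.ofReal_mul (treeProb_nonneg hν n t)).symm
  simp_rw [this]
  rw [ENNReal.tsum_toReal_eq (fun t => ENNReal.ofReal_ne_top)]
  refine tsum_congr fun t => ?_
  rw [ENNReal.toReal_ofReal]
  exact mul_nonneg (treeProb_nonneg hν n t) (hg t)

end Vale.Agent.P154
end

section

namespace Vale.Agent.P154

open scoped BigOperators

variable {q : ℕ}

/-- mean of a likelihood vector -/
noncomputable def mean (v : Fin q → ℝ) : ℝ := (∑ i, v i) / q

/-- action of the Potts channel on a likelihood vector -/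
noncomputable def pl (lam : ℝ) (v : Fin q → ℝ) : Fin q → ℝ := fun i => lam * v i + (1 - lam) * mean v

/-- homogeneous (degree one) form of the normalised second moment of the posterior -/
noncomputable def chi (v : Fin q → ℝ) : ℝ :=
  ((∑ i, v i ^ 2) / (∑ i, v i) - (∑ i, v i) / q) / (q - 1)

/-- average over permutations of the coordinates of the second vector -/
noncomputable def avgPerm (F : (Fin q → ℝ) → ℝ) (v w : Fin q → ℝ) : ℝ :=
  (∑ τ : Equiv.Perm (Fin q), F (fun i => v i * w (τ i))) / (q.factorial : ℝ)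

/-- A certificate: class function `FX` together with the two pair inequalities. -/
structure IsCert (q : ℕ) (FX K G : (Fin q → ℝ) → ℝ) (γX γA δ : ℝ) : Prop where
  γX_nonneg : 0 ≤ γX
  γA_nonneg : 0 ≤ γA
  δ_pos : 0 < δ
  leaf : 0 ≤ ∑ i, FX (fun j => if j = i then 1 else 0)
  const : 0 ≤ FX (fun _ => 1)
  edge : ∀ lam : ℝ, 0 ≤ lam → lam < 1 → ∃ c : ℝ, 0 ≤ c ∧
    ∀ v : Fin q → ℝ, (∀ i, 0 ≤ v i) → 0 < ∑ i, v i → c * FX v ≤ FX (pl lam v)
  K_nonneg : ∀ v : Fin q → ℝ, (∀ i, 0 < v i) → 0 ≤ K v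
  G_nonneg : ∀ v : Fin q → ℝ, (∀ i, 0 < v i) → 0 ≤ G v
  pairX : ∀ v w : Fin q → ℝ, (∀ i, 0 < v i) → (∀ i, 0 < w i) →
    K v * FX w + K w * FX v + γX * (FX v * FX w) ≤ avgPerm FX v w
  pairA : ∀ v w : Fin q → ℝ, (∀ i, 0 < v i) → (∀ i, 0 < w i) →
    avgPerm chi v w + G v * FX w + G w * FX v + γA * (FX v * FX w)
      + δ * (chi v * (chi w ^ 2 / mean w) + (chi v ^ 2 / mean v) * chi w)
      ≤ chi v * mean w + mean v * chi w

/-- A symmetric channel, given by its likelihood vectors. -/
structure Good (FX : (Fin q → ℝ) → ℝ) {I : Type} [Fintype I] (M : I → Fin q → ℝ) : Prop where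
  nonneg : ∀ η i, 0 ≤ M η i
  mpos : ∀ η, 0 < ∑ i, M η i
  norm : ∀ i, ∑ η, M η i = 1
  sym : ∀ (τ : Equiv.Perm (Fin q)) (F : (Fin q → ℝ) → ℝ),
    ∑ η, F (fun i => M η (τ i)) = ∑ η, F (M η)
  cls : 0 ≤ ∑ η, FX (M η)

/-- value of a channel -/
noncomputable def val {I : Type} [Fintype I] (M : I → Fin q → ℝ) : ℝ := ∑ η, chi (M η)

lemma chi_nonneg (hq : 2 ≤ q) {v : Fin q → ℝ} (hs : 0 < ∑ i, v i) : 0 ≤ chi v := by
  have hq' : (2 : ℝ) ≤ q := by exact_mod_cast hq
  unfold chi
  apply div_nonneg _ (by linarith)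
  have hcs : (∑ i, v i) ^ 2 ≤ q * ∑ i, v i ^ 2 := by
    have := sq_sum_le_card_mul_sum_sq (s := (Finset.univ : Finset (Fin q))) (f := v)
    simpa using this
  rw [sub_nonneg, div_le_div_iff₀ (by linarith) hs]
  nlinarith

lemma chi_le_mean (hq : 2 ≤ q) {v : Fin q → ℝ} (hv : ∀ i, 0 ≤ v i) (hs : 0 < ∑ i, v i) :
    chi v ≤ mean v := by
  have hq' : (2 : ℝ) ≤ q := by exact_mod_cast hq
  have hsq : ∑ i, v i ^ 2 ≤ (∑ i, v i) ^ 2 := by
    rw [sq, Finset.sum_mul]
    apply Finset.sum_le_sum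
    intro i _
    rw [sq]
    exact mul_le_mul_of_nonneg_left
      (Finset.single_le_sum (fun j _ => hv j) (Finset.mem_univ i)) (hv i)
  have h1 : (∑ i, v i ^ 2) / (∑ i, v i) ≤ ∑ i, v i := by
    rw [div_le_iff₀ hs]; nlinarith
  unfold chi mean
  rw [div_le_iff₀ (by linarith)]
  have : (∑ i, v i) / (q : ℝ) * ((q : ℝ) - 1) = ∑ i, v i - (∑ i, v i) / q := by
    field_simp
  rw [this]
  linarith

lemma sum_pl (hq : 2 ≤ q) (lam : ℝ) (v : Fin q → ℝ) : ∑ i, pl lam v i = ∑ i, v i := by
  have hq' : (2 : ℝ) ≤ q := by exact_mod_cast hq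
  unfold pl mean
  rw [Finset.sum_add_distrib, ← Finset.mul_sum]
  simp
  field_simp
  ring

lemma mean_pl (hq : 2 ≤ q) (lam : ℝ) (v : Fin q → ℝ) : mean (pl lam v) = mean v := by
  unfold mean
  rw [sum_pl hq]

lemma chi_pl (hq : 2 ≤ q) (lam : ℝ) {v : Fin q → ℝ} (hs : 0 < ∑ i, v i) :
    chi (pl lam v) = lam ^ 2 * chi v := by
  have hq' : (2 : ℝ) ≤ q := by exact_mod_cast hq
  unfold chi
  rw [sum_pl hq]
  have h2 : ∑ i, pl lam v i ^ 2 = lam ^ 2 * ∑ i, v i ^ 2 + (1 - lam ^ 2) * (∑ i, v i) ^ 2 / q := by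
    unfold pl mean
    have : ∀ i, (lam * v i + (1 - lam) * ((∑ i, v i) / q)) ^ 2 =
        lam ^ 2 * v i ^ 2 + (2 * lam * (1 - lam) * ((∑ i, v i) / q)) * v i
          + ((1 - lam) * ((∑ i, v i) / q)) ^ 2 := by intro i; ring
    simp_rw [this]
    rw [Finset.sum_add_distrib, Finset.sum_add_distrib, ← Finset.mul_sum, ← Finset.mul_sum]
    simp
    field_simp
    ring
  rw [h2]
  have hq1 : (q : ℝ) - 1 ≠ 0 := by linarith
  field_simp
  ring

lemma chi_const (hq : 2 ≤ q) : chi (fun _ : Fin q => (1 : ℝ)) = 0 := by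
  have hq' : (2 : ℝ) ≤ q := by exact_mod_cast hq
  unfold chi
  simp

end Vale.Agent.P154
end

section

namespace Vale.Agent.P154

open scoped BigOperators

variable {q : ℕ} {FX K G : (Fin q → ℝ) → ℝ} {γX γA δ : ℝ}

lemma sum_mean_eq_one (hq : 2 ≤ q) {I : Type} [Fintype I] {M : I → Fin q → ℝ} (h : Good FX M) :
    ∑ η, mean (M η) = 1 := by
  have hq' : (2 : ℝ) ≤ q := by exact_mod_cast hq
  unfold mean
  rw [← Finset.sum_div, Finset.sum_comm]
  simp_rw [h.norm]
  simp only [Finset.sum_const, Finset.card_univ, Fintype.card_fin, nsmul_eq_mul, mul_one]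
  exact div_self (by linarith only [hq'])

lemma avgPerm_sum {I J : Type} [Fintype I] [Fintype J] (M : I → Fin q → ℝ) (N : J → Fin q → ℝ)
    (hN : ∀ (τ : Equiv.Perm (Fin q)) (F : (Fin q → ℝ) → ℝ),
      ∑ η, F (fun i => N η (τ i)) = ∑ η, F (N η)) (F : (Fin q → ℝ) → ℝ) :
    ∑ η : I, ∑ ζ : J, avgPerm F (M η) (N ζ) = ∑ η : I, ∑ ζ : J, F (fun i => M η i * N ζ i) := by
  refine Finset.sum_congr rfl fun η _ => ?_
  unfold avgPerm
  rw [← Finset.sum_div, Finset.sum_comm]
  have h : ∀ τ : Equiv.Perm (Fin q), ∑ ζ : J, F (fun i => M η i * N ζ (τ i)) =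
      ∑ ζ : J, F (fun i => M η i * N ζ i) := fun τ =>
    hN τ (fun u => F (fun i => M η i * u i))
  simp_rw [h]
  rw [Finset.sum_const, Finset.card_univ, Fintype.card_perm, Fintype.card_fin, nsmul_eq_mul]
  have : (q.factorial : ℝ) ≠ 0 := by exact_mod_cast q.factorial_ne_zero
  field_simp

lemma good_prod (hC : IsCert q FX K G γX γA δ) {I J : Type} [Fintype I] [Fintype J]
    {M : I → Fin q → ℝ} {N : J → Fin q → ℝ} (hM : Good FX M) (hN : Good FX N)
    (pM : ∀ η i, 0 < M η i) (pN : ∀ η i, 0 < N η i) (hq : 2 ≤ q) :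
    Good FX (fun (p : I × J) i => M p.1 i * N p.2 i) := by
  have : NeZero q := ⟨by omega⟩
  refine ⟨fun η i => (mul_pos (pM _ _) (pN _ _)).le, fun η => ?_, fun i => ?_, fun τ F => ?_, ?_⟩
  · exact Finset.sum_pos (fun i _ => mul_pos (pM _ _) (pN _ _)) ⟨0, Finset.mem_univ _⟩
  · rw [Fintype.sum_prod_type]
    simp_rw [← Finset.mul_sum, hN.norm, mul_one, hM.norm]
  · rw [Fintype.sum_prod_type, Fintype.sum_prod_type]
    have h1 : ∀ η : I, ∑ ζ : J, F (fun i => M η (τ i) * N ζ (τ i)) =
        ∑ ζ : J, F (fun i => M η (τ i) * N ζ i) := fun η =>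
      hN.sym τ (fun u => F (fun i => M η (τ i) * u i))
    simp only [] at h1 ⊢
    simp_rw [h1]
    rw [Finset.sum_comm]
    have h2 : ∀ ζ : J, ∑ η : I, F (fun i => M η (τ i) * N ζ i) =
        ∑ η : I, F (fun i => M η i * N ζ i) := fun ζ =>
      hM.sym τ (fun u => F (fun i => u i * N ζ i))
    simp_rw [h2]
    rw [Finset.sum_comm]
  · rw [Fintype.sum_prod_type]
    rw [← avgPerm_sum M N hN.sym FX]
    have h : ∑ η : I, ∑ ζ : J, (K (M η) * FX (N ζ) + K (N ζ) * FX (M η)
        + γX * (FX (M η) * FX (N ζ))) ≤ ∑ η : I, ∑ ζ : J, avgPerm FX (M η) (N ζ) :=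
      Finset.sum_le_sum fun η _ => Finset.sum_le_sum fun ζ _ =>
        hC.pairX _ _ (pM η) (pN ζ)
    refine le_trans ?_ h
    have e : ∑ η : I, ∑ ζ : J, (K (M η) * FX (N ζ) + K (N ζ) * FX (M η)
        + γX * (FX (M η) * FX (N ζ))) =
        (∑ η, K (M η)) * (∑ ζ, FX (N ζ)) + (∑ ζ, K (N ζ)) * (∑ η, FX (M η))
          + γX * ((∑ η, FX (M η)) * (∑ ζ, FX (N ζ))) := by
      simp_rw [Finset.sum_add_distrib]
      congr 1
      · congr 1
        · rw [Finset.sum_mul_sum]
        · rw [Finset.sum_comm, Finset.sum_mul_sum]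
      · rw [Finset.sum_mul_sum, Finset.mul_sum]
        refine Finset.sum_congr rfl fun η _ => ?_
        rw [Finset.mul_sum]
    rw [e]
    have k1 : 0 ≤ ∑ η, K (M η) := Finset.sum_nonneg fun η _ => hC.K_nonneg _ (pM η)
    have k2 : 0 ≤ ∑ η, K (N η) := Finset.sum_nonneg fun η _ => hC.K_nonneg _ (pN η)
    have := hC.γX_nonneg
    have hx := hM.cls
    have hy := hN.cls
    (clear * - k1 k2 this hx hy; positivity)

lemma val_prod (hC : IsCert q FX K G γX γA δ) {I J : Type} [Fintype I] [Fintype J]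
    {M : I → Fin q → ℝ} {N : J → Fin q → ℝ} (hM : Good FX M) (hN : Good FX N)
    (pM : ∀ η i, 0 < M η i) (pN : ∀ η i, 0 < N η i) (hq : 2 ≤ q) :
    val (fun (p : I × J) i => M p.1 i * N p.2 i) + δ * (val M * val N * (val M + val N))
      ≤ val M + val N := by
  have : NeZero q := ⟨by omega⟩
  have hq' : (2 : ℝ) ≤ q := by exact_mod_cast hq
  have hsum : ∑ η : I, ∑ ζ : J, (avgPerm chi (M η) (N ζ) + G (M η) * FX (N ζ)
      + G (N ζ) * FX (M η) + γA * (FX (M η) * FX (N ζ))
      + δ * (chi (M η) * (chi (N ζ) ^ 2 / mean (N ζ)) + (chi (M η) ^ 2 / mean (M η)) * chi (N ζ)))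
      ≤ ∑ η : I, ∑ ζ : J, (chi (M η) * mean (N ζ) + mean (M η) * chi (N ζ)) :=
    Finset.sum_le_sum fun η _ => Finset.sum_le_sum fun ζ _ => hC.pairA _ _ (pM η) (pN ζ)
  have e1 : ∑ η : I, ∑ ζ : J, (chi (M η) * mean (N ζ) + mean (M η) * chi (N ζ)) =
      val M + val N := by
    simp_rw [Finset.sum_add_distrib]
    rw [← Finset.sum_mul_sum, ← Finset.sum_mul_sum, sum_mean_eq_one hq hM, sum_mean_eq_one hq hN]
    simp only [mul_one, one_mul, val]
  have e2 : ∑ η : I, ∑ ζ : J, (avgPerm chi (M η) (N ζ) + G (M η) * FX (N ζ)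
      + G (N ζ) * FX (M η) + γA * (FX (M η) * FX (N ζ))
      + δ * (chi (M η) * (chi (N ζ) ^ 2 / mean (N ζ)) + (chi (M η) ^ 2 / mean (M η)) * chi (N ζ)))
      = val (fun (p : I × J) i => M p.1 i * N p.2 i)
        + (∑ η, G (M η)) * (∑ ζ, FX (N ζ)) + (∑ ζ, G (N ζ)) * (∑ η, FX (M η))
        + γA * ((∑ η, FX (M η)) * (∑ ζ, FX (N ζ)))
        + δ * (val M * (∑ ζ, chi (N ζ) ^ 2 / mean (N ζ))
            + (∑ η, chi (M η) ^ 2 / mean (M η)) * val N) := by
    simp_rw [Finset.sum_add_distrib]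
    rw [avgPerm_sum M N hN.sym chi]
    congr 1
    · congr 1
      · congr 1
        · congr 1
          · unfold val
            rw [Fintype.sum_prod_type]
          · rw [Finset.sum_mul_sum]
        · rw [Finset.sum_comm, Finset.sum_mul_sum]
      · rw [Finset.sum_mul_sum, Finset.mul_sum]
        refine Finset.sum_congr rfl fun η _ => ?_
        rw [Finset.mul_sum]
    · unfold val
      rw [Finset.sum_mul_sum, Finset.sum_mul_sum, ← Finset.sum_add_distrib, Finset.mul_sum]
      refine Finset.sum_congr rfl fun η _ => ?_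
      rw [← Finset.sum_add_distrib, Finset.mul_sum]
  rw [e1, e2] at hsum
  have g1 : 0 ≤ ∑ η, G (M η) := Finset.sum_nonneg fun η _ => hC.G_nonneg _ (pM η)
  have g2 : 0 ≤ ∑ η, G (N η) := Finset.sum_nonneg fun η _ => hC.G_nonneg _ (pN η)
  have hx := hM.cls
  have hy := hN.cls
  have hγ := hC.γA_nonneg
  have hδ := hC.δ_pos
  have mM : ∀ η, 0 < mean (M η) := fun η => div_pos (hM.mpos η) (by linarith only [hq'])
  have mN : ∀ η, 0 < mean (N η) := fun η => div_pos (hN.mpos η) (by linarith only [hq'])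
  have cM : (val M) ^ 2 ≤ ∑ η, chi (M η) ^ 2 / mean (M η) := by
    have := Finset.sq_sum_div_le_sum_sq_div Finset.univ (fun η => chi (M η))
      (g := fun η => mean (M η)) (fun η _ => mM η)
    rw [sum_mean_eq_one hq hM, div_one] at this
    exact this
  have cN : (val N) ^ 2 ≤ ∑ η, chi (N η) ^ 2 / mean (N η) := by
    have := Finset.sq_sum_div_le_sum_sq_div Finset.univ (fun η => chi (N η))
      (g := fun η => mean (N η)) (fun η _ => mN η)
    rw [sum_mean_eq_one hq hN, div_one] at this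
    exact this
  have vM : 0 ≤ val M := Finset.sum_nonneg fun η _ => chi_nonneg hq (hM.mpos η)
  have vN : 0 ≤ val N := Finset.sum_nonneg fun η _ => chi_nonneg hq (hN.mpos η)
  have t1 : val M * (val N) ^ 2 ≤ val M * (∑ ζ, chi (N ζ) ^ 2 / mean (N ζ)) :=
    mul_le_mul_of_nonneg_left cN vM
  have t2 : (val M) ^ 2 * val N ≤ (∑ η, chi (M η) ^ 2 / mean (M η)) * val N :=
    mul_le_mul_of_nonneg_right cM vN
  have t3 : δ * (val M * val N * (val M + val N)) ≤
      δ * (val M * (∑ ζ, chi (N ζ) ^ 2 / mean (N ζ))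
            + (∑ η, chi (M η) ^ 2 / mean (M η)) * val N) := by
    apply mul_le_mul_of_nonneg_left _ hδ.le
    nlinarith only [t1, t2]
  have p1 := mul_nonneg g1 hy
  have p2 := mul_nonneg g2 hx
  have p3 := mul_nonneg hγ (mul_nonneg hx hy)
  linarith only [hsum, t3, p1, p2, p3]

end Vale.Agent.P154
end

section

namespace Vale.Agent.P154

open scoped BigOperators

variable {q : ℕ} {FX K G : (Fin q → ℝ) → ℝ} {γX γA δ : ℝ}

lemma mean_pos (hq : 2 ≤ q) {v : Fin q → ℝ} (hs : 0 < ∑ i, v i) : 0 < mean v := by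
  have hq' : (2 : ℝ) ≤ q := by exact_mod_cast hq
  exact div_pos hs (by linarith only [hq'])

/-- The identity channel (spin observed exactly). -/
lemma good_leaf (hC : IsCert q FX K G γX γA δ) :
    Good FX (fun (η : Fin q) (i : Fin q) => if i = η then (1 : ℝ) else 0) := by
  refine ⟨fun η i => by split_ifs <;> norm_num, fun η => by simp only [Finset.sum_ite_eq',
                                                              Finset.mem_univ, ↓reduceIte,
                                                              zero_lt_one], fun i => by simp only [Finset.sum_ite_eq,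
                                                                                Finset.mem_univ,
                                                                                ↓reduceIte],
    fun τ F => ?_, ?_⟩
  · have h : ∀ η : Fin q, (fun i => if τ i = η then (1 : ℝ) else 0) =
        (fun i => if i = τ.symm η then (1 : ℝ) else 0) := by
      intro η; funext i
      have : (τ i = η) ↔ (i = τ.symm η) := by
        rw [Equiv.eq_symm_apply]
      simp only [this]
    simp_rw [h]
    exact Equiv.sum_comp τ.symm (fun η => F (fun i => if i = η then (1 : ℝ) else 0))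
  · exact hC.leaf

/-- The useless channel. -/
lemma good_unit (hC : IsCert q FX K G γX γA δ) (hq : 2 ≤ q) :
    Good FX (fun (_ : Unit) (_ : Fin q) => (1 : ℝ)) := by
  refine ⟨fun η i => by norm_num, fun η => ?_, fun i => by simp, fun τ F => rfl, ?_⟩
  · simp only [Finset.sum_const, Finset.card_univ, Fintype.card_fin, nsmul_eq_mul, mul_one,
      Nat.cast_pos]; omega
  · simpa only [Finset.univ_unique, PUnit.default_eq_unit, Finset.sum_const,
      Finset.card_singleton, one_smul] using hC.const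

/-- Passing through an edge. -/
lemma good_edge (hC : IsCert q FX K G γX γA δ) (hq : 2 ≤ q) {lam : ℝ} (h0 : 0 ≤ lam)
    (h1 : lam < 1) {I : Type} [Fintype I] {M : I → Fin q → ℝ} (hM : Good FX M) :
    Good FX (fun η => pl lam (M η)) ∧ (∀ η i, 0 < pl lam (M η) i) := by
  have hq' : (2 : ℝ) ≤ q := by exact_mod_cast hq
  have pos : ∀ η i, 0 < pl lam (M η) i := by
    intro η i
    unfold pl
    have := mean_pos hq (hM.mpos η)
    have h2 := hM.nonneg η i
    have h3 : 0 ≤ lam * M η i := mul_nonneg h0 h2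
    have h4 : 0 < (1 - lam) * mean (M η) := mul_pos (by linarith only [h1]) this
    linarith
  refine ⟨⟨fun η i => (pos η i).le, fun η => ?_, fun i => ?_, fun τ F => ?_, ?_⟩, pos⟩
  · rw [sum_pl hq]; exact hM.mpos η
  · unfold pl
    rw [Finset.sum_add_distrib, ← Finset.mul_sum, ← Finset.mul_sum, hM.norm,
      sum_mean_eq_one hq hM]
    ring
  · have hm : ∀ η, mean (fun i => M η (τ i)) = mean (M η) := by
      intro η
      unfold mean
      rw [Equiv.sum_comp τ (M η)]
    have h : ∀ η, (fun i => pl lam (M η) (τ i)) = pl lam (fun i => M η (τ i)) := by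
      intro η
      funext i
      simp only [pl, hm]
    simp_rw [h]
    exact hM.sym τ (fun v => F (pl lam v))
  · obtain ⟨c, hc, hcv⟩ := hC.edge lam h0 h1
    have : c * ∑ η, FX (M η) ≤ ∑ η, FX (pl lam (M η)) := by
      rw [Finset.mul_sum]
      exact Finset.sum_le_sum fun η _ => hcv _ (hM.nonneg η) (hM.mpos η)
    exact le_trans (mul_nonneg hc hM.cls) this

lemma val_edge (hq : 2 ≤ q) (lam : ℝ) {I : Type} [Fintype I] {M : I → Fin q → ℝ}
    (hM : ∀ η, 0 < ∑ i, M η i) : val (fun η => pl lam (M η)) = lam ^ 2 * val M := by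
  unfold val
  rw [Finset.mul_sum]
  exact Finset.sum_congr rfl fun η _ => chi_pl hq lam (hM η)

lemma val_nonneg (hq : 2 ≤ q) {I : Type} [Fintype I] {M : I → Fin q → ℝ}
    (hM : ∀ η, 0 < ∑ i, M η i) : 0 ≤ val M :=
  Finset.sum_nonneg fun η _ => chi_nonneg hq (hM η)

lemma val_le_one (hq : 2 ≤ q) {I : Type} [Fintype I] {M : I → Fin q → ℝ}
    (hM : Good FX M) : val M ≤ 1 := by
  rw [← sum_mean_eq_one hq hM]
  exact Finset.sum_le_sum fun η _ => chi_le_mean hq (hM.nonneg η) (hM.mpos η)

/-- The subadditive transform. -/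
noncomputable def tr (δ x : ℝ) : ℝ := x + δ / 3 * x ^ 3

lemma tr_mono {δ : ℝ} (hδ : 0 ≤ δ) {x y : ℝ} (hx : 0 ≤ x) (hxy : x ≤ y) : tr δ x ≤ tr δ y := by
  unfold tr
  have : x ^ 3 ≤ y ^ 3 := by gcongr
  have h2 : δ / 3 * x ^ 3 ≤ δ / 3 * y ^ 3 := mul_le_mul_of_nonneg_left this (by positivity)
  linarith only [hxy, h2]

lemma tr_subadd {δ : ℝ} (hδ : 0 ≤ δ) {x y z : ℝ} (hx : 0 ≤ x) (hy : 0 ≤ y) (hz : 0 ≤ z)
    (h : z + δ * (x * y * (x + y)) ≤ x + y) : tr δ z ≤ tr δ x + tr δ y := by
  have h0 : 0 ≤ δ * (x * y * (x + y)) := by positivity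
  have hz' : z ≤ x + y := by linarith
  have h3 : z ^ 3 ≤ (x + y) ^ 3 := by gcongr
  have h4 : δ / 3 * z ^ 3 ≤ δ / 3 * (x + y) ^ 3 := mul_le_mul_of_nonneg_left h3 (by positivity)
  unfold tr
  nlinarith only [h, h4]

/-- Reindexing a channel. -/
lemma good_reindex {I J : Type} [Fintype I] [Fintype J] (e : J ≃ I) {M : I → Fin q → ℝ}
    (hM : Good FX M) : Good FX (fun η => M (e η)) := by
  refine ⟨fun η i => hM.nonneg _ _, fun η => hM.mpos _, fun i => ?_, fun τ F => ?_, ?_⟩
  · rw [Equiv.sum_comp e (fun η => M η i)]; exact hM.norm i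
  · rw [Equiv.sum_comp e (fun η => F (fun i => M η (τ i))), Equiv.sum_comp e (fun η => F (M η))]
    exact hM.sym τ F
  · rw [Equiv.sum_comp e (fun η => FX (M η))]; exact hM.cls

lemma val_reindex {I J : Type} [Fintype I] [Fintype J] (e : J ≃ I) (M : I → Fin q → ℝ) :
    val (fun η => M (e η)) = val M := by
  unfold val
  exact Equiv.sum_comp e (fun η => chi (M η))

/-- Product of the channels of `k` children. -/
lemma good_fin_prod (hC : IsCert q FX K G γX γA δ) (hq : 2 ≤ q) : ∀ (k : ℕ) (I : Fin k → Type)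
    [∀ c, Fintype (I c)] (M : (c : Fin k) → I c → Fin q → ℝ), (∀ c, Good FX (M c)) →
    (∀ c η i, 0 < M c η i) →
    Good FX (fun (η : (c : Fin k) → I c) i => ∏ c, M c (η c) i) ∧
      tr δ (val (fun (η : (c : Fin k) → I c) i => ∏ c, M c (η c) i)) ≤ ∑ c, tr δ (val (M c))
  | 0, I, _, M, hM, pM => by
      let e : ((c : Fin 0) → I c) ≃ Unit := Equiv.ofUnique _ _
      have h1 : (fun (η : (c : Fin 0) → I c) (i : Fin q) => ∏ c, M c (η c) i) =
          fun η => (fun (_ : Unit) (_ : Fin q) => (1 : ℝ)) (e η) := by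
        funext η i; simp
      constructor
      · rw [h1]
        exact good_reindex e (M := fun (_ : Unit) (_ : Fin q) => (1 : ℝ)) (good_unit hC hq)
      · have hval : val (fun (η : (c : Fin 0) → I c) (i : Fin q) => ∏ c, M c (η c) i) =
            val (fun (_ : Unit) (_ : Fin q) => (1 : ℝ)) := by
          rw [h1]; exact val_reindex e (fun (_ : Unit) (_ : Fin q) => (1 : ℝ))
        rw [hval]
        simp only [tr, val, Finset.univ_unique, PUnit.default_eq_unit, chi_const hq,
          Finset.sum_const_zero, ne_eq, OfNat.ofNat_ne_zero, not_false_eq_true, zero_pow,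
          mul_zero, add_zero, Finset.univ_eq_empty, Finset.sum_empty, Std.le_refl]
  | k + 1, I, _, M, hM, pM => by
      have ih := good_fin_prod hC hq k (fun c => I c.succ) (fun c => M c.succ)
        (fun c => hM c.succ) (fun c => pM c.succ)
      obtain ⟨ihg, ihv⟩ := ih
      have pr : ∀ (η : (c : Fin k) → I c.succ) i, 0 < ∏ c, M c.succ (η c) i := fun η i =>
        Finset.prod_pos fun c _ => pM _ _ _
      let e : ((c : Fin (k + 1)) → I c) ≃ I 0 × ((c : Fin k) → I c.succ) :=
        (Fin.consEquiv I).symm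
      have h1 : (fun (η : (c : Fin (k + 1)) → I c) (i : Fin q) => ∏ c, M c (η c) i) =
          fun η => (fun (p : I 0 × ((c : Fin k) → I c.succ)) i =>
            M 0 p.1 i * ∏ c, M c.succ (p.2 c) i) (e η) := by
        funext η i
        rw [Fin.prod_univ_succ]
        rfl
      have hg := good_prod hC (hM 0) ihg (pM 0) pr hq
      have hv := val_prod hC (hM 0) ihg (pM 0) pr hq
      constructor
      · rw [h1]
        exact good_reindex e (M := fun (p : I 0 × ((c : Fin k) → I c.succ)) (i : Fin q) =>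
              M 0 p.1 i * ∏ c, M c.succ (p.2 c) i) hg
      · have hval : val (fun (η : (c : Fin (k + 1)) → I c) (i : Fin q) => ∏ c, M c (η c) i) =
            val (fun (p : I 0 × ((c : Fin k) → I c.succ)) i =>
              M 0 p.1 i * ∏ c, M c.succ (p.2 c) i) := by
          rw [h1]
          exact val_reindex e (fun (p : I 0 × ((c : Fin k) → I c.succ)) (i : Fin q) =>
              M 0 p.1 i * ∏ c, M c.succ (p.2 c) i)
        rw [hval, Fin.sum_univ_succ]
        refine le_trans ?_ (add_le_add_right ihv _)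
        exact tr_subadd hC.δ_pos.le (val_nonneg hq (hM 0).mpos) (val_nonneg hq ihg.mpos)
          (val_nonneg hq hg.mpos) hv

/-- value of a tree -/
noncomputable def tval (q : ℕ) (lam : ℝ) (n : ℕ) (t : Tree n) : ℝ :=
  val (fun (η : Spins q n t) i => lik q lam n t i η)

lemma edge_eq (lam : ℝ) (hq : 2 ≤ q) (i : Fin q) (v : Fin q → ℝ) :
    ∑ j : Fin q, potts q lam i j * v j = pl lam v i := by
  have hq' : (2 : ℝ) ≤ q := by exact_mod_cast hq
  unfold potts pl mean
  simp_rw [add_mul, Finset.sum_add_distrib]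
  rw [← Finset.mul_sum]
  simp only [ite_mul, zero_mul, Finset.sum_ite_eq, Finset.mem_univ, ↓reduceIte, add_right_inj]
  ring

lemma good_tree (hC : IsCert q FX K G γX γA δ) (hq : 2 ≤ q) {lam : ℝ} (h0 : 0 ≤ lam)
    (h1 : lam < 1) : ∀ (n : ℕ) (t : Tree n),
    Good FX (fun (η : Spins q n t) i => lik q lam n t i η)
  | 0, t => by
      exact good_leaf hC
  | n + 1, ⟨k, t⟩ => by
      have ih : ∀ c, Good FX (fun (η : Spins q n (t c)) => pl lam (fun i => lik q lam n (t c) i η)) ∧
          (∀ (η : Spins q n (t c)) i, 0 < pl lam (fun i => lik q lam n (t c) i η) i) := fun c =>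
        good_edge hC hq h0 h1 (good_tree hC hq h0 h1 n (t c))
      have h := (good_fin_prod hC hq k (fun c => Spins q n (t c))
        (fun c η => pl lam (fun i => lik q lam n (t c) i η)) (fun c => (ih c).1)
        (fun c => (ih c).2)).1
      have e : (fun (η : Spins q (n + 1) ⟨k, t⟩) i => lik q lam (n + 1) ⟨k, t⟩ i η) =
          (fun (η : (c : Fin k) → Spins q n (t c)) i => ∏ c, pl lam
            (fun i => lik q lam n (t c) i (η c)) i) := by
        funext η i
        show ∏ c : Fin k, ∑ j : Fin q, potts q lam i j * lik q lam n (t c) j (η c) = _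
        refine Finset.prod_congr rfl fun c _ => ?_
        exact edge_eq lam hq i _
      exact e ▸ h

end Vale.Agent.P154
end

section

namespace Vale.Agent.P154

open scoped BigOperators ENNReal
open Filter Topology

section general

variable {q : ℕ}

lemma lik_nonneg {lam : ℝ} (hp : ∀ i j : Fin q, 0 ≤ potts q lam i j) : ∀ (n : ℕ) (t : Tree n)
    (i : Fin q) (η : Spins q n t), 0 ≤ lik q lam n t i η
  | 0, _, i, η => by
      show 0 ≤ (if i = (show Fin q from η) then (1 : ℝ) else 0)
      split_ifs <;> norm_num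
  | n + 1, ⟨k, t⟩, i, η => by
      show 0 ≤ ∏ c : Fin k, ∑ j : Fin q, potts q lam i j * lik q lam n (t c) j (η c)
      exact Finset.prod_nonneg fun c _ => Finset.sum_nonneg fun j _ =>
        mul_nonneg (hp i j) (lik_nonneg hp n (t c) j (η c))

lemma potts_sum (hq : 2 ≤ q) (lam : ℝ) (i : Fin q) : ∑ j, potts q lam i j = 1 := by
  have hq' : (2 : ℝ) ≤ q := by exact_mod_cast hq
  unfold potts
  rw [Finset.sum_add_distrib]
  simp only [Finset.sum_ite_eq, Finset.mem_univ, ↓reduceIte, Finset.sum_const, Finset.card_univ,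
    Fintype.card_fin, nsmul_eq_mul]
  field_simp
  ring

lemma lik_sum (hq : 2 ≤ q) (lam : ℝ) : ∀ (n : ℕ) (t : Tree n) (i : Fin q),
    ∑ η : Spins q n t, lik q lam n t i η = 1
  | 0, t, i => by
      show ∑ η : Fin q, (if i = η then (1 : ℝ) else 0) = 1
      simp only [Finset.sum_ite_eq, Finset.mem_univ, ↓reduceIte]
  | n + 1, ⟨k, t⟩, i => by
      show ∑ η : ((c : Fin k) → Spins q n (t c)),
        ∏ c : Fin k, ∑ j : Fin q, potts q lam i j * lik q lam n (t c) j (η c) = 1
      rw [← Fintype.prod_sum (fun (c : Fin k) (x : Spins q n (t c)) =>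
        ∑ j : Fin q, potts q lam i j * lik q lam n (t c) j x)]
      refine Finset.prod_eq_one fun c _ => ?_
      rw [Finset.sum_comm]
      simp_rw [← Finset.mul_sum, lik_sum hq lam n (t c), mul_one]
      exact potts_sum hq lam i

lemma evid_eq (lam : ℝ) (n : ℕ) (t : Tree n) (η : Spins q n t) :
    evid q lam n t η = mean (fun i => lik q lam n t i η) := by
  unfold evid mean
  rw [← Finset.mul_sum]
  ring

lemma evid_sum (hq : 2 ≤ q) (lam : ℝ) (n : ℕ) (t : Tree n) :
    ∑ η : Spins q n t, evid q lam n t η = 1 := by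
  have hq' : (2 : ℝ) ≤ q := by exact_mod_cast hq
  unfold evid
  rw [Finset.sum_comm]
  simp_rw [← Finset.mul_sum, lik_sum hq lam n t]
  simp only [one_div, Finset.sum_const, Finset.card_univ, Fintype.card_fin, nsmul_eq_mul, mul_one]
  field_simp

/-- The contribution of one tree to `a_n`. -/
noncomputable def tadv (q : ℕ) (lam : ℝ) (n : ℕ) (t : Tree n) : ℝ :=
  ∑ η : Spins q n t, evid q lam n t η * ((1 / 2) * ∑ i : Fin q, |post q lam n t η i - 1 / q|)

lemma evid_nonneg {lam : ℝ} (hp : ∀ i j : Fin q, 0 ≤ potts q lam i j) (n : ℕ) (t : Tree n)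
    (η : Spins q n t) : 0 ≤ evid q lam n t η := by
  unfold evid
  exact Finset.sum_nonneg fun i _ => mul_nonneg (by positivity) (lik_nonneg hp n t i η)

lemma tadv_nonneg {lam : ℝ} (hp : ∀ i j : Fin q, 0 ≤ potts q lam i j) (n : ℕ) (t : Tree n) :
    0 ≤ tadv q lam n t := by
  unfold tadv
  exact Finset.sum_nonneg fun η _ => mul_nonneg (evid_nonneg hp n t η)
    (mul_nonneg (by norm_num) (Finset.sum_nonneg fun i _ => abs_nonneg _))

lemma advantage_eq {ν : ℕ → ℝ} (hν : ∀ k, 0 ≤ ν k) {lam : ℝ}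
    (hp : ∀ i j : Fin q, 0 ≤ potts q lam i j) (n : ℕ) :
    advantage ν q lam n = (expT ν n fun t => ENNReal.ofReal (tadv q lam n t)).toReal :=
  tsum_treeProb_eq hν n (tadv q lam n) (tadv_nonneg hp n)

lemma abs_le_eps {ε x : ℝ} (hε : 0 < ε) : |x| ≤ ε + x ^ 2 / (4 * ε) := by
  have h4 : 0 < 4 * ε := by linarith
  rw [← sub_le_iff_le_add', le_div_iff₀ h4]
  nlinarith only [sq_nonneg (|x| - 2 * ε), sq_abs x]

lemma pointwise_adv (hq : 2 ≤ q) {v : Fin q → ℝ} (hv : ∀ i, 0 ≤ v i) {ε : ℝ} (hε : 0 < ε) :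
    mean v * ((1 / 2) * ∑ i : Fin q, |(1 / q : ℝ) * v i / mean v - 1 / q|) ≤
      (q * ε / 2) * mean v + (1 / (8 * ε)) * chi v := by
  have hq' : (2 : ℝ) ≤ q := by exact_mod_cast hq
  have hs0 : 0 ≤ ∑ i, v i := Finset.sum_nonneg fun i _ => hv i
  rcases hs0.eq_or_lt with hs | hs
  · have hz : ∀ i, v i = 0 := by
      intro i
      have := (Finset.sum_eq_zero_iff_of_nonneg (fun i _ => hv i)).1 hs.symm i (Finset.mem_univ i)
      exact this
    have hm : mean v = 0 := by unfold mean; rw [← hs]; simp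
    have hc : chi v = 0 := by unfold chi; simp only [hz, ne_eq, OfNat.ofNat_ne_zero,
                                            not_false_eq_true, zero_pow, Finset.sum_const_zero,
                                            div_zero, zero_div, sub_self]
    rw [hm, hc]; simp only [one_div, div_zero, zero_sub, abs_neg, abs_inv, Nat.abs_cast,
                   Finset.sum_const, Finset.card_univ, Fintype.card_fin, nsmul_eq_mul, zero_mul,
                   mul_zero, mul_inv_rev, add_zero, Std.le_refl]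
  · have hm : 0 < mean v := mean_pos hq hs
    set S := ∑ i, v i with hS
    have hmean : mean v = S / q := rfl
    have h1 : ∀ i, (1 / q : ℝ) * v i / mean v = v i / S := by
      intro i
      rw [hmean]
      field_simp
    simp_rw [h1]
    have h2 : ∑ i : Fin q, |v i / S - 1 / q| ≤
        ∑ i : Fin q, (ε + (v i / S - 1 / q) ^ 2 / (4 * ε)) :=
      Finset.sum_le_sum fun i _ => abs_le_eps hε
    have h3 : ∑ i : Fin q, (ε + (v i / S - 1 / q) ^ 2 / (4 * ε)) =
        q * ε + (∑ i : Fin q, (v i / S - 1 / q) ^ 2) / (4 * ε) := by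
      rw [Finset.sum_add_distrib, Finset.sum_div]
      simp only [Finset.sum_const, Finset.card_univ, Fintype.card_fin, nsmul_eq_mul, one_div]
    have h4 : ∑ i : Fin q, (v i / S - 1 / q) ^ 2 = (∑ i, v i ^ 2) / S ^ 2 - 1 / q := by
      have : ∀ i, (v i / S - 1 / q) ^ 2 = v i ^ 2 / S ^ 2 - (2 / (q * S)) * v i + 1 / q ^ 2 := by
        intro i
        field_simp
        ring
      simp_rw [this]
      rw [Finset.sum_add_distrib, Finset.sum_sub_distrib, ← Finset.sum_div, ← Finset.mul_sum, ← hS]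
      simp only [one_div, Finset.sum_const, Finset.card_univ, Fintype.card_fin, nsmul_eq_mul]
      field_simp
      ring
    have h5 : mean v * ∑ i : Fin q, (v i / S - 1 / q) ^ 2 = ((q - 1) / q) * chi v := by
      rw [h4, hmean]
      unfold chi
      rw [← hS]
      have : (q : ℝ) - 1 ≠ 0 := by linarith only [hq']
      field_simp
    have hc : 0 ≤ chi v := chi_nonneg hq hs
    calc mean v * ((1 / 2) * ∑ i : Fin q, |v i / S - 1 / q|)
        ≤ mean v * ((1 / 2) * (q * ε + (∑ i : Fin q, (v i / S - 1 / q) ^ 2) / (4 * ε))) := by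
          rw [h3] at h2
          (clear * - hm h2; gcongr)
      _ = (q * ε / 2) * mean v + (mean v * ∑ i : Fin q, (v i / S - 1 / q) ^ 2) * (1 / (8 * ε)) := by
          field_simp
          ring
      _ = (q * ε / 2) * mean v + (((q - 1) / q) * chi v) * (1 / (8 * ε)) := by rw [h5]
      _ ≤ (q * ε / 2) * mean v + (1 / (8 * ε)) * chi v := by
          have hle : ((q : ℝ) - 1) / q ≤ 1 := by
            rw [div_le_one (by linarith only [hq'])]; linarith only []
          have h6 : ((q - 1) / q) * chi v ≤ chi v := by nlinarith only [hc, hle]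
          have h7 : 0 ≤ 1 / (8 * ε) := by positivity
          nlinarith only [mul_le_mul_of_nonneg_right h6 h7, h6, h7]

lemma tadv_le (hq : 2 ≤ q) {lam : ℝ} (hp : ∀ i j : Fin q, 0 ≤ potts q lam i j) (n : ℕ)
    (t : Tree n) {ε : ℝ} (hε : 0 < ε) :
    tadv q lam n t ≤ (q * ε / 2) + (1 / (8 * ε)) * tval q lam n t := by
  unfold tadv tval val
  have h : ∀ η : Spins q n t,
      evid q lam n t η * ((1 / 2) * ∑ i : Fin q, |post q lam n t η i - 1 / q|) ≤
      (q * ε / 2) * evid q lam n t η + (1 / (8 * ε)) * chi (fun i => lik q lam n t i η) := by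
    intro η
    unfold post
    rw [evid_eq]
    exact pointwise_adv hq (fun i => lik_nonneg hp n t i η) hε
  refine (Finset.sum_le_sum fun η _ => h η).trans ?_
  rw [Finset.sum_add_distrib, ← Finset.mul_sum, ← Finset.mul_sum, evid_sum hq, mul_one]

/-- expected value -/
noncomputable def eval' (ν : ℕ → ℝ) (q : ℕ) (lam : ℝ) (n : ℕ) : ℝ≥0∞ :=
  expT ν n fun t => ENNReal.ofReal (tval q lam n t)

lemma nonrec_of_eval {ν : ℕ → ℝ} (hν : ∀ k, 0 ≤ ν k) (h1 : ∑' k, ENNReal.ofReal (ν k) = 1)
    (hq : 2 ≤ q) {lam : ℝ} (hp : ∀ i j : Fin q, 0 ≤ potts q lam i j)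
    (hx : Tendsto (eval' ν q lam) atTop (𝓝 0)) : Nonreconstruction ν q lam := by
  have hq' : (2 : ℝ) ≤ q := by exact_mod_cast hq
  unfold Nonreconstruction
  have key : Tendsto (fun n => expT ν n fun t => ENNReal.ofReal (tadv q lam n t)) atTop (𝓝 0) := by
    rw [ENNReal.tendsto_nhds_zero]
    intro e he
    by_cases htop : e = ⊤
    · simp [htop]
    have he' : 0 < e.toReal := ENNReal.toReal_pos he.ne' htop
    set ε : ℝ := e.toReal / q with hε
    have hεpos : 0 < ε := div_pos he' (by linarith only [hq'])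
    set C : ℝ := 1 / (8 * ε) with hC
    have hCpos : 0 < C := by positivity
    have h2 : Tendsto (fun n => ENNReal.ofReal C * eval' ν q lam n) atTop (𝓝 0) := by
      have := ENNReal.Tendsto.const_mul (a := ENNReal.ofReal C) hx (Or.inr ENNReal.ofReal_ne_top)
      simpa using this
    have h3 := (ENNReal.tendsto_nhds_zero.1 h2) (ENNReal.ofReal (e.toReal / 2))
      (by simpa using he')
    filter_upwards [h3] with n hn
    have h4 : expT ν n (fun t => ENNReal.ofReal (tadv q lam n t)) ≤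
        expT ν n (fun t => ENNReal.ofReal (q * ε / 2) * 1 +
          ENNReal.ofReal C * ENNReal.ofReal (tval q lam n t)) := by
      apply expT_mono
      intro t
      rw [← ENNReal.ofReal_mul hCpos.le, mul_one]
      refine (ENNReal.ofReal_le_ofReal (tadv_le hq hp n t hεpos)).trans ?_
      exact ENNReal.ofReal_add_le
    rw [expT_add, expT_const_mul, expT_const_mul, expT_one hν h1, mul_one] at h4
    refine h4.trans ?_
    have h5 : (q : ℝ) * ε / 2 = e.toReal / 2 := by
      rw [hε]; field_simp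
    rw [h5]
    calc ENNReal.ofReal (e.toReal / 2) + ENNReal.ofReal C * expT ν n (fun t =>
          ENNReal.ofReal (tval q lam n t))
        ≤ ENNReal.ofReal (e.toReal / 2) + ENNReal.ofReal (e.toReal / 2) := by
          gcongr
          exact hn
      _ = e := by
          rw [← ENNReal.ofReal_add (by positivity) (by positivity), add_halves,
            ENNReal.ofReal_toReal htop]
  have h6 := (ENNReal.tendsto_toReal ENNReal.zero_ne_top).comp key
  simp only [ENNReal.toReal_zero] at h6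
  refine h6.congr fun n => ?_
  exact (advantage_eq hν hp n).symm

end general

end Vale.Agent.P154
end

section

namespace Vale.Agent.P154

open scoped BigOperators ENNReal
open Filter Topology

variable {q : ℕ} {FX K G : (Fin q → ℝ) → ℝ} {γX γA δ : ℝ}

/-- Expectation of a sum over the children. -/
lemma expT_succ_sum {ν : ℕ → ℝ} (hν : ∀ k, 0 ≤ ν k) (h1 : ∑' k, ENNReal.ofReal (ν k) = 1)
    (n : ℕ) (h : Tree n → ℝ≥0∞) (g : Tree (n + 1) → ℝ≥0∞)
    (hg : ∀ k (t : Fin k → Tree n), g ⟨k, t⟩ ≤ ∑ c, h (t c)) :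
    expT ν (n + 1) g ≤ (∑' k : ℕ, ENNReal.ofReal (ν k) * k) * expT ν n h := by
  rw [expT_succ hν, ← ENNReal.tsum_mul_right]
  refine ENNReal.tsum_le_tsum fun k => ?_
  rw [mul_assoc]
  refine mul_le_mul_right ?_ _
  have hone := expT_one hν h1 n
  have hone' : ∑' s : Tree n, ENNReal.ofReal (treeProb ν n s) = 1 := by
    simpa only [expT, mul_one] using hone
  calc ∑' t : Fin k → Tree n, (∏ c, ENNReal.ofReal (treeProb ν n (t c))) * g ⟨k, t⟩
      ≤ ∑' t : Fin k → Tree n, (∏ c, ENNReal.ofReal (treeProb ν n (t c))) * ∑ c, h (t c) :=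
        ENNReal.tsum_le_tsum fun t => mul_le_mul_right (hg k t) _
    _ = ∑' t : Fin k → Tree n, ∑ c, (∏ c', ENNReal.ofReal (treeProb ν n (t c'))) * h (t c) := by
        simp_rw [Finset.mul_sum]
    _ = ∑ c, ∑' t : Fin k → Tree n, (∏ c', ENNReal.ofReal (treeProb ν n (t c'))) * h (t c) := by
        exact Summable.tsum_finsetSum fun c _ => ENNReal.summable
    _ = ∑ c : Fin k, expT ν n h := by
        refine Finset.sum_congr rfl fun c _ => ?_
        have e : ∀ t : Fin k → Tree n, (∏ c', ENNReal.ofReal (treeProb ν n (t c'))) * h (t c)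
            = ∏ c', (fun (c' : Fin k) (s : Tree n) =>
              ENNReal.ofReal (treeProb ν n s) * (if c' = c then h s else 1)) c' (t c') := by
          intro t
          simp only
          rw [Finset.prod_mul_distrib]
          congr 1
          rw [Finset.prod_ite_eq' Finset.univ c (fun c' => h (t c'))]
          simp only [Finset.mem_univ, ↓reduceIte]
        refine (tsum_congr e).trans ?_
        refine (tsum_fin_prod k (fun (c' : Fin k) (s : Tree n) =>
              ENNReal.ofReal (treeProb ν n s) * (if c' = c then h s else 1))).trans ?_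
        have e2 : ∀ c' : Fin k, ∑' s : Tree n,
            ENNReal.ofReal (treeProb ν n s) * (if c' = c then h s else 1) =
            if c' = c then expT ν n h else 1 := by
          intro c'
          split_ifs
          · rfl
          · simpa only [mul_one] using hone'
        simp_rw [e2]
        rw [Finset.prod_ite_eq' Finset.univ c]
        simp only [Finset.mem_univ, ↓reduceIte]
    _ = k * expT ν n h := by simp only [Finset.sum_const, Finset.card_univ, Fintype.card_fin,
                               nsmul_eq_mul]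

lemma tval_nonneg (hC : IsCert q FX K G γX γA δ) (hq : 2 ≤ q) {lam : ℝ} (h0 : 0 ≤ lam)
    (h1 : lam < 1) (n : ℕ) (t : Tree n) : 0 ≤ tval q lam n t :=
  val_nonneg hq (good_tree hC hq h0 h1 n t).mpos

lemma tval_le_one (hC : IsCert q FX K G γX γA δ) (hq : 2 ≤ q) {lam : ℝ} (h0 : 0 ≤ lam)
    (h1 : lam < 1) (n : ℕ) (t : Tree n) : tval q lam n t ≤ 1 :=
  val_le_one hq (good_tree hC hq h0 h1 n t)

lemma tval_succ (hC : IsCert q FX K G γX γA δ) (hq : 2 ≤ q) {lam : ℝ} (h0 : 0 ≤ lam)
    (h1 : lam < 1) (n k : ℕ) (t : Fin k → Tree n) :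
    tr δ (tval q lam (n + 1) ⟨k, t⟩) ≤ ∑ c, tr δ (lam ^ 2 * tval q lam n (t c)) := by
  have ih : ∀ c, Good FX (fun (η : Spins q n (t c)) => pl lam (fun i => lik q lam n (t c) i η)) ∧
      (∀ (η : Spins q n (t c)) i, 0 < pl lam (fun i => lik q lam n (t c) i η) i) := fun c =>
    good_edge hC hq h0 h1 (good_tree hC hq h0 h1 n (t c))
  have h := (good_fin_prod hC hq k (fun c => Spins q n (t c))
    (fun c η => pl lam (fun i => lik q lam n (t c) i η)) (fun c => (ih c).1)
    (fun c => (ih c).2)).2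
  have e : tval q lam (n + 1) ⟨k, t⟩ =
      val (fun (η : (c : Fin k) → Spins q n (t c)) i => ∏ c, pl lam
        (fun i => lik q lam n (t c) i (η c)) i) := by
    unfold tval
    congr 1
    funext η i
    show ∏ c : Fin k, ∑ j : Fin q, potts q lam i j * lik q lam n (t c) j (η c) = _
    refine Finset.prod_congr rfl fun c _ => ?_
    exact edge_eq lam hq i _
  rw [e]
  refine h.trans (le_of_eq ?_)
  refine Finset.sum_congr rfl fun c _ => ?_
  congr 1
  exact val_edge hq lam (good_tree hC hq h0 h1 n (t c)).mpos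

/-- Main consequence of a certificate: nonreconstruction at and below the Kesten-Stigum bound. -/
theorem nonrec_of_cert (hC : IsCert q FX K G γX γA δ) (hq : 2 ≤ q) {ν : ℕ → ℝ}
    (hν : ∀ k, 0 ≤ ν k) (hν1 : ∑' k, ENNReal.ofReal (ν k) = 1) {m : ℝ} (hm0 : 0 ≤ m)
    (hm : ∑' k : ℕ, ENNReal.ofReal (ν k) * k = ENNReal.ofReal m) {lam : ℝ} (h0 : 0 ≤ lam)
    (h1 : lam < 1) (hKS : m * lam ^ 2 ≤ 1) : Nonreconstruction ν q lam := by
  have hq' : (2 : ℝ) ≤ q := by exact_mod_cast hq
  have hp : ∀ i j : Fin q, 0 ≤ potts q lam i j := by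
    intro i j
    unfold potts
    have : 0 ≤ (1 - lam) / (q : ℝ) := div_nonneg (by linarith only [h1]) (by linarith only [hq'])
    split_ifs <;> linarith only [h0, this]
  apply nonrec_of_eval hν hν1 hq hp
  have hδ := hC.δ_pos
  have hl4 : lam ^ 4 < 1 := pow_lt_one₀ h0 h1 (by norm_num)
  set κ : ℝ := δ / 3 * (1 - lam ^ 4) with hκ
  have hκpos : 0 < κ := by
    have : 0 < 1 - lam ^ 4 := by linarith only [hl4]
    positivity
  -- the sequences
  set g : (n : ℕ) → Tree n → ℝ≥0∞ := fun n t => ENNReal.ofReal (tr δ (tval q lam n t)) with hg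
  set c3 : (n : ℕ) → Tree n → ℝ≥0∞ := fun n t => ENNReal.ofReal (tval q lam n t ^ 3) with hc3
  have T0 : ∀ n t, 0 ≤ tval q lam n t := fun n t => tval_nonneg hC hq h0 h1 n t
  have tr0 : ∀ n t, 0 ≤ tr δ (tval q lam n t) := by
    intro n t
    unfold tr
    have := T0 n t
    (clear * - hδ this; positivity)
  -- one step
  have step : ∀ n, expT ν (n + 1) (g (n + 1)) + ENNReal.ofReal (m * lam ^ 2 * κ) * expT ν n (c3 n)
      ≤ ENNReal.ofReal (m * lam ^ 2) * expT ν n (g n) := by
    intro n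
    have s1 : expT ν (n + 1) (g (n + 1)) ≤ ENNReal.ofReal m *
        expT ν n (fun t => ENNReal.ofReal (tr δ (lam ^ 2 * tval q lam n t))) := by
      rw [← hm]
      apply expT_succ_sum hν hν1
      intro k t
      rw [hg]
      simp only
      rw [← ENNReal.ofReal_sum_of_nonneg]
      · exact ENNReal.ofReal_le_ofReal (tval_succ hC hq h0 h1 n k t)
      · intro c _
        unfold tr
        have := T0 n (t c)
        (clear * - hδ this; positivity)
    have s2 : ∀ t : Tree n, ENNReal.ofReal (tr δ (lam ^ 2 * tval q lam n t)) +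
        ENNReal.ofReal (lam ^ 2 * κ) * c3 n t = ENNReal.ofReal (lam ^ 2) * g n t := by
      intro t
      rw [hg, hc3]
      simp only
      rw [← ENNReal.ofReal_mul (by (clear * - hδ hl4; positivity)), ← ENNReal.ofReal_mul (by positivity),
        ← ENNReal.ofReal_add]
      · congr 1
        rw [hκ]
        unfold tr
        ring
      · unfold tr
        have := T0 n t
        (clear * - hδ this; positivity)
      · have := T0 n t
        (clear * - hδ hl4 this; positivity)
    have s3 : expT ν n (fun t => ENNReal.ofReal (tr δ (lam ^ 2 * tval q lam n t))) +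
        ENNReal.ofReal (lam ^ 2 * κ) * expT ν n (c3 n) = ENNReal.ofReal (lam ^ 2) *
          expT ν n (g n) := by
      rw [← expT_const_mul, ← expT_add, ← expT_const_mul]
      congr 1
      funext t
      exact s2 t
    calc expT ν (n + 1) (g (n + 1)) + ENNReal.ofReal (m * lam ^ 2 * κ) * expT ν n (c3 n)
        ≤ ENNReal.ofReal m * expT ν n (fun t => ENNReal.ofReal (tr δ (lam ^ 2 * tval q lam n t)))
          + ENNReal.ofReal (m * lam ^ 2 * κ) * expT ν n (c3 n) := by (clear * - s1; gcongr)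
      _ = ENNReal.ofReal m * (expT ν n (fun t => ENNReal.ofReal (tr δ (lam ^ 2 * tval q lam n t)))
          + ENNReal.ofReal (lam ^ 2 * κ) * expT ν n (c3 n)) := by
          have e5 : m * lam ^ 2 * κ = m * (lam ^ 2 * κ) := by ring
          rw [mul_add, e5, ENNReal.ofReal_mul hm0, mul_assoc]
      _ = ENNReal.ofReal (m * lam ^ 2) * expT ν n (g n) := by
          rw [s3, ← mul_assoc, ← ENNReal.ofReal_mul hm0]
  -- bounds
  have hG0 : expT ν 0 (g 0) ≠ ⊤ := by
    rw [expT_zero]
    exact ENNReal.ofReal_ne_top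
  have hml : 0 ≤ m * lam ^ 2 := by (clear * - hm0; positivity)
  have xleG : ∀ n, eval' ν q lam n ≤ expT ν n (g n) := by
    intro n
    apply expT_mono
    intro t
    apply ENNReal.ofReal_le_ofReal
    unfold tr
    have := T0 n t
    have h2 : 0 ≤ δ / 3 * tval q lam n t ^ 3 := by (clear * - hδ this; positivity)
    linarith
  rcases hKS.lt_or_eq with hlt | heq
  · -- strictly below
    have hgeo : ∀ n, expT ν n (g n) ≤ ENNReal.ofReal (m * lam ^ 2) ^ n * expT ν 0 (g 0) := by
      intro n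
      induction n with
      | zero => simp only [pow_zero, one_mul, Std.le_refl]
      | succ n ih =>
        calc expT ν (n + 1) (g (n + 1))
            ≤ ENNReal.ofReal (m * lam ^ 2) * expT ν n (g n) := le_trans le_self_add (step n)
          _ ≤ ENNReal.ofReal (m * lam ^ 2) * (ENNReal.ofReal (m * lam ^ 2) ^ n *
                expT ν 0 (g 0)) := by (clear * - ih; gcongr)
          _ = ENNReal.ofReal (m * lam ^ 2) ^ (n + 1) * expT ν 0 (g 0) := by
              rw [pow_succ]; ring
    have hlim : Tendsto (fun n => ENNReal.ofReal (m * lam ^ 2) ^ n * expT ν 0 (g 0)) atTop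
        (𝓝 0) := by
      have h2 : Tendsto (fun n : ℕ => ENNReal.ofReal (m * lam ^ 2) ^ n) atTop (𝓝 0) := by
        apply ENNReal.tendsto_pow_atTop_nhds_zero_of_lt_one
        rw [← ENNReal.ofReal_one]
        exact (ENNReal.ofReal_lt_ofReal_iff (by norm_num)).2 hlt
      have := ENNReal.Tendsto.mul_const (b := expT ν 0 (g 0)) h2 (Or.inr hG0)
      simpa only [zero_mul] using this
    exact tendsto_of_tendsto_of_tendsto_of_le_of_le tendsto_const_nhds hlim
      (fun n => bot_le) (fun n => (xleG n).trans (hgeo n))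
  · -- critical case
    have step' : ∀ n, expT ν (n + 1) (g (n + 1)) + ENNReal.ofReal κ * expT ν n (c3 n)
        ≤ expT ν n (g n) := by
      intro n
      have := step n
      rw [heq] at this
      simpa only [ge_iff_le, one_mul, ENNReal.ofReal_one] using this
    have hsum : ∀ N, expT ν N (g N) + ∑ n ∈ Finset.range N, ENNReal.ofReal κ * expT ν n (c3 n)
        ≤ expT ν 0 (g 0) := by
      intro N
      induction N with
      | zero => simp
      | succ N ih =>
        rw [Finset.sum_range_succ]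
        calc expT ν (N + 1) (g (N + 1)) + (∑ n ∈ Finset.range N, ENNReal.ofReal κ * expT ν n (c3 n)
              + ENNReal.ofReal κ * expT ν N (c3 N))
            = (expT ν (N + 1) (g (N + 1)) + ENNReal.ofReal κ * expT ν N (c3 N)) +
              ∑ n ∈ Finset.range N, ENNReal.ofReal κ * expT ν n (c3 n) := by ring
          _ ≤ expT ν N (g N) + ∑ n ∈ Finset.range N, ENNReal.ofReal κ * expT ν n (c3 n) := by
              gcongr
              exact step' N
          _ ≤ expT ν 0 (g 0) := ih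
    have htsum : ∑' n, ENNReal.ofReal κ * expT ν n (c3 n) ≠ ⊤ := by
      refine ne_top_of_le_ne_top hG0 ?_
      rw [ENNReal.tsum_eq_iSup_nat]
      exact iSup_le fun N => le_trans le_add_self (hsum N)
    have hQ0 : Tendsto (fun n => ENNReal.ofReal κ * expT ν n (c3 n)) atTop (𝓝 0) :=
      ENNReal.tendsto_atTop_zero_of_tsum_ne_top htsum
    -- x ≤ e + x^3/e^2
    rw [ENNReal.tendsto_nhds_zero]
    intro e he
    by_cases htop : e = ⊤
    · simp [htop]
    have he' : 0 < e.toReal := ENNReal.toReal_pos he.ne' htop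
    set ε : ℝ := e.toReal / 2 with hε
    have hεpos : 0 < ε := by (clear * - he'; positivity)
    set C : ℝ := 1 / (ε ^ 2 * κ) with hCdef
    have hCpos : 0 < C := by (clear * - hδ hl4 he'; positivity)
    have h2 : Tendsto (fun n => ENNReal.ofReal C * (ENNReal.ofReal κ * expT ν n (c3 n))) atTop
        (𝓝 0) := by
      have := ENNReal.Tendsto.const_mul (a := ENNReal.ofReal C) hQ0 (Or.inr ENNReal.ofReal_ne_top)
      simpa using this
    have h3 := (ENNReal.tendsto_nhds_zero.1 h2) (ENNReal.ofReal ε) (by simpa using hεpos)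
    filter_upwards [h3] with n hn
    have h4 : eval' ν q lam n ≤ expT ν n (fun t => ENNReal.ofReal ε * 1 +
        ENNReal.ofReal (C * κ) * c3 n t) := by
      apply expT_mono
      intro t
      rw [hc3]
      simp only
      rw [← ENNReal.ofReal_mul (by (clear * - hδ hl4 he'; positivity)), mul_one]
      refine (ENNReal.ofReal_le_ofReal ?_).trans ENNReal.ofReal_add_le
      have hx := T0 n t
      have hCκ : C * κ = 1 / ε ^ 2 := by
        rw [hCdef]; (clear * - hκpos hεpos; field_simp)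
      rw [hCκ]
      set x := tval q lam n t
      by_cases hxe : x ≤ ε
      · have : 0 ≤ 1 / ε ^ 2 * x ^ 3 := by (clear * - he' hx; positivity)
        linarith only [hxe, this]
      · have hxe' : ε ≤ x := (not_le.1 hxe).le
        have : x ≤ 1 / ε ^ 2 * x ^ 3 := by
          rw [one_div, inv_mul_eq_div, le_div_iff₀ (by positivity)]
          have h5 : ε ^ 2 ≤ x ^ 2 := by (clear * - he' hxe'; gcongr)
          nlinarith only [hx, h5]
        linarith only [hεpos, this]
    rw [expT_add, expT_const_mul, expT_const_mul, expT_one hν hν1, mul_one] at h4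
    refine h4.trans ?_
    calc ENNReal.ofReal ε + ENNReal.ofReal (C * κ) * expT ν n (c3 n)
        = ENNReal.ofReal ε + ENNReal.ofReal C * (ENNReal.ofReal κ * expT ν n (c3 n)) := by
          rw [ENNReal.ofReal_mul hCpos.le, mul_assoc]
      _ ≤ ENNReal.ofReal ε + ENNReal.ofReal ε := by (clear * - hn; gcongr)
      _ = e := by
          rw [← ENNReal.ofReal_add hεpos.le hεpos.le, hε, add_halves, ENNReal.ofReal_toReal htop]

end Vale.Agent.P154
end

section

/-! # P154, T1: the sequence `a_n` is nonincreasing -/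

open scoped BigOperators ENNReal

namespace Vale.Agent.P154

/-- Cut a tree of level `n + 1` at level `n`. -/
def anti_trunc : (n : ℕ) → Tree (n + 1) → Tree n
  | 0, _ => ()
  | n + 1, ⟨k, t⟩ => ⟨k, fun c => anti_trunc n (t c)⟩

/-- Transition probability of the spins on level `n + 1` given those on level `n`. -/
noncomputable def anti_ext (q : ℕ) (lam : ℝ) :
    (n : ℕ) → (t : Tree (n + 1)) → Spins q n (anti_trunc n t) → Spins q (n + 1) t → ℝ
  | 0, ⟨k, _⟩, η, η' =>
      ∏ c : Fin k, potts q lam (show Fin q from η) (show Fin q from η' c)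
  | n + 1, ⟨k, t⟩, η, η' => ∏ c : Fin k, anti_ext q lam n (t c) (η c) (η' c)

theorem anti_potts_nonneg {q : ℕ} {lam : ℝ} (hq : 1 ≤ q) (h1 : -1 / ((q : ℝ) - 1) ≤ lam)
    (h2 : lam ≤ 1) (i j : Fin q) : 0 ≤ potts q lam i j := by
  unfold potts
  have hq0 : (0 : ℝ) < q := by exact_mod_cast hq
  split_ifs with h
  · rcases Nat.lt_or_ge 1 q with h3 | h3
    · have hq1 : (0 : ℝ) < (q : ℝ) - 1 := by
        have : (1 : ℝ) < q := by exact_mod_cast h3
        linarith only [this]
      rw [div_le_iff₀ hq1] at h1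
      have : lam + (1 - lam) / q = (lam * ((q : ℝ) - 1) + 1) / q := by
        field_simp
        ring
      rw [this]
      exact div_nonneg (by linarith only [h1]) hq0.le
    · have hq1 : q = 1 := le_antisymm h3 hq
      subst hq1
      norm_num
  · have : 0 ≤ (1 - lam) / (q : ℝ) := div_nonneg (by linarith only [h2]) hq0.le
    linarith only [this]

theorem anti_potts_sum {q : ℕ} {lam : ℝ} (hq : 1 ≤ q) (i : Fin q) :
    ∑ j, potts q lam i j = 1 := by
  unfold potts
  have hq0 : (0 : ℝ) < q := by exact_mod_cast hq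
  rw [Finset.sum_add_distrib, Finset.sum_ite_eq]
  simp only [Finset.mem_univ, if_true, Finset.sum_const, Finset.card_univ, Fintype.card_fin,
    nsmul_eq_mul]
  field_simp
  ring

section
variable {q : ℕ} {lam : ℝ}

theorem anti_lik_nonneg (hP : ∀ i j : Fin q, 0 ≤ potts q lam i j) :
    ∀ (n : ℕ) (t : Tree n) (i : Fin q) (η : Spins q n t), 0 ≤ lik q lam n t i η
  | 0, _, i, η => by
    change 0 ≤ (if i = (show Fin q from η) then (1 : ℝ) else 0)
    split_ifs <;> norm_num
  | n + 1, ⟨k, t⟩, i, η => by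
    change 0 ≤ ∏ c : Fin k, ∑ j : Fin q, potts q lam i j * lik q lam n (t c) j (η c)
    exact Finset.prod_nonneg fun c _ => Finset.sum_nonneg fun j _ =>
      mul_nonneg (hP i j) (anti_lik_nonneg hP n (t c) j (η c))

theorem anti_lik_sum (hs : ∀ i : Fin q, ∑ j, potts q lam i j = 1) :
    ∀ (n : ℕ) (t : Tree n) (i : Fin q), ∑ η : Spins q n t, lik q lam n t i η = 1
  | 0, _, i => by
    change ∑ η : Fin q, (if i = η then (1 : ℝ) else 0) = 1
    simp only [Finset.sum_ite_eq, Finset.mem_univ, ↓reduceIte]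
  | n + 1, ⟨k, t⟩, i => by
    change ∑ η : ((c : Fin k) → Spins q n (t c)),
      ∏ c : Fin k, ∑ j : Fin q, potts q lam i j * lik q lam n (t c) j (η c) = 1
    have h := Finset.prod_univ_sum (fun c : Fin k => (Finset.univ : Finset (Spins q n (t c))))
      (fun c η => ∑ j : Fin q, potts q lam i j * lik q lam n (t c) j η)
    rw [Fintype.piFinset_univ] at h
    rw [← h]
    refine Finset.prod_eq_one fun c _ => ?_
    rw [Finset.sum_comm]
    simp_rw [← Finset.mul_sum, anti_lik_sum hs n (t c), mul_one]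
    exact hs i

theorem anti_ext_nonneg (hP : ∀ i j : Fin q, 0 ≤ potts q lam i j) :
    ∀ (n : ℕ) (t : Tree (n + 1)) (η : Spins q n (anti_trunc n t)) (η' : Spins q (n + 1) t),
      0 ≤ anti_ext q lam n t η η'
  | 0, ⟨k, t⟩, η, η' => by
    change 0 ≤ ∏ c : Fin k, potts q lam (show Fin q from η) (show Fin q from η' c)
    exact Finset.prod_nonneg fun c _ => hP _ _
  | n + 1, ⟨k, t⟩, η, η' => by
    change 0 ≤ ∏ c : Fin k, anti_ext q lam n (t c) (η c) (η' c)
    exact Finset.prod_nonneg fun c _ => anti_ext_nonneg hP n (t c) (η c) (η' c)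

theorem anti_ext_sum (hs : ∀ i : Fin q, ∑ j, potts q lam i j = 1) :
    ∀ (n : ℕ) (t : Tree (n + 1)) (η : Spins q n (anti_trunc n t)),
      ∑ η' : Spins q (n + 1) t, anti_ext q lam n t η η' = 1
  | 0, ⟨k, t⟩, η => by
    change ∑ η' : (Fin k → Fin q), ∏ c : Fin k, potts q lam (show Fin q from η) (η' c) = 1
    have h := Finset.prod_univ_sum (fun _ : Fin k => (Finset.univ : Finset (Fin q)))
      (fun _ j => potts q lam (show Fin q from η) j)
    rw [Fintype.piFinset_univ] at h
    rw [← h]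
    exact Finset.prod_eq_one fun c _ => hs _
  | n + 1, ⟨k, t⟩, η => by
    change ∑ η' : ((c : Fin k) → Spins q (n + 1) (t c)),
      ∏ c : Fin k, anti_ext q lam n (t c) (η c) (η' c) = 1
    have h := Finset.prod_univ_sum (fun c : Fin k => (Finset.univ : Finset (Spins q (n + 1) (t c))))
      (fun c η' => anti_ext q lam n (t c) (η c) η')
    rw [Fintype.piFinset_univ] at h
    rw [← h]
    exact Finset.prod_eq_one fun c _ => anti_ext_sum hs n (t c) (η c)

/-- Chapman-Kolmogorov: the level `n + 1` likelihood from the level `n` likelihood. -/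
theorem anti_lik_ext :
    ∀ (n : ℕ) (t : Tree (n + 1)) (i : Fin q) (η' : Spins q (n + 1) t),
      lik q lam (n + 1) t i η' =
        ∑ η : Spins q n (anti_trunc n t), anti_ext q lam n t η η' * lik q lam n (anti_trunc n t) i η
  | 0, ⟨k, t⟩, i, η' => by
    change ∏ c : Fin k, ∑ j : Fin q, potts q lam i j *
        (if j = (show Fin q from η' c) then (1 : ℝ) else 0)
      = ∑ η : Fin q, (∏ c : Fin k, potts q lam η (show Fin q from η' c)) *
          (if i = η then (1 : ℝ) else 0)
    have key : ∀ j0 : Fin q, ∑ j : Fin q, potts q lam i j * (if j = j0 then (1 : ℝ) else 0)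
        = potts q lam i j0 := by
      intro j0
      simp only [mul_ite, mul_one, mul_zero, Finset.sum_ite_eq', Finset.mem_univ, ↓reduceIte]
    have key2 : ∀ f : Fin q → ℝ, ∑ η : Fin q, f η * (if i = η then (1 : ℝ) else 0) = f i := by
      intro f
      simp only [mul_ite, mul_one, mul_zero, Finset.sum_ite_eq, Finset.mem_univ, ↓reduceIte]
    exact (Finset.prod_congr rfl fun c _ => key (η' c)).trans
      (key2 (fun η => ∏ c : Fin k, potts q lam η (show Fin q from η' c))).symm
  | n + 1, ⟨k, t⟩, i, η' => by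
    change ∏ c : Fin k, ∑ j : Fin q, potts q lam i j * lik q lam (n + 1) (t c) j (η' c)
      = ∑ η : ((c : Fin k) → Spins q n (anti_trunc n (t c))),
          (∏ c : Fin k, anti_ext q lam n (t c) (η c) (η' c)) *
          ∏ c : Fin k, ∑ j : Fin q, potts q lam i j * lik q lam n (anti_trunc n (t c)) j (η c)
    have h := Finset.prod_univ_sum
      (fun c : Fin k => (Finset.univ : Finset (Spins q n (anti_trunc n (t c)))))
      (fun c η => anti_ext q lam n (t c) η (η' c) *
        ∑ j : Fin q, potts q lam i j * lik q lam n (anti_trunc n (t c)) j η)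
    rw [Fintype.piFinset_univ] at h
    simp_rw [← Finset.prod_mul_distrib]
    rw [← h]
    refine Finset.prod_congr rfl fun c _ => ?_
    simp_rw [anti_lik_ext n (t c)]
    simp_rw [Finset.mul_sum]
    rw [Finset.sum_comm]
    refine Finset.sum_congr rfl fun η _ => Finset.sum_congr rfl fun j _ => ?_
    ring

/-- the sublinear functional `v ↦ (1/2) ∑_i |v_i / q - mean|` -/
noncomputable def anti_phi (q : ℕ) (v : Fin q → ℝ) : ℝ :=
  (1 / 2) * ∑ i : Fin q, |(1 / q : ℝ) * v i - (∑ j : Fin q, (1 / q : ℝ) * v j) * (1 / q)|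

theorem anti_phi_nonneg (v : Fin q → ℝ) : 0 ≤ anti_phi q v :=
  mul_nonneg (by norm_num) (Finset.sum_nonneg fun _ _ => abs_nonneg _)

theorem anti_phi_sum_le {ι : Type*} (s : Finset ι) (w : ι → ℝ) (hw : ∀ a ∈ s, 0 ≤ w a)
    (v : ι → Fin q → ℝ) :
    anti_phi q (fun i => ∑ a ∈ s, w a * v a i) ≤ ∑ a ∈ s, w a * anti_phi q (v a) := by
  unfold anti_phi
  have h1 : ∀ i : Fin q, |(1 / q : ℝ) * ∑ a ∈ s, w a * v a i
        - (∑ j : Fin q, (1 / q : ℝ) * ∑ a ∈ s, w a * v a j) * (1 / q)|
      ≤ ∑ a ∈ s, w a * |(1 / q : ℝ) * v a i - (∑ j : Fin q, (1 / q : ℝ) * v a j) * (1 / q)| := by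
    intro i
    have h2 : (1 / q : ℝ) * ∑ a ∈ s, w a * v a i
        - (∑ j : Fin q, (1 / q : ℝ) * ∑ a ∈ s, w a * v a j) * (1 / q)
        = ∑ a ∈ s, w a * ((1 / q : ℝ) * v a i
            - (∑ j : Fin q, (1 / q : ℝ) * v a j) * (1 / q)) := by
      have h3 : ∑ j : Fin q, (1 / q : ℝ) * ∑ a ∈ s, w a * v a j
          = ∑ a ∈ s, w a * ∑ j : Fin q, (1 / q : ℝ) * v a j := by
        simp_rw [Finset.mul_sum]
        rw [Finset.sum_comm]
        refine Finset.sum_congr rfl fun a _ => Finset.sum_congr rfl fun j _ => ?_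
        ring
      rw [h3, Finset.mul_sum, Finset.sum_mul, ← Finset.sum_sub_distrib]
      refine Finset.sum_congr rfl fun a _ => ?_
      ring
    rw [h2]
    refine (Finset.abs_sum_le_sum_abs _ _).trans (Finset.sum_le_sum fun a ha => ?_)
    rw [abs_mul, abs_of_nonneg (hw a ha)]
  calc (1 / 2 : ℝ) * ∑ i : Fin q, |(1 / q : ℝ) * ∑ a ∈ s, w a * v a i
        - (∑ j : Fin q, (1 / q : ℝ) * ∑ a ∈ s, w a * v a j) * (1 / q)|
      ≤ (1 / 2 : ℝ) * ∑ i : Fin q, ∑ a ∈ s, w a * |(1 / q : ℝ) * v a i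
            - (∑ j : Fin q, (1 / q : ℝ) * v a j) * (1 / q)| := by
        gcongr with i
        exact h1 i
    _ = _ := by
        rw [Finset.sum_comm, Finset.mul_sum]
        refine Finset.sum_congr rfl fun a _ => ?_
        rw [Finset.mul_sum, Finset.mul_sum, Finset.mul_sum]
        refine Finset.sum_congr rfl fun i _ => ?_
        ring

/-- the advantage of a fixed tree -/
noncomputable def anti_G (q : ℕ) (lam : ℝ) (n : ℕ) (t : Tree n) : ℝ :=
  ∑ η : Spins q n t, anti_phi q (fun i => lik q lam n t i η)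

theorem anti_G_nonneg (n : ℕ) (t : Tree n) : 0 ≤ anti_G q lam n t :=
  Finset.sum_nonneg fun _ _ => anti_phi_nonneg _

theorem anti_G_eq (hq : 1 ≤ q) (hP : ∀ i j : Fin q, 0 ≤ potts q lam i j) (n : ℕ) (t : Tree n) :
    ∑ η : Spins q n t, evid q lam n t η * ((1 / 2) * ∑ i : Fin q, |post q lam n t η i - 1 / q|)
      = anti_G q lam n t := by
  have hq0 : (0 : ℝ) < q := by exact_mod_cast hq
  unfold anti_G
  refine Finset.sum_congr rfl fun η _ => ?_
  have hl := fun i => anti_lik_nonneg hP n t i η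
  have hev : 0 ≤ evid q lam n t η :=
    Finset.sum_nonneg fun i _ => mul_nonneg (by positivity) (hl i)
  unfold anti_phi
  have hevd : ∑ j : Fin q, (1 / q : ℝ) * lik q lam n t j η = evid q lam n t η := rfl
  rw [hevd, mul_left_comm, Finset.mul_sum]
  congr 1
  refine Finset.sum_congr rfl fun i _ => ?_
  rcases hev.eq_or_lt with h0 | hpos
  · have hz : (1 / q : ℝ) * lik q lam n t i η = 0 := by
      have h1 : ∑ i : Fin q, (1 / q : ℝ) * lik q lam n t i η = 0 := h0.symm
      exact (Finset.sum_eq_zero_iff_of_nonneg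
        (fun i _ => mul_nonneg (by positivity) (hl i))).1 h1 i (Finset.mem_univ _)
    rw [← h0, hz]
    simp
  · unfold post
    rw [← abs_of_pos hpos, ← abs_mul, abs_of_pos hpos, mul_sub, mul_div_cancel₀ _ hpos.ne']

theorem anti_G_le (hP : ∀ i j : Fin q, 0 ≤ potts q lam i j)
    (hs : ∀ i : Fin q, ∑ j, potts q lam i j = 1) (n : ℕ) (t : Tree (n + 1)) :
    anti_G q lam (n + 1) t ≤ anti_G q lam n (anti_trunc n t) := by
  unfold anti_G
  calc ∑ η' : Spins q (n + 1) t, anti_phi q (fun i => lik q lam (n + 1) t i η')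
      = ∑ η' : Spins q (n + 1) t, anti_phi q (fun i => ∑ η : Spins q n (anti_trunc n t),
          anti_ext q lam n t η η' * lik q lam n (anti_trunc n t) i η) := by
        simp_rw [anti_lik_ext]
    _ ≤ ∑ η' : Spins q (n + 1) t, ∑ η : Spins q n (anti_trunc n t),
          anti_ext q lam n t η η' * anti_phi q (fun i => lik q lam n (anti_trunc n t) i η) := by
        refine Finset.sum_le_sum fun η' _ => ?_
        exact anti_phi_sum_le Finset.univ (fun η => anti_ext q lam n t η η')
          (fun η _ => anti_ext_nonneg hP n t η η')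
          (fun η i => lik q lam n (anti_trunc n t) i η)
    _ = ∑ η : Spins q n (anti_trunc n t), anti_phi q (fun i => lik q lam n (anti_trunc n t) i η) := by
        rw [Finset.sum_comm]
        refine Finset.sum_congr rfl fun η _ => ?_
        rw [← Finset.sum_mul, anti_ext_sum hs n t η, one_mul]

theorem anti_G_le_one (hq : 1 ≤ q) (hP : ∀ i j : Fin q, 0 ≤ potts q lam i j)
    (hs : ∀ i : Fin q, ∑ j, potts q lam i j = 1) (n : ℕ) (t : Tree n) :
    anti_G q lam n t ≤ 1 := by
  have hq0 : (0 : ℝ) < q := by exact_mod_cast hq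
  unfold anti_G
  have h1 : ∀ η : Spins q n t, anti_phi q (fun i => lik q lam n t i η)
      ≤ ∑ i : Fin q, (1 / q : ℝ) * lik q lam n t i η := by
    intro η
    have hl := fun i => anti_lik_nonneg hP n t i η
    have hS : 0 ≤ ∑ j : Fin q, (1 / q : ℝ) * lik q lam n t j η :=
      Finset.sum_nonneg fun i _ => mul_nonneg (by positivity) (hl i)
    unfold anti_phi
    have h2 : ∀ i : Fin q, |(1 / q : ℝ) * lik q lam n t i η
        - (∑ j : Fin q, (1 / q : ℝ) * lik q lam n t j η) * (1 / q)|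
        ≤ (1 / q : ℝ) * lik q lam n t i η
          + (∑ j : Fin q, (1 / q : ℝ) * lik q lam n t j η) * (1 / q) := by
      intro i
      refine (abs_sub _ _).trans ?_
      rw [abs_of_nonneg (mul_nonneg (by positivity) (hl i)),
        abs_of_nonneg (mul_nonneg hS (by positivity))]
    calc (1 / 2 : ℝ) * ∑ i : Fin q, |(1 / q : ℝ) * lik q lam n t i η
        - (∑ j : Fin q, (1 / q : ℝ) * lik q lam n t j η) * (1 / q)|
        ≤ (1 / 2 : ℝ) * ∑ i : Fin q, ((1 / q : ℝ) * lik q lam n t i η
          + (∑ j : Fin q, (1 / q : ℝ) * lik q lam n t j η) * (1 / q)) := by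
          gcongr with i
          exact h2 i
      _ = ∑ i : Fin q, (1 / q : ℝ) * lik q lam n t i η := by
          rw [Finset.sum_add_distrib, Finset.sum_const, Finset.card_univ, Fintype.card_fin,
            nsmul_eq_mul]
          field_simp
          ring
  calc ∑ η : Spins q n t, anti_phi q (fun i => lik q lam n t i η)
      ≤ ∑ η : Spins q n t, ∑ i : Fin q, (1 / q : ℝ) * lik q lam n t i η :=
        Finset.sum_le_sum fun η _ => h1 η
    _ = 1 := by
        rw [Finset.sum_comm]
        simp_rw [← Finset.mul_sum, anti_lik_sum hs n t]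
        simp only [one_div, Finset.sum_const, Finset.card_univ, Fintype.card_fin, nsmul_eq_mul,
          mul_one]
        field_simp

end

section tree
variable {ν : ℕ → ℝ}

theorem anti_treeProb_nonneg (hν : ∀ k, 0 ≤ ν k) :
    ∀ (n : ℕ) (t : Tree n), 0 ≤ treeProb ν n t
  | 0, _ => by
    change (0 : ℝ) ≤ 1
    norm_num
  | n + 1, ⟨k, t⟩ => by
    change 0 ≤ ν k * ∏ c : Fin k, treeProb ν n (t c)
    exact mul_nonneg (hν k) (Finset.prod_nonneg fun c _ => anti_treeProb_nonneg hν n (t c))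

/-- `treeProb` as an extended nonnegative real -/
noncomputable def anti_P (ν : ℕ → ℝ) (n : ℕ) (t : Tree n) : ℝ≥0∞ := ENNReal.ofReal (treeProb ν n t)

/-- the tree whose root has the `k` given subtrees -/
def anti_node {n : ℕ} (k : ℕ) (t : Fin k → Tree n) : Tree (n + 1) := ⟨k, t⟩

theorem anti_P_node (hν : ∀ k, 0 ≤ ν k) (n k : ℕ) (t : Fin k → Tree n) :
    anti_P ν (n + 1) (anti_node k t) = ENNReal.ofReal (ν k) * ∏ c : Fin k, anti_P ν n (t c) := by
  change ENNReal.ofReal (ν k * ∏ c : Fin k, treeProb ν n (t c)) = _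
  rw [ENNReal.ofReal_mul (hν k), ENNReal.ofReal_prod_of_nonneg]
  · rfl
  · exact fun c _ => anti_treeProb_nonneg hν n (t c)

theorem anti_pi {α β : Type*} (p : α → ℝ≥0∞) (w : β → ℝ≥0∞) (f : α → β)
    (h : ∀ H : β → ℝ≥0∞, ∑' a, p a * H (f a) = ∑' b, w b * H b) :
    ∀ (k : ℕ) (H : (Fin k → β) → ℝ≥0∞),
      ∑' a : Fin k → α, (∏ c, p (a c)) * H (fun c => f (a c))
        = ∑' b : Fin k → β, (∏ c, w (b c)) * H b
  | 0, H => by
    rw [tsum_eq_single (fun c => c.elim0), tsum_eq_single (fun c => c.elim0)]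
    · simp only [Finset.univ_eq_empty, Finset.prod_empty, one_mul]
      congr 1
      funext c
      exact c.elim0
    · intro b hb
      exact absurd (funext fun c => c.elim0) hb
    · intro b hb
      exact absurd (funext fun c => c.elim0) hb
  | k + 1, H => by
    rw [← (Fin.consEquiv (fun _ : Fin (k + 1) => α)).tsum_eq,
      ← (Fin.consEquiv (fun _ : Fin (k + 1) => β)).tsum_eq, ENNReal.tsum_prod',
      ENNReal.tsum_prod']
    simp only [Fin.consEquiv_apply, Fin.prod_univ_succ, Fin.cons_zero, Fin.cons_succ]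
    have h1 : ∀ a0 : α, ∑' a : Fin k → α, (p a0 * ∏ c, p (a c)) *
        H (fun c => f ((Fin.cons a0 a : Fin (k + 1) → α) c))
        = p a0 * ∑' b : Fin k → β, (∏ c, w (b c)) * H (Fin.cons (f a0) b) := by
      intro a0
      rw [← anti_pi p w f h k (fun b => H (Fin.cons (f a0) b)), ← ENNReal.tsum_mul_left]
      refine tsum_congr fun a => ?_
      rw [mul_assoc]
      congr 3
      funext c
      refine Fin.cases ?_ (fun c => ?_) c
      · simp
      · simp
    simp_rw [h1]
    rw [h (fun b0 => ∑' b : Fin k → β, (∏ c, w (b c)) * H (Fin.cons b0 b))]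
    refine tsum_congr fun b0 => ?_
    rw [← ENNReal.tsum_mul_left]
    refine tsum_congr fun b => ?_
    rw [mul_assoc]
    rfl

theorem anti_tsum_succ {n : ℕ} (F : Tree (n + 1) → ℝ≥0∞) :
    ∑' t, F t = ∑' (k : ℕ) (t : Fin k → Tree n), F (anti_node k t) :=
  ENNReal.tsum_sigma' (β := fun k : ℕ => (Fin k → Tree n)) F

/-- the tree with a single vertex -/
def anti_leaf : Tree 0 := ()

theorem anti_tsum_zero (F : Tree 0 → ℝ≥0∞) : ∑' t, F t = F anti_leaf :=
  tsum_eq_single (f := F) anti_leaf (fun _ hb => absurd rfl hb)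

theorem anti_tsum_pi_zero (k : ℕ) (F : (Fin k → Tree 0) → ℝ≥0∞) :
    ∑' t, F t = F (fun _ => anti_leaf) :=
  tsum_eq_single (f := F) (fun _ => anti_leaf) (fun _ hb => absurd (funext fun _ => rfl) hb)

/-- Under the Galton-Watson law, cutting at level `n` gives the level `n` law. -/
theorem anti_law_trunc (hν : ∀ k, 0 ≤ ν k) (hs : HasSum ν 1) :
    ∀ (n : ℕ) (H : Tree n → ℝ≥0∞),
      ∑' t : Tree (n + 1), anti_P ν (n + 1) t * H (anti_trunc n t)
        = ∑' t : Tree n, anti_P ν n t * H t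
  | 0, H => by
    have hsum : ∑' k, ENNReal.ofReal (ν k) = 1 := by
      rw [← ENNReal.ofReal_tsum_of_nonneg hν hs.summable, hs.tsum_eq, ENNReal.ofReal_one]
    have h0 : anti_P ν 0 anti_leaf = 1 := ENNReal.ofReal_one
    have h1 : ∀ k : ℕ, ∑' t : Fin k → Tree 0,
        anti_P ν (0 + 1) (anti_node k t) * H (anti_trunc 0 (anti_node k t))
        = ENNReal.ofReal (ν k) * H anti_leaf := by
      intro k
      rw [anti_tsum_pi_zero, anti_P_node hν, h0, Finset.prod_const_one, mul_one]
      rfl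
    rw [anti_tsum_succ, anti_tsum_zero]
    simp_rw [h1]
    rw [ENNReal.tsum_mul_right, hsum, h0]
  | n + 1, H => by
    rw [anti_tsum_succ, anti_tsum_succ]
    refine tsum_congr fun k => ?_
    have h1 := anti_pi (anti_P ν (n + 1)) (anti_P ν n) (anti_trunc n)
      (anti_law_trunc hν hs n) k (fun b => H (anti_node k b))
    calc ∑' t : Fin k → Tree (n + 1),
          anti_P ν (n + 1 + 1) (anti_node k t) * H (anti_trunc (n + 1) (anti_node k t))
        = ENNReal.ofReal (ν k) * ∑' t : Fin k → Tree (n + 1),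
            (∏ c, anti_P ν (n + 1) (t c)) * H (anti_node k (fun c => anti_trunc n (t c))) := by
          rw [← ENNReal.tsum_mul_left]
          refine tsum_congr fun t => ?_
          rw [anti_P_node hν, mul_assoc]
          rfl
      _ = ENNReal.ofReal (ν k) * ∑' t : Fin k → Tree n,
            (∏ c, anti_P ν n (t c)) * H (anti_node k t) := by
          rw [h1]
      _ = _ := by
          rw [← ENNReal.tsum_mul_left]
          refine tsum_congr fun t => ?_
          rw [anti_P_node hν, mul_assoc]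

theorem anti_total (hν : ∀ k, 0 ≤ ν k) (hs : HasSum ν 1) :
    ∀ n : ℕ, ∑' t : Tree n, anti_P ν n t = 1
  | 0 => by
    rw [anti_tsum_zero]
    exact ENNReal.ofReal_one
  | n + 1 => by
    have h := anti_law_trunc hν hs n (fun _ => 1)
    simp only [mul_one] at h
    rw [h, anti_total hν hs n]

theorem anti_advantage_eq {q : ℕ} {lam : ℝ} (hq : 1 ≤ q)
    (hP : ∀ i j : Fin q, 0 ≤ potts q lam i j) (hν : ∀ k, 0 ≤ ν k) (n : ℕ) :
    advantage ν q lam n
      = (∑' t : Tree n, anti_P ν n t * ENNReal.ofReal (anti_G q lam n t)).toReal := by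
  rw [ENNReal.tsum_toReal_eq]
  · unfold advantage
    refine tsum_congr fun t => ?_
    rw [anti_G_eq hq hP, ENNReal.toReal_mul, ENNReal.toReal_ofReal (anti_G_nonneg n t)]
    unfold anti_P
    rw [ENNReal.toReal_ofReal (anti_treeProb_nonneg hν n t)]
  · intro t
    exact ENNReal.mul_ne_top ENNReal.ofReal_ne_top ENNReal.ofReal_ne_top

/-- The sequence `a_n` is nonincreasing. -/
theorem antitone_advantage {q : ℕ} {lam : ℝ} (hq : 1 ≤ q) (h1 : -1 / ((q : ℝ) - 1) ≤ lam)
    (h2 : lam ≤ 1) (hν : ∀ k, 0 ≤ ν k) (hs : HasSum ν 1) : Antitone (advantage ν q lam) := by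
  have hP : ∀ i j : Fin q, 0 ≤ potts q lam i j := anti_potts_nonneg hq h1 h2
  have hps : ∀ i : Fin q, ∑ j, potts q lam i j = 1 := anti_potts_sum hq
  refine antitone_nat_of_succ_le fun n => ?_
  rw [anti_advantage_eq hq hP hν, anti_advantage_eq hq hP hν]
  have hfin : ∑' t : Tree n, anti_P ν n t * ENNReal.ofReal (anti_G q lam n t) ≠ ⊤ := by
    refine ne_top_of_le_ne_top ENNReal.one_ne_top ?_
    rw [← anti_total hν hs n]
    refine ENNReal.tsum_le_tsum fun t => ?_
    calc anti_P ν n t * ENNReal.ofReal (anti_G q lam n t)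
        ≤ anti_P ν n t * 1 := by
          gcongr
          exact ENNReal.ofReal_le_one.2 (anti_G_le_one hq hP hps n t)
      _ = anti_P ν n t := mul_one _
  refine ENNReal.toReal_mono hfin ?_
  rw [← anti_law_trunc hν hs n (fun t => ENNReal.ofReal (anti_G q lam n t))]
  refine ENNReal.tsum_le_tsum fun t => ?_
  gcongr
  exact anti_G_le hP hps n t

theorem advantage_nonneg {q : ℕ} {lam : ℝ} (hq : 1 ≤ q) (h1 : -1 / ((q : ℝ) - 1) ≤ lam)
    (h2 : lam ≤ 1) (hν : ∀ k, 0 ≤ ν k) (n : ℕ) : 0 ≤ advantage ν q lam n := by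
  rw [anti_advantage_eq hq (anti_potts_nonneg hq h1 h2) hν]
  exact ENNReal.toReal_nonneg

/-- The sequence `a_n` converges. -/
theorem exists_tendsto_advantage {q : ℕ} {lam : ℝ} (hq : 1 ≤ q) (h1 : -1 / ((q : ℝ) - 1) ≤ lam)
    (h2 : lam ≤ 1) (hν : ∀ k, 0 ≤ ν k) (hs : HasSum ν 1) :
    ∃ l : ℝ, 0 ≤ l ∧ (∀ n, l ≤ advantage ν q lam n) ∧
      Filter.Tendsto (advantage ν q lam) Filter.atTop (nhds l) := by
  have hanti := antitone_advantage hq h1 h2 hν hs
  have hbdd : BddBelow (Set.range (advantage ν q lam)) := by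
    refine ⟨0, ?_⟩
    rintro _ ⟨n, rfl⟩
    exact advantage_nonneg hq h1 h2 hν n
  refine ⟨⨅ n, advantage ν q lam n, le_ciInf fun n => advantage_nonneg hq h1 h2 hν n,
    fun n => ciInf_le hbdd n, tendsto_atTop_ciInf hanti hbdd⟩

/-- Reconstruction and nonreconstruction are complementary. -/
theorem reconstruction_iff {q : ℕ} {lam : ℝ} (hq : 1 ≤ q) (h1 : -1 / ((q : ℝ) - 1) ≤ lam)
    (h2 : lam ≤ 1) (hν : ∀ k, 0 ≤ ν k) (hs : HasSum ν 1) :
    Reconstruction ν q lam ↔ ¬ Nonreconstruction ν q lam := by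
  constructor
  · rintro ⟨l, hl, hlim⟩ hnon
    exact hl.ne' (tendsto_nhds_unique hlim hnon)
  · intro hnon
    obtain ⟨l, hl0, -, hlim⟩ := exists_tendsto_advantage hq h1 h2 hν hs
    refine ⟨l, lt_of_le_of_ne hl0 ?_, hlim⟩
    rintro rfl
    exact hnon hlim

/-- A uniform positive lower bound gives reconstruction. -/
theorem reconstruction_of_le {q : ℕ} {lam : ℝ} (hq : 1 ≤ q) (h1 : -1 / ((q : ℝ) - 1) ≤ lam)
    (h2 : lam ≤ 1) (hν : ∀ k, 0 ≤ ν k) (hs : HasSum ν 1) {c : ℝ} (hc : 0 < c)
    (h : ∀ n, c ≤ advantage ν q lam n) : Reconstruction ν q lam := by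
  obtain ⟨l, -, -, hlim⟩ := exists_tendsto_advantage hq h1 h2 hν hs
  exact ⟨l, lt_of_lt_of_le hc (ge_of_tendsto' hlim h), hlim⟩

end tree

end Vale.Agent.P154
end

section

/-!
P154: extinction.  If the offspring law has mean at most one (and is not a point mass at one)
then `advantage` tends to zero.
-/

open scoped ENNReal
open Filter Topology

namespace Vale.Agent.P154

/-! ### sums over trees in `ℝ≥0∞` -/

/-- the one vertex tree -/
def extLeaf : Tree 0 := ()

/-- the tree with given branches -/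
def extNode {n : ℕ} (k : ℕ) (t : Fin k → Tree n) : Tree (n + 1) := ⟨k, t⟩

theorem ext_tree_cases {n : ℕ} {p : Tree (n + 1) → Prop}
    (h : ∀ (k : ℕ) (t : Fin k → Tree n), p (extNode k t)) (t : Tree (n + 1)) : p t :=
  match t with
  | ⟨k, t⟩ => h k t

theorem ext_tsum_tree_succ {n : ℕ} (f : Tree (n + 1) → ℝ≥0∞) :
    ∑' t : Tree (n + 1), f t = ∑' k : ℕ, ∑' t : Fin k → Tree n, f (extNode k t) :=
  ENNReal.tsum_sigma (β := fun k => Fin k → Tree n) (fun k t => f ⟨k, t⟩)

theorem ext_tsum_unit (f : Unit → ℝ≥0∞) : ∑' t : Unit, f t = f () := by simp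

theorem ext_tsum_tree_zero (f : Tree 0 → ℝ≥0∞) : ∑' t : Tree 0, f t = f extLeaf :=
  ext_tsum_unit f

theorem ext_tsum_pi {α : Type*} (f : α → ℝ≥0∞) (k : ℕ) :
    ∑' t : Fin k → α, ∏ c, f (t c) = (∑' a, f a) ^ k := by
  induction k with
  | zero => simp only [Finset.univ_eq_empty, Finset.prod_empty, tsum_fintype, Finset.univ_unique,
              Finset.sum_const, Finset.card_singleton, one_smul, pow_zero]
  | succ k ih =>
    rw [← (Fin.consEquiv (fun _ : Fin (k + 1) => α)).tsum_eq, ENNReal.tsum_prod']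
    simp only [Fin.consEquiv_apply, Fin.prod_univ_succ, Fin.cons_zero, Fin.cons_succ]
    simp_rw [ENNReal.tsum_mul_left, ih]
    rw [ENNReal.tsum_mul_right, pow_succ, mul_comm]

/-- weights in `ℝ≥0∞` -/
noncomputable def extW (ν : ℕ → ℝ) (n : ℕ) (t : Tree n) : ℝ≥0∞ := ENNReal.ofReal (treeProb ν n t)

theorem ext_treeProb_succ (ν : ℕ → ℝ) (n k : ℕ) (t : Fin k → Tree n) :
    treeProb ν (n + 1) (extNode k t) = ν k * ∏ c, treeProb ν n (t c) := rfl

theorem ext_treeProb_nonneg {ν : ℕ → ℝ} (h0 : ∀ k, 0 ≤ ν k) :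
    ∀ (n : ℕ) (t : Tree n), 0 ≤ treeProb ν n t
  | 0, _ => zero_le_one
  | n + 1, ⟨k, t⟩ => mul_nonneg (h0 k) (Finset.prod_nonneg fun c _ => ext_treeProb_nonneg h0 n (t c))

theorem extW_zero (ν : ℕ → ℝ) (t : Tree 0) : extW ν 0 t = 1 := by
  simp only [extW, treeProb, ENNReal.ofReal_one]

theorem extW_succ {ν : ℕ → ℝ} (h0 : ∀ k, 0 ≤ ν k) (n k : ℕ) (t : Fin k → Tree n) :
    extW ν (n + 1) (extNode k t) = ENNReal.ofReal (ν k) * ∏ c, extW ν n (t c) := by
  simp only [extW]
  rw [← ENNReal.ofReal_prod_of_nonneg (fun c _ => ext_treeProb_nonneg h0 n (t c)),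
    ← ENNReal.ofReal_mul (h0 k), ext_treeProb_succ]

/-- `t` has no vertex at level `n` -/
def Dead : (n : ℕ) → Tree n → Prop
  | 0, _ => False
  | n + 1, ⟨_, t⟩ => ∀ c, Dead n (t c)

theorem dead_succ {n k : ℕ} (t : Fin k → Tree n) :
    Dead (n + 1) (extNode k t) ↔ ∀ c, Dead n (t c) := Iff.rfl

open Classical in
/-- extinction probability -/
noncomputable def extE (ν : ℕ → ℝ) (n : ℕ) : ℝ≥0∞ :=
  ∑' t : Tree n, extW ν n t * (if Dead n t then 1 else 0)

open Classical in
theorem extE_zero (ν : ℕ → ℝ) : extE ν 0 = 0 := by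
  simp only [extE, Dead, ↓reduceIte, mul_zero, tsum_zero]

open Classical in
theorem extE_succ {ν : ℕ → ℝ} (h0 : ∀ k, 0 ≤ ν k) (n : ℕ) :
    extE ν (n + 1) = ∑' k : ℕ, ENNReal.ofReal (ν k) * extE ν n ^ k := by
  rw [extE, ext_tsum_tree_succ]
  refine tsum_congr fun k => ?_
  rw [extE, ← ext_tsum_pi, ← ENNReal.tsum_mul_left]
  refine tsum_congr fun t => ?_
  rw [extW_succ h0, mul_assoc, Finset.prod_mul_distrib]
  congr 2
  by_cases h : ∀ c, Dead n (t c)
  · rw [if_pos ((dead_succ t).2 h)]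
    simp only [h, ↓reduceIte, Finset.prod_const_one]
  · rw [if_neg (fun h' => h ((dead_succ t).1 h'))]
    push Not at h
    obtain ⟨c, hc⟩ := h
    symm
    exact Finset.prod_eq_zero (Finset.mem_univ c) (if_neg hc)

theorem ext_mass {ν : ℕ → ℝ} (h0 : ∀ k, 0 ≤ ν k) (h1 : ∑' k, ENNReal.ofReal (ν k) = 1) (n : ℕ) :
    ∑' t : Tree n, extW ν n t = 1 := by
  induction n with
  | zero => rw [ext_tsum_tree_zero, extW_zero]
  | succ n ih =>
    rw [ext_tsum_tree_succ, ← h1]
    refine tsum_congr fun k => ?_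
    simp_rw [extW_succ h0]
    rw [ENNReal.tsum_mul_left, ext_tsum_pi, ih, one_pow, mul_one]

/-! ### the channel -/

theorem ext_potts_row {q : ℕ} (hq : 0 < q) (lam : ℝ) (i : Fin q) : ∑ j, potts q lam i j = 1 := by
  have hq' : (q : ℝ) ≠ 0 := by positivity
  simp only [potts, Finset.sum_add_distrib, Finset.sum_ite_eq, Finset.mem_univ, if_true,
    Finset.sum_const, Finset.card_univ, Fintype.card_fin, nsmul_eq_mul]
  field_simp
  ring

theorem ext_potts_nonneg {q : ℕ} (hq : 2 ≤ q) {lam : ℝ} (hl : -1 / ((q : ℝ) - 1) ≤ lam)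
    (hl1 : lam ≤ 1) (i j : Fin q) : 0 ≤ potts q lam i j := by
  have hq1 : (2 : ℝ) ≤ q := by exact_mod_cast hq
  have hq0 : (0 : ℝ) < q := by linarith only [hq1]
  have hq2 : (0 : ℝ) < q - 1 := by linarith only [hq1]
  rw [div_le_iff₀ hq2] at hl
  unfold potts
  split_ifs
  · have : lam + (1 - lam) / q = (lam * (q - 1) + 1) / q := by field_simp; ring
    rw [this]
    apply div_nonneg _ hq0.le
    linarith only [hl]
  · rw [zero_add]
    exact div_nonneg (by linarith) hq0.le

theorem ext_lik_nonneg {q : ℕ} {lam : ℝ} (hP : ∀ i j, 0 ≤ potts q lam i j) :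
    ∀ (n : ℕ) (t : Tree n) (i : Fin q) (η : Spins q n t), 0 ≤ lik q lam n t i η
  | 0, _, i, η => by
    unfold lik
    split_ifs <;> norm_num
  | n + 1, ⟨k, t⟩, i, η =>
    Finset.prod_nonneg fun c _ => Finset.sum_nonneg fun j _ =>
      mul_nonneg (hP i j) (ext_lik_nonneg hP n (t c) j (η c))

theorem ext_lik_sum {q : ℕ} (hq : 0 < q) (lam : ℝ) :
    ∀ (n : ℕ) (t : Tree n) (i : Fin q), ∑ η : Spins q n t, lik q lam n t i η = 1
  | 0, _, i => by
    change ∑ η : Fin q, (if i = η then (1 : ℝ) else 0) = 1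
    simp only [Finset.sum_ite_eq, Finset.mem_univ, ↓reduceIte]
  | n + 1, ⟨k, t⟩, i => by
    have h : ∀ c : Fin k, ∑ ηc : Spins q n (t c), ∑ j : Fin q,
        potts q lam i j * lik q lam n (t c) j ηc = 1 := by
      intro c
      rw [Finset.sum_comm]
      simp_rw [← Finset.mul_sum, ext_lik_sum hq lam n (t c), mul_one]
      exact ext_potts_row hq lam i
    have h2 := Finset.prod_univ_sum (fun c : Fin k => (Finset.univ : Finset (Spins q n (t c))))
      (fun c ηc => ∑ j : Fin q, potts q lam i j * lik q lam n (t c) j ηc)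
    rw [Fintype.piFinset_univ] at h2
    simp_rw [h] at h2
    rw [Finset.prod_const_one] at h2
    exact h2.symm

/-- on a dead tree nothing is observed -/
theorem ext_lik_dead {q : ℕ} (hq : 0 < q) (lam : ℝ) :
    ∀ (n : ℕ) (t : Tree n), Dead n t → ∀ (i : Fin q) (η : Spins q n t), lik q lam n t i η = 1
  | 0, _, h, _, _ => False.elim h
  | n + 1, ⟨k, t⟩, h, i, η => by
    change ∏ c : Fin k, ∑ j : Fin q, potts q lam i j * lik q lam n (t c) j (η c) = 1
    refine Finset.prod_eq_one fun c _ => ?_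
    simp_rw [ext_lik_dead hq lam n (t c) (h c), mul_one]
    exact ext_potts_row hq lam i

theorem ext_evid_nonneg {q : ℕ} {lam : ℝ} (hP : ∀ i j, 0 ≤ potts q lam i j) (n : ℕ) (t : Tree n)
    (η : Spins q n t) : 0 ≤ evid q lam n t η :=
  Finset.sum_nonneg fun i _ => mul_nonneg (by positivity) (ext_lik_nonneg hP n t i η)

theorem ext_evid_sum {q : ℕ} (hq : 0 < q) (lam : ℝ) (n : ℕ) (t : Tree n) :
    ∑ η : Spins q n t, evid q lam n t η = 1 := by
  have hq' : (q : ℝ) ≠ 0 := by positivity
  unfold evid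
  rw [Finset.sum_comm]
  simp_rw [← Finset.mul_sum, ext_lik_sum hq lam n t]
  simp only [one_div, Finset.sum_const, Finset.card_univ, Fintype.card_fin, nsmul_eq_mul, mul_one]
  field_simp

/-- the conditional advantage given the tree -/
noncomputable def extInner (q : ℕ) (lam : ℝ) (n : ℕ) (t : Tree n) : ℝ :=
  ∑ η : Spins q n t, evid q lam n t η * ((1 / 2) * ∑ i : Fin q, |post q lam n t η i - 1 / q|)

theorem extInner_nonneg {q : ℕ} {lam : ℝ} (hP : ∀ i j, 0 ≤ potts q lam i j) (n : ℕ) (t : Tree n) :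
    0 ≤ extInner q lam n t :=
  Finset.sum_nonneg fun η _ => mul_nonneg (ext_evid_nonneg hP n t η)
    (mul_nonneg (by norm_num) (Finset.sum_nonneg fun i _ => abs_nonneg _))

theorem extInner_le_one {q : ℕ} (hq : 0 < q) {lam : ℝ} (hP : ∀ i j, 0 ≤ potts q lam i j) (n : ℕ)
    (t : Tree n) : extInner q lam n t ≤ 1 := by
  have hq' : (q : ℝ) ≠ 0 := by positivity
  have hqp : (0 : ℝ) < q := by positivity
  rw [← ext_evid_sum hq lam n t]
  refine Finset.sum_le_sum fun η _ => ?_
  have hev := ext_evid_nonneg hP n t η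
  have hpost : ∀ i, 0 ≤ post q lam n t η i := fun i =>
    div_nonneg (mul_nonneg (by positivity) (ext_lik_nonneg hP n t i η)) hev
  have hs : ∑ i, post q lam n t η i ≤ 1 := by
    unfold post
    rw [← Finset.sum_div]
    change evid q lam n t η / evid q lam n t η ≤ 1
    exact div_self_le_one _
  have h1 : ∑ i : Fin q, |post q lam n t η i - 1 / q| ≤ 2 := by
    calc ∑ i : Fin q, |post q lam n t η i - 1 / q|
        ≤ ∑ i : Fin q, (post q lam n t η i + 1 / q) := by
          refine Finset.sum_le_sum fun i _ => ?_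
          have h2 : (0 : ℝ) ≤ 1 / q := by positivity
          rw [abs_le]
          constructor <;> linarith only [hpost i, hpost, h2]
      _ = ∑ i, post q lam n t η i + 1 := by
          rw [Finset.sum_add_distrib]
          simp only [one_div, Finset.sum_const, Finset.card_univ, Fintype.card_fin, nsmul_eq_mul,
            add_right_inj]
          field_simp
      _ ≤ 2 := by linarith only [hs]
  calc evid q lam n t η * ((1 / 2) * ∑ i : Fin q, |post q lam n t η i - 1 / q|)
      ≤ evid q lam n t η * 1 := mul_le_mul_of_nonneg_left (by linarith only [h1]) hev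
    _ = evid q lam n t η := mul_one _

theorem extInner_dead {q : ℕ} (hq : 0 < q) (lam : ℝ) (n : ℕ) (t : Tree n) (h : Dead n t) :
    extInner q lam n t = 0 := by
  have hq' : (q : ℝ) ≠ 0 := by positivity
  refine Finset.sum_eq_zero fun η _ => ?_
  have hev : evid q lam n t η = 1 := by
    unfold evid
    simp_rw [ext_lik_dead hq lam n t h]
    simp only [one_div, mul_one, Finset.sum_const, Finset.card_univ, Fintype.card_fin, nsmul_eq_mul]
    field_simp
  have : ∑ i : Fin q, |post q lam n t η i - 1 / q| = 0 := by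
    refine Finset.sum_eq_zero fun i _ => ?_
    unfold post
    rw [hev, ext_lik_dead hq lam n t h]
    simp
  rw [this]
  simp

theorem ext_advantage_eq (ν : ℕ → ℝ) (q : ℕ) (lam : ℝ) (n : ℕ) :
    advantage ν q lam n = ∑' t : Tree n, treeProb ν n t * extInner q lam n t := rfl

theorem ext_summable {ν : ℕ → ℝ} (h0 : ∀ k, 0 ≤ ν k) (h1 : HasSum ν 1) (n : ℕ) :
    HasSum (treeProb ν n) 1 := by
  have hE : ∑' k, ENNReal.ofReal (ν k) = 1 := by
    rw [← ENNReal.ofReal_tsum_of_nonneg h0 h1.summable, h1.tsum_eq, ENNReal.ofReal_one]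
  have hm := ext_mass h0 hE n
  have hs : Summable fun t : Tree n => (extW ν n t).toReal :=
    ENNReal.summable_toReal (by rw [hm]; exact ENNReal.one_ne_top)
  have heq : (fun t : Tree n => (extW ν n t).toReal) = treeProb ν n := by
    funext t
    exact ENNReal.toReal_ofReal (ext_treeProb_nonneg h0 n t)
  have ht : ∑' t : Tree n, (extW ν n t).toReal = 1 := by
    have htop : ∀ t : Tree n, extW ν n t ≠ ⊤ := fun t => ENNReal.ofReal_ne_top
    rw [← ENNReal.tsum_toReal_eq htop, hm, ENNReal.toReal_one]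
  rw [heq] at hs ht
  exact ht ▸ hs.hasSum

open Classical in
theorem ext_advantage_le {ν : ℕ → ℝ} (h0 : ∀ k, 0 ≤ ν k) (h1 : HasSum ν 1) {q : ℕ} (hq : 0 < q)
    {lam : ℝ} (hP : ∀ i j, 0 ≤ potts q lam i j) (n : ℕ) :
    0 ≤ advantage ν q lam n ∧ advantage ν q lam n ≤ 1 - (extE ν n).toReal := by
  have hs := ext_summable h0 h1 n
  have hp := ext_treeProb_nonneg h0 n
  rw [ext_advantage_eq]
  constructor
  · exact tsum_nonneg fun t => mul_nonneg (hp t) (extInner_nonneg hP n t)
  have hE : (extE ν n).toReal = ∑' t : Tree n, treeProb ν n t * (if Dead n t then 1 else 0) := by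
    unfold extE
    rw [ENNReal.tsum_toReal_eq]
    · refine tsum_congr fun t => ?_
      rw [ENNReal.toReal_mul, extW, ENNReal.toReal_ofReal (hp t)]
      split_ifs <;> simp
    · intro t
      split_ifs <;> simp [extW]
  have hs1 : Summable fun t : Tree n => treeProb ν n t * (if Dead n t then (1 : ℝ) else 0) := by
    refine Summable.of_nonneg_of_le (fun t => mul_nonneg (hp t) (by split_ifs <;> norm_num))
      (fun t => ?_) hs.summable
    exact mul_le_of_le_one_right (hp t) (by split_ifs <;> norm_num)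
  have hs2 : Summable fun t : Tree n => treeProb ν n t * extInner q lam n t :=
    Summable.of_nonneg_of_le (fun t => mul_nonneg (hp t) (extInner_nonneg hP n t))
      (fun t => mul_le_of_le_one_right (hp t) (extInner_le_one hq hP n t)) hs.summable
  have key : (1 : ℝ) - ∑' t : Tree n, treeProb ν n t * (if Dead n t then (1 : ℝ) else 0) =
      ∑' t : Tree n, (treeProb ν n t - treeProb ν n t * (if Dead n t then (1 : ℝ) else 0)) :=
    (hs.sub hs1.hasSum).tsum_eq.symm
  rw [hE, key]
  refine hs2.tsum_le_tsum (fun t => ?_) (hs.summable.sub hs1)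
  by_cases h : Dead n t
  · rw [extInner_dead hq lam n t h, if_pos h]
    simp
  · rw [if_neg h]
    simp only [mul_zero, sub_zero]
    exact mul_le_of_le_one_right (hp t) (extInner_le_one hq hP n t)

/-! ### extinction -/

theorem extE_le_one {ν : ℕ → ℝ} (h0 : ∀ k, 0 ≤ ν k) (h1 : HasSum ν 1) (n : ℕ) : extE ν n ≤ 1 := by
  classical
  have hE : ∑' k, ENNReal.ofReal (ν k) = 1 := by
    rw [← ENNReal.ofReal_tsum_of_nonneg h0 h1.summable, h1.tsum_eq, ENNReal.ofReal_one]
  rw [← ext_mass h0 hE n, extE]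
  refine ENNReal.tsum_le_tsum fun t => ?_
  split_ifs <;> simp

/-- the real extinction probability -/
noncomputable def extR (ν : ℕ → ℝ) (n : ℕ) : ℝ := (extE ν n).toReal

theorem extR_zero (ν : ℕ → ℝ) : extR ν 0 = 0 := by simp [extR, extE_zero]

theorem extR_nonneg (ν : ℕ → ℝ) (n : ℕ) : 0 ≤ extR ν n := ENNReal.toReal_nonneg

theorem extR_le_one {ν : ℕ → ℝ} (h0 : ∀ k, 0 ≤ ν k) (h1 : HasSum ν 1) (n : ℕ) : extR ν n ≤ 1 := by
  have := ENNReal.toReal_mono ENNReal.one_ne_top (extE_le_one h0 h1 n)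
  simpa only [extR, ge_iff_le, ENNReal.toReal_one] using this

theorem extR_succ {ν : ℕ → ℝ} (h0 : ∀ k, 0 ≤ ν k) (h1 : HasSum ν 1) (n : ℕ) :
    extR ν (n + 1) = ∑' k : ℕ, ν k * extR ν n ^ k := by
  unfold extR
  rw [extE_succ h0, ENNReal.tsum_toReal_eq]
  · refine tsum_congr fun k => ?_
    rw [ENNReal.toReal_mul, ENNReal.toReal_ofReal (h0 k), ENNReal.toReal_pow]
  · intro k
    refine ENNReal.mul_ne_top ENNReal.ofReal_ne_top (ENNReal.pow_ne_top ?_)
    exact ne_top_of_le_ne_top ENNReal.one_ne_top (extE_le_one h0 h1 n)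

theorem ext_gf_summable {ν : ℕ → ℝ} (h0 : ∀ k, 0 ≤ ν k) (h1 : HasSum ν 1) {s : ℝ} (hs : 0 ≤ s)
    (hs1 : s ≤ 1) : Summable fun k => ν k * s ^ k :=
  Summable.of_nonneg_of_le (fun k => mul_nonneg (h0 k) (pow_nonneg hs k))
    (fun k => mul_le_of_le_one_right (h0 k) (pow_le_one₀ hs hs1)) h1.summable

theorem extR_mono {ν : ℕ → ℝ} (h0 : ∀ k, 0 ≤ ν k) (h1 : HasSum ν 1) : Monotone (extR ν) := by
  refine monotone_nat_of_le_succ fun n => ?_
  induction n with
  | zero => rw [extR_zero]; exact extR_nonneg ν 1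
  | succ n ih =>
    rw [extR_succ h0 h1 n, extR_succ h0 h1 (n + 1)]
    refine (ext_gf_summable h0 h1 (extR_nonneg ν n) (extR_le_one h0 h1 n)).tsum_le_tsum
      (fun k => ?_) (ext_gf_summable h0 h1 (extR_nonneg ν _) (extR_le_one h0 h1 _))
    exact mul_le_mul_of_nonneg_left (pow_le_pow_left₀ (extR_nonneg ν n) ih k) (h0 k)

theorem ext_gf_tendsto {ν : ℕ → ℝ} (h0 : ∀ k, 0 ≤ ν k) (h1 : HasSum ν 1) {e : ℝ}
    (he : Tendsto (extR ν) atTop (𝓝 e)) : ∑' k : ℕ, ν k * e ^ k = e := by
  have h2 : Tendsto (fun n => ∑' k : ℕ, ν k * extR ν n ^ k) atTop (𝓝 (∑' k : ℕ, ν k * e ^ k)) := by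
    refine tendsto_tsum_of_dominated_convergence h1.summable
      (fun k => (he.pow k).const_mul (ν k)) (Eventually.of_forall fun n k => ?_)
    rw [Real.norm_eq_abs, abs_of_nonneg (mul_nonneg (h0 k) (pow_nonneg (extR_nonneg ν n) k))]
    exact mul_le_of_le_one_right (h0 k) (pow_le_one₀ (extR_nonneg ν n) (extR_le_one h0 h1 n))
  simp_rw [← extR_succ h0 h1] at h2
  exact tendsto_nhds_unique h2 (he.comp (tendsto_add_atTop_nat 1))

/-- strict inequality for the generating function of a (sub)critical law -/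
theorem ext_gf_gt {ν : ℕ → ℝ} (h0 : ∀ k, 0 ≤ ν k) (h1 : HasSum ν 1) {m : ℝ}
    (hm : HasSum (fun k : ℕ => (k : ℝ) * ν k) m) (hm1 : m ≤ 1) (hν : ν 1 ≠ 1) {s : ℝ} (hs : 0 ≤ s)
    (hs1 : s < 1) : s < ∑' k : ℕ, ν k * s ^ k := by
  -- the tangent line at `1`
  have hlin : HasSum (fun k : ℕ => ν k - (1 - s) * (k * ν k)) (1 - (1 - s) * m) :=
    h1.sub (hm.mul_left (1 - s))
  have hle : ∀ k : ℕ, ν k - (1 - s) * (k * ν k) ≤ ν k * s ^ k := by
    intro k
    have hB := one_add_mul_le_pow (a := s - 1) (by linarith) k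
    have : 1 - (1 - s) * k ≤ s ^ k := by
      calc 1 - (1 - s) * k = 1 + k * (s - 1) := by ring
        _ ≤ (1 + (s - 1)) ^ k := hB
        _ = s ^ k := by ring_nf
    calc ν k - (1 - s) * (k * ν k) = ν k * (1 - (1 - s) * k) := by ring
      _ ≤ ν k * s ^ k := mul_le_mul_of_nonneg_left this (h0 k)
  have hsum := ext_gf_summable h0 h1 hs hs1.le
  by_cases hk : ∃ k, 2 ≤ k ∧ ν k ≠ 0
  · obtain ⟨k, hk2, hk⟩ := hk
    have hlt : ν k - (1 - s) * (k * ν k) < ν k * s ^ k := by
      have hνk : 0 < ν k := lt_of_le_of_ne (h0 k) (Ne.symm hk)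
      have hB := one_add_mul_self_lt_rpow_one_add (s := s - 1) (by linarith only [hs]) (by linarith)
        (p := (k : ℝ)) (by exact_mod_cast (by omega : 1 < k))
      have : 1 - (1 - s) * k < s ^ k := by
        rw [Real.rpow_natCast] at hB
        calc 1 - (1 - s) * k = 1 + k * (s - 1) := by ring
          _ < (1 + (s - 1)) ^ k := hB
          _ = s ^ k := by ring_nf
      calc ν k - (1 - s) * (k * ν k) = ν k * (1 - (1 - s) * k) := by ring
        _ < ν k * s ^ k := mul_lt_mul_of_pos_left this hνk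
    have := Summable.tsum_lt_tsum (f := fun k : ℕ => ν k - (1 - s) * (k * ν k)) hle hlt
      hlin.summable hsum
    rw [hlin.tsum_eq] at this
    nlinarith only [hm1, hs1, this]
  · push Not at hk
    have hν1 : ν 1 ≤ 1 := by
      have := h1.summable.sum_le_tsum {1} (fun i _ => h0 i)
      rw [h1.tsum_eq] at this
      simpa using this
    have hm' : m = ν 1 := by
      have h3 : HasSum (fun k : ℕ => (k : ℝ) * ν k) (((1 : ℕ) : ℝ) * ν 1) := by
        refine hasSum_single 1 fun k hk1 => ?_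
        rcases Nat.lt_or_ge k 2 with h | h
        · have : k = 0 := by omega
          simp [this]
        · simp [hk k h]
      simpa only [Nat.cast_one, one_mul] using hm.unique h3
    have := hlin.summable.tsum_le_tsum hle hsum
    rw [hlin.tsum_eq] at this
    have h4 : m < 1 := by rw [hm']; exact lt_of_le_of_ne hν1 hν
    nlinarith only [hs1, this, h4]

theorem extR_tendsto {ν : ℕ → ℝ} (h0 : ∀ k, 0 ≤ ν k) (h1 : HasSum ν 1) {m : ℝ}
    (hm : HasSum (fun k : ℕ => (k : ℝ) * ν k) m) (hm1 : m ≤ 1) (hν : ν 1 ≠ 1) :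
    Tendsto (extR ν) atTop (𝓝 1) := by
  have hb : BddAbove (Set.range (extR ν)) := ⟨1, by
    rintro _ ⟨n, rfl⟩
    exact extR_le_one h0 h1 n⟩
  have ht := tendsto_atTop_ciSup (extR_mono h0 h1) hb
  set e := ⨆ n, extR ν n
  have he0 : 0 ≤ e := ge_of_tendsto' ht (extR_nonneg ν)
  have he1 : e ≤ 1 := le_of_tendsto' ht (extR_le_one h0 h1)
  have hfix := ext_gf_tendsto h0 h1 ht
  rcases he1.lt_or_eq with h | h
  · exact absurd hfix (ne_of_gt (ext_gf_gt h0 h1 hm hm1 hν he0 h))
  · rw [← h]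
    exact ht

/-- If the mean offspring number is at most one (and the offspring number is not identically
one) then there is nonreconstruction, for every channel. -/
theorem nonreconstruction_of_mean_le_one {ν : ℕ → ℝ} (h0 : ∀ k, 0 ≤ ν k) (h1 : HasSum ν 1) {m : ℝ}
    (hm : HasSum (fun k : ℕ => (k : ℝ) * ν k) m) (hm1 : m ≤ 1) (hν : ν 1 ≠ 1) {q : ℕ} (hq : 0 < q)
    {lam : ℝ} (hP : ∀ i j, 0 ≤ potts q lam i j) : Nonreconstruction ν q lam := by
  have h2 : Tendsto (fun n => 1 - (extE ν n).toReal) atTop (𝓝 0) := by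
    have := (extR_tendsto h0 h1 hm hm1 hν).const_sub 1
    rw [sub_self] at this
    exact this
  exact squeeze_zero (fun n => (ext_advantage_le h0 h1 hq hP n).1)
    (fun n => (ext_advantage_le h0 h1 hq hP n).2) h2

/-! ### Poisson law -/

theorem poissonOffspring_nonneg {d : ℝ} (hd : 0 ≤ d) (k : ℕ) : 0 ≤ poissonOffspring d k := by
  unfold poissonOffspring
  positivity

theorem poissonOffspring_hasSum (d : ℝ) : HasSum (poissonOffspring d) 1 := by
  have h := (NormedSpace.expSeries_div_hasSum_exp (𝔸 := ℝ) d).mul_left (Real.exp (-d))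
  rw [← Real.exp_eq_exp_ℝ, ← Real.exp_add, neg_add_cancel, Real.exp_zero] at h
  have heq : poissonOffspring d = fun k : ℕ => Real.exp (-d) * (d ^ k / (k.factorial : ℝ)) := by
    funext k
    simp [poissonOffspring, mul_div_assoc]
  rw [heq]
  exact h

theorem poissonOffspring_mean (d : ℝ) :
    HasSum (fun k : ℕ => (k : ℝ) * poissonOffspring d k) d := by
  have h := (poissonOffspring_hasSum d).mul_left d
  rw [mul_one] at h
  rw [← hasSum_nat_add_iff' 1]
  simp only [Finset.sum_range_one, Nat.cast_zero, zero_mul, sub_zero]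
  have heq : (fun k : ℕ => ((k + 1 : ℕ) : ℝ) * poissonOffspring d (k + 1)) =
      fun k : ℕ => d * poissonOffspring d k := by
    funext k
    unfold poissonOffspring
    rw [Nat.factorial_succ]
    have : ((k : ℝ) + 1) ≠ 0 := by positivity
    have h2 : (k.factorial : ℝ) ≠ 0 := by positivity
    push_cast
    field_simp
    ring
  rw [heq]
  exact h

theorem poissonOffspring_one_ne (d : ℝ) : poissonOffspring d 1 ≠ 1 := by
  intro h
  unfold poissonOffspring at h
  simp only [pow_one, Nat.factorial_one, Nat.cast_one, div_one] at h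
  have h2 : d = Real.exp d := by
    have := congr_arg (fun x => Real.exp d * x) h
    simp only [← mul_assoc, ← Real.exp_add, add_neg_cancel, Real.exp_zero, one_mul, mul_one] at this
    exact this
  have h3 := Real.add_one_le_exp d
  linarith

/-- Poisson offspring with mean `d ≤ 1`: nonreconstruction for every channel. -/
theorem nonreconstruction_poisson_of_le_one {d : ℝ} (hd : 0 ≤ d) (hd1 : d ≤ 1) {q : ℕ} (hq : 0 < q)
    {lam : ℝ} (hP : ∀ i j, 0 ≤ potts q lam i j) :
    Nonreconstruction (poissonOffspring d) q lam :=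
  nonreconstruction_of_mean_le_one (poissonOffspring_nonneg hd) (poissonOffspring_hasSum d)
    (poissonOffspring_mean d) hd1 (poissonOffspring_one_ne d) hq hP

end Vale.Agent.P154
end
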