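import Mathlib
import Vale.Agent.P154.Bdl.B5
import Vale.Agent.P154.Defs
import Vale.Agent.P154.Bdl.B1
import Vale.Agent.P154.Bdl.B2

set_option linter.all false

section

/-!
# Sums over Galton-Watson trees and over leaf spins: a small toolkit
-/

namespace Vale.Agent.P154.KS

open scoped ENNReal

/-! ### Infinite sums over tuples -/

lemma ennreal_tsum_pi_prod {α : Type*} : ∀ (k : ℕ) (g : Fin k → α → ℝ≥0∞),
    ∑' t : Fin k → α, ∏ c, g c (t c) = ∏ c, ∑' a, g c a
  | 0, g => by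
    rw [tsum_eq_single (default : Fin 0 → α)]
    · simp
    · intro b hb
      exact absurd (Subsingleton.elim _ _) hb
  | k + 1, g => by
    rw [← (Fin.consEquiv (fun _ : Fin (k + 1) => α)).tsum_eq, ENNReal.tsum_prod',
      Fin.prod_univ_succ, ← ennreal_tsum_pi_prod k (fun c => g c.succ), ← ENNReal.tsum_mul_right]
    refine tsum_congr fun a => ?_
    rw [← ENNReal.tsum_mul_left]
    refine tsum_congr fun t => ?_
    simp [Fin.prod_univ_succ, Fin.consEquiv]

/-- One marked coordinate. -/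
lemma ennreal_tsum_pi_prod_mul {α : Type*} {k : ℕ} (P f : α → ℝ≥0∞) (hP : ∑' a, P a = 1)
    (c₀ : Fin k) :
    ∑' t : Fin k → α, (∏ c, P (t c)) * f (t c₀) = ∑' a, P a * f a := by
  classical
  have h1 : ∀ t : Fin k → α, (∏ c, P (t c)) * f (t c₀)
      = ∏ c, (fun (c : Fin k) (a : α) => P a * (if c = c₀ then f a else 1)) c (t c) := by
    intro t
    rw [Finset.prod_mul_distrib]
    congr 1
    rw [Finset.prod_ite_eq' Finset.univ c₀ (fun c => f (t c))]
    simp
  rw [tsum_congr h1, ennreal_tsum_pi_prod k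
    (fun (c : Fin k) (a : α) => P a * (if c = c₀ then f a else 1))]
  rw [Finset.prod_eq_single c₀]
  · simp
  · intro c _ hc
    simp [hc, hP]
  · simp

/-- Two distinct marked coordinates. -/
lemma ennreal_tsum_pi_prod_mul_mul {α : Type*} {k : ℕ} (P f g : α → ℝ≥0∞)
    (hP : ∑' a, P a = 1) {c₀ c₁ : Fin k} (hc : c₀ ≠ c₁) :
    ∑' t : Fin k → α, (∏ c, P (t c)) * (f (t c₀) * g (t c₁))
      = (∑' a, P a * f a) * (∑' a, P a * g a) := by
  classical
  have h1 : ∀ t : Fin k → α, (∏ c, P (t c)) * (f (t c₀) * g (t c₁))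
      = ∏ c, (fun (c : Fin k) (a : α) =>
        P a * ((if c = c₀ then f a else 1) * (if c = c₁ then g a else 1))) c (t c) := by
    intro t
    rw [Finset.prod_mul_distrib, Finset.prod_mul_distrib]
    congr 2
    · rw [Finset.prod_ite_eq' Finset.univ c₀ (fun c => f (t c))]
      simp
    · rw [Finset.prod_ite_eq' Finset.univ c₁ (fun c => g (t c))]
      simp
  rw [tsum_congr h1, ennreal_tsum_pi_prod k (fun (c : Fin k) (a : α) =>
        P a * ((if c = c₀ then f a else 1) * (if c = c₁ then g a else 1)))]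
  have h2 : ∀ c : Fin k,
      ∑' a, P a * ((if c = c₀ then f a else 1) * (if c = c₁ then g a else 1))
        = (if c = c₀ then ∑' a, P a * f a else 1) * (if c = c₁ then ∑' a, P a * g a else 1) := by
    intro c
    by_cases h0 : c = c₀
    · have : c ≠ c₁ := by rw [h0]; exact hc
      simp [h0, hc]
    · by_cases h1 : c = c₁
      · simp [h1, Ne.symm hc]
      · simp [h0, h1, hP]
  simp_rw [h2]
  rw [Finset.prod_mul_distrib, Finset.prod_ite_eq', Finset.prod_ite_eq']
  simp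

/-! ### Finite sums over dependent tuples -/

lemma sum_pi_prod {k : ℕ} {X : Fin k → Type*} [∀ c, Fintype (X c)] (L : ∀ c, X c → ℝ) :
    ∑ η : (∀ c, X c), ∏ c, L c (η c) = ∏ c, ∑ x, L c x := by
  classical
  rw [Finset.prod_univ_sum, Fintype.piFinset_univ]

lemma sum_pi_prod_mul {k : ℕ} {X : Fin k → Type*} [∀ c, Fintype (X c)] (L g : ∀ c, X c → ℝ)
    (hL : ∀ c, ∑ x, L c x = 1) (c₀ : Fin k) :
    ∑ η : (∀ c, X c), (∏ c, L c (η c)) * g c₀ (η c₀) = ∑ x, L c₀ x * g c₀ x := by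
  classical
  have h1 : ∀ η : (∀ c, X c), (∏ c, L c (η c)) * g c₀ (η c₀)
      = ∏ c, (fun (c : Fin k) (x : X c) => L c x * (if c = c₀ then g c x else 1)) c (η c) := by
    intro η
    rw [Finset.prod_mul_distrib]
    congr 1
    rw [Finset.prod_ite_eq' Finset.univ c₀ (fun c => g c (η c))]
    simp
  rw [Finset.sum_congr rfl (fun η _ => h1 η), sum_pi_prod
    (fun (c : Fin k) (x : X c) => L c x * (if c = c₀ then g c x else 1))]
  rw [Finset.prod_eq_single c₀]
  · simp
  · intro c _ hc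
    simp [hc, hL]
  · simp

lemma sum_pi_prod_mul_mul {k : ℕ} {X : Fin k → Type*} [∀ c, Fintype (X c)]
    (L f g : ∀ c, X c → ℝ) (hL : ∀ c, ∑ x, L c x = 1) {c₀ c₁ : Fin k} (hc : c₀ ≠ c₁) :
    ∑ η : (∀ c, X c), (∏ c, L c (η c)) * (f c₀ (η c₀) * g c₁ (η c₁))
      = (∑ x, L c₀ x * f c₀ x) * (∑ x, L c₁ x * g c₁ x) := by
  classical
  have h1 : ∀ η : (∀ c, X c), (∏ c, L c (η c)) * (f c₀ (η c₀) * g c₁ (η c₁))
      = ∏ c, (fun (c : Fin k) (x : X c) =>
        L c x * ((if c = c₀ then f c x else 1) * (if c = c₁ then g c x else 1))) c (η c) := by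
    intro η
    rw [Finset.prod_mul_distrib, Finset.prod_mul_distrib]
    congr 2
    · rw [Finset.prod_ite_eq' Finset.univ c₀ (fun c => f c (η c))]
      simp
    · rw [Finset.prod_ite_eq' Finset.univ c₁ (fun c => g c (η c))]
      simp
  rw [Finset.sum_congr rfl (fun η _ => h1 η), sum_pi_prod (fun (c : Fin k) (x : X c) =>
        L c x * ((if c = c₀ then f c x else 1) * (if c = c₁ then g c x else 1)))]
  have h2 : ∀ c : Fin k,
      ∑ x, L c x * ((if c = c₀ then f c x else 1) * (if c = c₁ then g c x else 1))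
        = (if c = c₀ then ∑ x, L c x * f c x else 1) * (if c = c₁ then ∑ x, L c x * g c x else 1) := by
    intro c
    by_cases h0 : c = c₀
    · subst h0
      simp [hc]
    · by_cases h1 : c = c₁
      · subst h1
        simp [Ne.symm hc]
      · simp [h0, h1, hL]
  simp_rw [h2]
  rw [Finset.prod_mul_distrib, Finset.prod_ite_eq', Finset.prod_ite_eq']
  simp

/-! ### The Galton-Watson measure -/

lemma tsum_ofReal_of_hasSum {ν : ℕ → ℝ} {m : ℝ} (hν : ∀ k, 0 ≤ ν k) (h : HasSum ν m) :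
    ∑' k, ENNReal.ofReal (ν k) = ENNReal.ofReal m := by
  rw [← ENNReal.ofReal_tsum_of_nonneg hν h.summable, h.tsum_eq]

/-- Expectation of an additive functional of the subtrees. -/
lemma expT_succ_sum {ν : ℕ → ℝ} (hν : ∀ k, 0 ≤ ν k) (h1 : ∑' k, ENNReal.ofReal (ν k) = 1) (n : ℕ)
    (f : Tree n → ℝ≥0∞) (g : Tree (n + 1) → ℝ≥0∞)
    (hg : ∀ k (t : Fin k → Tree n), g ⟨k, t⟩ = ∑ c, f (t c)) :
    expT ν (n + 1) g = (∑' k : ℕ, ENNReal.ofReal (ν k) * k) * expT ν n f := by
  have hP : ∑' t : Tree n, ENNReal.ofReal (treeProb ν n t) = 1 := by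
    have := expT_one hν h1 n
    simpa [expT] using this
  rw [expT_succ hν, ← ENNReal.tsum_mul_right]
  refine tsum_congr fun k => ?_
  rw [mul_assoc]
  congr 1
  simp_rw [hg, Finset.mul_sum]
  rw [Summable.tsum_finsetSum (fun _ _ => ENNReal.summable)]
  simp_rw [ennreal_tsum_pi_prod_mul (fun t => ENNReal.ofReal (treeProb ν n t)) f hP]
  simp [expT]

/-- Expectation of an additive functional of ordered pairs of subtrees. -/
lemma expT_succ_pairs {ν : ℕ → ℝ} (hν : ∀ k, 0 ≤ ν k) (h1 : ∑' k, ENNReal.ofReal (ν k) = 1)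
    (n : ℕ) (f : Tree n → ℝ≥0∞) (g : Tree (n + 1) → ℝ≥0∞)
    (hg : ∀ k (t : Fin k → Tree n), g ⟨k, t⟩ =
      ∑ p ∈ (Finset.univ : Finset (Fin k)).offDiag, f (t p.1) * f (t p.2)) :
    expT ν (n + 1) g = (∑' k : ℕ, ENNReal.ofReal (ν k) * ((k * (k - 1) : ℕ) : ℝ≥0∞)) *
        (expT ν n f) ^ 2 := by
  have hP : ∑' t : Tree n, ENNReal.ofReal (treeProb ν n t) = 1 := by
    have := expT_one hν h1 n
    simpa [expT] using this
  rw [expT_succ hν, ← ENNReal.tsum_mul_right]
  refine tsum_congr fun k => ?_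
  rw [mul_assoc]
  congr 1
  simp_rw [hg, Finset.mul_sum]
  rw [Summable.tsum_finsetSum (fun _ _ => ENNReal.summable)]
  have h2 : ∀ p ∈ (Finset.univ : Finset (Fin k)).offDiag,
      ∑' t : Fin k → Tree n, (∏ c, ENNReal.ofReal (treeProb ν n (t c))) * (f (t p.1) * f (t p.2))
        = (expT ν n f) ^ 2 := by
    intro p hp
    rw [Finset.mem_offDiag] at hp
    rw [ennreal_tsum_pi_prod_mul_mul (fun t => ENNReal.ofReal (treeProb ν n t)) f f hP hp.2.2, sq]
    rfl
  rw [Finset.sum_congr rfl h2, Finset.sum_const, Finset.offDiag_card]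
  simp [Nat.mul_sub]

end Vale.Agent.P154.KS
end

section

/-!
# The Kesten-Stigum lower bound

If `m * lam ^ 2 > 1` then the quantity `a_n` stays bounded away from zero.
-/

namespace Vale.Agent.P154.KS

open scoped ENNReal

/-! ### The channel -/

lemma potts_row_sum {q : ℕ} (hq : 2 ≤ q) (lam : ℝ) (i : Fin q) : ∑ j, potts q lam i j = 1 := by
  have hq' : (2 : ℝ) ≤ q := by exact_mod_cast hq
  have hq0 : (q : ℝ) ≠ 0 := by linarith only [hq']
  simp only [potts]
  rw [Finset.sum_add_distrib]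
  simp only [Finset.sum_ite_eq, Finset.mem_univ, ↓reduceIte, Finset.sum_const, Finset.card_univ,
    Fintype.card_fin, nsmul_eq_mul]
  field_simp
  ring

lemma potts_mulVec {q : ℕ} (lam : ℝ) {v : Fin q → ℝ} (hv : ∑ i, v i = 0) (i : Fin q) :
    ∑ j, potts q lam i j * v j = lam * v i := by
  simp only [potts, add_mul]
  rw [Finset.sum_add_distrib, ← Finset.mul_sum, hv]
  simp only [ite_mul, zero_mul, Finset.sum_ite_eq, Finset.mem_univ, ↓reduceIte, mul_zero, add_zero]

lemma potts_col_avg {q : ℕ} (hq : 2 ≤ q) (lam : ℝ) (j : Fin q) :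
    ∑ i : Fin q, (1 / q : ℝ) * potts q lam i j = 1 / q := by
  have hq' : (2 : ℝ) ≤ q := by exact_mod_cast hq
  have hq0 : (q : ℝ) ≠ 0 := by linarith only [hq']
  rw [← Finset.mul_sum]
  simp only [potts]
  rw [Finset.sum_add_distrib]
  simp only [one_div, Finset.sum_ite_eq', Finset.mem_univ, ↓reduceIte, Finset.sum_const,
    Finset.card_univ, Fintype.card_fin, nsmul_eq_mul]
  field_simp
  ring

lemma potts_nonneg {q : ℕ} (hq : 2 ≤ q) {lam : ℝ} (hl : -1 / ((q : ℝ) - 1) ≤ lam) (hl1 : lam ≤ 1)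
    (i j : Fin q) : 0 ≤ potts q lam i j := by
  have hq' : (2 : ℝ) ≤ q := by exact_mod_cast hq
  have hq0 : (0 : ℝ) < q := by linarith only [hq']
  have hq1 : (0 : ℝ) < (q : ℝ) - 1 := by linarith only [hq']
  unfold potts
  have h1 : 0 ≤ (1 - lam) / q := div_nonneg (by linarith only [hl1]) hq0.le
  split_ifs with h
  · rw [div_le_iff₀ hq1] at hl
    have : lam + (1 - lam) / q = (lam * (q - 1) + 1) / q := by
      field_simp
      ring
    rw [this]
    apply div_nonneg _ hq0.le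
    linarith only [hl]
  · simpa only [zero_add, ge_iff_le] using h1

/-! ### First moments -/

/-- The tree whose root has the children `t c`. -/
def node {n k : ℕ} (t : Fin k → Tree n) : Tree (n + 1) := ⟨k, t⟩

lemma exists_node {n : ℕ} (t : Tree (n + 1)) :
    ∃ (k : ℕ) (s : Fin k → Tree n), t = node s := ⟨t.1, t.2, rfl⟩

/-- Spins on the leaves of a tree from spins on the leaves of its subtrees. -/
def snode {q n k : ℕ} {t : Fin k → Tree n} (η : (c : Fin k) → Spins q n (t c)) :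
    Spins q (n + 1) (node t) := η

/-- Spins on the single vertex. -/
def sleaf {q : ℕ} {t : Tree 0} (j : Fin q) : Spins q 0 t := j

lemma sum_spins_zero {q : ℕ} (t : Tree 0) (F : Spins q 0 t → ℝ) :
    ∑ η : Spins q 0 t, F η = ∑ j : Fin q, F (sleaf j) := rfl

lemma sum_spins_succ {q n k : ℕ} (t : Fin k → Tree n) (F : Spins q (n + 1) (node t) → ℝ) :
    ∑ η : Spins q (n + 1) (node t), F η
      = ∑ η : ((c : Fin k) → Spins q n (t c)), F (snode η) := rfl

/-- Likelihood seen through the edge from a parent with spin `i`. -/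
noncomputable def elik (q : ℕ) (lam : ℝ) (n : ℕ) (t : Tree n) (i : Fin q) (η : Spins q n t) : ℝ :=
  ∑ j : Fin q, potts q lam i j * lik q lam n t j η

lemma lik_succ {q : ℕ} {lam : ℝ} {n k : ℕ} (t : Fin k → Tree n) (i : Fin q)
    (η : (c : Fin k) → Spins q n (t c)) :
    lik q lam (n + 1) (node t) i (snode η) = ∏ c, elik q lam n (t c) i (η c) := rfl

lemma lik_zero {q : ℕ} {lam : ℝ} (t : Tree 0) (i j : Fin q) :
    lik q lam 0 t i (sleaf j) = if i = j then 1 else 0 := rfl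

lemma lik_nonneg {q : ℕ} (hq : 2 ≤ q) {lam : ℝ} (hl : -1 / ((q : ℝ) - 1) ≤ lam) (hl1 : lam ≤ 1)
    (n : ℕ) : ∀ (t : Tree n) (i : Fin q) (η : Spins q n t), 0 ≤ lik q lam n t i η := by
  induction n with
  | zero =>
    intro t i η
    have : lik q lam 0 t i η = if i = (show Fin q from η) then 1 else 0 := rfl
    rw [this]
    split_ifs <;> norm_num
  | succ n ih =>
    intro t i η
    obtain ⟨k, s, rfl⟩ := exists_node t
    have : lik q lam (n + 1) (node s) i η = ∏ c, elik q lam n (s c) i (η c) := rfl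
    rw [this]
    refine Finset.prod_nonneg fun c _ => Finset.sum_nonneg fun j _ => ?_
    exact mul_nonneg (potts_nonneg hq hl hl1 i j) (ih (s c) j (η c))

lemma lik_sum {q : ℕ} (hq : 2 ≤ q) (lam : ℝ) (n : ℕ) : ∀ (t : Tree n) (i : Fin q),
    ∑ η : Spins q n t, lik q lam n t i η = 1 := by
  induction n with
  | zero =>
    intro t i
    rw [sum_spins_zero]
    simp only [lik_zero, Finset.sum_ite_eq, Finset.mem_univ, ↓reduceIte]
  | succ n ih =>
    intro t i
    obtain ⟨k, s, rfl⟩ := exists_node t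
    rw [sum_spins_succ]
    have h : ∀ c, ∑ x : Spins q n (s c), elik q lam n (s c) i x = 1 := by
      intro c
      simp only [elik]
      rw [Finset.sum_comm]
      simp_rw [← Finset.mul_sum, ih (s c), mul_one]
      exact potts_row_sum hq lam i
    have := sum_pi_prod (fun c x => elik q lam n (s c) i x)
    simp only [h, Finset.prod_const_one] at this
    simp_rw [lik_succ]
    exact this

lemma elik_sum {q : ℕ} (hq : 2 ≤ q) (lam : ℝ) (n : ℕ) (t : Tree n) (i : Fin q) :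
    ∑ η : Spins q n t, elik q lam n t i η = 1 := by
  simp only [elik]
  rw [Finset.sum_comm]
  simp_rw [← Finset.mul_sum, lik_sum hq lam n t, mul_one]
  exact potts_row_sum hq lam i

/-- Number of vertices at distance `n` from the root. -/
def leaves : (n : ℕ) → Tree n → ℕ
  | 0, _ => 1
  | n + 1, ⟨_, t⟩ => ∑ c, leaves n (t c)

lemma leaves_zero (t : Tree 0) : leaves 0 t = 1 := rfl

lemma leaves_succ {n k : ℕ} (t : Fin k → Tree n) :
    leaves (n + 1) (node t) = ∑ c, leaves n (t c) := rfl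

/-- Sum of the values `v` of the spins at distance `n`. -/
noncomputable def leafSum {q : ℕ} (v : Fin q → ℝ) : (n : ℕ) → (t : Tree n) → Spins q n t → ℝ
  | 0, _, η => v (show Fin q from η)
  | n + 1, ⟨_, t⟩, η => ∑ c, leafSum v n (t c) (η c)

lemma leafSum_zero {q : ℕ} (v : Fin q → ℝ) (t : Tree 0) (j : Fin q) :
    leafSum v 0 t (sleaf j) = v j := rfl

lemma leafSum_succ {q : ℕ} (v : Fin q → ℝ) {n k : ℕ} (t : Fin k → Tree n)
    (η : (c : Fin k) → Spins q n (t c)) :
    leafSum v (n + 1) (node t) (snode η) = ∑ c, leafSum v n (t c) (η c) := rfl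

lemma elik_leafSum_aux {q : ℕ} (lam : ℝ) {v : Fin q → ℝ} (hv : ∑ i, v i = 0)
    {n : ℕ} {t : Tree n}
    (ih : ∀ i : Fin q, ∑ η : Spins q n t, lik q lam n t i η * leafSum v n t η
      = lam ^ n * leaves n t * v i) (i : Fin q) :
    ∑ x : Spins q n t, elik q lam n t i x * leafSum v n t x
      = lam ^ (n + 1) * leaves n t * v i := by
  simp only [elik, Finset.sum_mul]
  rw [Finset.sum_comm]
  simp_rw [mul_assoc, ← Finset.mul_sum, ih]
  have : ∀ j, potts q lam i j * (lam ^ n * leaves n t * v j)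
      = (lam ^ n * leaves n t) * (potts q lam i j * v j) := fun j => by ring
  simp_rw [this, ← Finset.mul_sum, potts_mulVec lam hv]
  ring

lemma lik_leafSum {q : ℕ} (hq : 2 ≤ q) (lam : ℝ) {v : Fin q → ℝ} (hv : ∑ i, v i = 0) (n : ℕ) :
    ∀ (t : Tree n) (i : Fin q),
    ∑ η : Spins q n t, lik q lam n t i η * leafSum v n t η = lam ^ n * leaves n t * v i := by
  induction n with
  | zero =>
    intro t i
    rw [sum_spins_zero]
    simp only [lik_zero, leafSum_zero, ite_mul, one_mul, zero_mul, Finset.sum_ite_eq,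
      Finset.mem_univ, ↓reduceIte, pow_zero, leaves_zero, Nat.cast_one, mul_one]
  | succ n ih =>
    intro t i
    obtain ⟨k, s, rfl⟩ := exists_node t
    rw [sum_spins_succ]
    calc ∑ η : ((c : Fin k) → Spins q n (s c)),
          lik q lam (n + 1) (node s) i (snode η) *
            leafSum v (n + 1) (node s) (snode η)
        = ∑ η : ((c : Fin k) → Spins q n (s c)), ∑ c₀,
          (∏ c, elik q lam n (s c) i (η c)) * leafSum v n (s c₀) (η c₀) := by
          refine Finset.sum_congr rfl fun η _ => ?_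
          rw [lik_succ, leafSum_succ, ← Finset.mul_sum]
      _ = ∑ c₀, ∑ x : Spins q n (s c₀), elik q lam n (s c₀) i x * leafSum v n (s c₀) x := by
          rw [Finset.sum_comm]
          refine Finset.sum_congr rfl fun c₀ _ => ?_
          exact sum_pi_prod_mul (fun c x => elik q lam n (s c) i x)
            (fun c x => leafSum v n (s c) x) (fun c => elik_sum hq lam n (s c) i) c₀
      _ = lam ^ (n + 1) * leaves (n + 1) (node s) * v i := by
          simp_rw [fun c => elik_leafSum_aux lam hv (ih (s c)) i]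
          rw [leaves_succ]
          push_cast
          rw [← Finset.sum_mul, ← Finset.mul_sum]

lemma elik_leafSum {q : ℕ} (hq : 2 ≤ q) (lam : ℝ) {v : Fin q → ℝ} (hv : ∑ i, v i = 0)
    (n : ℕ) (t : Tree n) (i : Fin q) :
    ∑ x : Spins q n t, elik q lam n t i x * leafSum v n t x
      = lam ^ (n + 1) * leaves n t * v i :=
  elik_leafSum_aux lam hv (lik_leafSum hq lam hv n t) i

/-! ### Second moments -/

lemma sq_sum_eq {k : ℕ} (a : Fin k → ℝ) : (∑ c, a c) ^ 2
    = ∑ c, a c ^ 2 + ∑ p ∈ (Finset.univ : Finset (Fin k)).offDiag, a p.1 * a p.2 := by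
  classical
  rw [sq, Finset.sum_mul_sum, ← Finset.sum_product', ← Finset.diag_union_offDiag,
    Finset.sum_union (Finset.disjoint_diag_offDiag _), Finset.sum_diag]
  simp_rw [sq]

/-- Second moment of the leaf sum given a uniform root spin. -/
noncomputable def secondMoment {q : ℕ} (lam : ℝ) (v : Fin q → ℝ) (n : ℕ) (t : Tree n) : ℝ :=
  ∑ i : Fin q, (1 / q : ℝ) * ∑ η : Spins q n t, lik q lam n t i η * leafSum v n t η ^ 2

lemma secondMoment_succ {q : ℕ} (hq : 2 ≤ q) (lam : ℝ) {v : Fin q → ℝ} (hv : ∑ i, v i = 0)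
    (n k : ℕ) (t : Fin k → Tree n) :
    secondMoment lam v (n + 1) (node t) = ∑ c, secondMoment lam v n (t c)
      + (∑ i, (1 / q : ℝ) * v i ^ 2) * lam ^ (2 * n + 2) *
        ∑ p ∈ (Finset.univ : Finset (Fin k)).offDiag, (leaves n (t p.1) : ℝ) * leaves n (t p.2) := by
  have h1 : ∀ i : Fin q, ∑ η : Spins q (n + 1) (node t),
      lik q lam (n + 1) (node t) i η * leafSum v (n + 1) (node t) η ^ 2
      = ∑ c, ∑ j, potts q lam i j * ∑ x : Spins q n (t c), lik q lam n (t c) j x *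
          leafSum v n (t c) x ^ 2
        + v i ^ 2 * lam ^ (2 * n + 2) *
        ∑ p ∈ (Finset.univ : Finset (Fin k)).offDiag,
          (leaves n (t p.1) : ℝ) * leaves n (t p.2) := by
    intro i
    rw [sum_spins_succ]
    calc ∑ η : ((c : Fin k) → Spins q n (t c)),
          lik q lam (n + 1) (node t) i (snode η) *
            leafSum v (n + 1) (node t) (snode η) ^ 2
        = ∑ η : ((c : Fin k) → Spins q n (t c)), (∑ c₀,
          (∏ c, elik q lam n (t c) i (η c)) * leafSum v n (t c₀) (η c₀) ^ 2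
          + ∑ p ∈ (Finset.univ : Finset (Fin k)).offDiag,
            (∏ c, elik q lam n (t c) i (η c)) *
              (leafSum v n (t p.1) (η p.1) * leafSum v n (t p.2) (η p.2))) := by
          refine Finset.sum_congr rfl fun η _ => ?_
          rw [lik_succ, leafSum_succ, ← Finset.mul_sum, ← Finset.mul_sum, ← mul_add, ← sq_sum_eq]
      _ = _ := by
          rw [Finset.sum_add_distrib]
          congr 1
          · rw [Finset.sum_comm]
            refine Finset.sum_congr rfl fun c₀ _ => ?_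
            rw [sum_pi_prod_mul (fun c x => elik q lam n (t c) i x)
              (fun c x => leafSum v n (t c) x ^ 2) (fun c => elik_sum hq lam n (t c) i) c₀]
            simp only [elik, Finset.sum_mul]
            rw [Finset.sum_comm]
            simp_rw [mul_assoc, ← Finset.mul_sum]
          · rw [Finset.sum_comm, Finset.mul_sum]
            refine Finset.sum_congr rfl fun p hp => ?_
            rw [Finset.mem_offDiag] at hp
            rw [sum_pi_prod_mul_mul (fun c x => elik q lam n (t c) i x)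
              (fun c x => leafSum v n (t c) x) (fun c x => leafSum v n (t c) x)
              (fun c => elik_sum hq lam n (t c) i) hp.2.2, elik_leafSum hq lam hv,
              elik_leafSum hq lam hv]
            ring
  unfold secondMoment
  simp_rw [h1, mul_add]
  rw [Finset.sum_add_distrib]
  congr 1
  · simp_rw [Finset.mul_sum]
    rw [Finset.sum_comm]
    refine Finset.sum_congr rfl fun c _ => ?_
    rw [Finset.sum_comm]
    refine Finset.sum_congr rfl fun j _ => ?_
    rw [Finset.sum_comm]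
    refine Finset.sum_congr rfl fun x _ => ?_
    have : ∀ i : Fin q, (1 / q : ℝ) * (potts q lam i j * (lik q lam n (t c) j x *
        leafSum v n (t c) x ^ 2)) = ((1 / q : ℝ) * potts q lam i j) * (lik q lam n (t c) j x *
        leafSum v n (t c) x ^ 2) := fun i => by ring
    simp_rw [this, ← Finset.sum_mul, potts_col_avg hq lam j]
  · simp_rw [Finset.sum_mul]
    refine Finset.sum_congr rfl fun i _ => ?_
    ring

lemma secondMoment_nonneg {q : ℕ} (hq : 2 ≤ q) {lam : ℝ} (hl : -1 / ((q : ℝ) - 1) ≤ lam)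
    (hl1 : lam ≤ 1) (v : Fin q → ℝ) (n : ℕ) (t : Tree n) : 0 ≤ secondMoment lam v n t := by
  unfold secondMoment
  refine Finset.sum_nonneg fun i _ => mul_nonneg (by positivity)
    (Finset.sum_nonneg fun η _ => mul_nonneg (lik_nonneg hq hl hl1 n t i η) (sq_nonneg _))

/-! ### The pointwise inequality -/

/-- The conditional advantage given the tree. -/
noncomputable def treeAdv (q : ℕ) (lam : ℝ) (n : ℕ) (t : Tree n) : ℝ :=
  ∑ η : Spins q n t, evid q lam n t η * ((1 / 2) * ∑ i : Fin q, |post q lam n t η i - 1 / q|)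

lemma evid_nonneg {q : ℕ} (hq : 2 ≤ q) {lam : ℝ} (hl : -1 / ((q : ℝ) - 1) ≤ lam) (hl1 : lam ≤ 1)
    (n : ℕ) (t : Tree n) (η : Spins q n t) : 0 ≤ evid q lam n t η :=
  Finset.sum_nonneg fun i _ => mul_nonneg (by positivity) (lik_nonneg hq hl hl1 n t i η)

lemma evid_mul_post {q : ℕ} (hq : 2 ≤ q) {lam : ℝ} (hl : -1 / ((q : ℝ) - 1) ≤ lam) (hl1 : lam ≤ 1)
    (n : ℕ) (t : Tree n) (η : Spins q n t) (i : Fin q) :
    evid q lam n t η * post q lam n t η i = (1 / q : ℝ) * lik q lam n t i η := by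
  by_cases h : evid q lam n t η = 0
  · have h2 : (1 / q : ℝ) * lik q lam n t i η = 0 := by
      have := (Finset.sum_eq_zero_iff_of_nonneg (fun i _ => mul_nonneg
        (show (0 : ℝ) ≤ 1 / q by positivity) (lik_nonneg hq hl hl1 n t i η))).mp h i
        (Finset.mem_univ i)
      exact this
    rw [h, h2, zero_mul]
  · rw [post]
    field_simp

lemma post_nonneg {q : ℕ} (hq : 2 ≤ q) {lam : ℝ} (hl : -1 / ((q : ℝ) - 1) ≤ lam) (hl1 : lam ≤ 1)
    (n : ℕ) (t : Tree n) (η : Spins q n t) (i : Fin q) : 0 ≤ post q lam n t η i :=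
  div_nonneg (mul_nonneg (by positivity) (lik_nonneg hq hl hl1 n t i η))
    (evid_nonneg hq hl hl1 n t η)

lemma sum_post_le {q : ℕ} (lam : ℝ) (n : ℕ) (t : Tree n) (η : Spins q n t) :
    ∑ i, post q lam n t η i ≤ 1 := by
  simp only [post]
  rw [← Finset.sum_div]
  exact div_self_le_one _

lemma sum_abs_post_le {q : ℕ} (hq : 2 ≤ q) {lam : ℝ} (hl : -1 / ((q : ℝ) - 1) ≤ lam)
    (hl1 : lam ≤ 1) (n : ℕ) (t : Tree n) (η : Spins q n t) :
    ∑ i : Fin q, |post q lam n t η i - 1 / q| ≤ 2 := by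
  have hq' : (2 : ℝ) ≤ q := by exact_mod_cast hq
  have hq0 : (q : ℝ) ≠ 0 := by linarith only [hq']
  calc ∑ i : Fin q, |post q lam n t η i - 1 / q|
      ≤ ∑ i : Fin q, (post q lam n t η i + 1 / q) := by
        refine Finset.sum_le_sum fun i _ => ?_
        have h1 := post_nonneg hq hl hl1 n t η i
        have h2 : (0 : ℝ) ≤ 1 / q := by positivity
        exact (abs_sub _ _).trans (by rw [abs_of_nonneg h1, abs_of_nonneg h2])
    _ = ∑ i : Fin q, post q lam n t η i + 1 := by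
        rw [Finset.sum_add_distrib]
        simp only [one_div, Finset.sum_const, Finset.card_univ, Fintype.card_fin, nsmul_eq_mul,
          add_right_inj]
        field_simp
    _ ≤ 2 := by linarith only [sum_post_le (q := q) lam n t η]

lemma sum_evid {q : ℕ} (hq : 2 ≤ q) (lam : ℝ) (n : ℕ) (t : Tree n) :
    ∑ η : Spins q n t, evid q lam n t η = 1 := by
  have hq' : (2 : ℝ) ≤ q := by exact_mod_cast hq
  have hq0 : (q : ℝ) ≠ 0 := by linarith only [hq']
  simp only [evid]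
  rw [Finset.sum_comm]
  simp_rw [← Finset.mul_sum, lik_sum hq lam n t]
  simp only [one_div, Finset.sum_const, Finset.card_univ, Fintype.card_fin, nsmul_eq_mul, mul_one]
  field_simp

lemma treeAdv_nonneg {q : ℕ} (hq : 2 ≤ q) {lam : ℝ} (hl : -1 / ((q : ℝ) - 1) ≤ lam)
    (hl1 : lam ≤ 1) (n : ℕ) (t : Tree n) : 0 ≤ treeAdv q lam n t :=
  Finset.sum_nonneg fun η _ => mul_nonneg (evid_nonneg hq hl hl1 n t η) (by positivity)

lemma treeAdv_le_one {q : ℕ} (hq : 2 ≤ q) {lam : ℝ} (hl : -1 / ((q : ℝ) - 1) ≤ lam)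
    (hl1 : lam ≤ 1) (n : ℕ) (t : Tree n) : treeAdv q lam n t ≤ 1 := by
  rw [← sum_evid hq lam n t]
  refine Finset.sum_le_sum fun η _ => ?_
  have h1 := sum_abs_post_le hq hl hl1 n t η
  have h2 := evid_nonneg hq hl hl1 n t η
  nlinarith only [h1, h2]

/-- Cauchy-Schwarz in the form used below, for a given tree. -/
lemma correlation_le {q : ℕ} (hq : 2 ≤ q) {lam : ℝ} (hl : -1 / ((q : ℝ) - 1) ≤ lam)
    (hl1 : lam ≤ 1) {v : Fin q → ℝ} (hv : ∑ i, v i = 0) (hv1 : ∀ i, |v i| ≤ 1)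
    (n : ℕ) (t : Tree n) (κ : ℝ) :
    2 * κ * ((∑ i, (1 / q : ℝ) * v i ^ 2) * (lam ^ n * leaves n t))
      ≤ κ ^ 2 * secondMoment lam v n t + 4 * treeAdv q lam n t := by
  set V : Spins q n t → ℝ := fun η => ∑ i, v i * post q lam n t η i with hV
  -- correlation
  have hcorr : ∑ η : Spins q n t, evid q lam n t η * (leafSum v n t η * V η)
      = (∑ i, (1 / q : ℝ) * v i ^ 2) * (lam ^ n * leaves n t) := by
    have h1 : ∀ η : Spins q n t, evid q lam n t η * (leafSum v n t η * V η)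
        = ∑ i, (1 / q : ℝ) * v i * (lik q lam n t i η * leafSum v n t η) := by
      intro η
      have : evid q lam n t η * (leafSum v n t η * V η)
          = ∑ i, leafSum v n t η * v i * (evid q lam n t η * post q lam n t η i) := by
        rw [hV]
        simp only [Finset.mul_sum]
        refine Finset.sum_congr rfl fun i _ => ?_
        ring
      rw [this]
      refine Finset.sum_congr rfl fun i _ => ?_
      rw [evid_mul_post hq hl hl1]
      ring
    simp_rw [h1]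
    rw [Finset.sum_comm, Finset.sum_mul]
    refine Finset.sum_congr rfl fun i _ => ?_
    rw [← Finset.mul_sum, lik_leafSum hq lam hv n t]
    ring
  have hsec : ∑ η : Spins q n t, evid q lam n t η * leafSum v n t η ^ 2
      = secondMoment lam v n t := by
    simp only [evid, secondMoment, Finset.sum_mul, Finset.mul_sum]
    rw [Finset.sum_comm]
    refine Finset.sum_congr rfl fun i _ => Finset.sum_congr rfl fun η _ => ?_
    ring
  have hVB : ∀ η : Spins q n t, V η ^ 2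
      ≤ 4 * ((1 / 2) * ∑ i : Fin q, |post q lam n t η i - 1 / q|) := by
    intro η
    set B := ∑ i : Fin q, |post q lam n t η i - 1 / q| with hB
    have hB0 : 0 ≤ B := Finset.sum_nonneg fun i _ => abs_nonneg _
    have hB2 : B ≤ 2 := sum_abs_post_le hq hl hl1 n t η
    have hVeq : V η = ∑ i, v i * (post q lam n t η i - 1 / q) := by
      simp only [hV, mul_sub]
      rw [Finset.sum_sub_distrib, ← Finset.sum_mul, hv]
      ring
    have hVle : |V η| ≤ B := by
      rw [hVeq]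
      refine (Finset.abs_sum_le_sum_abs _ _).trans (Finset.sum_le_sum fun i _ => ?_)
      rw [abs_mul]
      exact mul_le_of_le_one_left (abs_nonneg _) (hv1 i)
    have : V η ^ 2 ≤ B ^ 2 := by
      rw [← sq_abs]
      exact pow_le_pow_left₀ (abs_nonneg _) hVle 2
    nlinarith only [hB0, hB2, this]
  have hkey : ∀ η : Spins q n t, 2 * κ * (evid q lam n t η * (leafSum v n t η * V η))
      ≤ κ ^ 2 * (evid q lam n t η * leafSum v n t η ^ 2)
        + 4 * (evid q lam n t η * ((1 / 2) * ∑ i : Fin q, |post q lam n t η i - 1 / q|)) := by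
    intro η
    have h0 := evid_nonneg hq hl hl1 n t η
    have h1 := hVB η
    have h2 : 2 * κ * (leafSum v n t η * V η) ≤ κ ^ 2 * leafSum v n t η ^ 2 + V η ^ 2 := by
      nlinarith only [sq_nonneg (κ * leafSum v n t η - V η)]
    have h3 := mul_le_mul_of_nonneg_left (h2.trans (add_le_add_right h1 _)) h0
    nlinarith only [h3]
  have hsum := Finset.sum_le_sum (fun η (_ : η ∈ (Finset.univ : Finset (Spins q n t))) => hkey η)
  rw [Finset.sum_add_distrib, ← Finset.mul_sum, ← Finset.mul_sum, ← Finset.mul_sum, hcorr,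
    hsec] at hsum
  exact hsum

/-! ### Expectations over the tree -/

lemma expT_leaves {ν : ℕ → ℝ} (hν : ∀ k, 0 ≤ ν k) (h1 : ∑' k, ENNReal.ofReal (ν k) = 1)
    (n : ℕ) :
    expT ν n (fun t => (leaves n t : ℝ≥0∞)) = (∑' k : ℕ, ENNReal.ofReal (ν k) * k) ^ n := by
  induction n with
  | zero =>
    rw [expT_zero]
    simp [leaves_zero]
  | succ n ih =>
    rw [expT_succ_sum hν h1 n (fun t => (leaves n t : ℝ≥0∞)), ih, pow_succ']
    intro k t
    show ((leaves (n + 1) (node t) : ℕ) : ℝ≥0∞) = _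
    rw [leaves_succ]
    push_cast
    rfl

lemma expT_secondMoment_succ {ν : ℕ → ℝ} (hν : ∀ k, 0 ≤ ν k)
    (h1 : ∑' k, ENNReal.ofReal (ν k) = 1) {q : ℕ} (hq : 2 ≤ q) {lam : ℝ}
    (hl : -1 / ((q : ℝ) - 1) ≤ lam) (hl1 : lam ≤ 1) {v : Fin q → ℝ} (hv : ∑ i, v i = 0) (n : ℕ) :
    expT ν (n + 1) (fun t => ENNReal.ofReal (secondMoment lam v (n + 1) t))
      = (∑' k : ℕ, ENNReal.ofReal (ν k) * k) *
          expT ν n (fun t => ENNReal.ofReal (secondMoment lam v n t))
        + ENNReal.ofReal ((∑ i, (1 / q : ℝ) * v i ^ 2) * lam ^ (2 * n + 2)) *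
          ((∑' k : ℕ, ENNReal.ofReal (ν k) * ((k * (k - 1) : ℕ) : ℝ≥0∞)) *
            ((∑' k : ℕ, ENNReal.ofReal (ν k) * k) ^ n) ^ 2) := by
  classical
  set w : ℝ := ∑ i, (1 / q : ℝ) * v i ^ 2 with hw
  have hw0 : 0 ≤ w := Finset.sum_nonneg fun i _ => mul_nonneg (by positivity) (sq_nonneg _)
  have hlam : 0 ≤ lam ^ (2 * n + 2) := by
    have : lam ^ (2 * n + 2) = (lam ^ (n + 1)) ^ 2 := by ring
    rw [this]
    (clear * -; positivity)
  let g1 : Tree (n + 1) → ℝ≥0∞ := fun t =>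
    ∑ c, ENNReal.ofReal (secondMoment lam v n (t.2 c))
  let g2 : Tree (n + 1) → ℝ≥0∞ := fun t =>
    ∑ p ∈ (Finset.univ : Finset (Fin t.1)).offDiag,
      (leaves n (t.2 p.1) : ℝ≥0∞) * (leaves n (t.2 p.2) : ℝ≥0∞)
  have hg : (fun t => ENNReal.ofReal (secondMoment lam v (n + 1) t))
      = fun t => g1 t + ENNReal.ofReal (w * lam ^ (2 * n + 2)) * g2 t := by
    funext t
    obtain ⟨k, s, rfl⟩ := exists_node t
    rw [secondMoment_succ hq lam hv]
    have e1 : g1 (node s) = ∑ c, ENNReal.ofReal (secondMoment lam v n (s c)) := rfl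
    have e2 : g2 (node s) = ∑ p ∈ (Finset.univ : Finset (Fin k)).offDiag,
      (leaves n (s p.1) : ℝ≥0∞) * (leaves n (s p.2) : ℝ≥0∞) := rfl
    rw [e1, e2, ENNReal.ofReal_add, ENNReal.ofReal_sum_of_nonneg, ENNReal.ofReal_mul,
      ENNReal.ofReal_sum_of_nonneg]
    · congr 2
      refine Finset.sum_congr rfl fun p _ => ?_
      rw [ENNReal.ofReal_mul (by (clear * -; positivity)), ENNReal.ofReal_natCast, ENNReal.ofReal_natCast]
    · intro p _
      (clear * -; positivity)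
    · (clear * - hq hlam; positivity)
    · intro c _
      exact secondMoment_nonneg hq hl hl1 v n (s c)
    · exact Finset.sum_nonneg fun c _ => secondMoment_nonneg hq hl hl1 v n (s c)
    · (clear * - hq hlam; positivity)
  rw [hg, expT_add, expT_const_mul]
  rw [expT_succ_sum hν h1 n (fun t => ENNReal.ofReal (secondMoment lam v n t)) g1
    (fun k t => rfl)]
  rw [expT_succ_pairs hν h1 n (fun t => (leaves n t : ℝ≥0∞)) g2 (fun k t => rfl),
    expT_leaves hν h1]

/-- **Kesten-Stigum lower bound.** If the offspring law has mean `m` and finite second moment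
and `m * lam ^ 2 > 1`, then `a_n` is bounded below by a positive constant. -/
theorem ks_lower {ν : ℕ → ℝ} (hν : ∀ k, 0 ≤ ν k) (h1 : HasSum ν 1) {m : ℝ}
    (hm : HasSum (fun k : ℕ => (k : ℝ) * ν k) m)
    (h2 : Summable (fun k : ℕ => (k : ℝ) * ((k : ℝ) - 1) * ν k))
    {q : ℕ} (hq : 2 ≤ q) {lam : ℝ} (hl : -1 / ((q : ℝ) - 1) ≤ lam) (hl1 : lam ≤ 1)
    (hks : 1 < m * lam ^ 2) : ∃ c : ℝ, 0 < c ∧ ∀ n, c ≤ advantage ν q lam n := by
  classical
  have hq' : (2 : ℝ) ≤ q := by exact_mod_cast hq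
  have hq0 : (0 : ℝ) < q := by linarith only [hq']
  -- moments
  have hE1 : ∑' k, ENNReal.ofReal (ν k) = 1 := by
    rw [tsum_ofReal_of_hasSum hν h1, ENNReal.ofReal_one]
  have hm0 : 0 ≤ m := hm.nonneg fun k => mul_nonneg (Nat.cast_nonneg k) (hν k)
  have hEm : ∑' k : ℕ, ENNReal.ofReal (ν k) * k = ENNReal.ofReal m := by
    rw [← tsum_ofReal_of_hasSum (fun k => mul_nonneg (Nat.cast_nonneg k) (hν k)) hm]
    refine tsum_congr fun k => ?_
    rw [ENNReal.ofReal_mul (Nat.cast_nonneg k), ENNReal.ofReal_natCast, mul_comm]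
  obtain ⟨v2, hv2⟩ := h2
  have hkk : ∀ k : ℕ, ((k * (k - 1) : ℕ) : ℝ) = (k : ℝ) * ((k : ℝ) - 1) := by
    intro k
    cases k with
    | zero => simp
    | succ k => push_cast; simp
  have hkk0 : ∀ k : ℕ, 0 ≤ (k : ℝ) * ((k : ℝ) - 1) * ν k := by
    intro k
    rw [← hkk]
    exact mul_nonneg (Nat.cast_nonneg _) (hν k)
  have hv20 : 0 ≤ v2 := hv2.nonneg hkk0
  have hEv2 : ∑' k : ℕ, ENNReal.ofReal (ν k) * ((k * (k - 1) : ℕ) : ℝ≥0∞)
      = ENNReal.ofReal v2 := by
    rw [← tsum_ofReal_of_hasSum hkk0 hv2]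
    refine tsum_congr fun k => ?_
    rw [← hkk, ENNReal.ofReal_mul (Nat.cast_nonneg _), ENNReal.ofReal_natCast, mul_comm]
  -- the test vector
  obtain ⟨v, hv, hv1, hw⟩ : ∃ v : Fin q → ℝ, ∑ i, v i = 0 ∧ (∀ i, |v i| ≤ 1) ∧
      0 < ∑ i, (1 / q : ℝ) * v i ^ 2 := by
    let i0 : Fin q := ⟨0, by omega⟩
    let i1 : Fin q := ⟨1, by omega⟩
    have h01 : i0 ≠ i1 := by simp [i0, i1, Fin.ext_iff]
    refine ⟨fun i => (if i = i0 then 1 else 0) - (if i = i1 then 1 else 0), ?_, ?_, ?_⟩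
    · rw [Finset.sum_sub_distrib]
      simp only [Finset.sum_ite_eq', Finset.mem_univ, ↓reduceIte, sub_self]
    · intro i
      show |(if i = i0 then (1 : ℝ) else 0) - (if i = i1 then 1 else 0)| ≤ 1
      split_ifs <;> norm_num
    · refine Finset.sum_pos' (fun i _ => mul_nonneg (by positivity) (sq_nonneg _))
        ⟨i0, Finset.mem_univ _, ?_⟩
      have : ((if i0 = i0 then (1 : ℝ) else 0) - (if i0 = i1 then 1 else 0)) ^ 2 = 1 := by
        simp [h01]
      rw [this]
      positivity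
  set w : ℝ := ∑ i, (1 / q : ℝ) * v i ^ 2 with hwdef
  have hmpos : 0 < m := by
    by_contra h
    have : m = 0 := le_antisymm (not_lt.mp h) hm0
    rw [this] at hks
    norm_num at hks
  have hlam2 : 0 < lam ^ 2 := by
    by_contra h
    have : lam ^ 2 = 0 := le_antisymm (not_lt.mp h) (sq_nonneg _)
    rw [this] at hks
    norm_num at hks
  have hlam0 : lam ≠ 0 := by
    rintro rfl
    norm_num at hlam2
  have hden : 0 < m * (m * lam ^ 2 - 1) := mul_pos hmpos (by linarith only [hks])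
  set R : ℝ := w + w * lam ^ 2 * v2 / (m * (m * lam ^ 2 - 1)) with hR
  have hR0 : 0 < R := by (clear * - hks hv20 hw hmpos hlam0; positivity)
  have hRstep : m * R + w * lam ^ 2 * v2 ≤ R * lam ^ 2 * m ^ 2 := by
    have h3 : w * lam ^ 2 * v2 = (R - w) * (m * (m * lam ^ 2 - 1)) := by
      rw [hR, add_sub_cancel_left, div_mul_cancel₀ _ hden.ne']
    have h4 : 0 ≤ w * (m * (m * lam ^ 2 - 1)) := by (clear * - hks hw hmpos; positivity)
    nlinarith only [h3, h4]
  -- second moment bound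
  have hs : ∀ n, expT ν n (fun t => ENNReal.ofReal (secondMoment lam v n t))
      ≤ ENNReal.ofReal (R * lam ^ (2 * n) * m ^ (2 * n)) := by
    intro n
    induction n with
    | zero =>
      rw [expT_zero]
      apply ENNReal.ofReal_le_ofReal
      have h5 : secondMoment lam v 0 default = w := by
        unfold secondMoment
        simp_rw [sum_spins_zero]
        simp only [one_div, lik_zero, leafSum_zero, ite_mul, one_mul, zero_mul, Finset.sum_ite_eq,
          Finset.mem_univ, ↓reduceIte, hwdef]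
      rw [h5]
      simp only [mul_zero, pow_zero, mul_one]
      rw [hR]
      have : 0 ≤ w * lam ^ 2 * v2 / (m * (m * lam ^ 2 - 1)) := by (clear * - hks hv20 hw hmpos hlam0; positivity)
      linarith only [this]
    | succ n ih =>
      rw [expT_secondMoment_succ hν hE1 hq hl hl1 hv, hEm, hEv2]
      have hl2n : 0 ≤ lam ^ (2 * n) := by rw [pow_mul]; positivity
      have hl2n2 : 0 ≤ lam ^ (2 * n + 2) := by
        have : lam ^ (2 * n + 2) = (lam ^ (n + 1)) ^ 2 := by ring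
        rw [this]; (clear * - hlam0; positivity)
      calc ENNReal.ofReal m * expT ν n (fun t => ENNReal.ofReal (secondMoment lam v n t))
            + ENNReal.ofReal (w * lam ^ (2 * n + 2)) *
              (ENNReal.ofReal v2 * (ENNReal.ofReal m ^ n) ^ 2)
          ≤ ENNReal.ofReal m * ENNReal.ofReal (R * lam ^ (2 * n) * m ^ (2 * n))
            + ENNReal.ofReal (w * lam ^ (2 * n + 2)) *
              (ENNReal.ofReal v2 * (ENNReal.ofReal m ^ n) ^ 2) := by (clear * - ih; gcongr)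
        _ = ENNReal.ofReal (m * (R * lam ^ (2 * n) * m ^ (2 * n))
            + w * lam ^ (2 * n + 2) * (v2 * (m ^ n) ^ 2)) := by
            rw [← ENNReal.ofReal_pow hm0, ← ENNReal.ofReal_pow (by (clear * - hmpos; positivity)),
              ← ENNReal.ofReal_mul hm0, ← ENNReal.ofReal_mul hv20,
              ← ENNReal.ofReal_mul (by (clear * - hw hlam0 hl2n2; positivity)), ← ENNReal.ofReal_add (by (clear * - hks hv20 hw hmpos hlam0 hl2n; positivity))
                (by (clear * - hv20 hw hmpos hlam0 hl2n2; positivity))]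
        _ ≤ _ := by
            apply ENNReal.ofReal_le_ofReal
            have e1 : m * (R * lam ^ (2 * n) * m ^ (2 * n))
                + w * lam ^ (2 * n + 2) * (v2 * (m ^ n) ^ 2)
                = (lam ^ (2 * n) * m ^ (2 * n)) * (m * R + w * lam ^ 2 * v2) := by ring
            have e2 : R * lam ^ (2 * (n + 1)) * m ^ (2 * (n + 1))
                = (lam ^ (2 * n) * m ^ (2 * n)) * (R * lam ^ 2 * m ^ 2) := by ring
            rw [e1, e2]
            exact mul_le_mul_of_nonneg_left hRstep (by (clear * - hmpos hlam0 hl2n; positivity))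
  refine ⟨w ^ 2 / (4 * R), by (clear * - hks hv20 hw hmpos hlam0; positivity), fun n => ?_⟩
  -- expectation of the pointwise inequality
  have hadv : advantage ν q lam n = (expT ν n fun t => ENNReal.ofReal (treeAdv q lam n t)).toReal :=
    tsum_treeProb_eq hν n (fun t => treeAdv q lam n t) (treeAdv_nonneg hq hl hl1 n)
  have hAle : expT ν n (fun t => ENNReal.ofReal (treeAdv q lam n t)) ≤ 1 := by
    rw [← expT_one hν hE1 n]
    refine expT_mono fun t => ?_
    rw [← ENNReal.ofReal_one]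
    exact ENNReal.ofReal_le_ofReal (treeAdv_le_one hq hl hl1 n t)
  have hAtop : expT ν n (fun t => ENNReal.ofReal (treeAdv q lam n t)) ≠ ∞ :=
    ne_top_of_le_ne_top ENNReal.one_ne_top hAle
  set κ : ℝ := w / R with hκ
  have hκ0 : 0 < κ := by (clear * - hks hv20 hw hmpos hlam0; positivity)
  have hAn : (lam ^ n * m ^ n) ^ 2 = lam ^ (2 * n) * m ^ (2 * n) := by ring
  have hpt : ∀ t : Tree n, ENNReal.ofReal (2 * κ * w / m ^ n) * (leaves n t : ℝ≥0∞)
      ≤ ENNReal.ofReal (κ ^ 2 / (lam ^ (2 * n) * m ^ (2 * n))) *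
          ENNReal.ofReal (secondMoment lam v n t)
        + 4 * ENNReal.ofReal (treeAdv q lam n t) := by
    intro t
    have hc := correlation_le hq hl hl1 hv hv1 n t (κ / (lam ^ n * m ^ n))
    have hl2n : 0 < lam ^ (2 * n) := by rw [pow_mul]; (clear * - hlam0; positivity)
    have e1 : 2 * (κ / (lam ^ n * m ^ n)) * (w * (lam ^ n * leaves n t))
        = 2 * κ * w / m ^ n * leaves n t := by
      have : lam ^ n ≠ 0 := pow_ne_zero _ hlam0
      (clear * - hw hmpos hκ0 this; field_simp)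
    have e2 : (κ / (lam ^ n * m ^ n)) ^ 2 = κ ^ 2 / (lam ^ (2 * n) * m ^ (2 * n)) := by
      rw [div_pow, hAn]
    rw [e1, e2] at hc
    have h4 : (4 : ℝ≥0∞) = ENNReal.ofReal 4 := by simp
    have hsm := secondMoment_nonneg hq hl hl1 v n t
    have hta := treeAdv_nonneg hq hl hl1 n t
    rw [← ENNReal.ofReal_natCast, ← ENNReal.ofReal_mul (by (clear * - hks hv20 hw hmpos hlam0; positivity)), h4,
      ← ENNReal.ofReal_mul (by (clear * - hks hv20 hw hmpos hlam0 hl2n; positivity)), ← ENNReal.ofReal_mul (by norm_num),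
      ← ENNReal.ofReal_add (by (clear * - hks hv20 hw hmpos hlam0 hl2n hsm; positivity)) (by (clear * - hta; positivity))]
    exact ENNReal.ofReal_le_ofReal hc
  have hexp := expT_mono (ν := ν) hpt
  rw [expT_add, expT_const_mul, expT_const_mul, expT_const_mul, expT_leaves hν hE1, hEm] at hexp
  have hfin : ENNReal.ofReal (2 * κ * w) ≤ ENNReal.ofReal (κ ^ 2 * R)
      + 4 * expT ν n (fun t => ENNReal.ofReal (treeAdv q lam n t)) := by
    have hl2n : 0 < lam ^ (2 * n) := by rw [pow_mul]; (clear * - hlam0; positivity)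
    calc ENNReal.ofReal (2 * κ * w)
        = ENNReal.ofReal (2 * κ * w / m ^ n) * ENNReal.ofReal m ^ n := by
          rw [← ENNReal.ofReal_pow hm0, ← ENNReal.ofReal_mul (by (clear * - hks hv20 hw hmpos hlam0; positivity))]
          congr 1
          (clear * - hw hmpos hκ0; field_simp)
      _ ≤ _ := hexp
      _ ≤ ENNReal.ofReal (κ ^ 2 / (lam ^ (2 * n) * m ^ (2 * n))) *
            ENNReal.ofReal (R * lam ^ (2 * n) * m ^ (2 * n))
          + 4 * expT ν n (fun t => ENNReal.ofReal (treeAdv q lam n t)) := by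
          gcongr
          exact hs n
      _ = _ := by
          rw [← ENNReal.ofReal_mul (by (clear * - hks hv20 hw hmpos hlam0 hl2n; positivity))]
          congr 2
          (clear * - hmpos hR0 hκ0 hl2n; field_simp)
  rw [hadv]
  set a := expT ν n (fun t => ENNReal.ofReal (treeAdv q lam n t)) with ha
  have haR : a = ENNReal.ofReal a.toReal := (ENNReal.ofReal_toReal hAtop).symm
  rw [haR, show (4 : ℝ≥0∞) = ENNReal.ofReal 4 by simp, ← ENNReal.ofReal_mul (by norm_num),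
    ← ENNReal.ofReal_add (by (clear * - hks hv20 hw hmpos hlam0; positivity)) (by (clear * -; positivity)),
    ENNReal.ofReal_le_ofReal_iff (by (clear * - hks hv20 hw hmpos hlam0; positivity))] at hfin
  have e3 : 2 * κ * w - κ ^ 2 * R = w ^ 2 / R := by
    rw [hκ]
    field_simp
    ring
  have e4 : w ^ 2 / (4 * R) = (w ^ 2 / R) / 4 := by
    (clear * - hw hR0; field_simp)
  rw [e4, ← e3]
  linarith only [hfin]

end Vale.Agent.P154.KS
end

section

namespace Vale.Agent.P154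

open scoped BigOperators ENNReal
open Filter Topology

lemma regular_nonneg (d k : ℕ) : 0 ≤ regularOffspring d k := by
  unfold regularOffspring; split_ifs <;> norm_num

lemma regular_tsum (d : ℕ) : ∑' k, ENNReal.ofReal (regularOffspring d k) = 1 := by
  rw [tsum_eq_single d]
  · simp [regularOffspring]
  · intro b hb; simp [regularOffspring, hb]

lemma regular_mean (d : ℕ) :
    ∑' k : ℕ, ENNReal.ofReal (regularOffspring d k) * k = ENNReal.ofReal d := by
  rw [tsum_eq_single d]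
  · simp [regularOffspring]
  · intro b hb; simp [regularOffspring, hb]

lemma poisson_nonneg {d : ℝ} (hd : 0 ≤ d) (k : ℕ) : 0 ≤ poissonOffspring d k := by
  unfold poissonOffspring; positivity

lemma poisson_hasSum (d : ℝ) : HasSum (poissonOffspring d) 1 := by
  have h := NormedSpace.expSeries_div_hasSum_exp (𝔸 := ℝ) d
  have h2 := h.mul_left (Real.exp (-d))
  have e : Real.exp (-d) * NormedSpace.exp d = 1 := by
    rw [← Real.exp_eq_exp_ℝ, ← Real.exp_add]; simp
  rw [e] at h2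
  refine h2.congr_fun ?_ |> fun x => x
  intro k
  unfold poissonOffspring
  ring

lemma poisson_tsum {d : ℝ} (hd : 0 ≤ d) : ∑' k, ENNReal.ofReal (poissonOffspring d k) = 1 := by
  rw [← ENNReal.ofReal_tsum_of_nonneg (poisson_nonneg hd) (poisson_hasSum d).summable,
    (poisson_hasSum d).tsum_eq]
  simp

lemma poisson_mean_hasSum (d : ℝ) : HasSum (fun k : ℕ => poissonOffspring d k * k) d := by
  have h := (poisson_hasSum d).mul_left d
  rw [mul_one] at h
  have h1 : HasSum (fun k : ℕ => poissonOffspring d (k + 1) * ((k + 1 : ℕ) : ℝ)) d := by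
    refine h.congr_fun ?_ |> fun x => x
    intro k
    unfold poissonOffspring
    rw [Nat.factorial_succ]
    have : ((k : ℝ) + 1) ≠ 0 := by positivity
    have h3 : (k.factorial : ℝ) ≠ 0 := by positivity
    push_cast
    field_simp
    ring
  rw [hasSum_nat_add_iff (f := fun k : ℕ => poissonOffspring d k * k) 1] at h1
  simpa using h1

lemma poisson_mean {d : ℝ} (hd : 0 ≤ d) :
    ∑' k : ℕ, ENNReal.ofReal (poissonOffspring d k) * k = ENNReal.ofReal d := by
  have e : ∀ k : ℕ, ENNReal.ofReal (poissonOffspring d k) * k =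
      ENNReal.ofReal (poissonOffspring d k * k) := by
    intro k
    rw [ENNReal.ofReal_mul (poisson_nonneg hd k), ENNReal.ofReal_natCast]
  simp_rw [e]
  rw [← ENNReal.ofReal_tsum_of_nonneg
    (fun k => mul_nonneg (poisson_nonneg hd k) (Nat.cast_nonneg k))
    (poisson_mean_hasSum d).summable, (poisson_mean_hasSum d).tsum_eq]

end Vale.Agent.P154
end

section

/-!
# Reconstruction above the Kesten-Stigum bound on the two tree models
-/

namespace Vale.Agent.P154.KS

theorem reconstruction_of_ks {ν : ℕ → ℝ} (hν : ∀ k, 0 ≤ ν k) (h1 : HasSum ν 1) {m : ℝ}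
    (hm : HasSum (fun k : ℕ => (k : ℝ) * ν k) m)
    (h2 : Summable (fun k : ℕ => (k : ℝ) * ((k : ℝ) - 1) * ν k))
    {q : ℕ} (hq : 2 ≤ q) {lam : ℝ} (hl : -1 / ((q : ℝ) - 1) ≤ lam) (hl1 : lam ≤ 1)
    (hks : 1 < m * lam ^ 2) : Reconstruction ν q lam := by
  obtain ⟨c, hc, h⟩ := ks_lower hν h1 hm h2 hq hl hl1 hks
  exact reconstruction_of_le (by omega) hl hl1 hν h1 hc h

/-- Reconstruction on the `d`-ary tree when `d * lam ^ 2 > 1`. -/
theorem reconstruction_regular {d q : ℕ} (hq : 2 ≤ q) {lam : ℝ}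
    (hl : -1 / ((q : ℝ) - 1) ≤ lam) (hl1 : lam ≤ 1) (hks : 1 < d * lam ^ 2) :
    Reconstruction (regularOffspring d) q lam := by
  have h1 : HasSum (regularOffspring d) 1 := by
    have := hasSum_single (f := regularOffspring d) d (fun k hk => by simp [regularOffspring, hk])
    simpa [regularOffspring] using this
  have hm : HasSum (fun k : ℕ => (k : ℝ) * regularOffspring d k) d := by
    have := hasSum_single (f := fun k : ℕ => (k : ℝ) * regularOffspring d k) d
      (fun k hk => by simp [regularOffspring, hk])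
    simpa [regularOffspring] using this
  have h2 : Summable (fun k : ℕ => (k : ℝ) * ((k : ℝ) - 1) * regularOffspring d k) :=
    (hasSum_single (f := fun k : ℕ => (k : ℝ) * ((k : ℝ) - 1) * regularOffspring d k) d
      (fun k hk => by simp [regularOffspring, hk])).summable
  exact reconstruction_of_ks (regular_nonneg d) h1 hm h2 hq hl hl1 hks

lemma poisson_second (d : ℝ) :
    HasSum (fun k : ℕ => (k : ℝ) * ((k : ℝ) - 1) * poissonOffspring d k) (d ^ 2) := by
  have h := (poisson_hasSum d).mul_left (d ^ 2)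
  rw [mul_one] at h
  have h1 : HasSum (fun k : ℕ => ((k + 2 : ℕ) : ℝ) * (((k + 2 : ℕ) : ℝ) - 1) *
      poissonOffspring d (k + 2)) (d ^ 2) := by
    refine h.congr_fun ?_ |> fun x => x
    intro k
    unfold poissonOffspring
    rw [Nat.factorial_succ, Nat.factorial_succ]
    have h2 : ((k : ℝ) + 1) ≠ 0 := by positivity
    have h2' : ((k : ℝ) + 1 + 1) ≠ 0 := by positivity
    have h3 : (k.factorial : ℝ) ≠ 0 := by positivity
    push_cast
    field_simp
    ring
  rw [hasSum_nat_add_iff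
    (f := fun k : ℕ => (k : ℝ) * ((k : ℝ) - 1) * poissonOffspring d k) 2] at h1
  simpa [Finset.sum_range_succ] using h1

/-- Reconstruction on the Poisson Galton-Watson tree when `d * lam ^ 2 > 1`. -/
theorem reconstruction_poisson {d : ℝ} (hd : 0 ≤ d) {q : ℕ} (hq : 2 ≤ q) {lam : ℝ}
    (hl : -1 / ((q : ℝ) - 1) ≤ lam) (hl1 : lam ≤ 1) (hks : 1 < d * lam ^ 2) :
    Reconstruction (poissonOffspring d) q lam := by
  have hm : HasSum (fun k : ℕ => (k : ℝ) * poissonOffspring d k) d := by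
    have := poisson_mean_hasSum d
    simpa [mul_comm] using this
  exact reconstruction_of_ks (poisson_nonneg hd) (poisson_hasSum d) hm
    (poisson_second d).summable hq hl hl1 hks

end Vale.Agent.P154.KS
end

section

namespace Vale.Agent.P154

open scoped BigOperators ENNReal
open Filter Topology

variable {q : ℕ} {FX K G : (Fin q → ℝ) → ℝ} {γX γA δ : ℝ}

lemma neg_inv_le_zero (hq : 2 ≤ q) : -1 / ((q : ℝ) - 1) ≤ 0 := by
  have hq' : (2 : ℝ) ≤ q := by exact_mod_cast hq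
  apply div_nonpos_of_nonpos_of_nonneg <;> linarith

lemma regular_hasSum (d : ℕ) : HasSum (regularOffspring d) 1 := by
  have := hasSum_single (f := regularOffspring d) d (fun k hk => by simp [regularOffspring, hk])
  simpa [regularOffspring] using this

/-- Exact threshold on the `d`-ary tree, given a certificate. -/
theorem ferro_regular (hC : IsCert q FX K G γX γA δ) (hq : 2 ≤ q) {d : ℕ} (hd : 2 ≤ d) {lam : ℝ}
    (h0 : 0 ≤ lam) (h1 : lam ≤ 1) :
    Reconstruction (regularOffspring d) q lam ↔ 1 < d * lam ^ 2 := by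
  have hl : -1 / ((q : ℝ) - 1) ≤ lam := (neg_inv_le_zero hq).trans h0
  have hd' : (2 : ℝ) ≤ d := by exact_mod_cast hd
  constructor
  · intro hrec
    by_contra hks
    push Not at hks
    have hlt : lam < 1 := by
      rcases h1.lt_or_eq with h | h
      · exact h
      · rw [h] at hks; nlinarith
    exact (reconstruction_iff (by omega) hl h1 (regular_nonneg d) (regular_hasSum d)).1 hrec
      (nonrec_of_cert hC hq (regular_nonneg d) (regular_tsum d) (Nat.cast_nonneg d)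
        (regular_mean d) h0 hlt hks)
  · intro hks
    exact KS.reconstruction_regular hq hl h1 hks

/-- Exact threshold on the Poisson tree, given a certificate. -/
theorem ferro_poisson (hC : IsCert q FX K G γX γA δ) (hq : 2 ≤ q) {d : ℝ} (hd : 0 < d) {lam : ℝ}
    (h0 : 0 ≤ lam) (h1 : lam ≤ 1) :
    Reconstruction (poissonOffspring d) q lam ↔ 1 < d * lam ^ 2 := by
  have hl : -1 / ((q : ℝ) - 1) ≤ lam := (neg_inv_le_zero hq).trans h0
  constructor
  · intro hrec
    by_contra hks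
    push Not at hks
    refine (reconstruction_iff (by omega) hl h1 (poisson_nonneg hd.le) (poisson_hasSum d)).1 hrec ?_
    rcases h1.lt_or_eq with h | h
    · exact nonrec_of_cert hC hq (poisson_nonneg hd.le) (poisson_tsum hd.le) hd.le
        (poisson_mean hd.le) h0 h hks
    · refine nonreconstruction_poisson_of_le_one hd.le (by rw [h] at hks; linarith) (by omega) ?_
      exact ext_potts_nonneg hq hl h1
  · intro hks
    exact KS.reconstruction_poisson hd.le hq hl h1 hks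

end Vale.Agent.P154
end

section

namespace Vale.Agent.P154.Q3

open scoped BigOperators

/-- class function of the `q = 3` certificate -/
noncomputable def FX3 (v : Fin 3 → ℝ) : ℝ := fx (v 0) (v 1) (v 2)

noncomputable def K3f (v : Fin 3 → ℝ) : ℝ :=
  (v 0*v 1+v 1*v 2+v 2*v 0)/(3*((v 0+v 1+v 2)/3))

noncomputable def G3f (v : Fin 3 → ℝ) : ℝ :=
  13/144*((v 0*v 1+v 1*v 2+v 2*v 0)/(3*((v 0+v 1+v 2)/3)) - v 0*v 1*v 2/((v 0+v 1+v 2)/3)^2)

theorem chi_eq (v : Fin 3 → ℝ) (hs : 0 < ∑ i, v i) : chi v = ch (v 0) (v 1) (v 2) := by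
  unfold chi ch
  rw [Fin.sum_univ_three] at hs ⊢
  rw [Fin.sum_univ_three]
  push_cast
  field_simp
  ring

theorem mean_eq (v : Fin 3 → ℝ) : mean v = (v 0 + v 1 + v 2)/3 := by
  unfold mean
  rw [Fin.sum_univ_three]
  norm_num

theorem pl_eq (l : ℝ) (v : Fin 3 → ℝ) (i : Fin 3) :
    pl l v i = l * v i + (1-l)*((v 0 + v 1 + v 2)/3) := by
  unfold pl; rw [mean_eq]

theorem avgPerm3 (F : (Fin 3 → ℝ) → ℝ) (v w : Fin 3 → ℝ) : avgPerm F v w =
    (F ![v 0*w 0, v 1*w 1, v 2*w 2] + F ![v 0*w 1, v 1*w 2, v 2*w 0] + F ![v 0*w 2, v 1*w 0, v 2*w 1]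
    + F ![v 0*w 0, v 1*w 2, v 2*w 1] + F ![v 0*w 2, v 1*w 1, v 2*w 0]
    + F ![v 0*w 1, v 1*w 0, v 2*w 2])/6 := by
  unfold avgPerm
  have := sum_perm3 (fun u => F (fun i => v i * u i)) w
  simp only at this
  rw [this]
  have hf : ((Nat.factorial 3 : ℕ) : ℝ) = 6 := by norm_num [Nat.factorial]
  rw [hf]
  have e : ∀ u0 u1 u2 : ℝ, (fun i => v i * (![u0, u1, u2] : Fin 3 → ℝ) i) =
      ![v 0*u0, v 1*u1, v 2*u2] := by
    intro u0 u1 u2; funext i; fin_cases i <;> rfl
  simp only [e]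

/-- scaled pair -/
theorem scaled (v : Fin 3 → ℝ) (hv : ∀ i, 0 ≤ v i) (hs : 0 < ∑ i, v i) :
    ∃ m a0 a1 a2 : ℝ, 0 < m ∧ 0 ≤ a0 ∧ 0 ≤ a1 ∧ 0 ≤ a2 ∧ ((∀ i, 0 < v i) → 0 < a0 ∧ 0 < a1 ∧ 0 < a2) ∧
      a0 + a1 + a2 = 3 ∧ v 0 = m*a0 ∧ v 1 = m*a1 ∧ v 2 = m*a2 := by
  rw [Fin.sum_univ_three] at hs
  have hm : 0 < (v 0+v 1+v 2)/3 := by linarith
  refine ⟨(v 0+v 1+v 2)/3, v 0/((v 0+v 1+v 2)/3), v 1/((v 0+v 1+v 2)/3), v 2/((v 0+v 1+v 2)/3),
    hm, div_nonneg (hv 0) hm.le, div_nonneg (hv 1) hm.le, div_nonneg (hv 2) hm.le, ?_, ?_, ?_, ?_, ?_⟩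
  · intro h; exact ⟨div_pos (h 0) hm, div_pos (h 1) hm, div_pos (h 2) hm⟩
  · field_simp
  · field_simp
  · field_simp
  · field_simp

theorem fx_pair {m n a0 a1 a2 b0 b1 b2 : ℝ} (hm : 0 < m) (hn : 0 < n) (h0 : 0 < a0) (h1 : 0 < a1)
    (h2 : 0 < a2) (k0 : 0 < b0) (k1 : 0 < b1) (k2 : 0 < b2) :
    fx (m*a0*(n*b0)) (m*a1*(n*b1)) (m*a2*(n*b2)) = m*n*fx (a0*b0) (a1*b1) (a2*b2) := by
  have e : ∀ a b : ℝ, m*a*(n*b) = m*n*(a*b) := by intro a b; ring
  rw [e, e, e, fx_smul (by positivity) (by positivity) (by positivity) (by positivity) (by positivity)]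

theorem ch_pair {m n a0 a1 a2 b0 b1 b2 : ℝ} (hm : 0 < m) (hn : 0 < n) (h0 : 0 < a0) (h1 : 0 < a1)
    (h2 : 0 < a2) (k0 : 0 < b0) (k1 : 0 < b1) (k2 : 0 < b2) :
    ch (m*a0*(n*b0)) (m*a1*(n*b1)) (m*a2*(n*b2)) = m*n*ch (a0*b0) (a1*b1) (a2*b2) := by
  have e : ∀ a b : ℝ, m*a*(n*b) = m*n*(a*b) := by intro a b; ring
  rw [e, e, e, ch_smul (by positivity) (by positivity)]

theorem pairX3 (v w : Fin 3 → ℝ) (hv : ∀ i, 0 < v i) (hw : ∀ i, 0 < w i) :
    K3f v * FX3 w + K3f w * FX3 v + 0 * (FX3 v * FX3 w) ≤ avgPerm FX3 v w := by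
  obtain ⟨m, a0, a1, a2, hm, -, -, -, hpos, hsa, e0, e1, e2⟩ :=
    scaled v (fun i => (hv i).le) (Finset.sum_pos (fun i _ => hv i) Finset.univ_nonempty)
  obtain ⟨h0, h1, h2⟩ := hpos hv
  obtain ⟨n, b0, b1, b2, hn, -, -, -, hpos', hsb, f0, f1, f2⟩ :=
    scaled w (fun i => (hw i).le) (Finset.sum_pos (fun i _ => hw i) Finset.univ_nonempty)
  obtain ⟨k0, k1, k2⟩ := hpos' hw
  have key := pairX_norm h0 h1 h2 k0 k1 k2 hsa hsb
  rw [avgPerm3]
  unfold FX3 K3f
  simp only [Matrix.cons_val_zero, Matrix.cons_val_one, Matrix.cons_val]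
  rw [e0, e1, e2, f0, f1, f2]
  rw [fx_pair hm hn h0 h1 h2 k0 k1 k2, fx_pair hm hn h0 h1 h2 k1 k2 k0,
    fx_pair hm hn h0 h1 h2 k2 k0 k1, fx_pair hm hn h0 h1 h2 k0 k2 k1,
    fx_pair hm hn h0 h1 h2 k2 k1 k0, fx_pair hm hn h0 h1 h2 k1 k0 k2,
    fx_smul hm h0.le h1.le h2.le (by (clear * - h0 h1 h2; positivity)), fx_smul hn k0.le k1.le k2.le (by (clear * - k0 k1 k2; positivity))]
  have g1 : (m*a0*(m*a1)+m*a1*(m*a2)+m*a2*(m*a0))/(3*((m*a0+m*a1+m*a2)/3))
      = m*((a0*a1+a1*a2+a2*a0)/3) := by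
    have : m*a0+m*a1+m*a2 = m*3 := by rw [← hsa]; ring
    rw [this]; (clear * - hm h0 h1 h2; field_simp)
  have g2 : (n*b0*(n*b1)+n*b1*(n*b2)+n*b2*(n*b0))/(3*((n*b0+n*b1+n*b2)/3))
      = n*((b0*b1+b1*b2+b2*b0)/3) := by
    have : n*b0+n*b1+n*b2 = n*3 := by rw [← hsb]; ring
    rw [this]; (clear * - hn k0 k1 k2; field_simp)
  rw [g1, g2]
  have := mul_le_mul_of_nonneg_left key (by positivity : 0 ≤ m*n)
  refine le_trans (le_of_eq ?_) (this.trans (le_of_eq ?_)) <;> ring

theorem pairA3 (v w : Fin 3 → ℝ) (hv : ∀ i, 0 < v i) (hw : ∀ i, 0 < w i) :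
    avgPerm chi v w + G3f v * FX3 w + G3f w * FX3 v + 1/48 * (FX3 v * FX3 w)
      + 1/80 * (chi v * (chi w ^ 2 / mean w) + (chi v ^ 2 / mean v) * chi w)
      ≤ chi v * mean w + mean v * chi w := by
  have hsv : 0 < ∑ i, v i := Finset.sum_pos (fun i _ => hv i) Finset.univ_nonempty
  have hsw : 0 < ∑ i, w i := Finset.sum_pos (fun i _ => hw i) Finset.univ_nonempty
  have hchi : avgPerm chi v w = avgPerm (fun u => ch (u 0) (u 1) (u 2)) v w := by
    unfold avgPerm
    congr 1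
    apply Finset.sum_congr rfl
    intro τ _
    exact chi_eq _ (Finset.sum_pos (fun i _ => mul_pos (hv i) (hw _)) Finset.univ_nonempty)
  rw [hchi, chi_eq v hsv, chi_eq w hsw, mean_eq, mean_eq, avgPerm3]
  obtain ⟨m, a0, a1, a2, hm, -, -, -, hpos, hsa, e0, e1, e2⟩ :=
    scaled v (fun i => (hv i).le) hsv
  obtain ⟨h0, h1, h2⟩ := hpos hv
  obtain ⟨n, b0, b1, b2, hn, -, -, -, hpos', hsb, f0, f1, f2⟩ :=
    scaled w (fun i => (hw i).le) hsw
  obtain ⟨k0, k1, k2⟩ := hpos' hw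
  have key := pairA_norm h0 h1 h2 k0 k1 k2 hsa hsb
  unfold FX3 G3f
  simp only [Matrix.cons_val_zero, Matrix.cons_val_one, Matrix.cons_val]
  rw [e0, e1, e2, f0, f1, f2]
  rw [ch_pair hm hn h0 h1 h2 k0 k1 k2, ch_pair hm hn h0 h1 h2 k1 k2 k0,
    ch_pair hm hn h0 h1 h2 k2 k0 k1, ch_pair hm hn h0 h1 h2 k0 k2 k1,
    ch_pair hm hn h0 h1 h2 k2 k1 k0, ch_pair hm hn h0 h1 h2 k1 k0 k2,
    fx_smul hm h0.le h1.le h2.le (by (clear * - h0 h1 h2; positivity)), fx_smul hn k0.le k1.le k2.le (by (clear * - k0 k1 k2; positivity)),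
    ch_smul hm (by positivity), ch_smul hn (by (clear * - k0 k1 k2; positivity))]
  have g1 : 13/144*((m*a0*(m*a1)+m*a1*(m*a2)+m*a2*(m*a0))/(3*((m*a0+m*a1+m*a2)/3))
        - m*a0*(m*a1)*(m*a2)/((m*a0+m*a1+m*a2)/3)^2)
      = m*(13/144*((a0*a1+a1*a2+a2*a0)/3 - a0*a1*a2)) := by
    have : m*a0+m*a1+m*a2 = m*3 := by rw [← hsa]; ring
    rw [this]; (clear * - hm; field_simp)
  have g2 : 13/144*((n*b0*(n*b1)+n*b1*(n*b2)+n*b2*(n*b0))/(3*((n*b0+n*b1+n*b2)/3))
        - n*b0*(n*b1)*(n*b2)/((n*b0+n*b1+n*b2)/3)^2)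
      = n*(13/144*((b0*b1+b1*b2+b2*b0)/3 - b0*b1*b2)) := by
    have : n*b0+n*b1+n*b2 = n*3 := by rw [← hsb]; ring
    rw [this]; (clear * - hn; field_simp)
  rw [g1, g2]
  have g3 : (m*a0+m*a1+m*a2)/3 = m := by
    have : m*a0+m*a1+m*a2 = m*3 := by rw [← hsa]; ring
    rw [this]; ring
  have g4 : (n*b0+n*b1+n*b2)/3 = n := by
    have : n*b0+n*b1+n*b2 = n*3 := by rw [← hsb]; ring
    rw [this]; ring
  rw [g3, g4]
  have g5 : (n*ch b0 b1 b2)^2/n = n*ch b0 b1 b2^2 := by (clear * - hn; field_simp)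
  have g6 : (m*ch a0 a1 a2)^2/m = m*ch a0 a1 a2^2 := by (clear * - hm; field_simp)
  rw [g5, g6]
  have := mul_le_mul_of_nonneg_left key (by positivity : 0 ≤ m*n)
  refine le_trans (le_of_eq ?_) (this.trans (le_of_eq ?_)) <;> ring

theorem isCert3 : IsCert 3 FX3 K3f G3f 0 (1/48) (1/80) where
  γX_nonneg := le_refl _
  γA_nonneg := by norm_num
  δ_pos := by norm_num
  leaf := by
    rw [Fin.sum_univ_three]
    unfold FX3 fx
    have e1 : (2 : Fin 3) ≠ 0 := by decide
    have e2 : (2 : Fin 3) ≠ 1 := by decide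
    have e3 : (0 : Fin 3) ≠ 2 := by decide
    have e4 : (1 : Fin 3) ≠ 2 := by decide
    norm_num [e1, e2, e3, e4]
  const := by
    unfold FX3 fx
    norm_num
  edge := by
    intro lam h0 h1
    refine ⟨lam^3, by positivity, ?_⟩
    intro v hv hs
    obtain ⟨m, a0, a1, a2, hm, ha0, ha1, ha2, -, hsa, e0, e1, e2⟩ := scaled v hv hs
    have key := edge_norm ha0 ha1 ha2 hsa h0 h1
    have h1' : 0 ≤ 1 - lam := by linarith
    unfold FX3
    rw [pl_eq, pl_eq, pl_eq, e0, e1, e2]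
    have g3 : (m*a0+m*a1+m*a2)/3 = m := by
      have : m*a0+m*a1+m*a2 = m*3 := by rw [← hsa]; ring
      rw [this]; ring
    rw [g3]
    have e : ∀ a : ℝ, lam*(m*a)+(1-lam)*m = m*(lam*a+(1-lam)) := by intro a; ring
    have hs' : (lam*a0+(1-lam)) + (lam*a1+(1-lam)) + (lam*a2+(1-lam)) = 3 := by
      linear_combination lam*hsa
    rw [e, e, e, fx_smul hm ha0 ha1 ha2 (by linarith only [hsa]),
      fx_smul hm (by (clear * - h0 h1 ha0; positivity)) (by positivity) (by positivity) (by linarith only [hs'])]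
    have := mul_le_mul_of_nonneg_left key hm.le
    linarith only [this]
  K_nonneg := by
    intro v hv
    have h0 := hv 0
    have h1 := hv 1
    have h2 := hv 2
    unfold K3f
    positivity
  G_nonneg := by
    intro v hv
    obtain ⟨m, a0, a1, a2, hm, -, -, -, hpos, hsa, e0, e1, e2⟩ :=
      scaled v (fun i => (hv i).le) (Finset.sum_pos (fun i _ => hv i) Finset.univ_nonempty)
    obtain ⟨h0, h1, h2⟩ := hpos hv
    unfold G3f
    rw [e0, e1, e2]
    have g1 : 13/144*((m*a0*(m*a1)+m*a1*(m*a2)+m*a2*(m*a0))/(3*((m*a0+m*a1+m*a2)/3))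
          - m*a0*(m*a1)*(m*a2)/((m*a0+m*a1+m*a2)/3)^2)
        = m*(13/144*((a0*a1+a1*a2+a2*a0)/3 - a0*a1*a2)) := by
      have : m*a0+m*a1+m*a2 = m*3 := by rw [← hsa]; ring
      rw [this]; field_simp
    rw [g1]
    obtain ⟨x, s, p, hx, hsd, hp, hp3, hx0, hx1, hsx, hp0, hP, hN⟩ := chan h0.le h1.le h2.le hsa
    have : a0*a1*a2 ≤ (a0*a1+a1*a2+a2*a0)/3 := by
      rw [← hp3]
      have e : (a0*a1+a1*a2+a2*a0)/3 = 1 - x := by rw [hx]; ring
      rw [e]
      have h3 : (1-x)^2 ≤ 1-x := by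
        have := mul_nonneg hx0 (by linarith only [hx1] : 0 ≤ 1-x)
        linarith only [this]
      linarith only [hN, h3]
    have h4 : 0 ≤ (a0*a1+a1*a2+a2*a0)/3 - a0*a1*a2 := by linarith only [this]
    (clear * - hm this; positivity)
  pairX := pairX3
  pairA := pairA3

end Vale.Agent.P154.Q3
end

section

namespace Vale.Agent.P154.Q4

open Finset

noncomputable def Rr (f : Fin 4 → ℝ) : ℝ := (∑ i, (4 * f i - 1) ^ 2) / 4
noncomputable def Tr (f : Fin 4 → ℝ) : ℝ := (∑ i, (4 * f i - 1) ^ 3) / 4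
noncomputable def Sr (f : Fin 4 → ℝ) : ℝ := (∑ i, (4 * f i - 1) ^ 4) / 4
noncomputable def XX (f : Fin 4 → ℝ) : ℝ :=
  Tr f - 3 / 10 * Rr f ^ 2 - 13 / 50 * Sr f + 1 / 5 * Rr f * Tr f

lemma pf0 (f : Fin 4 → ℝ) : pf f (0, 0, 0, 0) = 24 := by
  unfold pf; rw [PS_explicit]; simp [P24, toF]; norm_num
lemma pf2 (f : Fin 4 → ℝ) : pf f (2, 0, 0, 0) = 6 * (f 0 ^ 2 + f 1 ^ 2 + f 2 ^ 2 + f 3 ^ 2) := by
  unfold pf; rw [PS_explicit]; simp [P24, toF]; ring
lemma pf3 (f : Fin 4 → ℝ) : pf f (3, 0, 0, 0) = 6 * (f 0 ^ 3 + f 1 ^ 3 + f 2 ^ 3 + f 3 ^ 3) := by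
  unfold pf; rw [PS_explicit]; simp [P24, toF]; ring
lemma pf4 (f : Fin 4 → ℝ) : pf f (4, 0, 0, 0) = 6 * (f 0 ^ 4 + f 1 ^ 4 + f 2 ^ 4 + f 3 ^ 4) := by
  unfold pf; rw [PS_explicit]; simp [P24, toF]; ring
lemma pf5 (f : Fin 4 → ℝ) : pf f (5, 0, 0, 0) = 6 * (f 0 ^ 5 + f 1 ^ 5 + f 2 ^ 5 + f 3 ^ 5) := by
  unfold pf; rw [PS_explicit]; simp [P24, toF]; ring
lemma pf22 (f : Fin 4 → ℝ) : pf f (2, 2, 0, 0) = 2 * ((f 0 ^ 2 + f 1 ^ 2 + f 2 ^ 2 + f 3 ^ 2) ^ 2
    - (f 0 ^ 4 + f 1 ^ 4 + f 2 ^ 4 + f 3 ^ 4)) := by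
  unfold pf; rw [PS_explicit]; simp only [P24, Fin.isValue, toF, Matrix.cons_val_zero,
                                 Matrix.cons_val_one, Matrix.cons_val, pow_zero, mul_one, one_mul]; ring
lemma pf32 (f : Fin 4 → ℝ) : pf f (3, 2, 0, 0) = 2 * ((f 0 ^ 3 + f 1 ^ 3 + f 2 ^ 3 + f 3 ^ 3) *
    (f 0 ^ 2 + f 1 ^ 2 + f 2 ^ 2 + f 3 ^ 2) - (f 0 ^ 5 + f 1 ^ 5 + f 2 ^ 5 + f 3 ^ 5)) := by
  unfold pf; rw [PS_explicit]; simp only [P24, Fin.isValue, toF, Matrix.cons_val_zero,
                                 Matrix.cons_val_one, Matrix.cons_val, pow_zero, mul_one, one_mul]; ring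

lemma val_Xi (f : Fin 4 → ℝ) (hs : ∑ i, f i = 1) : val Xi LX (pf f) = 150 * XX f := by
  rw [Fin.sum_univ_four] at hs
  have h3 : f 3 = 1 - f 0 - f 1 - f 2 := by linarith
  simp only [val, Xi, LX, zv, pf0, pf2, pf3, pf4, pf5, pf22, pf32, XX, Rr, Tr, Sr,
    Fin.sum_univ_four]
  push_cast
  rw [h3]
  ring

lemma val_R1 (f : Fin 4 → ℝ) (hs : ∑ i, f i = 1) : val R1i LR (pf f) = 24 * Rr f := by
  rw [Fin.sum_univ_four] at hs
  have h3 : f 3 = 1 - f 0 - f 1 - f 2 := by linarith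
  simp only [val, R1i, LR, LX, List.take_succ_cons, zv, pf0, pf2, Rr, Fin.sum_univ_four]
  push_cast
  rw [h3]
  ring

lemma val_R2 (f : Fin 4 → ℝ) (hs : ∑ i, f i = 1) : val R2i LR (pf f) = 24 * Rr f ^ 2 := by
  rw [Fin.sum_univ_four] at hs
  have h3 : f 3 = 1 - f 0 - f 1 - f 2 := by linarith
  simp only [val, R2i, LR, LX, List.take_succ_cons, zv, pf0, pf2, pf4, pf22, Rr,
    Fin.sum_univ_four]
  push_cast
  rw [h3]
  ring

lemma val_one (f : Fin 4 → ℝ) : val [(1, 0)] LR (pf f) = 24 := by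
  simp only [val, LR, LX, List.take_succ_cons, zv, pf0]
  push_cast
  ring

lemma val_take (f : Lm → ℝ) : ∀ (n : ℕ) (E : List (ℕ × ℕ)) (L : List Lm), E.length ≤ n →
    val E (L.take n) f = val E L f
  | 0, [], L, _ => by simp [val]
  | 0, e :: es, L, h => by simp at h
  | n + 1, [], L, _ => by simp [val]
  | n + 1, e :: es, [], _ => by simp [val]
  | n + 1, e :: es, l :: ls, h => by
    simp only [List.take_succ_cons, val]
    rw [val_take f n es ls (by simpa only [List.length_cons, add_le_add_iff_right] using h)]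

lemma sum_val (f g : Fin 4 → ℝ) : ∀ (C : List (ℕ × ℕ)) (L : List Lm),
    ∑ τ : Equiv.Perm (Fin 4), val C L (pf fun i => f i * g (τ i)) = tri C L (pf f) (pf g)
  | [], _ => by simp only [val, sum_const_zero, tri]
  | _ :: _, [] => by simp [val, tri]
  | c :: cs, l :: ls => by
    simp only [val, tri, Finset.sum_add_distrib, sum_val f g cs ls]
    congr 1
    rw [← Finset.mul_sum]
    have := sum_PS_mul (toF l) f g
    unfold pf
    rw [this]; ring

/-! ### the functions of the certificate -/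

noncomputable def FX (v : Fin 4 → ℝ) : ℝ := (∑ i, v i) / 4 * XX (fun i => v i / ∑ j, v j)
noncomputable def KK (v : Fin 4 → ℝ) : ℝ :=
  (∑ i, v i) / 4 * (val Ri LX (pf fun i => v i / ∑ j, v j) / 240000000)
noncomputable def GG (v : Fin 4 → ℝ) : ℝ :=
  (∑ i, v i) / 12 * (val Rho LX (pf fun i => v i / ∑ j, v j) / 1800000)

lemma norm_scale (c : ℝ) (hc : 0 < c) (v : Fin 4 → ℝ) :
    (fun i => c * v i / ∑ j, c * v j) = fun i => v i / ∑ j, v j := by
  funext i
  rw [← Finset.mul_sum, mul_div_mul_left _ _ hc.ne']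

lemma FX_hom (c : ℝ) (hc : 0 < c) (v : Fin 4 → ℝ) : FX (fun i => c * v i) = c * FX v := by
  unfold FX
  rw [norm_scale c hc v, ← Finset.mul_sum]; ring

lemma KK_hom (c : ℝ) (hc : 0 < c) (v : Fin 4 → ℝ) : KK (fun i => c * v i) = c * KK v := by
  unfold KK
  rw [norm_scale c hc v, ← Finset.mul_sum]; ring

lemma GG_hom (c : ℝ) (hc : 0 < c) (v : Fin 4 → ℝ) : GG (fun i => c * v i) = c * GG v := by
  unfold GG
  rw [norm_scale c hc v, ← Finset.mul_sum]; ring

lemma chi_hom (c : ℝ) (hc : 0 < c) (v : Fin 4 → ℝ) : chi (fun i => c * v i) = c * chi v := by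
  unfold chi
  have h1 : ∑ i, (c * v i) ^ 2 = c * (c * ∑ i, v i ^ 2) := by
    rw [Finset.mul_sum, Finset.mul_sum]
    exact Finset.sum_congr rfl fun i _ => by ring
  rw [h1, ← Finset.mul_sum, mul_div_mul_left _ _ hc.ne']
  ring

lemma mean_hom (c : ℝ) (v : Fin 4 → ℝ) : mean (fun i => c * v i) = c * mean v := by
  unfold mean
  rw [← Finset.mul_sum]; ring

lemma FX_norm (f : Fin 4 → ℝ) (hs : ∑ i, f i = 1) : FX f = 1 / 4 * XX f := by
  unfold FX
  rw [hs]; simp

lemma chi_norm (f : Fin 4 → ℝ) (hs : ∑ i, f i = 1) : chi f = 1 / 12 * Rr f := by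
  unfold chi Rr
  rw [hs]
  rw [Fin.sum_univ_four] at hs
  simp only [Fin.sum_univ_four]
  have h3 : f 3 = 1 - f 0 - f 1 - f 2 := by linarith
  push_cast
  rw [h3]
  ring

lemma mean_norm (f : Fin 4 → ℝ) (hs : ∑ i, f i = 1) : mean f = 1 / 4 := by
  unfold mean
  rw [hs]; norm_num

lemma KK_norm (f : Fin 4 → ℝ) (hs : ∑ i, f i = 1) : KK f = 1 / 4 * (val Ri LX (pf f) / 240000000) := by
  unfold KK
  rw [hs]; simp

lemma GG_norm (f : Fin 4 → ℝ) (hs : ∑ i, f i = 1) : GG f = 1 / 12 * (val Rho LX (pf f) / 1800000) := by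
  unfold GG
  rw [hs]; simp

/-! ### one-sided bounds -/

lemma wtLR : ∀ l ∈ LR, wt l ≤ 9 := fun l hl => wtLX l (List.mem_of_mem_take hl)

lemma boundX (p : Fin 4 → ℝ) (hp : ∀ i, 0 < p i) (h1 : ∑ i, p i < 1) :
    val CX LX (pf p) ≤ 96000000000 * FX p := by
  set s := ∑ i, p i with hs
  have hs0 : 0 < s := Finset.sum_pos (fun i _ => hp i) ⟨0, Finset.mem_univ _⟩
  set f : Fin 4 → ℝ := fun i => p i / s with hf
  have hpf : p = fun i => s * f i := by
    funext i; rw [hf]; field_simp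
  have hf0 : ∀ i, 0 < f i := fun i => div_pos (hp i) hs0
  have hfs : ∑ i, f i = 1 := by
    rw [hf, ← Finset.sum_div, ← hs, div_self hs0.ne']
  have hFX : FX p = s / 4 * XX f := by unfold FX; rw [← hs]
  have key : val CX LX (pf fun i => s * f i) ≤ zv (1, 0) * ((160000000 : ℕ) * s * val Xi LX (pf f)) := by
    rcases le_total (4 * s) 1 with h | h
    · exact oneSided LX wtLX 0 1 _ (by norm_num) Xi CX (1, 0) chkAX1 f hf0 hfs s
        (by push_cast; linarith only [hs0]) (by push_cast; linarith only [h])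
    · rcases le_total (4 * s) 2 with h' | h'
      · exact oneSided LX wtLX 1 2 _ (by norm_num) Xi CX (1, 0) chkAX2 f hf0 hfs s
          (by push_cast; linarith only [h]) (by push_cast; linarith only [h'])
      · exact oneSided LX wtLX 2 4 _ (by norm_num) Xi CX (1, 0) chkAX3 f hf0 hfs s
          (by push_cast; linarith only [h']) (by push_cast; linarith only [h1])
  rw [val_Xi f hfs] at key
  rw [hFX]
  have : val CX LX (pf p) = val CX LX (pf fun i => s * f i) := by rw [← hpf]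
  rw [this]
  refine key.trans (le_of_eq ?_)
  simp only [zv]
  push_cast
  ring

lemma boundR (p : Fin 4 → ℝ) (hp : ∀ i, 0 < p i) (h1 : ∑ i, p i < 1) :
    val CR LR (pf p) ≤ - (8640000000 * chi p) := by
  set s := ∑ i, p i with hs
  have hs0 : 0 < s := Finset.sum_pos (fun i _ => hp i) ⟨0, Finset.mem_univ _⟩
  set f : Fin 4 → ℝ := fun i => p i / s with hf
  have hpf : p = fun i => s * f i := by
    funext i; rw [hf]; field_simp
  have hf0 : ∀ i, 0 < f i := fun i => div_pos (hp i) hs0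
  have hfs : ∑ i, f i = 1 := by
    rw [hf, ← Finset.sum_div, ← hs, div_self hs0.ne']
  have hchi : chi p = s * (1 / 12 * Rr f) := by
    rw [hpf, chi_hom s hs0, chi_norm f hfs]
  have key : val CR LR (pf fun i => s * f i) ≤ zv (0, 1) * ((30000000 : ℕ) * s * val R1i LR (pf f)) := by
    rcases le_total (4 * s) 1 with h | h
    · exact oneSided LR wtLR 0 1 _ (by norm_num) R1i CR (0, 1) chkAR1 f hf0 hfs s
        (by push_cast; linarith only [hs0]) (by push_cast; linarith only [h])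
    · rcases le_total (4 * s) 2 with h' | h'
      · exact oneSided LR wtLR 1 2 _ (by norm_num) R1i CR (0, 1) chkAR2 f hf0 hfs s
          (by push_cast; linarith only [h]) (by push_cast; linarith only [h'])
      · exact oneSided LR wtLR 2 4 _ (by norm_num) R1i CR (0, 1) chkAR3 f hf0 hfs s
          (by push_cast; linarith only [h']) (by push_cast; linarith only [h1])
  rw [val_R1 f hfs] at key
  rw [hchi]
  have : val CR LR (pf p) = val CR LR (pf fun i => s * f i) := by rw [← hpf]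
  rw [this]
  refine key.trans (le_of_eq ?_)
  simp only [zv]
  push_cast
  ring

lemma prod_sum_lt (f g : Fin 4 → ℝ) (hf : ∀ i, 0 < f i) (hfs : ∑ i, f i = 1) (hg : ∀ i, 0 < g i)
    (hgs : ∑ i, g i = 1) (τ : Equiv.Perm (Fin 4)) : ∑ i, f i * g (τ i) < 1 := by
  have hg1 : ∀ j, g j < 1 := by
    rw [Fin.sum_univ_four] at hgs
    have h0 := hg 0
    have h1 := hg 1
    have h2 := hg 2
    have h3 := hg 3
    intro j
    fin_cases j
    · show g 0 < 1
      linarith
    · show g 1 < 1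
      linarith
    · show g 2 < 1
      linarith
    · show g 3 < 1
      linarith
  calc ∑ i, f i * g (τ i) < ∑ i, f i := by
        refine Finset.sum_lt_sum_of_nonempty ⟨0, Finset.mem_univ _⟩ fun i _ => ?_
        have := hg1 (τ i)
        have h2 := hf i
        nlinarith only [this, h2]
    _ = 1 := hfs

lemma pairX_norm (f g : Fin 4 → ℝ) (hf : ∀ i, 0 < f i) (hfs : ∑ i, f i = 1) (hg : ∀ i, 0 < g i)
    (hgs : ∑ i, g i = 1) : KK f * FX g + KK g * FX f ≤ avgPerm FX f g := by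
  have hb := bil_pos LX (fun l hl => (wtLX l hl).trans (by norm_num)) g1LX CX PX chkX f g hf hfs hg hgs
  have hsum : tri CX LX (pf f) (pf g) ≤
      96000000000 * ∑ τ : Equiv.Perm (Fin 4), FX (fun i => f i * g (τ i)) := by
    rw [← sum_val, Finset.mul_sum]
    exact Finset.sum_le_sum fun τ _ => boundX _ (fun i => mul_pos (hf i) (hg _))
      (prod_sum_lt f g hf hfs hg hgs τ)
  simp only [bil, bilP, PX, val_Xi f hfs, val_Xi g hgs, zv] at hb
  rw [KK_norm f hfs, KK_norm g hgs, FX_norm f hfs, FX_norm g hgs]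
  unfold avgPerm
  have h24 : ((Nat.factorial 4 : ℕ) : ℝ) = 24 := by norm_num [Nat.factorial]
  rw [h24, le_div_iff₀ (by norm_num)]
  push_cast at hb
  nlinarith only [hb, hsum]

lemma pairA_norm (f g : Fin 4 → ℝ) (hf : ∀ i, 0 < f i) (hfs : ∑ i, f i = 1) (hg : ∀ i, 0 < g i)
    (hgs : ∑ i, g i = 1) : avgPerm chi f g + GG f * FX g + GG g * FX f
      + 9 / 1000 * (chi f * (chi g ^ 2 / mean g) + (chi f ^ 2 / mean f) * chi g)
      ≤ chi f * mean g + mean f * chi g := by
  have hb := bil_pos LR (fun l hl => (wtLR l hl).trans (by norm_num))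
    (fun l hl => g1LX l (List.mem_of_mem_take hl)) CR PR chkR f g hf hfs hg hgs
  have hsum : tri CR LR (pf f) (pf g) ≤
      - (8640000000 * ∑ τ : Equiv.Perm (Fin 4), chi (fun i => f i * g (τ i))) := by
    rw [← sum_val, Finset.mul_sum, ← Finset.sum_neg_distrib]
    exact Finset.sum_le_sum fun τ _ => boundR _ (fun i => mul_pos (hf i) (hg _))
      (prod_sum_lt f g hf hfs hg hgs τ)
  have eX : ∀ h : Fin 4 → ℝ, ∑ i, h i = 1 → val Xi LR (pf h) = 150 * XX h := by
    intro h hh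
    rw [← val_Xi h hh]
    exact val_take _ 38 Xi LX (by decide)
  have eR : ∀ h : Fin 4 → ℝ, val Rho LR (pf h) = val Rho LX (pf h) := by
    intro h
    exact val_take _ 38 Rho LX (by decide)
  simp only [bil, bilP, PR, eX f hfs, eX g hgs, eR, val_R1 f hfs, val_R1 g hgs, val_R2 f hfs,
    val_R2 g hgs, val_one, zv] at hb
  rw [GG_norm f hfs, GG_norm g hgs, FX_norm f hfs, FX_norm g hgs, chi_norm f hfs, chi_norm g hgs,
    mean_norm f hfs, mean_norm g hgs]
  unfold avgPerm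
  have h24 : ((Nat.factorial 4 : ℕ) : ℝ) = 24 := by norm_num [Nat.factorial]
  rw [h24]
  push_cast at hb
  set A := ∑ τ : Equiv.Perm (Fin 4), chi (fun i => f i * g (τ i)) with hA
  have h1 : A / 24 = 1 / 24 * A := by ring
  rw [h1]
  nlinarith only [hb, hsum]

lemma norm_pos (v : Fin 4 → ℝ) (hv : ∀ i, 0 < v i) : 0 < ∑ i, v i ∧
    (∀ i, 0 < v i / ∑ j, v j) ∧ ∑ i, v i / ∑ j, v j = 1 ∧
    v = fun i => (∑ j, v j) * (v i / ∑ j, v j) := by
  have hs0 : 0 < ∑ i, v i := Finset.sum_pos (fun i _ => hv i) ⟨0, Finset.mem_univ _⟩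
  refine ⟨hs0, fun i => div_pos (hv i) hs0, ?_, ?_⟩
  · rw [← Finset.sum_div, div_self hs0.ne']
  · funext i; field_simp

lemma avgPerm_hom (F : (Fin 4 → ℝ) → ℝ) (hF : ∀ c : ℝ, 0 < c → ∀ v, F (fun i => c * v i) = c * F v)
    (s t : ℝ) (hs : 0 < s) (ht : 0 < t) (f g : Fin 4 → ℝ) :
    avgPerm F (fun i => s * f i) (fun i => t * g i) = s * t * avgPerm F f g := by
  unfold avgPerm
  have : ∀ τ : Equiv.Perm (Fin 4), F (fun i => s * f i * (t * g (τ i))) =
      s * t * F (fun i => f i * g (τ i)) := by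
    intro τ
    rw [← hF (s * t) (mul_pos hs ht)]
    congr 1
    funext i; ring
  simp_rw [this]
  rw [← Finset.mul_sum]; ring

lemma edge_pos (f : Fin 4 → ℝ) (hf : ∀ i, 0 ≤ f i) (hfs : ∑ i, f i = 1) :
    0 ≤ 3 / 10 * Rr f ^ 2 + 13 / 50 * Sr f - 2 / 5 * (Rr f * Tr f) := by
  obtain ⟨τ, h01, h12, h23⟩ := exists_sorted f
  have eR : Rr f = ((4 * f (τ 0) - 1) ^ 2 + (4 * f (τ 1) - 1) ^ 2 + (4 * f (τ 2) - 1) ^ 2 +
      (4 * f (τ 3) - 1) ^ 2) / 4 := by
    unfold Rr
    rw [← Equiv.sum_comp τ, Fin.sum_univ_four]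
  have eT : Tr f = ((4 * f (τ 0) - 1) ^ 3 + (4 * f (τ 1) - 1) ^ 3 + (4 * f (τ 2) - 1) ^ 3 +
      (4 * f (τ 3) - 1) ^ 3) / 4 := by
    unfold Tr
    rw [← Equiv.sum_comp τ, Fin.sum_univ_four]
  have eS : Sr f = ((4 * f (τ 0) - 1) ^ 4 + (4 * f (τ 1) - 1) ^ 4 + (4 * f (τ 2) - 1) ^ 4 +
      (4 * f (τ 3) - 1) ^ 4) / 4 := by
    unfold Sr
    rw [← Equiv.sum_comp τ, Fin.sum_univ_four]
  have hsum : f (τ 0) + f (τ 1) + f (τ 2) + f (τ 3) = 1 := by
    have : ∑ i, f (τ i) = ∑ i, f i := Equiv.sum_comp τ f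
    rw [← hfs, ← this, Fin.sum_univ_four]
  have h3 := hf (τ 3)
  obtain ⟨t, ht⟩ : ∃ t, t = f (τ 3) := ⟨_, rfl⟩
  obtain ⟨a, ha⟩ : ∃ a, a = f (τ 2) - f (τ 3) := ⟨_, rfl⟩
  obtain ⟨b, hb⟩ : ∃ b, b = f (τ 1) - f (τ 2) := ⟨_, rfl⟩
  obtain ⟨c, hc⟩ : ∃ c, c = f (τ 0) - f (τ 1) := ⟨_, rfl⟩
  have ht0 : 0 ≤ t := by rw [ht]; exact h3
  have ha0 : 0 ≤ a := by rw [ha]; linarith only [h23]
  have hb0 : 0 ≤ b := by rw [hb]; linarith only [h12]
  have hc0 : 0 ≤ c := by rw [hc]; linarith only [h01]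
  have e3 : f (τ 3) = t := ht.symm
  have e2 : f (τ 2) = t + a := by rw [ha, ht]; ring
  have e1 : f (τ 1) = t + a + b := by rw [hb, ha, ht]; ring
  have e0 : f (τ 0) = t + a + b + c := by rw [hc, hb, ha, ht]; ring
  rw [e0, e1, e2, e3] at hsum
  have hs1 : (1 : ℝ) = 4 * t + 3 * a + 2 * b + c := by linarith only [hsum]
  have d0 : 4 * f (τ 0) - 1 = a + 2 * b + 3 * c := by rw [e0]; linarith only [hsum]
  have d1 : 4 * f (τ 1) - 1 = a + 2 * b - c := by rw [e1]; linarith only [hsum]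
  have d2 : 4 * f (τ 2) - 1 = a - 2 * b - c := by rw [e2]; linarith only [hsum]
  have d3 : 4 * f (τ 3) - 1 = -3 * a - 2 * b - c := by rw [e3]; linarith only [hsum]
  rw [d0, d1, d2, d3] at eR eT eS
  have eR' : Rr f = 3 * a ^ 2 + 4 * b ^ 2 + 3 * c ^ 2 + 4 * a * b + 2 * a * c + 4 * b * c := by
    rw [eR]; ring
  have hom : 3 / 10 * Rr f ^ 2 + 13 / 50 * Sr f - 2 / 5 * (Rr f * Tr f) =
      (4 * t + 3 * a + 2 * b + c) * (3 / 10 * Rr f ^ 2 + 13 / 50 * Sr f)
        - 2 / 5 * (Rr f * Tr f) := by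
    rw [← hs1]; ring
  rw [hom, eR', eT, eS]
  have expand : (4 * t + 3 * a + 2 * b + c) * (3 / 10 *
      (3 * a ^ 2 + 4 * b ^ 2 + 3 * c ^ 2 + 4 * a * b + 2 * a * c + 4 * b * c) ^ 2 + 13 / 50 *
      (((a + 2 * b + 3 * c) ^ 4 + (a + 2 * b - c) ^ 4 + (a - 2 * b - c) ^ 4 +
        (-3 * a - 2 * b - c) ^ 4) / 4)) - 2 / 5 *
      ((3 * a ^ 2 + 4 * b ^ 2 + 3 * c ^ 2 + 4 * a * b + 2 * a * c + 4 * b * c) *
      (((a + 2 * b + 3 * c) ^ 3 + (a + 2 * b - c) ^ 3 + (a - 2 * b - c) ^ 3 +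
        (-3 * a - 2 * b - c) ^ 3) / 4)) =
      4 * t * (3 / 10 * (3 * a ^ 2 + 4 * b ^ 2 + 3 * c ^ 2 + 4 * a * b + 2 * a * c + 4 * b * c) ^ 2
        + 13 / 50 * (21 * a ^ 4 + 56 * a ^ 3 * b + 28 * a ^ 3 * c + 72 * a ^ 2 * b ^ 2 +
          72 * a ^ 2 * b * c + 30 * a ^ 2 * c ^ 2 + 32 * a * b ^ 3 + 48 * a * b ^ 2 * c +
          72 * a * b * c ^ 2 + 28 * a * c ^ 3 + 16 * b ^ 4 + 32 * b ^ 3 * c + 72 * b ^ 2 * c ^ 2 +
          56 * b * c ^ 3 + 21 * c ^ 4)) +
      (792 / 25 * a ^ 5 + 528 / 5 * a ^ 4 * b + 264 / 5 * a ^ 4 * c + 4112 / 25 * a ^ 3 * b ^ 2 +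
        4112 / 25 * a ^ 3 * b * c + 1472 / 25 * a ^ 3 * c ^ 2 + 672 / 5 * a ^ 2 * b ^ 3 +
        1008 / 5 * a ^ 2 * b ^ 2 * c + 3792 / 25 * a ^ 2 * b * c ^ 2 + 1056 / 25 * a ^ 2 * c ^ 3 +
        1568 / 25 * a * b ^ 4 + 3136 / 25 * a * b ^ 3 * c + 3792 / 25 * a * b ^ 2 * c ^ 2 +
        2224 / 25 * a * b * c ^ 3 + 584 / 25 * a * c ^ 4 + 448 / 25 * b ^ 5 + 224 / 5 * b ^ 4 * c +
        1504 / 25 * b ^ 3 * c ^ 2 + 1136 / 25 * b ^ 2 * c ^ 3 + 352 / 25 * b * c ^ 4 +
        24 / 25 * c ^ 5) := by ring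
  rw [expand]
  (clear * - ht0 ha0 hb0 hc0; positivity)

lemma edge_norm (lam : ℝ) (h0 : 0 ≤ lam) (h1 : lam < 1) (f : Fin 4 → ℝ) (hf : ∀ i, 0 ≤ f i)
    (hfs : ∑ i, f i = 1) : lam ^ 3 * XX f ≤ XX (fun i => lam * f i + (1 - lam) * (1 / 4)) := by
  have eu : ∀ i, 4 * (lam * f i + (1 - lam) * (1 / 4)) - 1 = lam * (4 * f i - 1) := by
    intro i; ring
  have eR : Rr (fun i => lam * f i + (1 - lam) * (1 / 4)) = lam ^ 2 * Rr f := by
    unfold Rr
    simp_rw [eu, mul_pow]
    rw [← Finset.mul_sum]; ring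
  have eT : Tr (fun i => lam * f i + (1 - lam) * (1 / 4)) = lam ^ 3 * Tr f := by
    unfold Tr
    simp_rw [eu, mul_pow]
    rw [← Finset.mul_sum]; ring
  have eS : Sr (fun i => lam * f i + (1 - lam) * (1 / 4)) = lam ^ 4 * Sr f := by
    unfold Sr
    simp_rw [eu, mul_pow]
    rw [← Finset.mul_sum]; ring
  have hR : 0 ≤ Rr f := by
    unfold Rr
    have : ∀ i ∈ (Finset.univ : Finset (Fin 4)), 0 ≤ (4 * f i - 1) ^ 2 := fun i _ => sq_nonneg _
    have := Finset.sum_nonneg this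
    (clear * -; positivity)
  have hS : 0 ≤ Sr f := by
    unfold Sr
    have : ∀ i ∈ (Finset.univ : Finset (Fin 4)), 0 ≤ (4 * f i - 1) ^ 4 := fun i _ => by (clear * -; positivity)
    have := Finset.sum_nonneg this
    (clear * -; positivity)
  have hE := edge_pos f hf hfs
  have hq : 0 ≤ 3 / 10 * Rr f ^ 2 + 13 / 50 * Sr f := by (clear * - hS; positivity)
  -- a R^2 + b S - c (1+lam) R T ≥ 0
  have hmid : 0 ≤ 3 / 10 * Rr f ^ 2 + 13 / 50 * Sr f - 1 / 5 * (1 + lam) * (Rr f * Tr f) := by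
    rcases le_total (Rr f * Tr f) 0 with h | h
    · have : 1 / 5 * (1 + lam) * (Rr f * Tr f) ≤ 0 :=
        mul_nonpos_of_nonneg_of_nonpos (by positivity) h
      linarith only [hq, this]
    · have : 1 / 5 * (1 + lam) * (Rr f * Tr f) ≤ 2 / 5 * (Rr f * Tr f) := by
        apply mul_le_mul_of_nonneg_right _ h
        linarith only [h1]
      linarith only [hE, this]
  unfold XX
  rw [eR, eT, eS]
  have : 0 ≤ lam ^ 3 * (1 - lam) * (3 / 10 * Rr f ^ 2 + 13 / 50 * Sr f
      - 1 / 5 * (1 + lam) * (Rr f * Tr f)) := by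
    apply mul_nonneg _ hmid
    apply mul_nonneg (by (clear * - h0; positivity))
    linarith only [h1]
  nlinarith only [this]

theorem isCert4 : IsCert 4 FX KK GG 0 0 (9 / 1000) where
  γX_nonneg := le_rfl
  γA_nonneg := le_rfl
  δ_pos := by norm_num
  leaf := by
    apply Finset.sum_nonneg
    intro i _
    have hs : ∑ j : Fin 4, (if j = i then (1 : ℝ) else 0) = 1 := by simp
    rw [FX_norm _ hs]
    have : XX (fun j => if j = i then (1 : ℝ) else 0) = 36 / 25 := by
      unfold XX Rr Tr Sr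
      simp only [Fin.sum_univ_four]
      fin_cases i <;> norm_num [Fin.ext_iff]
    rw [this]; norm_num
  const := by
    unfold FX
    have : XX (fun i : Fin 4 => (1 : ℝ) / ∑ j : Fin 4, (1 : ℝ)) = 0 := by
      unfold XX Rr Tr Sr
      simp only [Fin.sum_univ_four]
      norm_num
    rw [this]; simp
  edge := by
    intro lam h0 h1
    refine ⟨lam ^ 3, by positivity, fun v hv hs => ?_⟩
    unfold FX
    have hS : ∑ i, pl lam v i = ∑ i, v i := sum_pl (by norm_num) lam v
    rw [hS]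
    have hf : ∀ i, 0 ≤ v i / ∑ j, v j := fun i => div_nonneg (hv i) hs.le
    have hfs : ∑ i, v i / ∑ j, v j = 1 := by rw [← Finset.sum_div, div_self hs.ne']
    have e : (fun i => pl lam v i / ∑ j, v j) =
        fun i => lam * (v i / ∑ j, v j) + (1 - lam) * (1 / 4) := by
      funext i
      unfold pl mean
      push_cast
      (clear * - hs; field_simp)
    rw [e]
    have h := edge_norm lam h0 h1 _ hf hfs
    have hp : 0 ≤ (∑ i, v i) / 4 := by positivity
    calc lam ^ 3 * ((∑ i, v i) / 4 * XX fun i => v i / ∑ j, v j)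
        = (∑ i, v i) / 4 * (lam ^ 3 * XX fun i => v i / ∑ j, v j) := by ring
      _ ≤ _ := mul_le_mul_of_nonneg_left h hp
  K_nonneg := by
    intro v hv
    obtain ⟨hs, hf, hfs, _⟩ := norm_pos v hv
    have := val_pos LX (fun l hl => (wtLX l hl).trans (by norm_num)) Ri chkRi _ hf hfs
    unfold KK
    positivity
  G_nonneg := by
    intro v hv
    obtain ⟨hs, hf, hfs, _⟩ := norm_pos v hv
    have := val_pos LX (fun l hl => (wtLX l hl).trans (by norm_num)) Rho chkRho _ hf hfs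
    unfold GG
    positivity
  pairX := by
    intro v w hv hw
    obtain ⟨hs, hf, hfs, ev⟩ := norm_pos v hv
    obtain ⟨ht, hg, hgs, ew⟩ := norm_pos w hw
    set s := ∑ i, v i
    set t := ∑ i, w i
    have key := pairX_norm _ _ hf hfs hg hgs
    rw [ev, ew, KK_hom s hs, KK_hom t ht, FX_hom s hs, FX_hom t ht,
      avgPerm_hom FX (fun c hc v => FX_hom c hc v) s t hs ht]
    have hst : 0 < s * t := mul_pos hs ht
    nlinarith only [mul_le_mul_of_nonneg_left key hst.le, key, hst]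
  pairA := by
    intro v w hv hw
    obtain ⟨hs, hf, hfs, ev⟩ := norm_pos v hv
    obtain ⟨ht, hg, hgs, ew⟩ := norm_pos w hw
    set s := ∑ i, v i
    set t := ∑ i, w i
    have key := pairA_norm _ _ hf hfs hg hgs
    rw [ev, ew, GG_hom s hs, GG_hom t ht, FX_hom s hs, FX_hom t ht, chi_hom s hs, chi_hom t ht,
      mean_hom, mean_hom, avgPerm_hom chi (fun c hc v => chi_hom c hc v) s t hs ht]
    have hst : 0 < s * t := mul_pos hs ht
    have m1 := mean_norm _ hfs
    have m2 := mean_norm _ hgs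
    rw [m1, m2] at key ⊢
    have key2 := mul_le_mul_of_nonneg_left key hst.le
    refine le_trans (le_of_eq ?_) (key2.trans (le_of_eq ?_))
    · field_simp
      ring
    · ring

end Vale.Agent.P154.Q4
end

section

/-!
# P154: expectations of homogeneous functionals of the likelihood vector

`ev ν q lam n F` is the expectation over the Galton-Watson tree of `∑_η F (likelihood vector of η)`.
For nonnegative superlinear `F` this is nondecreasing in `n` and bounded, so its increments tend to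
zero.
-/

open scoped BigOperators ENNReal
open Filter Topology

namespace Vale.Agent.P154

section
variable {q : ℕ} {lam : ℝ} {ν : ℕ → ℝ}

/-- sum of a functional over the channel of a tree -/
noncomputable def tsm (q : ℕ) (lam : ℝ) (F : (Fin q → ℝ) → ℝ) (n : ℕ) (t : Tree n) : ℝ :=
  ∑ η : Spins q n t, F (fun i => lik q lam n t i η)

/-- expectation of a functional of the likelihood vector -/
noncomputable def ev (ν : ℕ → ℝ) (q : ℕ) (lam : ℝ) (n : ℕ) (F : (Fin q → ℝ) → ℝ) : ℝ :=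
  ∑' t : Tree n, treeProb ν n t * tsm q lam F n t

/-- `|F v| ≤ C * mean v` on nonnegative vectors -/
def HomBdd (F : (Fin q → ℝ) → ℝ) (C : ℝ) : Prop :=
  ∀ v : Fin q → ℝ, (∀ i, 0 ≤ v i) → |F v| ≤ C * mean v

theorem tsum_ofReal_offspring (hν : ∀ k, 0 ≤ ν k) (hs : HasSum ν 1) :
    ∑' k, ENNReal.ofReal (ν k) = 1 := by
  rw [← ENNReal.ofReal_tsum_of_nonneg hν hs.summable, hs.tsum_eq, ENNReal.ofReal_one]

theorem hasSum_treeProb (hν : ∀ k, 0 ≤ ν k) (hs : HasSum ν 1) (n : ℕ) :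
    HasSum (treeProb ν n) 1 := by
  have h1 : ∑' t : Tree n, ENNReal.ofReal (treeProb ν n t) = 1 := anti_total hν hs n
  have h2 : Summable (fun t : Tree n => (ENNReal.ofReal (treeProb ν n t)).toReal) :=
    ENNReal.summable_toReal (by rw [h1]; exact ENNReal.one_ne_top)
  have h3 : ∀ t : Tree n, (ENNReal.ofReal (treeProb ν n t)).toReal = treeProb ν n t :=
    fun t => ENNReal.toReal_ofReal (treeProb_nonneg hν n t)
  simp_rw [h3] at h2
  have h4 : ∑' t : Tree n, treeProb ν n t = 1 := by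
    have h5 := ENNReal.tsum_toReal_eq (f := fun t : Tree n => ENNReal.ofReal (treeProb ν n t))
      (fun t => ENNReal.ofReal_ne_top)
    rw [h1] at h5
    simp_rw [h3] at h5
    rw [← h5]
    exact ENNReal.toReal_one
  rw [← h4]
  exact h2.hasSum

theorem sum_mean_lik (hq : 2 ≤ q) (n : ℕ) (t : Tree n) :
    ∑ η : Spins q n t, mean (fun i => lik q lam n t i η) = 1 := by
  have h := evid_sum hq lam n t
  simp_rw [evid_eq] at h
  exact h

theorem abs_tsm_le (hq : 2 ≤ q) (hp : ∀ i j : Fin q, 0 ≤ potts q lam i j)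
    {F : (Fin q → ℝ) → ℝ} {C : ℝ} (hF : HomBdd F C) (n : ℕ) (t : Tree n) :
    |tsm q lam F n t| ≤ C := by
  unfold tsm
  calc |∑ η : Spins q n t, F (fun i => lik q lam n t i η)|
      ≤ ∑ η : Spins q n t, |F (fun i => lik q lam n t i η)| := Finset.abs_sum_le_sum_abs _ _
    _ ≤ ∑ η : Spins q n t, C * mean (fun i => lik q lam n t i η) :=
        Finset.sum_le_sum fun η _ => hF _ fun i => lik_nonneg hp n t i η
    _ = C := by rw [← Finset.mul_sum, sum_mean_lik hq, mul_one]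

theorem summable_ev (hq : 2 ≤ q) (hp : ∀ i j : Fin q, 0 ≤ potts q lam i j)
    (hν : ∀ k, 0 ≤ ν k) (hs : HasSum ν 1) {F : (Fin q → ℝ) → ℝ} {C : ℝ} (hF : HomBdd F C)
    (n : ℕ) : Summable (fun t : Tree n => treeProb ν n t * tsm q lam F n t) := by
  refine Summable.of_norm_bounded (g := fun t : Tree n => treeProb ν n t * C)
    ((hasSum_treeProb hν hs n).summable.mul_right C) fun t => ?_
  rw [Real.norm_eq_abs, abs_mul, abs_of_nonneg (treeProb_nonneg hν n t)]
  exact mul_le_mul_of_nonneg_left (abs_tsm_le hq hp hF n t) (treeProb_nonneg hν n t)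

theorem ev_add (hq : 2 ≤ q) (hp : ∀ i j : Fin q, 0 ≤ potts q lam i j)
    (hν : ∀ k, 0 ≤ ν k) (hs : HasSum ν 1) {F G : (Fin q → ℝ) → ℝ} {C D : ℝ}
    (hF : HomBdd F C) (hG : HomBdd G D) (n : ℕ) :
    ev ν q lam n (fun v => F v + G v) = ev ν q lam n F + ev ν q lam n G := by
  unfold ev
  rw [← (summable_ev hq hp hν hs hF n).tsum_add (summable_ev hq hp hν hs hG n)]
  refine tsum_congr fun t => ?_
  unfold tsm
  rw [Finset.sum_add_distrib]
  ring

theorem ev_const_mul (a : ℝ) (F : (Fin q → ℝ) → ℝ) (n : ℕ) :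
    ev ν q lam n (fun v => a * F v) = a * ev ν q lam n F := by
  unfold ev
  rw [← tsum_mul_left]
  refine tsum_congr fun t => ?_
  unfold tsm
  rw [← Finset.mul_sum]
  ring

theorem ev_mono (hq : 2 ≤ q) (hp : ∀ i j : Fin q, 0 ≤ potts q lam i j)
    (hν : ∀ k, 0 ≤ ν k) (hs : HasSum ν 1) {F G : (Fin q → ℝ) → ℝ} {C D : ℝ}
    (hF : HomBdd F C) (hG : HomBdd G D)
    (h : ∀ v : Fin q → ℝ, (∀ i, 0 ≤ v i) → F v ≤ G v) (n : ℕ) :
    ev ν q lam n F ≤ ev ν q lam n G := by
  unfold ev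
  refine (summable_ev hq hp hν hs hF n).tsum_le_tsum (fun t => ?_) (summable_ev hq hp hν hs hG n)
  refine mul_le_mul_of_nonneg_left ?_ (treeProb_nonneg hν n t)
  exact Finset.sum_le_sum fun η _ => h _ fun i => lik_nonneg hp n t i η

theorem ev_mean (hq : 2 ≤ q) (hν : ∀ k, 0 ≤ ν k) (hs : HasSum ν 1) (n : ℕ) :
    ev ν q lam n mean = 1 := by
  unfold ev tsm
  simp_rw [sum_mean_lik hq, mul_one]
  exact (hasSum_treeProb hν hs n).tsum_eq

theorem homBdd_mean : HomBdd (mean : (Fin q → ℝ) → ℝ) 1 := by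
  intro v hv
  rw [one_mul, abs_of_nonneg]
  exact div_nonneg (Finset.sum_nonneg fun i _ => hv i) (Nat.cast_nonneg q)

theorem HomBdd.add {F G : (Fin q → ℝ) → ℝ} {C D : ℝ} (hF : HomBdd F C) (hG : HomBdd G D) :
    HomBdd (fun v => F v + G v) (C + D) := by
  intro v hv
  rw [add_mul]
  exact (abs_add_le _ _).trans (add_le_add (hF v hv) (hG v hv))

theorem HomBdd.const_mul {F : (Fin q → ℝ) → ℝ} {C : ℝ} (hF : HomBdd F C) (a : ℝ) :
    HomBdd (fun v => a * F v) (|a| * C) := by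
  intro v hv
  rw [abs_mul, mul_assoc]
  exact mul_le_mul_of_nonneg_left (hF v hv) (abs_nonneg a)

theorem HomBdd.comp_pl (hq : 2 ≤ q) (hp : ∀ i j : Fin q, 0 ≤ potts q lam i j)
    {F : (Fin q → ℝ) → ℝ} {C : ℝ} (hF : HomBdd F C) : HomBdd (fun v => F (pl lam v)) C := by
  intro v hv
  have h1 : ∀ i, 0 ≤ pl lam v i := by
    intro i
    rw [← edge_eq lam hq i v]
    exact Finset.sum_nonneg fun j _ => mul_nonneg (hp i j) (hv j)
  have h2 := hF (pl lam v) h1
  rwa [mean_pl hq] at h2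

theorem homBdd_chi (hq : 2 ≤ q) : HomBdd (chi : (Fin q → ℝ) → ℝ) 1 := by
  intro v hv
  have hs0 : 0 ≤ ∑ i, v i := Finset.sum_nonneg fun i _ => hv i
  rcases hs0.eq_or_lt with hs | hs
  · have hz : ∀ i, v i = 0 := fun i =>
      (Finset.sum_eq_zero_iff_of_nonneg (fun i _ => hv i)).1 hs.symm i (Finset.mem_univ i)
    have hc : chi v = 0 := by unfold chi; simp [hz]
    rw [hc, abs_zero, one_mul]
    unfold mean
    rw [← hs, zero_div]
  · rw [abs_of_nonneg (chi_nonneg hq hs), one_mul]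
    exact chi_le_mean hq hv hs

/-! ### Monotonicity for superlinear functionals -/

/-- superlinear: concave and homogeneous on the nonnegative cone -/
def SupLin (F : (Fin q → ℝ) → ℝ) : Prop :=
  ∀ (ι : Type) (s : Finset ι) (w : ι → ℝ) (v : ι → Fin q → ℝ), (∀ a ∈ s, 0 ≤ w a) →
    (∀ a ∈ s, ∀ i, 0 ≤ v a i) → ∑ a ∈ s, w a * F (v a) ≤ F (fun i => ∑ a ∈ s, w a * v a i)

theorem tsm_le_of_supLin (hq : 2 ≤ q) (hp : ∀ i j : Fin q, 0 ≤ potts q lam i j)
    {F : (Fin q → ℝ) → ℝ} (hF : SupLin F) (n : ℕ) (t : Tree (n + 1)) :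
    tsm q lam F n (anti_trunc n t) ≤ tsm q lam F (n + 1) t := by
  unfold tsm
  have hs : ∀ i : Fin q, ∑ j, potts q lam i j = 1 := potts_sum hq lam
  calc ∑ η : Spins q n (anti_trunc n t), F (fun i => lik q lam n (anti_trunc n t) i η)
      = ∑ η' : Spins q (n + 1) t, ∑ η : Spins q n (anti_trunc n t),
          anti_ext q lam n t η η' * F (fun i => lik q lam n (anti_trunc n t) i η) := by
        rw [Finset.sum_comm]
        refine Finset.sum_congr rfl fun η _ => ?_
        rw [← Finset.sum_mul, anti_ext_sum hs n t η, one_mul]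
    _ ≤ ∑ η' : Spins q (n + 1) t, F (fun i => ∑ η : Spins q n (anti_trunc n t),
          anti_ext q lam n t η η' * lik q lam n (anti_trunc n t) i η) := by
        refine Finset.sum_le_sum fun η' _ => ?_
        -- transport to a type in `Type`
        exact hF (Spins q n (anti_trunc n t)) Finset.univ (fun η => anti_ext q lam n t η η')
          (fun η i => lik q lam n (anti_trunc n t) i η)
          (fun η _ => anti_ext_nonneg hp n t η η')
          (fun η _ i => lik_nonneg hp n (anti_trunc n t) i η)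
    _ = ∑ η' : Spins q (n + 1) t, F (fun i => lik q lam (n + 1) t i η') := by
        simp_rw [anti_lik_ext]

theorem ev_eq_toReal (hν : ∀ k, 0 ≤ ν k) {F : (Fin q → ℝ) → ℝ} (n : ℕ)
    (h0 : ∀ t : Tree n, 0 ≤ tsm q lam F n t) :
    ev ν q lam n F = (expT ν n fun t => ENNReal.ofReal (tsm q lam F n t)).toReal :=
  tsum_treeProb_eq hν n (tsm q lam F n) h0

theorem tsm_nonneg (hp : ∀ i j : Fin q, 0 ≤ potts q lam i j)
    {F : (Fin q → ℝ) → ℝ} (h0 : ∀ v : Fin q → ℝ, (∀ i, 0 ≤ v i) → 0 ≤ F v) (n : ℕ) (t : Tree n) :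
    0 ≤ tsm q lam F n t :=
  Finset.sum_nonneg fun η _ => h0 _ fun i => lik_nonneg hp n t i η

theorem expT_tsm_ne_top (hq : 2 ≤ q) (hp : ∀ i j : Fin q, 0 ≤ potts q lam i j)
    (hν : ∀ k, 0 ≤ ν k) (hs : HasSum ν 1) {F : (Fin q → ℝ) → ℝ} {C : ℝ} (hF : HomBdd F C)
    (n : ℕ) : expT ν n (fun t => ENNReal.ofReal (tsm q lam F n t)) ≠ ⊤ := by
  have h1 : expT ν n (fun t => ENNReal.ofReal (tsm q lam F n t))
      ≤ expT ν n (fun _ => ENNReal.ofReal C * 1) := by
    apply expT_mono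
    intro t
    rw [mul_one]
    exact ENNReal.ofReal_le_ofReal ((le_abs_self _).trans (abs_tsm_le hq hp hF n t))
  rw [expT_const_mul, expT_one hν (tsum_ofReal_offspring hν hs), mul_one] at h1
  exact ne_top_of_le_ne_top ENNReal.ofReal_ne_top h1

theorem ev_le_succ (hq : 2 ≤ q) (hp : ∀ i j : Fin q, 0 ≤ potts q lam i j)
    (hν : ∀ k, 0 ≤ ν k) (hs : HasSum ν 1) {F : (Fin q → ℝ) → ℝ} {C : ℝ} (hF : HomBdd F C)
    (h0 : ∀ v : Fin q → ℝ, (∀ i, 0 ≤ v i) → 0 ≤ F v) (hsup : SupLin F) (n : ℕ) :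
    ev ν q lam n F ≤ ev ν q lam (n + 1) F := by
  rw [ev_eq_toReal hν n (tsm_nonneg hp h0 n), ev_eq_toReal hν (n + 1) (tsm_nonneg hp h0 (n + 1))]
  refine ENNReal.toReal_mono (expT_tsm_ne_top hq hp hν hs hF (n + 1)) ?_
  have h1 := anti_law_trunc hν hs n (fun t => ENNReal.ofReal (tsm q lam F n t))
  change _ = expT ν n (fun t => ENNReal.ofReal (tsm q lam F n t)) at h1
  rw [← h1]
  refine ENNReal.tsum_le_tsum fun t => ?_
  refine mul_le_mul_right ?_ _
  exact ENNReal.ofReal_le_ofReal (tsm_le_of_supLin hq hp hsup n t)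

/-! ### Likelihoods and the channel -/

theorem lik_succ_eq (hq : 2 ≤ q) (n k : ℕ) (t : Fin k → Tree n)
    (η : (c : Fin k) → Spins q n (t c)) (i : Fin q) :
    lik q lam (n + 1) ⟨k, t⟩ i η = ∏ c : Fin k, pl lam (fun j => lik q lam n (t c) j (η c)) i := by
  change ∏ c : Fin k, ∑ j : Fin q, potts q lam i j * lik q lam n (t c) j (η c) = _
  exact Finset.prod_congr rfl fun c _ => edge_eq lam hq i _

theorem pl_nonneg (hq : 2 ≤ q) (hp : ∀ i j : Fin q, 0 ≤ potts q lam i j) (v : Fin q → ℝ)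
    (hv : ∀ i, 0 ≤ v i) (i : Fin q) : 0 ≤ pl lam v i := by
  rw [← edge_eq lam hq i v]
  exact Finset.sum_nonneg fun j _ => mul_nonneg (hp i j) (hv j)

/-- If the expectation of `chi` tends to zero there is no reconstruction. -/
theorem nonrec_of_ev_chi (hq : 2 ≤ q) (hp : ∀ i j : Fin q, 0 ≤ potts q lam i j)
    (hν : ∀ k, 0 ≤ ν k) (hs : HasSum ν 1)
    (h : Tendsto (fun n => ev ν q lam n chi) atTop (𝓝 0)) : Nonreconstruction ν q lam := by
  have hchi0 : ∀ v : Fin q → ℝ, (∀ i, 0 ≤ v i) → 0 ≤ chi v := by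
    intro v hv
    have hs0 : 0 ≤ ∑ i, v i := Finset.sum_nonneg fun i _ => hv i
    rcases hs0.eq_or_lt with hs | hs
    · have hz : ∀ i, v i = 0 := fun i =>
        (Finset.sum_eq_zero_iff_of_nonneg (fun i _ => hv i)).1 hs.symm i (Finset.mem_univ i)
      have hc : chi v = 0 := by unfold chi; simp [hz]
      exact hc.ge
    · exact chi_nonneg hq hs
  refine nonrec_of_eval hν (tsum_ofReal_offspring hν hs) hq hp ?_
  have e : ∀ n, eval' ν q lam n = ENNReal.ofReal (ev ν q lam n chi) := by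
    intro n
    rw [ev_eq_toReal hν n (tsm_nonneg hp hchi0 n), ENNReal.ofReal_toReal]
    · rfl
    · exact expT_tsm_ne_top hq hp hν hs (homBdd_chi hq) n
  have h2 := ENNReal.tendsto_ofReal h
  rw [ENNReal.ofReal_zero] at h2
  exact h2.congr fun n => (e n).symm

/-! ### Symmetry -/

theorem sum_lik_perm (hq : 2 ≤ q) : ∀ (n : ℕ) (t : Tree n) (τ : Equiv.Perm (Fin q))
    (F : (Fin q → ℝ) → ℝ),
    ∑ η : Spins q n t, F (fun i => lik q lam n t (τ i) η)
      = ∑ η : Spins q n t, F (fun i => lik q lam n t i η)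
  | 0, t, τ, F => by
    change ∑ η : Fin q, F (fun i => if τ i = η then (1 : ℝ) else 0)
      = ∑ η : Fin q, F (fun i => if i = η then (1 : ℝ) else 0)
    rw [← Equiv.sum_comp τ (fun η => F (fun i => if τ i = η then (1 : ℝ) else 0))]
    refine Finset.sum_congr rfl fun η _ => ?_
    congr 1
    funext i
    simp only [EmbeddingLike.apply_eq_iff_eq]
  | n + 1, ⟨k, t⟩, τ, F => by
    change ∑ η : ((c : Fin k) → Spins q n (t c)), F (fun i => lik q lam (n + 1) ⟨k, t⟩ (τ i) η)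
      = ∑ η : ((c : Fin k) → Spins q n (t c)), F (fun i => lik q lam (n + 1) ⟨k, t⟩ i η)
    have hpl : ∀ (v : Fin q → ℝ) (i : Fin q), pl lam v (τ i) = pl lam (fun j => v (τ j)) i := by
      intro v i
      unfold pl mean
      rw [Equiv.sum_comp τ v]
    have e1 : ∀ η : ((c : Fin k) → Spins q n (t c)),
        (fun i => lik q lam (n + 1) ⟨k, t⟩ (τ i) η)
          = (fun i => ∏ c : Fin k, pl lam (fun j => lik q lam n (t c) (τ j) (η c)) i) := by
      intro η
      funext i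
      rw [lik_succ_eq hq n k t η (τ i)]
      exact Finset.prod_congr rfl fun c _ => hpl _ i
    have e2 : ∀ η : ((c : Fin k) → Spins q n (t c)),
        (fun i => lik q lam (n + 1) ⟨k, t⟩ i η)
          = (fun i => ∏ c : Fin k, pl lam (fun j => lik q lam n (t c) j (η c)) i) := by
      intro η
      funext i
      exact lik_succ_eq hq n k t η i
    simp_rw [e1, e2]
    -- general statement about families of symmetric channels
    have key : ∀ (k : ℕ) (I : Fin k → Type) [∀ c, Fintype (I c)]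
        (M N : (c : Fin k) → I c → Fin q → ℝ),
        (∀ c (H : (Fin q → ℝ) → ℝ), ∑ η, H (M c η) = ∑ η, H (N c η)) →
        ∀ H : (Fin q → ℝ) → ℝ, ∑ η : ((c : Fin k) → I c), H (fun i => ∏ c, M c (η c) i)
          = ∑ η : ((c : Fin k) → I c), H (fun i => ∏ c, N c (η c) i) := by
      intro k
      induction k with
      | zero =>
        intro I _ M N _ H
        simp
      | succ k ih =>
        intro I _ M N hMN H
        rw [← Equiv.sum_comp (Fin.consEquiv I), ← Equiv.sum_comp (Fin.consEquiv I),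
          Fintype.sum_prod_type, Fintype.sum_prod_type]
        simp only [Fin.consEquiv_apply, Fin.prod_univ_succ, Fin.cons_zero, Fin.cons_succ]
        have h1 : ∀ x : I 0, ∑ y : ((c : Fin k) → I c.succ),
            H (fun i => M 0 x i * ∏ c : Fin k, M c.succ (y c) i)
            = ∑ y : ((c : Fin k) → I c.succ),
            H (fun i => M 0 x i * ∏ c : Fin k, N c.succ (y c) i) := fun x =>
          ih (fun c => I c.succ) (fun c => M c.succ) (fun c => N c.succ) (fun c => hMN c.succ)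
            (fun u => H (fun i => M 0 x i * u i))
        simp_rw [h1]
        rw [Finset.sum_comm]
        rw [Finset.sum_comm (s := (Finset.univ : Finset (I 0)))
          (t := (Finset.univ : Finset ((c : Fin k) → I c.succ)))]
        refine Finset.sum_congr rfl fun y _ => ?_
        exact hMN 0 (fun u => H (fun i => u i * ∏ c : Fin k, N c.succ (y c) i))
    exact key k (fun c => Spins q n (t c))
      (fun c η => pl lam (fun j => lik q lam n (t c) (τ j) η))
      (fun c η => pl lam (fun j => lik q lam n (t c) j η))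
      (fun c H => sum_lik_perm hq n (t c) τ (fun v => H (pl lam v))) F

theorem pl_perm (v : Fin q → ℝ) (σ : Equiv.Perm (Fin q)) (i : Fin q) :
    pl lam (fun j => v (σ j)) i = pl lam v (σ i) := by
  unfold pl mean
  rw [Equiv.sum_comp σ v]

theorem ev_le_const (hq : 2 ≤ q) (hp : ∀ i j : Fin q, 0 ≤ potts q lam i j)
    (hν : ∀ k, 0 ≤ ν k) (hs : HasSum ν 1) {F : (Fin q → ℝ) → ℝ} {C : ℝ} (hF : HomBdd F C)
    (n : ℕ) : ev ν q lam n F ≤ C := by
  have h1 := ev_mono hq hp hν hs hF ((homBdd_mean (q := q)).const_mul C)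
    (fun v hv => (le_abs_self _).trans (hF v hv)) n
  rwa [ev_const_mul, ev_mean hq hν hs, mul_one] at h1

theorem tendsto_ev_sub_of_supLin (hq : 2 ≤ q) (hp : ∀ i j : Fin q, 0 ≤ potts q lam i j)
    (hν : ∀ k, 0 ≤ ν k) (hs : HasSum ν 1) {F : (Fin q → ℝ) → ℝ} {C : ℝ} (hF : HomBdd F C)
    (h0 : ∀ v : Fin q → ℝ, (∀ i, 0 ≤ v i) → 0 ≤ F v) (hsup : SupLin F) :
    Tendsto (fun n => ev ν q lam (n + 1) F - ev ν q lam n F) atTop (𝓝 0) := by
  have hmono : Monotone (fun n => ev ν q lam n F) :=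
    monotone_nat_of_le_succ fun n => ev_le_succ hq hp hν hs hF h0 hsup n
  have hbdd : BddAbove (Set.range fun n => ev ν q lam n F) := by
    refine ⟨C, ?_⟩
    rintro _ ⟨n, rfl⟩
    exact ev_le_const hq hp hν hs hF n
  have hlim := tendsto_atTop_ciSup hmono hbdd
  have h1 := (tendsto_add_atTop_iff_nat 1).2 hlim
  have h2 := h1.sub hlim
  rwa [sub_self] at h2

end

/-! ### Three spins -/

section
variable {lam : ℝ} {ν : ℕ → ℝ}

/-- cyclic rotation of the three spins -/
def rot3 : Equiv.Perm (Fin 3) := finRotate 3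

theorem ev_congr (hp : ∀ i j : Fin 3, 0 ≤ potts 3 lam i j)
    {F G : (Fin 3 → ℝ) → ℝ} (h : ∀ v : Fin 3 → ℝ, (∀ i, 0 ≤ v i) → F v = G v) (n : ℕ) :
    ev ν 3 lam n F = ev ν 3 lam n G := by
  unfold ev tsm
  refine tsum_congr fun t => ?_
  congr 1
  exact Finset.sum_congr rfl fun η _ => h _ fun i => lik_nonneg hp n t i η

theorem pl_rot (v : Fin 3 → ℝ) (σ : Equiv.Perm (Fin 3)) :
    pl lam (fun i => v (σ i)) = fun i => pl lam v (σ i) := by
  funext i
  exact pl_perm v σ i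

theorem regular_hasSum' (d : ℕ) : HasSum (regularOffspring d) 1 := by
  have := hasSum_single (f := regularOffspring d) d (fun k hk => by simp [regularOffspring, hk])
  simpa [regularOffspring] using this

theorem regular_nonneg' (d k : ℕ) : 0 ≤ regularOffspring d k := by
  unfold regularOffspring
  split_ifs <;> norm_num

theorem potts3_half_nonneg (i j : Fin 3) : 0 ≤ potts 3 (-1 / 2) i j := by
  refine anti_potts_nonneg (by norm_num) ?_ (by norm_num) i j
  norm_num

end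

end Vale.Agent.P154
end
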