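import Vale.Agent.P154.Bdl.B6

set_option linter.all false

section

/-!
# P154: monotonicity of nonreconstruction on regular trees, three spins

More children and a stronger channel (of the same sign) give more information.
-/

open scoped BigOperators ENNReal
open Filter Topology

namespace Vale.Agent.P154

section

/-- the `d`-ary tree cut at level `n` -/
def regT (d : ℕ) : (n : ℕ) → Tree n
  | 0 => ()
  | n + 1 => (⟨d, fun _ => regT d n⟩ : Σ k : ℕ, (Fin k → Tree n))

theorem treeProb_regT (d : ℕ) : ∀ n : ℕ, treeProb (regularOffspring d) n (regT d n) = 1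
  | 0 => rfl
  | n + 1 => by
    change regularOffspring d d * ∏ c : Fin d, treeProb (regularOffspring d) n (regT d n) = 1
    rw [treeProb_regT d n]
    simp only [regularOffspring, ↓reduceIte, Finset.prod_const_one, mul_one]

theorem treeProb_regular_ne (d : ℕ) : ∀ (n : ℕ) (t : Tree n), t ≠ regT d n →
    treeProb (regularOffspring d) n t = 0
  | 0, t, h => absurd (Subsingleton.elim t (regT d 0)) h
  | n + 1, ⟨k, t⟩, h => by
    change regularOffspring d k * ∏ c : Fin k, treeProb (regularOffspring d) n (t c) = 0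
    by_cases hk : k = d
    · subst hk
      have h2 : ∃ c, t c ≠ regT k n := by
        by_contra hcon
        push Not at hcon
        apply h
        have : t = fun _ => regT k n := funext hcon
        rw [this]
        rfl
      obtain ⟨c, hc⟩ := h2
      rw [Finset.prod_eq_zero (Finset.mem_univ c) (treeProb_regular_ne k n (t c) hc), mul_zero]
    · have : regularOffspring d k = 0 := by simp [regularOffspring, hk]
      rw [this, zero_mul]

theorem advantage_regular {q : ℕ} {lam : ℝ} (hq : 1 ≤ q)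
    (hP : ∀ i j : Fin q, 0 ≤ potts q lam i j) (d n : ℕ) :
    advantage (regularOffspring d) q lam n = anti_G q lam n (regT d n) := by
  unfold advantage
  rw [tsum_eq_single (regT d n)]
  · rw [treeProb_regT, one_mul, anti_G_eq hq hP]
  · intro t ht
    rw [treeProb_regular_ne d n t ht, zero_mul]

/-! ### Products of families of vectors -/

theorem SupLin.comp_mul {F : (Fin 3 → ℝ) → ℝ} (hF : SupLin F) (u : Fin 3 → ℝ)
    (hu : ∀ i, 0 ≤ u i) : SupLin (fun v => F (fun i => u i * v i)) := by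
  intro ι s w v hw hv
  have h := hF ι s w (fun a i => u i * v a i) hw (fun a ha i => mul_nonneg (hu i) (hv a ha i))
  refine h.trans (le_of_eq ?_)
  congr 1
  funext i
  rw [Finset.mul_sum]
  refine Finset.sum_congr rfl fun a _ => ?_
  ring

theorem SupLin.comp_pl {F : (Fin 3 → ℝ) → ℝ} (hF : SupLin F) {lam : ℝ}
    (hp : ∀ i j : Fin 3, 0 ≤ potts 3 lam i j) : SupLin (fun v => F (pl lam v)) := by
  intro ι s w v hw hv
  have h := hF ι s w (fun a => pl lam (v a)) hw
    (fun a ha => pl_nonneg (by norm_num) hp (v a) (hv a ha))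
  refine h.trans (le_of_eq ?_)
  congr 1
  funext i
  unfold pl mean
  rw [Finset.mul_sum, Finset.sum_comm, Finset.sum_div, Finset.mul_sum, ← Finset.sum_add_distrib]
  refine Finset.sum_congr rfl fun a _ => ?_
  rw [← Finset.mul_sum]
  ring

/-- domination is preserved by products -/
theorem prod_dom {I I' : Type} [Fintype I] [Fintype I'] (m : I → Fin 3 → ℝ)
    (m' : I' → Fin 3 → ℝ) (hm : ∀ a i, 0 ≤ m a i) (hm' : ∀ a i, 0 ≤ m' a i)
    (hdom : ∀ F : (Fin 3 → ℝ) → ℝ, SupLin F → ∑ a, F (m a) ≤ ∑ a, F (m' a)) :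
    ∀ (k : ℕ) (F : (Fin 3 → ℝ) → ℝ), SupLin F →
      ∑ η : Fin k → I, F (fun i => ∏ c, m (η c) i)
        ≤ ∑ η : Fin k → I', F (fun i => ∏ c, m' (η c) i) := by
  intro k
  induction k with
  | zero => intro F _; simp only [Finset.univ_unique, Finset.univ_eq_empty, Finset.prod_empty,
                         Finset.sum_const, Finset.card_singleton, one_smul, Std.le_refl]
  | succ k ih =>
    intro F hF
    rw [← Equiv.sum_comp (Fin.consEquiv fun _ => I), ← Equiv.sum_comp (Fin.consEquiv fun _ => I'),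
      Fintype.sum_prod_type, Fintype.sum_prod_type]
    simp only [Fin.consEquiv_apply, Fin.prod_univ_succ, Fin.cons_zero, Fin.cons_succ]
    calc ∑ x : I, ∑ y : Fin k → I, F (fun i => m x i * ∏ c : Fin k, m (y c) i)
        ≤ ∑ x : I, ∑ y : Fin k → I', F (fun i => m x i * ∏ c : Fin k, m' (y c) i) :=
          Finset.sum_le_sum fun x _ => ih (fun v => F (fun i => m x i * v i))
            (hF.comp_mul (m x) (hm x))
      _ = ∑ y : Fin k → I', ∑ x : I, F (fun i => m x i * ∏ c : Fin k, m' (y c) i) :=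
          Finset.sum_comm
      _ ≤ ∑ y : Fin k → I', ∑ x : I', F (fun i => m' x i * ∏ c : Fin k, m' (y c) i) := by
          refine Finset.sum_le_sum fun y _ => ?_
          have h1 := hdom (fun v => F (fun i => (∏ c : Fin k, m' (y c) i) * v i))
            (hF.comp_mul _ fun i => Finset.prod_nonneg fun c _ => hm' (y c) i)
          refine le_trans (le_of_eq ?_) (h1.trans (le_of_eq ?_))
          · refine Finset.sum_congr rfl fun x _ => ?_
            congr 1
            funext i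
            ring
          · refine Finset.sum_congr rfl fun x _ => ?_
            congr 1
            funext i
            ring
      _ = _ := Finset.sum_comm

/-- dropping factors loses information -/
theorem prod_drop {I : Type} [Fintype I] (m : I → Fin 3 → ℝ) (hm : ∀ a i, 0 ≤ m a i)
    (hs : ∀ i, ∑ a, m a i = 1) (k : ℕ) : ∀ (j : ℕ) (F : (Fin 3 → ℝ) → ℝ), SupLin F →
      ∑ η : Fin (k + j) → I, F (fun i => ∏ c, m (η c) i)
        ≤ ∑ η : Fin k → I, F (fun i => ∏ c, m (η c) i) := by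
  intro j
  induction j with
  | zero => intro F _; exact le_rfl
  | succ j ih =>
    intro F hF
    refine le_trans ?_ (ih F hF)
    change ∑ η : Fin (k + j + 1) → I, F (fun i => ∏ c, m (η c) i) ≤ _
    rw [← Equiv.sum_comp (Fin.consEquiv fun _ => I), Fintype.sum_prod_type]
    simp only [Fin.consEquiv_apply, Fin.prod_univ_succ, Fin.cons_zero, Fin.cons_succ]
    rw [Finset.sum_comm]
    refine Finset.sum_le_sum fun y _ => ?_
    have h := hF I Finset.univ (fun _ => 1) (fun x i => m x i * ∏ c : Fin (k + j), m (y c) i)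
      (fun _ _ => zero_le_one) (fun x _ i => mul_nonneg (hm x i)
        (Finset.prod_nonneg fun c _ => hm (y c) i))
    simp only [one_mul] at h
    refine h.trans (le_of_eq ?_)
    congr 1
    funext i
    rw [← Finset.sum_mul, hs i, one_mul]

theorem pl_pl (a b : ℝ) (v : Fin 3 → ℝ) : pl a (pl b v) = pl (a * b) v := by
  funext i
  unfold pl mean
  simp only [Fin.sum_univ_three]
  push_cast
  ring

theorem pl_avg (μ : ℝ) (u : Fin 3 → ℝ) (i : Fin 3) :
    pl μ u i = (μ + (1 - μ) / 3) * u i + (1 - μ) / 3 * u (rot3 i)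
      + (1 - μ) / 3 * u (rot3 (rot3 i)) := by
  unfold pl mean
  rw [Fin.sum_univ_three]
  push_cast
  fin_cases i
  · change μ * u 0 + (1 - μ) * ((u 0 + u 1 + u 2) / 3) = (μ + (1 - μ) / 3) * u 0
      + (1 - μ) / 3 * u 1 + (1 - μ) / 3 * u 2
    ring
  · change μ * u 1 + (1 - μ) * ((u 0 + u 1 + u 2) / 3) = (μ + (1 - μ) / 3) * u 1
      + (1 - μ) / 3 * u 2 + (1 - μ) / 3 * u 0
    ring
  · change μ * u 2 + (1 - μ) * ((u 0 + u 1 + u 2) / 3) = (μ + (1 - μ) / 3) * u 2
      + (1 - μ) / 3 * u 0 + (1 - μ) / 3 * u 1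
    ring

theorem supLin_pl_ge {F : (Fin 3 → ℝ) → ℝ} (hF : SupLin F) {μ : ℝ} (h0 : 0 ≤ μ) (h1 : μ ≤ 1)
    (u : Fin 3 → ℝ) (hu : ∀ i, 0 ≤ u i) :
    (μ + (1 - μ) / 3) * F u + (1 - μ) / 3 * F (fun i => u (rot3 i))
      + (1 - μ) / 3 * F (fun i => u (rot3 (rot3 i))) ≤ F (pl μ u) := by
  have h := hF (Fin 3) Finset.univ ![μ + (1 - μ) / 3, (1 - μ) / 3, (1 - μ) / 3]
    ![u, fun i => u (rot3 i), fun i => u (rot3 (rot3 i))] (fun a _ => by
      fin_cases a
      · change 0 ≤ μ + (1 - μ) / 3; linarith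
      · change 0 ≤ (1 - μ) / 3; linarith only [h1]
      · change 0 ≤ (1 - μ) / 3; linarith) (fun a _ i => by
      fin_cases a
      · exact hu i
      · exact hu (rot3 i)
      · exact hu (rot3 (rot3 i)))
  rw [Fin.sum_univ_three] at h
  simp only [Fin.sum_univ_three] at h
  refine le_trans (le_of_eq rfl) (h.trans (le_of_eq ?_))
  congr 1
  funext i
  exact (pl_avg μ u i).symm

/-- **Monotonicity on regular trees** for superlinear functionals. -/
theorem tsm_regular_mono {d d' : ℕ} (hd : d ≤ d') {lam lam' μ : ℝ} (h0 : 0 ≤ μ) (h1 : μ ≤ 1)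
    (hlam : lam = μ * lam') (hp : ∀ i j : Fin 3, 0 ≤ potts 3 lam i j)
    (hp' : ∀ i j : Fin 3, 0 ≤ potts 3 lam' i j) :
    ∀ (n : ℕ) (F : (Fin 3 → ℝ) → ℝ), SupLin F →
      tsm 3 lam' F n (regT d' n) ≤ tsm 3 lam F n (regT d n) := by
  intro n
  induction n with
  | zero =>
    intro F _
    exact le_rfl
  | succ n ih =>
    intro F hF
    -- families of messages
    set I' := Spins 3 n (regT d' n)
    set I := Spins 3 n (regT d n)
    set m' : I' → Fin 3 → ℝ := fun η => pl lam' (fun i => lik 3 lam' n (regT d' n) i η) with hm'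
    set m : I → Fin 3 → ℝ := fun η => pl lam (fun i => lik 3 lam n (regT d n) i η) with hm
    have hm0 : ∀ a i, 0 ≤ m a i := fun a i =>
      pl_nonneg (by norm_num) hp _ (fun j => lik_nonneg hp n (regT d n) j a) i
    have hm0' : ∀ a i, 0 ≤ m' a i := fun a i =>
      pl_nonneg (by norm_num) hp' _ (fun j => lik_nonneg hp' n (regT d' n) j a) i
    have hsum' : ∀ i, ∑ a, m' a i = 1 := by
      intro i
      have h3 : ∀ η, m' η i = ∑ j, potts 3 lam' i j * lik 3 lam' n (regT d' n) j η :=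
        fun η => (edge_eq lam' (by norm_num) i _).symm
      simp_rw [h3]
      rw [Finset.sum_comm]
      simp_rw [← Finset.mul_sum]
      have h4 : ∀ j, ∑ η : I', lik 3 lam' n (regT d' n) j η = 1 := fun j =>
        anti_lik_sum (potts_sum (by norm_num) lam') n (regT d' n) j
      simp_rw [h4, mul_one]
      exact potts_sum (by norm_num) lam' i
    have hdom : ∀ G : (Fin 3 → ℝ) → ℝ, SupLin G → ∑ a, G (m' a) ≤ ∑ a, G (m a) := by
      intro G hG
      have e1 : ∑ a, G (m' a) = tsm 3 lam' (fun v => G (pl lam' v)) n (regT d' n) := rfl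
      rw [e1]
      refine (ih _ (hG.comp_pl hp')).trans ?_
      -- degrade by the ferromagnetic channel
      set H : (Fin 3 → ℝ) → ℝ := fun v => G (pl lam' v) with hH
      have h2 : ∀ η : I, (μ + (1 - μ) / 3) * H (fun i => lik 3 lam n (regT d n) i η)
          + (1 - μ) / 3 * H (fun i => lik 3 lam n (regT d n) (rot3 i) η)
          + (1 - μ) / 3 * H (fun i => lik 3 lam n (regT d n) (rot3 (rot3 i)) η) ≤ G (m η) := by
        intro η
        have h3 := supLin_pl_ge hG h0 h1 (pl lam' (fun i => lik 3 lam n (regT d n) i η))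
          (pl_nonneg (by norm_num) hp' _ (fun j => lik_nonneg hp n (regT d n) j η))
        rw [pl_pl, ← hlam] at h3
        have e2 : pl lam' (fun i => lik 3 lam n (regT d n) (rot3 i) η)
            = fun i => pl lam' (fun i => lik 3 lam n (regT d n) i η) (rot3 i) :=
          pl_rot (lam := lam') (fun i => lik 3 lam n (regT d n) i η) rot3
        have e3 : pl lam' (fun i => lik 3 lam n (regT d n) (rot3 (rot3 i)) η)
            = fun i => pl lam' (fun i => lik 3 lam n (regT d n) i η) (rot3 (rot3 i)) :=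
          pl_rot (lam := lam') (fun i => lik 3 lam n (regT d n) i η) (rot3 * rot3)
        simp only [hH, e2, e3]
        exact h3
      have h4 := Finset.sum_le_sum (s := (Finset.univ : Finset I)) (fun η _ => h2 η)
      rw [Finset.sum_add_distrib, Finset.sum_add_distrib, ← Finset.mul_sum, ← Finset.mul_sum,
        ← Finset.mul_sum] at h4
      have e4 : ∑ η : I, H (fun i => lik 3 lam n (regT d n) (rot3 i) η)
          = ∑ η : I, H (fun i => lik 3 lam n (regT d n) i η) :=
        sum_lik_perm (by norm_num) n (regT d n) rot3 H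
      have e5 : ∑ η : I, H (fun i => lik 3 lam n (regT d n) (rot3 (rot3 i)) η)
          = ∑ η : I, H (fun i => lik 3 lam n (regT d n) i η) :=
        sum_lik_perm (by norm_num) n (regT d n) (rot3 * rot3) H
      rw [e4, e5] at h4
      refine le_trans (le_of_eq ?_) h4
      change ∑ η : I, H (fun i => lik 3 lam n (regT d n) i η) = _
      ring
    have e1 : tsm 3 lam' F (n + 1) (regT d' (n + 1))
        = ∑ η : Fin d' → I', F (fun i => ∏ c, m' (η c) i) := by
      change ∑ η : ((c : Fin d') → Spins 3 n (regT d' n)),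
        F (fun i => lik 3 lam' (n + 1) ⟨d', fun _ => regT d' n⟩ i η) = _
      refine Finset.sum_congr rfl fun η _ => ?_
      congr 1
      funext i
      exact lik_succ_eq (by norm_num) n d' (fun _ => regT d' n) η i
    have e2 : tsm 3 lam F (n + 1) (regT d (n + 1))
        = ∑ η : Fin d → I, F (fun i => ∏ c, m (η c) i) := by
      change ∑ η : ((c : Fin d) → Spins 3 n (regT d n)),
        F (fun i => lik 3 lam (n + 1) ⟨d, fun _ => regT d n⟩ i η) = _
      refine Finset.sum_congr rfl fun η _ => ?_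
      congr 1
      funext i
      exact lik_succ_eq (by norm_num) n d (fun _ => regT d n) η i
    rw [e1, e2]
    obtain ⟨j, rfl⟩ := Nat.exists_eq_add_of_le hd
    exact (prod_drop m' hm0' hsum' d j F hF).trans (prod_dom m' m hm0' hm0 hdom d F hF)

theorem supLin_neg_phi : SupLin (fun v : Fin 3 → ℝ => - anti_phi 3 v) := by
  intro ι s w v hw _
  have h := anti_phi_sum_le s w hw v
  have e : ∑ a ∈ s, w a * - anti_phi 3 (v a) = - ∑ a ∈ s, w a * anti_phi 3 (v a) := by
    rw [← Finset.sum_neg_distrib]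
    refine Finset.sum_congr rfl fun a _ => ?_
    ring
  rw [e]
  linarith

theorem advantage_regular_mono {d d' : ℕ} (hd : d ≤ d') {lam lam' μ : ℝ} (h0 : 0 ≤ μ)
    (h1 : μ ≤ 1) (hlam : lam = μ * lam') (hp : ∀ i j : Fin 3, 0 ≤ potts 3 lam i j)
    (hp' : ∀ i j : Fin 3, 0 ≤ potts 3 lam' i j) (n : ℕ) :
    advantage (regularOffspring d) 3 lam n ≤ advantage (regularOffspring d') 3 lam' n := by
  rw [advantage_regular (by norm_num) hp, advantage_regular (by norm_num) hp']
  have h := tsm_regular_mono hd h0 h1 hlam hp hp' n _ supLin_neg_phi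
  unfold tsm at h
  rw [Finset.sum_neg_distrib, Finset.sum_neg_distrib] at h
  unfold anti_G
  linarith only [h]

/-- **Monotonicity of nonreconstruction on regular trees.** -/
theorem nonrec_regular_mono {d d' : ℕ} (hd : d ≤ d') {lam lam' μ : ℝ} (h0 : 0 ≤ μ)
    (h1 : μ ≤ 1) (hlam : lam = μ * lam') (hp : ∀ i j : Fin 3, 0 ≤ potts 3 lam i j)
    (hp' : ∀ i j : Fin 3, 0 ≤ potts 3 lam' i j)
    (h : Nonreconstruction (regularOffspring d') 3 lam') :
    Nonreconstruction (regularOffspring d) 3 lam := by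
  refine squeeze_zero (fun n => ?_) (advantage_regular_mono hd h0 h1 hlam hp hp') h
  rw [advantage_regular (by norm_num) hp]
  exact anti_G_nonneg n _

/-- The antiferromagnetic regular case follows from the critical parameter: for `d ≥ 4` from
`lam = -1/√d`, for `d ≤ 4` from `d = 4`, `lam = -1/2`. -/
theorem nonrec_regular_of_critical
    (hcrit : ∀ d : ℕ, 4 ≤ d → Nonreconstruction (regularOffspring d) 3 (-(1 / Real.sqrt d)))
    {d : ℕ} {lam : ℝ} (h1 : -1 / 2 ≤ lam) (h2 : lam ≤ 0) (hks : d * lam ^ 2 ≤ 1) :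
    Nonreconstruction (regularOffspring d) 3 lam := by
  have hp : ∀ {l : ℝ}, -1 / 2 ≤ l → l ≤ 0 → ∀ i j : Fin 3, 0 ≤ potts 3 l i j := by
    intro l hl hl'
    refine anti_potts_nonneg (by norm_num) ?_ (by linarith only [hl'])
    push_cast
    linarith only [hl]
  rcases le_total d 4 with h4 | h4
  · have h5 := hcrit 4 le_rfl
    have e : -(1 / Real.sqrt ((4 : ℕ) : ℝ)) = -1 / 2 := by
      have : Real.sqrt ((4 : ℕ) : ℝ) = 2 := by
        rw [show (((4 : ℕ) : ℝ)) = 2 ^ 2 by norm_num]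
        exact Real.sqrt_sq (by norm_num)
      rw [this]
      norm_num
    rw [e] at h5
    exact nonrec_regular_mono h4 (μ := -2 * lam) (by linarith only [h2]) (by linarith) (by ring) (hp h1 h2)
      (hp le_rfl (by norm_num)) h5
  · have hd0 : (4 : ℝ) ≤ d := by exact_mod_cast h4
    have hs2 : (2 : ℝ) ≤ Real.sqrt d := by
      rw [show (2 : ℝ) = Real.sqrt (2 ^ 2) by rw [Real.sqrt_sq (by norm_num)]]
      exact Real.sqrt_le_sqrt (by linarith only [hd0])
    have hs0 : 0 < Real.sqrt d := by linarith only [hs2]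
    have hsq : Real.sqrt d ^ 2 = d := Real.sq_sqrt (by linarith only [hd0])
    have hb : -1 / 2 ≤ -(1 / Real.sqrt d) := by
      have : 1 / Real.sqrt d ≤ 1 / 2 := one_div_le_one_div_of_le (by norm_num) hs2
      linarith only [this]
    have hb0 : -(1 / Real.sqrt d) ≤ 0 := by
      have : 0 ≤ 1 / Real.sqrt d := by positivity
      linarith only [this]
    have hμ : -(Real.sqrt d * lam) ≤ 1 := by
      have h6 : (Real.sqrt d * lam) ^ 2 ≤ 1 := by rw [mul_pow, hsq]; exact hks
      nlinarith only [sq_nonneg (Real.sqrt d * lam + 1), h6]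
    refine nonrec_regular_mono le_rfl (μ := -(Real.sqrt d * lam)) ?_ hμ ?_ (hp h1 h2)
      (hp hb hb0) (hcrit d h4)
    · have : 0 ≤ Real.sqrt d * (-lam) := mul_nonneg hs0.le (by linarith only [h2])
      linarith only [this]
    · (clear * - h4; field_simp)

end

end Vale.Agent.P154
end

section

/-!
# P154: three spins, antiferromagnetic side: functionals and the three-point comparison

For `v : Fin 3 → ℝ` with mean one put `X = e₂/3`, `P = e₃`, `R = 1 - X`, `T = (P + 2 - 3X)/2`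
(second and third moments of the fluctuation).  `hX, hP, hR, hT` are the degree one homogeneous
extensions.  `Cmp l g ε` is the comparison of an arbitrary message `P_{-l} w` with the three-point
law on `{1, P_{-l}(edge midpoint), P_{-l}(vertex)}` that has the same `R` and `T`.
-/

open scoped BigOperators

namespace Vale.Agent.P154

noncomputable def hX (v : Fin 3 → ℝ) : ℝ :=
  (v 0 * v 1 + v 1 * v 2 + v 2 * v 0) / (v 0 + v 1 + v 2)

noncomputable def hP (v : Fin 3 → ℝ) : ℝ :=
  9 * (v 0 * v 1 * v 2) / (v 0 + v 1 + v 2) ^ 2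

noncomputable def hR (v : Fin 3 → ℝ) : ℝ := mean v - hX v

noncomputable def hT (v : Fin 3 → ℝ) : ℝ := (hP v + 2 * mean v - 3 * hX v) / 2

/-- `R + g T` -/
noncomputable def hphi (g : ℝ) (v : Fin 3 → ℝ) : ℝ := hR v + g * hT v

/-- weight of the edge midpoint -/
noncomputable def wE (w : Fin 3 → ℝ) : ℝ := 8 / 3 * (hR w - hT w)

/-- weight of the vertex -/
noncomputable def wV (w : Fin 3 → ℝ) : ℝ := (hR w + 2 * hT w) / 3

/-- message of the edge midpoint with spin `i` absent -/
noncomputable def eM (l : ℝ) (i j : Fin 3) : ℝ := if j = i then 1 + l else 1 - l / 2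

/-- message of the vertex `i` -/
noncomputable def vM (l : ℝ) (i j : Fin 3) : ℝ := if j = i then 1 - 2 * l else 1 + l

/-- The three-point comparison (with error `ε`), for mean one vectors with positive entries. -/
def Cmp (l g ε : ℝ) : Prop :=
  ∀ u w : Fin 3 → ℝ, (∀ i, 0 < u i) → (∀ i, 0 < w i) → ∑ i, u i = 3 → ∑ i, w i = 3 →
    avgPerm (hphi g) u (pl (-l) w) ≤
      hP w * hphi g u
      + wE w * ((∑ i, hphi g (fun j => u j * eM l i j)) / 3)
      + wV w * ((∑ i, hphi g (fun j => u j * vM l i j)) / 3)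
      + ε * wE w

/-- message types of the three-point law: `none` is the uninformative message,
`some (true, i)` the edge message, `some (false, i)` the vertex message -/
abbrev Msg := Option (Bool × Fin 3)

noncomputable def msg (l : ℝ) : Msg → Fin 3 → ℝ
  | none => fun _ => 1
  | some (true, i) => eM l i
  | some (false, i) => vM l i

noncomputable def wt (e v : ℝ) : Msg → ℝ
  | none => 1 - e - v
  | some (true, _) => e / 3
  | some (false, _) => v / 3

/-- value of a functional on the product of `k` independent messages of the three-point law -/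
noncomputable def clos (l : ℝ) (F : (Fin 3 → ℝ) → ℝ) (k : ℕ) (e v : ℝ) : ℝ :=
  ∑ s : Fin k → Msg, (∏ c, wt e v (s c)) * F (fun i => ∏ c, msg l (s c) i)

end Vale.Agent.P154
end

section

/-!
# P154: elementary properties of the functionals `hX, hP, hR, hT` and of the comparison
-/

open scoped BigOperators
open Filter Topology

namespace Vale.Agent.P154

theorem mean3 (v : Fin 3 → ℝ) : mean v = (v 0 + v 1 + v 2) / 3 := by
  unfold mean
  rw [Fin.sum_univ_three]
  norm_num

theorem hX_smul (c : ℝ) (v : Fin 3 → ℝ) : hX (fun i => c * v i) = c * hX v := by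
  unfold hX
  by_cases hc : c = 0
  · simp [hc]
  by_cases hs : v 0 + v 1 + v 2 = 0
  · have : c * v 0 + c * v 1 + c * v 2 = 0 := by rw [← mul_add, ← mul_add, hs, mul_zero]
    rw [this, hs]
    simp
  · have : c * v 0 + c * v 1 + c * v 2 = c * (v 0 + v 1 + v 2) := by ring
    rw [this]
    field_simp

theorem hP_smul (c : ℝ) (v : Fin 3 → ℝ) : hP (fun i => c * v i) = c * hP v := by
  unfold hP
  by_cases hc : c = 0
  · simp only [hc, Fin.isValue, zero_mul, mul_zero, add_zero, ne_eq, OfNat.ofNat_ne_zero,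
      not_false_eq_true, zero_pow, div_zero]
  by_cases hs : v 0 + v 1 + v 2 = 0
  · have : c * v 0 + c * v 1 + c * v 2 = 0 := by rw [← mul_add, ← mul_add, hs, mul_zero]
    rw [this, hs]
    simp
  · have : c * v 0 + c * v 1 + c * v 2 = c * (v 0 + v 1 + v 2) := by ring
    rw [this]
    field_simp

theorem mean_smul3 (c : ℝ) (v : Fin 3 → ℝ) : mean (fun i => c * v i) = c * mean v := by
  rw [mean3, mean3]; ring

theorem hR_smul (c : ℝ) (v : Fin 3 → ℝ) : hR (fun i => c * v i) = c * hR v := by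
  unfold hR; rw [mean_smul3, hX_smul]; ring

theorem hT_smul (c : ℝ) (v : Fin 3 → ℝ) : hT (fun i => c * v i) = c * hT v := by
  unfold hT; rw [mean_smul3, hX_smul, hP_smul]; ring

theorem hphi_smul (g c : ℝ) (v : Fin 3 → ℝ) : hphi g (fun i => c * v i) = c * hphi g v := by
  unfold hphi; rw [hR_smul, hT_smul]; ring

theorem wE_smul (c : ℝ) (v : Fin 3 → ℝ) : wE (fun i => c * v i) = c * wE v := by
  unfold wE; rw [hR_smul, hT_smul]; ring

theorem wV_smul (c : ℝ) (v : Fin 3 → ℝ) : wV (fun i => c * v i) = c * wV v := by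
  unfold wV; rw [hR_smul, hT_smul]; ring

theorem wE_eq (v : Fin 3 → ℝ) : wE v = 4 / 3 * (hX v - hP v) := by
  unfold wE hR hT; ring

theorem wV_eq (v : Fin 3 → ℝ) : wV v = (3 * mean v - 4 * hX v + hP v) / 3 := by
  unfold wV hR hT; ring

theorem hP_eq (v : Fin 3 → ℝ) : hP v = mean v - wE v - wV v := by
  rw [wE_eq, wV_eq]; ring

theorem hphi_eq (g : ℝ) (v : Fin 3 → ℝ) :
    hphi g v = (1 + g) * mean v - (1 + 3 / 2 * g) * hX v + g / 2 * hP v := by
  unfold hphi hR hT; ring

theorem sum3_nonneg {v : Fin 3 → ℝ} (hv : ∀ i, 0 ≤ v i) : 0 ≤ v 0 + v 1 + v 2 :=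
  add_nonneg (add_nonneg (hv 0) (hv 1)) (hv 2)

theorem hX_nonneg {v : Fin 3 → ℝ} (hv : ∀ i, 0 ≤ v i) : 0 ≤ hX v := by
  unfold hX
  exact div_nonneg (add_nonneg (add_nonneg (mul_nonneg (hv 0) (hv 1)) (mul_nonneg (hv 1) (hv 2)))
    (mul_nonneg (hv 2) (hv 0))) (sum3_nonneg hv)

theorem hP_nonneg {v : Fin 3 → ℝ} (hv : ∀ i, 0 ≤ v i) : 0 ≤ hP v := by
  unfold hP
  exact div_nonneg (mul_nonneg (by norm_num) (mul_nonneg (mul_nonneg (hv 0) (hv 1)) (hv 2)))
    (sq_nonneg _)

theorem zero_of_sum3 {v : Fin 3 → ℝ} (hv : ∀ i, 0 ≤ v i) (h : v 0 + v 1 + v 2 = 0) :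
    v = fun _ => 0 := by
  funext i
  have h0 := hv 0
  have h1 := hv 1
  have h2 := hv 2
  fin_cases i
  · change v 0 = 0; linarith
  · change v 1 = 0; linarith
  · change v 2 = 0; linarith

theorem hP_le_hX {v : Fin 3 → ℝ} (hv : ∀ i, 0 ≤ v i) : hP v ≤ hX v := by
  rcases (sum3_nonneg hv).eq_or_lt with h | h
  · rw [zero_of_sum3 hv h.symm]; unfold hP hX; simp
  · unfold hP hX
    rw [div_le_div_iff₀ (by positivity) h]
    have h0 := hv 0
    have h1 := hv 1
    have h2 := hv 2
    have key : 9 * (v 0 * v 1 * v 2)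
        ≤ (v 0 * v 1 + v 1 * v 2 + v 2 * v 0) * (v 0 + v 1 + v 2) := by
      nlinarith only [mul_nonneg h0 (sq_nonneg (v 1 - v 2)),
        mul_nonneg h1 (sq_nonneg (v 0 - v 2)), mul_nonneg h2 (sq_nonneg (v 0 - v 1)), h0, h1, h2]
    calc 9 * (v 0 * v 1 * v 2) * (v 0 + v 1 + v 2)
        ≤ (v 0 * v 1 + v 1 * v 2 + v 2 * v 0) * (v 0 + v 1 + v 2) * (v 0 + v 1 + v 2) :=
          mul_le_mul_of_nonneg_right key h.le
      _ = _ := by ring

theorem hX_le_mean {v : Fin 3 → ℝ} (hv : ∀ i, 0 ≤ v i) : hX v ≤ mean v := by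
  rw [mean3]
  rcases (sum3_nonneg hv).eq_or_lt with h | h
  · rw [zero_of_sum3 hv h.symm]; unfold hX; simp
  · unfold hX
    rw [div_le_div_iff₀ h (by norm_num)]
    nlinarith only [sq_nonneg (v 0 - v 1), sq_nonneg (v 1 - v 2), sq_nonneg (v 0 - v 2)]

theorem wE_nonneg {v : Fin 3 → ℝ} (hv : ∀ i, 0 ≤ v i) : 0 ≤ wE v := by
  rw [wE_eq]
  have := hP_le_hX hv
  linarith only [this]

theorem schur_three {a b c : ℝ} (ha : 0 ≤ a) (hb : 0 ≤ b) (hc : 0 ≤ c) :
    0 ≤ (a + b + c) ^ 3 - 4 * (a + b + c) * (a * b + b * c + c * a) + 9 * (a * b * c) := by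
  have e : (a + b + c) ^ 3 - 4 * (a + b + c) * (a * b + b * c + c * a) + 9 * (a * b * c)
      = a * (a - b) * (a - c) + b * (b - a) * (b - c) + c * (c - a) * (c - b) := by ring
  rw [e]
  rcases le_total a b with h1 | h1 <;> rcases le_total b c with h2 | h2 <;>
    rcases le_total a c with h3 | h3
  · nlinarith only [mul_nonneg ha (mul_nonneg (sub_nonneg.2 h1) (sub_nonneg.2 h3)),
      mul_nonneg (mul_nonneg (sub_nonneg.2 h2) (sub_nonneg.2 h2)) (sub_nonneg.2 h3), ha, hb, h1,
      h2, h3]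
  · have : a = c := le_antisymm (h1.trans h2) h3
    subst this
    have : a = b := le_antisymm h1 h2
    subst this
    simp
  · nlinarith only [mul_nonneg ha (mul_nonneg (sub_nonneg.2 h1) (sub_nonneg.2 h3)),
      mul_nonneg (mul_nonneg (sub_nonneg.2 h2) (sub_nonneg.2 h2)) (sub_nonneg.2 h3),
      mul_nonneg (mul_nonneg (sub_nonneg.2 h2) (sub_nonneg.2 h2)) (sub_nonneg.2 h1), ha, h1, h2,
      h3]
  · nlinarith only [mul_nonneg hc (mul_nonneg (sub_nonneg.2 h2) (sub_nonneg.2 h3)),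
      mul_nonneg (mul_nonneg (sub_nonneg.2 h1) (sub_nonneg.2 h1)) (sub_nonneg.2 h2), ha, hc, h1,
      h2, h3]
  · nlinarith only [mul_nonneg hb (mul_nonneg (sub_nonneg.2 h1) (sub_nonneg.2 h2)),
      mul_nonneg (mul_nonneg (sub_nonneg.2 h3) (sub_nonneg.2 h3)) (sub_nonneg.2 h1), hb, hc, h1,
      h2, h3]
  · nlinarith only [mul_nonneg hb (mul_nonneg (sub_nonneg.2 h1) (sub_nonneg.2 h2)),
      mul_nonneg (mul_nonneg (sub_nonneg.2 h3) (sub_nonneg.2 h3)) (sub_nonneg.2 h2), ha, hb, h1,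
      h2, h3]
  · have : a = b := le_antisymm (h3.trans h2) h1
    subst this
    have : a = c := le_antisymm h3 h2
    subst this
    simp
  · nlinarith only [mul_nonneg hc (mul_nonneg (sub_nonneg.2 h2) (sub_nonneg.2 h3)),
      mul_nonneg (mul_nonneg (sub_nonneg.2 h1) (sub_nonneg.2 h1)) (sub_nonneg.2 h2), ha, hc, h1,
      h2, h3]

theorem wV_nonneg {v : Fin 3 → ℝ} (hv : ∀ i, 0 ≤ v i) : 0 ≤ wV v := by
  rw [wV_eq, mean3]
  rcases (sum3_nonneg hv).eq_or_lt with h | h
  · rw [zero_of_sum3 hv h.symm]; unfold hX hP; simp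
  · have h1 := schur_three (hv 0) (hv 1) (hv 2)
    unfold hX hP
    have e : (3 * ((v 0 + v 1 + v 2) / 3) - 4 * ((v 0 * v 1 + v 1 * v 2 + v 2 * v 0) /
        (v 0 + v 1 + v 2)) + 9 * (v 0 * v 1 * v 2) / (v 0 + v 1 + v 2) ^ 2) / 3
        = ((v 0 + v 1 + v 2) ^ 3 - 4 * (v 0 + v 1 + v 2) * (v 0 * v 1 + v 1 * v 2 + v 2 * v 0)
          + 9 * (v 0 * v 1 * v 2)) / (3 * (v 0 + v 1 + v 2) ^ 2) := by
      field_simp
    rw [e]
    exact div_nonneg h1 (by positivity)

theorem mean_nonneg3 {v : Fin 3 → ℝ} (hv : ∀ i, 0 ≤ v i) : 0 ≤ mean v := by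
  rw [mean3]
  exact div_nonneg (sum3_nonneg hv) (by norm_num)

theorem hR_nonneg {v : Fin 3 → ℝ} (hv : ∀ i, 0 ≤ v i) : 0 ≤ hR v :=
  sub_nonneg.2 (hX_le_mean hv)

theorem hT_le_hR {v : Fin 3 → ℝ} (hv : ∀ i, 0 ≤ v i) : hT v ≤ hR v := by
  have := wE_nonneg hv
  unfold wE at this
  linarith only [this]

theorem hT_ge {v : Fin 3 → ℝ} (hv : ∀ i, 0 ≤ v i) : -hR v / 2 ≤ hT v := by
  have := wV_nonneg hv
  unfold wV at this
  linarith only [this]

theorem hphi_nonneg {g : ℝ} (h0 : 0 ≤ g) (h1 : g ≤ 1) {v : Fin 3 → ℝ} (hv : ∀ i, 0 ≤ v i) :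
    0 ≤ hphi g v := by
  unfold hphi
  have h2 := hR_nonneg hv
  have h3 := hT_ge hv
  nlinarith only [h0, h1, h2, h3]

theorem hX_homBdd : HomBdd hX 1 := by
  intro v hv
  rw [abs_of_nonneg (hX_nonneg hv), one_mul]
  exact hX_le_mean hv

theorem hP_homBdd : HomBdd hP 1 := by
  intro v hv
  rw [abs_of_nonneg (hP_nonneg hv), one_mul]
  exact (hP_le_hX hv).trans (hX_le_mean hv)

theorem hR_homBdd : HomBdd hR 1 := by
  intro v hv
  rw [abs_of_nonneg (hR_nonneg hv), one_mul]
  have := hX_nonneg hv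
  unfold hR
  linarith

theorem hT_homBdd : HomBdd hT 1 := by
  intro v hv
  rw [one_mul, abs_le]
  have h1 := hR_homBdd v hv
  rw [abs_of_nonneg (hR_nonneg hv), one_mul] at h1
  have h2 := hR_nonneg hv
  constructor
  · have := hT_ge hv; linarith only [h1, h2, this]
  · exact (hT_le_hR hv).trans h1

theorem hphi_homBdd (g : ℝ) : HomBdd (hphi g) (1 + |g| * 1) :=
  hR_homBdd.add (hT_homBdd.const_mul g)

theorem wE_homBdd : HomBdd wE 1 := by
  intro v hv
  rw [abs_of_nonneg (wE_nonneg hv), one_mul]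
  have h1 := hP_eq v
  have h2 := hP_nonneg hv
  have h3 := wV_nonneg hv
  linarith

theorem wV_homBdd : HomBdd wV 1 := by
  intro v hv
  rw [abs_of_nonneg (wV_nonneg hv), one_mul]
  have h1 := hP_eq v
  have h2 := hP_nonneg hv
  have h3 := wE_nonneg hv
  linarith

end Vale.Agent.P154
end

section

/-!
# P154: extension of the comparison to all nonnegative vectors
-/

open scoped BigOperators
open Filter Topology

namespace Vale.Agent.P154

/-- the closed orthant -/
def orth : Set (Fin 3 → ℝ) := {v | ∀ i, 0 ≤ v i}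

theorem continuous_mean3 : Continuous (mean : (Fin 3 → ℝ) → ℝ) := by
  have : (mean : (Fin 3 → ℝ) → ℝ) = fun v => (v 0 + v 1 + v 2) / 3 := funext mean3
  rw [this]
  fun_prop

theorem mean_zero3 : mean (fun _ : Fin 3 => (0 : ℝ)) = 0 := by rw [mean3]; norm_num

theorem cont_of_bdd {F : (Fin 3 → ℝ) → ℝ} (hF0 : ∀ v, (∀ i, 0 ≤ v i) → 0 ≤ F v)
    (hF1 : ∀ v, (∀ i, 0 ≤ v i) → F v ≤ mean v)
    (hc : ∀ v : Fin 3 → ℝ, 0 < v 0 + v 1 + v 2 → ContinuousAt F v) (v : Fin 3 → ℝ)
    (hv : ∀ i, 0 ≤ v i) : ContinuousWithinAt F orth v := by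
  rcases (sum3_nonneg hv).eq_or_lt with h | h
  · have hz := zero_of_sum3 hv h.symm
    subst hz
    have hF : F (fun _ => 0) = 0 := by
      have h1 := hF0 _ hv
      have h2 := hF1 _ hv
      rw [mean_zero3] at h2
      exact le_antisymm h2 h1
    unfold ContinuousWithinAt
    rw [hF]
    refine squeeze_zero' (g := mean) ?_ ?_ ?_
    · filter_upwards [self_mem_nhdsWithin] with w hw using hF0 w hw
    · filter_upwards [self_mem_nhdsWithin] with w hw using hF1 w hw
    · have h3 := (continuous_mean3.tendsto (fun _ => 0)).mono_left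
        (nhdsWithin_le_nhds (s := orth) (a := fun _ => (0 : ℝ)))
      rwa [mean_zero3] at h3
  · exact (hc v h).continuousWithinAt

theorem hX_cont (v : Fin 3 → ℝ) (hv : ∀ i, 0 ≤ v i) : ContinuousWithinAt hX orth v := by
  refine cont_of_bdd (fun v hv => hX_nonneg hv) (fun v hv => hX_le_mean hv) ?_ v hv
  intro v h
  unfold hX
  refine ContinuousAt.div ?_ ?_ h.ne'
  · fun_prop
  · fun_prop

theorem hP_cont (v : Fin 3 → ℝ) (hv : ∀ i, 0 ≤ v i) : ContinuousWithinAt hP orth v := by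
  refine cont_of_bdd (fun v hv => hP_nonneg hv) (fun v hv => (hP_le_hX hv).trans (hX_le_mean hv))
    ?_ v hv
  intro v h
  unfold hP
  refine ContinuousAt.div ?_ ?_ (pow_ne_zero 2 h.ne')
  · fun_prop
  · fun_prop

theorem mean_cont (v : Fin 3 → ℝ) : ContinuousWithinAt mean orth v :=
  continuous_mean3.continuousWithinAt

theorem hR_cont (v : Fin 3 → ℝ) (hv : ∀ i, 0 ≤ v i) : ContinuousWithinAt hR orth v :=
  (mean_cont v).sub (hX_cont v hv)

theorem hT_cont (v : Fin 3 → ℝ) (hv : ∀ i, 0 ≤ v i) : ContinuousWithinAt hT orth v :=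
  (((hP_cont v hv).add (continuousWithinAt_const.mul (mean_cont v))).sub
    (continuousWithinAt_const.mul (hX_cont v hv))).div_const 2

theorem hphi_cont (g : ℝ) (v : Fin 3 → ℝ) (hv : ∀ i, 0 ≤ v i) :
    ContinuousWithinAt (hphi g) orth v :=
  (hR_cont v hv).add (continuousWithinAt_const.mul (hT_cont v hv))

theorem wE_cont (v : Fin 3 → ℝ) (hv : ∀ i, 0 ≤ v i) : ContinuousWithinAt wE orth v :=
  continuousWithinAt_const.mul ((hR_cont v hv).sub (hT_cont v hv))

theorem wV_cont (v : Fin 3 → ℝ) (hv : ∀ i, 0 ≤ v i) : ContinuousWithinAt wV orth v :=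
  ((hR_cont v hv).add (continuousWithinAt_const.mul (hT_cont v hv))).div_const 3

/-- comparison for all nonnegative vectors -/
def CmpF (l : ℝ) (F : (Fin 3 → ℝ) → ℝ) (ε : ℝ) : Prop :=
  ∀ u w : Fin 3 → ℝ, (∀ i, 0 ≤ u i) → (∀ i, 0 ≤ w i) →
    avgPerm F u (pl (-l) w) ≤
      hP w * F u
      + wE w * ((∑ i, F (fun j => u j * eM l i j)) / 3)
      + wV w * ((∑ i, F (fun j => u j * vM l i j)) / 3)
      + ε * wE w * mean u

theorem pl_smul3 (a c : ℝ) (w : Fin 3 → ℝ) : pl a (fun i => c * w i) = fun i => c * pl a w i := by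
  funext i
  unfold pl
  rw [mean_smul3]
  ring

theorem cmp_pos {l g ε : ℝ} (h : Cmp l g ε) (u w : Fin 3 → ℝ) (hu : ∀ i, 0 < u i)
    (hw : ∀ i, 0 < w i) :
    avgPerm (hphi g) u (pl (-l) w) ≤
      hP w * hphi g u
      + wE w * ((∑ i, hphi g (fun j => u j * eM l i j)) / 3)
      + wV w * ((∑ i, hphi g (fun j => u j * vM l i j)) / 3)
      + ε * wE w * mean u := by
  have hs : 0 < u 0 + u 1 + u 2 := by have := hu 0; have := hu 1; have := hu 2; positivity
  have ht : 0 < w 0 + w 1 + w 2 := by have := hw 0; have := hw 1; have := hw 2; positivity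
  set s := u 0 + u 1 + u 2 with hsdef
  set t := w 0 + w 1 + w 2 with htdef
  have key := h (fun i => 3 / s * u i) (fun i => 3 / t * w i)
    (fun i => mul_pos (by positivity) (hu i)) (fun i => mul_pos (by positivity) (hw i))
    (by rw [Fin.sum_univ_three]; field_simp; exact hsdef.symm)
    (by rw [Fin.sum_univ_three]; field_simp; exact htdef.symm)
  rw [pl_smul3] at key
  have e1 : avgPerm (hphi g) (fun i => 3 / s * u i) (fun i => 3 / t * pl (-l) w i)
      = 3 / s * (3 / t) * avgPerm (hphi g) u (pl (-l) w) := by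
    unfold avgPerm
    rw [← mul_div_assoc, Finset.mul_sum]
    congr 1
    refine Finset.sum_congr rfl fun τ _ => ?_
    rw [← hphi_smul]
    congr 1
    funext i
    ring
  have e2 : ∀ (m : Fin 3 → Fin 3 → ℝ), (∑ i, hphi g (fun j => 3 / s * u j * m i j))
      = 3 / s * ∑ i, hphi g (fun j => u j * m i j) := by
    intro m
    rw [Finset.mul_sum]
    refine Finset.sum_congr rfl fun i _ => ?_
    rw [← hphi_smul]
    congr 1
    funext j
    ring
  rw [e1, e2, e2, hP_smul, hphi_smul, wE_smul, wV_smul] at key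
  have hmean : mean u = s / 3 := by rw [mean3]
  have hm : 3 / s * mean u = 1 := by rw [hmean]; field_simp
  have hc : 0 < 3 / s * (3 / t) := by positivity
  have key2 : 3 / s * (3 / t) * avgPerm (hphi g) u (pl (-l) w) ≤ 3 / s * (3 / t) *
      (hP w * hphi g u
      + wE w * ((∑ i, hphi g (fun j => u j * eM l i j)) / 3)
      + wV w * ((∑ i, hphi g (fun j => u j * vM l i j)) / 3)
      + ε * wE w * mean u) := by
    refine key.trans (le_of_eq ?_)
    have : ε * (3 / t * wE w) = 3 / s * (3 / t) * (ε * wE w * mean u) := by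
      calc ε * (3 / t * wE w) = ε * (3 / t * wE w) * (3 / s * mean u) := by rw [hm, mul_one]
        _ = _ := by ring
    rw [this]
    ring
  exact le_of_mul_le_mul_left key2 hc

theorem eM_pos {l : ℝ} (h0 : 0 ≤ l) (h1 : l ≤ 1 / 2) (i j : Fin 3) : 0 < eM l i j := by
  unfold eM
  split_ifs <;> linarith

theorem vM_nonneg {l : ℝ} (h0 : 0 ≤ l) (h1 : l ≤ 1 / 2) (i j : Fin 3) : 0 ≤ vM l i j := by
  unfold vM
  split_ifs <;> linarith

theorem pl_neg_nonneg {l : ℝ} (h0 : 0 ≤ l) (h1 : l ≤ 1 / 2) {w : Fin 3 → ℝ}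
    (hw : ∀ i, 0 ≤ w i) (i : Fin 3) : 0 ≤ pl (-l) w i := by
  unfold pl
  rw [mean3]
  have w0 := hw 0
  have w1 := hw 1
  have w2 := hw 2
  have h3 : w i ≤ w 0 + w 1 + w 2 := by fin_cases i <;> simp <;> linarith
  nlinarith [mul_nonneg h0 (hw i)]

theorem continuous_pl3 (a : ℝ) (i : Fin 3) : Continuous (fun w : Fin 3 → ℝ => pl a w i) := by
  unfold pl
  have := continuous_mean3
  fun_prop

/-- **Extension of the comparison to the closed orthant.** -/
theorem Cmp.toF {l g ε : ℝ} (h0 : 0 ≤ l) (h1 : l ≤ 1 / 2) (h : Cmp l g ε) :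
    CmpF l (hphi g) ε := by
  intro u w hu hw
  -- perturbation
  set U : ℝ → Fin 3 → ℝ := fun δ i => u i + δ with hU
  set W : ℝ → Fin 3 → ℝ := fun δ i => w i + δ with hW
  have hUt : Tendsto U (𝓝[>] 0) (𝓝 u) := by
    have : Tendsto U (𝓝 0) (𝓝 (U 0)) := by
      apply Continuous.tendsto
      rw [hU]
      fun_prop
    have e : U 0 = u := by funext i; simp [hU]
    rw [e] at this
    exact this.mono_left nhdsWithin_le_nhds
  have hWt : Tendsto W (𝓝[>] 0) (𝓝 w) := by
    have : Tendsto W (𝓝 0) (𝓝 (W 0)) := by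
      apply Continuous.tendsto
      rw [hW]
      fun_prop
    have e : W 0 = w := by funext i; simp [hW]
    rw [e] at this
    exact this.mono_left nhdsWithin_le_nhds
  have hUo : ∀ᶠ δ in 𝓝[>] (0 : ℝ), U δ ∈ orth := by
    filter_upwards [self_mem_nhdsWithin] with δ hδ i
    exact add_nonneg (hu i) (le_of_lt hδ)
  have hWo : ∀ᶠ δ in 𝓝[>] (0 : ℝ), W δ ∈ orth := by
    filter_upwards [self_mem_nhdsWithin] with δ hδ i
    exact add_nonneg (hw i) (le_of_lt hδ)
  have hWw : Tendsto W (𝓝[>] 0) (𝓝[orth] w) := tendsto_nhdsWithin_iff.2 ⟨hWt, hWo⟩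
  have hUw : Tendsto U (𝓝[>] 0) (𝓝[orth] u) := tendsto_nhdsWithin_iff.2 ⟨hUt, hUo⟩
  -- products with a fixed or moving nonnegative vector
  have hprod : ∀ (M : ℝ → Fin 3 → ℝ) (m : Fin 3 → ℝ), Tendsto M (𝓝[>] 0) (𝓝 m) →
      (∀ᶠ δ in 𝓝[>] (0 : ℝ), ∀ i, 0 ≤ M δ i) → (∀ i, 0 ≤ m i) →
      Tendsto (fun δ => hphi g (fun i => U δ i * M δ i)) (𝓝[>] 0)
        (𝓝 (hphi g (fun i => u i * m i))) := by
    intro M m hM hM0 hm
    have hcont := hphi_cont g (fun i => u i * m i) (fun i => mul_nonneg (hu i) (hm i))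
    refine hcont.tendsto.comp (tendsto_nhdsWithin_iff.2 ⟨?_, ?_⟩)
    · rw [tendsto_pi_nhds]
      intro i
      exact ((tendsto_pi_nhds.1 hUt) i).mul ((tendsto_pi_nhds.1 hM) i)
    · filter_upwards [hUo, hM0] with δ h1 h2 i
      exact mul_nonneg (h1 i) (h2 i)
  have hL : Tendsto (fun δ => avgPerm (hphi g) (U δ) (pl (-l) (W δ))) (𝓝[>] 0)
      (𝓝 (avgPerm (hphi g) u (pl (-l) w))) := by
    unfold avgPerm
    refine Tendsto.div_const ?_ _
    refine tendsto_finsetSum _ fun τ _ => ?_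
    refine hprod (fun δ i => pl (-l) (W δ) (τ i)) (fun i => pl (-l) w (τ i)) ?_ ?_ ?_
    · rw [tendsto_pi_nhds]
      intro i
      exact ((continuous_pl3 (-l) (τ i)).tendsto w).comp hWt
    · filter_upwards [hWo] with δ h2 i
      exact pl_neg_nonneg h0 h1 h2 (τ i)
    · exact fun i => pl_neg_nonneg h0 h1 hw (τ i)
  have hE : Tendsto (fun δ => (∑ i, hphi g (fun j => U δ j * eM l i j)) / 3) (𝓝[>] 0)
      (𝓝 ((∑ i, hphi g (fun j => u j * eM l i j)) / 3)) := by
    refine Tendsto.div_const ?_ _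
    refine tendsto_finsetSum _ fun i _ => ?_
    exact hprod (fun _ => eM l i) (eM l i) tendsto_const_nhds
      (Eventually.of_forall fun _ j => (eM_pos h0 h1 i j).le) (fun j => (eM_pos h0 h1 i j).le)
  have hV : Tendsto (fun δ => (∑ i, hphi g (fun j => U δ j * vM l i j)) / 3) (𝓝[>] 0)
      (𝓝 ((∑ i, hphi g (fun j => u j * vM l i j)) / 3)) := by
    refine Tendsto.div_const ?_ _
    refine tendsto_finsetSum _ fun i _ => ?_
    exact hprod (fun _ => vM l i) (vM l i) tendsto_const_nhds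
      (Eventually.of_forall fun _ j => vM_nonneg h0 h1 i j) (fun j => vM_nonneg h0 h1 i j)
  have hR : Tendsto (fun δ => hP (W δ) * hphi g (U δ)
      + wE (W δ) * ((∑ i, hphi g (fun j => U δ j * eM l i j)) / 3)
      + wV (W δ) * ((∑ i, hphi g (fun j => U δ j * vM l i j)) / 3)
      + ε * wE (W δ) * mean (U δ)) (𝓝[>] 0)
      (𝓝 (hP w * hphi g u
      + wE w * ((∑ i, hphi g (fun j => u j * eM l i j)) / 3)
      + wV w * ((∑ i, hphi g (fun j => u j * vM l i j)) / 3)
      + ε * wE w * mean u)) := by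
    have a1 := ((hP_cont w hw).tendsto.comp hWw).mul ((hphi_cont g u hu).tendsto.comp hUw)
    have a2 := ((wE_cont w hw).tendsto.comp hWw).mul hE
    have a3 := ((wV_cont w hw).tendsto.comp hWw).mul hV
    have a4 := ((tendsto_const_nhds (x := ε)).mul ((wE_cont w hw).tendsto.comp hWw)).mul
      ((continuous_mean3.tendsto u).comp hUt)
    exact ((a1.add a2).add a3).add a4
  refine le_of_tendsto_of_tendsto hL hR ?_
  filter_upwards [self_mem_nhdsWithin] with δ hδ
  exact cmp_pos h (U δ) (W δ) (fun i => add_pos_of_nonneg_of_pos (hu i) hδ)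
    (fun i => add_pos_of_nonneg_of_pos (hw i) hδ)

end Vale.Agent.P154
end

section

/-!
# P154: replacing the messages of the children by the three-point law
-/

open scoped BigOperators
open Filter Topology

namespace Vale.Agent.P154

theorem sum_msg (f : Msg → ℝ) :
    ∑ s : Msg, f s = f none + ∑ i : Fin 3, f (some (true, i)) + ∑ i : Fin 3, f (some (false, i)) := by
  rw [Fintype.sum_option, Fintype.sum_prod_type, Fintype.sum_bool]
  ring

theorem eM_sum (l : ℝ) (j : Fin 3) : ∑ i : Fin 3, eM l i j = 3 := by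
  unfold eM
  rw [Fin.sum_univ_three]
  fin_cases j <;> simp <;> ring

theorem vM_sum (l : ℝ) (j : Fin 3) : ∑ i : Fin 3, vM l i j = 3 := by
  unfold vM
  rw [Fin.sum_univ_three]
  fin_cases j <;> simp <;> ring

theorem msg_nonneg {l : ℝ} (h0 : 0 ≤ l) (h1 : l ≤ 1 / 2) (s : Msg) (i : Fin 3) :
    0 ≤ msg l s i := by
  rcases s with _ | ⟨b, j⟩
  · exact zero_le_one
  · cases b
    · exact vM_nonneg h0 h1 j i
    · exact (eM_pos h0 h1 j i).le

theorem wt_nonneg {e v : ℝ} (he : 0 ≤ e) (hv : 0 ≤ v) (hev : e + v ≤ 1) (s : Msg) :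
    0 ≤ wt e v s := by
  rcases s with _ | ⟨b, j⟩
  · change 0 ≤ 1 - e - v
    linarith
  · cases b
    · change 0 ≤ v / 3
      linarith
    · change 0 ≤ e / 3
      linarith

theorem sum_wt_msg (l e v : ℝ) (i : Fin 3) : ∑ s : Msg, wt e v s * msg l s i = 1 := by
  rw [sum_msg]
  change (1 - e - v) * 1 + ∑ j : Fin 3, e / 3 * eM l j i + ∑ j : Fin 3, v / 3 * vM l j i = 1
  rw [← Finset.mul_sum, ← Finset.mul_sum, eM_sum, vM_sum]
  ring

/-- the mean over products of independent messages -/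
theorem sum_prod_wt_msg (l : ℝ) : ∀ (k : ℕ) (E V : Fin k → ℝ) (i : Fin 3),
    ∑ s : Fin k → Msg, (∏ c, wt (E c) (V c) (s c)) * ∏ c, msg l (s c) i = 1 := by
  intro k E V i
  simp_rw [← Finset.prod_mul_distrib]
  have h := (Finset.prod_univ_sum (fun _ : Fin k => (Finset.univ : Finset Msg))
    (fun c s => wt (E c) (V c) s * msg l s i)).symm
  rw [Fintype.piFinset_univ] at h
  rw [h]
  refine Finset.prod_eq_one fun c _ => sum_wt_msg l (E c) (V c) i

theorem sum_prod_wt_mean (l : ℝ) (k : ℕ) (E V : Fin k → ℝ) (u : Fin 3 → ℝ) :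
    ∑ s : Fin k → Msg, (∏ c, wt (E c) (V c) (s c)) * mean (fun i => u i * ∏ c, msg l (s c) i)
      = mean u := by
  have h : ∀ i : Fin 3, ∑ s : Fin k → Msg,
      (∏ c, wt (E c) (V c) (s c)) * (u i * ∏ c, msg l (s c) i) = u i := by
    intro i
    have h1 := sum_prod_wt_msg l k E V i
    calc ∑ s : Fin k → Msg, (∏ c, wt (E c) (V c) (s c)) * (u i * ∏ c, msg l (s c) i)
        = u i * ∑ s : Fin k → Msg, (∏ c, wt (E c) (V c) (s c)) * ∏ c, msg l (s c) i := by
          rw [Finset.mul_sum]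
          exact Finset.sum_congr rfl fun s _ => by ring
      _ = u i := by rw [h1, mul_one]
  have h2 : ∀ s : Fin k → Msg, (∏ c, wt (E c) (V c) (s c)) *
      mean (fun i => u i * ∏ c, msg l (s c) i)
      = ((∏ c, wt (E c) (V c) (s c)) * (u 0 * ∏ c, msg l (s c) 0)
        + (∏ c, wt (E c) (V c) (s c)) * (u 1 * ∏ c, msg l (s c) 1)
        + (∏ c, wt (E c) (V c) (s c)) * (u 2 * ∏ c, msg l (s c) 2)) / 3 := by
    intro s
    rw [mean3]
    ring
  simp_rw [h2]
  rw [← Finset.sum_div, Finset.sum_add_distrib, Finset.sum_add_distrib, h, h, h, mean3]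

theorem sym_avg {I : Type} [Fintype I] (w : I → Fin 3 → ℝ)
    (hsym : ∀ (τ : Equiv.Perm (Fin 3)) (H : (Fin 3 → ℝ) → ℝ),
      ∑ η, H (fun i => w η (τ i)) = ∑ η, H (w η)) (F : (Fin 3 → ℝ) → ℝ) (u : Fin 3 → ℝ)
    (a : ℝ) : ∑ η, F (fun i => u i * pl a (w η) i) = ∑ η, avgPerm F u (pl a (w η)) := by
  unfold avgPerm
  rw [← Finset.sum_div, Finset.sum_comm]
  have h : ∀ τ : Equiv.Perm (Fin 3), ∑ η, F (fun i => u i * pl a (w η) (τ i))
      = ∑ η, F (fun i => u i * pl a (w η) i) := by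
    intro τ
    have h1 := hsym τ (fun v => F (fun i => u i * pl a v i))
    rw [← h1]
    refine Finset.sum_congr rfl fun η _ => ?_
    congr 1
    funext i
    congr 1
    unfold pl mean
    rw [Equiv.sum_comp τ (w η)]
  simp_rw [h]
  rw [Finset.sum_const, Finset.card_univ, Fintype.card_perm, Fintype.card_fin, nsmul_eq_mul]
  field_simp

/-- one child -/
theorem one_cmp {l ε : ℝ} {F : (Fin 3 → ℝ) → ℝ} (hF : CmpF l F ε) {I : Type} [Fintype I]
    (w : I → Fin 3 → ℝ) (hw : ∀ η i, 0 ≤ w η i)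
    (hsym : ∀ (τ : Equiv.Perm (Fin 3)) (H : (Fin 3 → ℝ) → ℝ),
      ∑ η, H (fun i => w η (τ i)) = ∑ η, H (w η))
    (hn : ∑ η, mean (w η) = 1) (u : Fin 3 → ℝ) (hu : ∀ i, 0 ≤ u i) :
    ∑ η, F (fun i => u i * pl (-l) (w η) i) ≤
      ∑ s : Msg, wt (∑ η, wE (w η)) (∑ η, wV (w η)) s * F (fun i => u i * msg l s i)
        + ε * (∑ η, wE (w η)) * mean u := by
  rw [sym_avg w hsym F u (-l), sum_msg]
  have h1 : ∑ η, hP (w η) = 1 - ∑ η, wE (w η) - ∑ η, wV (w η) := by
    simp_rw [hP_eq]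
    rw [Finset.sum_sub_distrib, Finset.sum_sub_distrib, hn]
  refine (Finset.sum_le_sum fun η _ => hF u (w η) hu (hw η)).trans (le_of_eq ?_)
  rw [Finset.sum_add_distrib, Finset.sum_add_distrib, Finset.sum_add_distrib, ← Finset.sum_mul,
    ← Finset.sum_mul, ← Finset.sum_mul, ← Finset.sum_mul, ← Finset.mul_sum, h1]
  change _ = (1 - (∑ η, wE (w η)) - ∑ η, wV (w η)) * F (fun i => u i * 1)
    + ∑ i : Fin 3, (∑ η, wE (w η)) / 3 * F (fun j => u j * eM l i j)
    + ∑ i : Fin 3, (∑ η, wV (w η)) / 3 * F (fun j => u j * vM l i j) + _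
  rw [← Finset.mul_sum, ← Finset.mul_sum]
  simp only [mul_one]
  ring

/-- **Replacement for a family of children.** -/
theorem prod_cmp {l ε : ℝ} (h0 : 0 ≤ l) (h1 : l ≤ 1 / 2) {F : (Fin 3 → ℝ) → ℝ}
    (hF : CmpF l F ε) :
    ∀ (k : ℕ) (I : Fin k → Type) [∀ c, Fintype (I c)] (w : (c : Fin k) → I c → Fin 3 → ℝ),
      (∀ c η i, 0 ≤ w c η i) →
      (∀ c (τ : Equiv.Perm (Fin 3)) (H : (Fin 3 → ℝ) → ℝ),
        ∑ η, H (fun i => w c η (τ i)) = ∑ η, H (w c η)) →
      (∀ c i, ∑ η, w c η i = 1) →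
      ∀ u : Fin 3 → ℝ, (∀ i, 0 ≤ u i) →
      ∑ η : ((c : Fin k) → I c), F (fun i => u i * ∏ c, pl (-l) (w c (η c)) i) ≤
        ∑ s : Fin k → Msg, (∏ c, wt (∑ η, wE (w c η)) (∑ η, wV (w c η)) (s c)) *
          F (fun i => u i * ∏ c, msg l (s c) i)
        + ε * (∑ c, ∑ η, wE (w c η)) * mean u := by
  intro k
  induction k with
  | zero =>
    intro I _ w _ _ _ u _
    simp only [Finset.univ_unique, Finset.univ_eq_empty, Finset.prod_empty, mul_one,
      Finset.sum_const, Finset.card_singleton, one_smul, one_mul, Finset.sum_empty, mul_zero,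
      zero_mul, add_zero, Std.le_refl]
  | succ k ih =>
    intro I _ w hw hsym hnorm u hu
    have hmean : ∀ c, ∑ η, mean (w c η) = 1 := by
      intro c
      simp_rw [mean3]
      rw [← Finset.sum_div, Finset.sum_add_distrib, Finset.sum_add_distrib, hnorm, hnorm, hnorm]
      norm_num
    have hWE : ∀ c, 0 ≤ ∑ η, wE (w c η) := fun c =>
      Finset.sum_nonneg fun η _ => wE_nonneg (hw c η)
    have hWV : ∀ c, 0 ≤ ∑ η, wV (w c η) := fun c =>
      Finset.sum_nonneg fun η _ => wV_nonneg (hw c η)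
    have hWs : ∀ c, ∑ η, wE (w c η) + ∑ η, wV (w c η) ≤ 1 := by
      intro c
      rw [← Finset.sum_add_distrib, ← hmean c]
      refine Finset.sum_le_sum fun η _ => ?_
      have := hP_eq (w c η)
      have := hP_nonneg (hw c η)
      linarith
    rw [← Equiv.sum_comp (Fin.consEquiv I), ← Equiv.sum_comp (Fin.consEquiv fun _ => Msg),
      Fintype.sum_prod_type, Fintype.sum_prod_type]
    simp only [Fin.consEquiv_apply, Fin.prod_univ_succ, Fin.cons_zero, Fin.cons_succ,
      Fin.sum_univ_succ]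
    -- step 1: the induction hypothesis for the last children
    have step1 : ∀ x : I 0,
        ∑ y : ((c : Fin k) → I c.succ),
          F (fun i => u i * (pl (-l) (w 0 x) i * ∏ c : Fin k, pl (-l) (w c.succ (y c)) i))
        ≤ ∑ s : Fin k → Msg, (∏ c : Fin k, wt (∑ η, wE (w c.succ η)) (∑ η, wV (w c.succ η)) (s c))
            * F (fun i => (u i * ∏ c : Fin k, msg l (s c) i) * pl (-l) (w 0 x) i)
          + ε * (∑ c : Fin k, ∑ η, wE (w c.succ η)) * mean (fun i => u i * pl (-l) (w 0 x) i) := by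
      intro x
      have h2 := ih (fun c => I c.succ) (fun c => w c.succ) (fun c => hw c.succ)
        (fun c => hsym c.succ) (fun c => hnorm c.succ) (fun i => u i * pl (-l) (w 0 x) i)
        (fun i => mul_nonneg (hu i) (pl_neg_nonneg h0 h1 (hw 0 x) i))
      refine (le_of_eq ?_).trans (h2.trans (le_of_eq ?_))
      · refine Finset.sum_congr rfl fun y _ => ?_
        congr 1
        funext i
        ring
      · congr 1
        refine Finset.sum_congr rfl fun s _ => ?_
        congr 2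
        funext i
        ring
    refine (Finset.sum_le_sum fun x _ => step1 x).trans ?_
    rw [Finset.sum_add_distrib, Finset.sum_comm]
    -- step 2: the error term
    have hpl : ∀ i, ∑ x, pl (-l) (w 0 x) i = 1 := by
      intro i
      unfold pl
      rw [Finset.sum_add_distrib, ← Finset.mul_sum, ← Finset.mul_sum, hnorm, hmean]
      ring
    have step2 : ∑ x, ε * (∑ c : Fin k, ∑ η, wE (w c.succ η)) *
        mean (fun i => u i * pl (-l) (w 0 x) i)
        = ε * (∑ c : Fin k, ∑ η, wE (w c.succ η)) * mean u := by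
      rw [← Finset.mul_sum]
      congr 1
      simp_rw [mean3]
      rw [← Finset.sum_div, Finset.sum_add_distrib, Finset.sum_add_distrib, ← Finset.mul_sum,
        ← Finset.mul_sum, ← Finset.mul_sum, hpl, hpl, hpl]
      ring
    rw [step2]
    -- step 3: the first child
    have step3 : ∀ s : Fin k → Msg,
        ∑ x, (∏ c : Fin k, wt (∑ η, wE (w c.succ η)) (∑ η, wV (w c.succ η)) (s c))
          * F (fun i => (u i * ∏ c : Fin k, msg l (s c) i) * pl (-l) (w 0 x) i)
        ≤ (∏ c : Fin k, wt (∑ η, wE (w c.succ η)) (∑ η, wV (w c.succ η)) (s c)) *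
          (∑ s0 : Msg, wt (∑ η, wE (w 0 η)) (∑ η, wV (w 0 η)) s0 *
              F (fun i => (u i * ∏ c : Fin k, msg l (s c) i) * msg l s0 i)
            + ε * (∑ η, wE (w 0 η)) * mean (fun i => u i * ∏ c : Fin k, msg l (s c) i)) := by
      intro s
      rw [← Finset.mul_sum]
      refine mul_le_mul_of_nonneg_left ?_ (Finset.prod_nonneg fun c _ =>
        wt_nonneg (hWE c.succ) (hWV c.succ) (hWs c.succ) (s c))
      exact one_cmp hF (w 0) (hw 0) (hsym 0) (hmean 0) _ fun i =>
        mul_nonneg (hu i) (Finset.prod_nonneg fun c _ => msg_nonneg h0 h1 (s c) i)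
    refine (add_le_add_left (Finset.sum_le_sum fun s _ => step3 s) _).trans (le_of_eq ?_)
    simp_rw [mul_add]
    rw [Finset.sum_add_distrib]
    have step4 : ∑ s : Fin k → Msg,
        (∏ c : Fin k, wt (∑ η, wE (w c.succ η)) (∑ η, wV (w c.succ η)) (s c)) *
          (ε * (∑ η, wE (w 0 η)) * mean (fun i => u i * ∏ c : Fin k, msg l (s c) i))
        = ε * (∑ η, wE (w 0 η)) * mean u := by
      have h3 := sum_prod_wt_mean l k (fun c => ∑ η, wE (w c.succ η))
        (fun c => ∑ η, wV (w c.succ η)) u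
      have h4 : ∀ s : Fin k → Msg,
          (∏ c : Fin k, wt (∑ η, wE (w c.succ η)) (∑ η, wV (w c.succ η)) (s c)) *
          (ε * (∑ η, wE (w 0 η)) * mean (fun i => u i * ∏ c : Fin k, msg l (s c) i))
          = ε * (∑ η, wE (w 0 η)) *
          ((∏ c : Fin k, wt (∑ η, wE (w c.succ η)) (∑ η, wV (w c.succ η)) (s c)) *
          mean (fun i => u i * ∏ c : Fin k, msg l (s c) i)) := fun s => by ring
      rw [Finset.sum_congr rfl fun s _ => h4 s, ← Finset.mul_sum, h3]
    rw [step4]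
    have step5 : ∑ s : Fin k → Msg,
        (∏ c : Fin k, wt (∑ η, wE (w c.succ η)) (∑ η, wV (w c.succ η)) (s c)) *
          ∑ s0 : Msg, wt (∑ η, wE (w 0 η)) (∑ η, wV (w 0 η)) s0 *
              F (fun i => (u i * ∏ c : Fin k, msg l (s c) i) * msg l s0 i)
        = ∑ s0 : Msg, ∑ s : Fin k → Msg,
          wt (∑ η, wE (w 0 η)) (∑ η, wV (w 0 η)) s0 *
          (∏ c : Fin k, wt (∑ η, wE (w c.succ η)) (∑ η, wV (w c.succ η)) (s c)) *
          F (fun i => u i * (msg l s0 i * ∏ c : Fin k, msg l (s c) i)) := by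
      rw [Finset.sum_comm]
      refine Finset.sum_congr rfl fun s _ => ?_
      rw [Finset.mul_sum]
      refine Finset.sum_congr rfl fun s0 _ => ?_
      have e : (fun i => (u i * ∏ c : Fin k, msg l (s c) i) * msg l s0 i)
          = fun i => u i * (msg l s0 i * ∏ c : Fin k, msg l (s c) i) := by
        funext i
        ring
      rw [e]
      ring
    rw [step5]
    ring

end Vale.Agent.P154
end

section

/-!
# P154: the closed upper bound for one step of the antiferromagnetic recursion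
-/

open scoped BigOperators ENNReal
open Filter Topology

namespace Vale.Agent.P154

section
variable {ν : ℕ → ℝ}

theorem pl_nonneg_pos {r : ℝ} (h0 : 0 ≤ r) (h1 : r ≤ 1) {v : Fin 3 → ℝ} (hv : ∀ i, 0 ≤ v i)
    (i : Fin 3) : 0 ≤ pl r v i := by
  unfold pl
  exact add_nonneg (mul_nonneg h0 (hv i)) (mul_nonneg (by linarith) (mean_nonneg3 hv))

theorem mean_pl3 (r : ℝ) (v : Fin 3 → ℝ) : mean (pl r v) = mean v := by
  have h : mean (pl r v) = (pl r v 0 + pl r v 1 + pl r v 2) / 3 := mean3 _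
  rw [h]
  unfold pl
  rw [mean3]
  ring

/-- one step on a fixed tree -/
theorem tsm_cmp {l ε r lam : ℝ} (h0 : 0 ≤ l) (h1 : l ≤ 1 / 2) (hr0 : 0 ≤ r) (hr1 : r ≤ 1)
    (hlam : lam = -l * r) (hp : ∀ i j : Fin 3, 0 ≤ potts 3 lam i j)
    {F : (Fin 3 → ℝ) → ℝ} (hF : CmpF l F ε) (n k : ℕ) (t : Fin k → Tree n) :
    tsm 3 lam F (n + 1) ⟨k, t⟩ ≤
      ∑ s : Fin k → Msg, (∏ c, wt (tsm 3 lam (fun v => wE (pl r v)) n (t c))
          (tsm 3 lam (fun v => wV (pl r v)) n (t c)) (s c)) * F (fun i => ∏ c, msg l (s c) i)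
        + ε * ∑ c, tsm 3 lam (fun v => wE (pl r v)) n (t c) := by
  have key := prod_cmp h0 h1 hF k (fun c => Spins 3 n (t c))
    (fun c η => pl r (fun j => lik 3 lam n (t c) j η))
    (fun c η i => pl_nonneg_pos hr0 hr1 (fun j => lik_nonneg hp n (t c) j η) i)
    (fun c τ H => by
      have h2 := sum_lik_perm (lam := lam) (by norm_num : 2 ≤ 3) n (t c) τ (fun v => H (pl r v))
      refine Eq.trans ?_ h2
      refine Finset.sum_congr rfl fun η _ => ?_
      rw [pl_rot (lam := r) (fun j => lik 3 lam n (t c) j η) τ])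
    (fun c i => by
      unfold pl
      rw [Finset.sum_add_distrib, ← Finset.mul_sum, ← Finset.mul_sum,
        anti_lik_sum (potts_sum (by norm_num) lam) n (t c) i, sum_mean_lik (by norm_num) n (t c)]
      ring)
    (fun _ => 1) (fun _ => zero_le_one)
  have e0 : mean (fun _ : Fin 3 => (1 : ℝ)) = 1 := by rw [mean3]; norm_num
  rw [e0, mul_one] at key
  simp only [one_mul] at key
  refine (le_of_eq ?_).trans key
  change ∑ η : ((c : Fin k) → Spins 3 n (t c)), F (fun i => lik 3 lam (n + 1) ⟨k, t⟩ i η) = _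
  refine Finset.sum_congr rfl fun η _ => ?_
  congr 1
  funext i
  rw [lik_succ_eq (by norm_num) n k t η i]
  refine Finset.prod_congr rfl fun c _ => ?_
  rw [pl_pl, hlam]

theorem expT_ofReal_eq (hν : ∀ k, 0 ≤ ν k) (hs : HasSum ν 1) (n : ℕ) (g : Tree n → ℝ)
    (hg : ∀ t, 0 ≤ g t) {C : ℝ} (hC : ∀ t, g t ≤ C) :
    expT ν n (fun t => ENNReal.ofReal (g t)) = ENNReal.ofReal (∑' t, treeProb ν n t * g t) := by
  rw [tsum_treeProb_eq hν n g hg, ENNReal.ofReal_toReal]
  have h1 : expT ν n (fun t => ENNReal.ofReal (g t)) ≤ expT ν n (fun _ => ENNReal.ofReal C * 1) := by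
    apply expT_mono
    intro t
    rw [mul_one]
    exact ENNReal.ofReal_le_ofReal (hC t)
  rw [expT_const_mul, expT_one hν (tsum_ofReal_offspring hν hs), mul_one] at h1
  exact ne_top_of_le_ne_top ENNReal.ofReal_ne_top h1

theorem summable_treeProb_mul (hν : ∀ k, 0 ≤ ν k) (hs : HasSum ν 1) (n : ℕ) (g : Tree n → ℝ)
    {C : ℝ} (hC : ∀ t, |g t| ≤ C) : Summable (fun t => treeProb ν n t * g t) := by
  refine Summable.of_norm_bounded (g := fun t : Tree n => treeProb ν n t * C)
    ((hasSum_treeProb hν hs n).summable.mul_right C) fun t => ?_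
  rw [Real.norm_eq_abs, abs_mul, abs_of_nonneg (treeProb_nonneg hν n t)]
  exact mul_le_mul_of_nonneg_left (hC t) (treeProb_nonneg hν n t)

/-- expected weight of each message type -/
theorem expT_wt (hν : ∀ k, 0 ≤ ν k) (hs : HasSum ν 1) (n : ℕ) (a b : Tree n → ℝ)
    (ha : ∀ t, 0 ≤ a t) (hb : ∀ t, 0 ≤ b t) (hab : ∀ t, a t + b t ≤ 1) (s : Msg) :
    expT ν n (fun t => ENNReal.ofReal (wt (a t) (b t) s))
      = ENNReal.ofReal (wt (∑' t, treeProb ν n t * a t) (∑' t, treeProb ν n t * b t) s) := by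
  have ha1 : ∀ t, |a t| ≤ 1 := fun t => by
    rw [abs_of_nonneg (ha t)]; have := hb t; have := hab t; linarith
  have hb1 : ∀ t, |b t| ≤ 1 := fun t => by
    rw [abs_of_nonneg (hb t)]; have := ha t; have := hab t; linarith
  have hsa := summable_treeProb_mul hν hs n a ha1
  have hsb := summable_treeProb_mul hν hs n b hb1
  rw [expT_ofReal_eq hν hs n (fun t => wt (a t) (b t) s)
    (fun t => wt_nonneg (ha t) (hb t) (hab t) s) (C := 1) ?_]
  · congr 1
    rcases s with _ | ⟨c, j⟩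
    · change ∑' t, treeProb ν n t * (1 - a t - b t) = 1 - _ - _
      have h1 := (hasSum_treeProb hν hs n).sub hsa.hasSum
      have h2 := h1.sub hsb.hasSum
      rw [← h2.tsum_eq]
      exact tsum_congr fun t => by ring
    · cases c
      · change ∑' t, treeProb ν n t * (b t / 3) = (∑' t, treeProb ν n t * b t) / 3
        rw [← tsum_div_const]
        exact tsum_congr fun t => by ring
      · change ∑' t, treeProb ν n t * (a t / 3) = (∑' t, treeProb ν n t * a t) / 3
        rw [← tsum_div_const]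
        exact tsum_congr fun t => by ring
  · intro t
    have h1 := ha t
    have h2 := hb t
    have h3 := hab t
    rcases s with _ | ⟨c, j⟩
    · change 1 - a t - b t ≤ 1
      linarith
    · cases c
      · change b t / 3 ≤ 1
        linarith
      · change a t / 3 ≤ 1
        linarith

theorem clos_nonneg {l e v : ℝ} (h0 : 0 ≤ l) (h1 : l ≤ 1 / 2) (he : 0 ≤ e) (hv : 0 ≤ v)
    (hev : e + v ≤ 1) {F : (Fin 3 → ℝ) → ℝ} (hF : ∀ v : Fin 3 → ℝ, (∀ i, 0 ≤ v i) → 0 ≤ F v)
    (k : ℕ) : 0 ≤ clos l F k e v :=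
  Finset.sum_nonneg fun s _ => mul_nonneg (Finset.prod_nonneg fun c _ => wt_nonneg he hv hev (s c))
    (hF _ fun i => Finset.prod_nonneg fun c _ => msg_nonneg h0 h1 (s c) i)

theorem clos_mean (l : ℝ) (k : ℕ) (e v : ℝ) : clos l mean k e v = 1 := by
  have h := sum_prod_wt_mean l k (fun _ => e) (fun _ => v) (fun _ => 1)
  simp only [one_mul] at h
  unfold clos
  rw [h, mean3]
  norm_num

theorem clos_add (l : ℝ) (F G : (Fin 3 → ℝ) → ℝ) (k : ℕ) (e v : ℝ) :
    clos l (fun u => F u + G u) k e v = clos l F k e v + clos l G k e v := by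
  unfold clos
  rw [← Finset.sum_add_distrib]
  exact Finset.sum_congr rfl fun s _ => by ring

theorem clos_const_mul (l : ℝ) (F : (Fin 3 → ℝ) → ℝ) (a : ℝ) (k : ℕ) (e v : ℝ) :
    clos l (fun u => a * F u) k e v = a * clos l F k e v := by
  unfold clos
  rw [Finset.mul_sum]
  exact Finset.sum_congr rfl fun s _ => by ring

theorem clos_mono {l e v : ℝ} (h0 : 0 ≤ l) (h1 : l ≤ 1 / 2) (he : 0 ≤ e) (hv : 0 ≤ v)
    (hev : e + v ≤ 1) {F G : (Fin 3 → ℝ) → ℝ}
    (hFG : ∀ v : Fin 3 → ℝ, (∀ i, 0 ≤ v i) → F v ≤ G v)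
    (k : ℕ) : clos l F k e v ≤ clos l G k e v :=
  Finset.sum_le_sum fun s _ => mul_le_mul_of_nonneg_left
    (hFG _ fun i => Finset.prod_nonneg fun c _ => msg_nonneg h0 h1 (s c) i)
    (Finset.prod_nonneg fun c _ => wt_nonneg he hv hev (s c))

theorem clos_le {l e v C : ℝ} (h0 : 0 ≤ l) (h1 : l ≤ 1 / 2) (he : 0 ≤ e) (hv : 0 ≤ v)
    (hev : e + v ≤ 1) {F : (Fin 3 → ℝ) → ℝ} (hF : HomBdd F C) (k : ℕ) :
    clos l F k e v ≤ C := by
  have h := clos_mono h0 h1 he hv hev (F := F) (G := fun u => C * mean u)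
    (fun u hu => (le_abs_self _).trans (hF u hu)) k
  rwa [clos_const_mul, clos_mean, mul_one] at h

/-- abbreviations for the expected weights -/
noncomputable def eW (ν : ℕ → ℝ) (lam r : ℝ) (n : ℕ) : ℝ := ev ν 3 lam n (fun v => wE (pl r v))
noncomputable def vW (ν : ℕ → ℝ) (lam r : ℝ) (n : ℕ) : ℝ := ev ν 3 lam n (fun v => wV (pl r v))

/-- **One step bound** in extended nonnegative reals. -/
theorem expT_step {l ε r lam : ℝ} (h0 : 0 ≤ l) (h1 : l ≤ 1 / 2) (hr0 : 0 ≤ r) (hr1 : r ≤ 1)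
    (hε : 0 ≤ ε) (hlam : lam = -l * r) (hp : ∀ i j : Fin 3, 0 ≤ potts 3 lam i j)
    (hν : ∀ k, 0 ≤ ν k) (hs : HasSum ν 1)
    {F : (Fin 3 → ℝ) → ℝ} (hF0 : ∀ v : Fin 3 → ℝ, (∀ i, 0 ≤ v i) → 0 ≤ F v)
    (hF : CmpF l F ε) (n : ℕ) :
    expT ν (n + 1) (fun t => ENNReal.ofReal (tsm 3 lam F (n + 1) t)) ≤
      ∑' k : ℕ, ENNReal.ofReal (ν k) *
        ENNReal.ofReal (clos l F k (eW ν lam r n) (vW ν lam r n) + ε * (k * eW ν lam r n)) := by
  rw [expT_succ hν]
  refine ENNReal.tsum_le_tsum fun k => ?_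
  refine mul_le_mul_right ?_ _
  set a : Tree n → ℝ := fun t => tsm 3 lam (fun v => wE (pl r v)) n t with ha_def
  set b : Tree n → ℝ := fun t => tsm 3 lam (fun v => wV (pl r v)) n t with hb_def
  have hlikpl : ∀ t (η : Spins 3 n t) i, 0 ≤ pl r (fun j => lik 3 lam n t j η) i := fun t η i =>
    pl_nonneg_pos hr0 hr1 (fun j => lik_nonneg hp n t j η) i
  have ha : ∀ t, 0 ≤ a t := fun t => Finset.sum_nonneg fun η _ => wE_nonneg (hlikpl t η)
  have hb : ∀ t, 0 ≤ b t := fun t => Finset.sum_nonneg fun η _ => wV_nonneg (hlikpl t η)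
  have hab : ∀ t, a t + b t ≤ 1 := by
    intro t
    have h2 : ∑ η : Spins 3 n t, mean (fun i => lik 3 lam n t i η) = 1 :=
      sum_mean_lik (by norm_num) n t
    rw [← h2]
    change ∑ η, wE (pl r _) + ∑ η, wV (pl r _) ≤ _
    rw [← Finset.sum_add_distrib]
    refine Finset.sum_le_sum fun η _ => ?_
    have h3 := hP_eq (pl r (fun j => lik 3 lam n t j η))
    have h4 := hP_nonneg (hlikpl t η)
    rw [mean_pl3] at h3
    linarith only [h3, h4]
  have hew : (∑' t, treeProb ν n t * a t) = eW ν lam r n := rfl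
  have hvw : (∑' t, treeProb ν n t * b t) = vW ν lam r n := rfl
  have hFs : ∀ s : Fin k → Msg, 0 ≤ F (fun i => ∏ c, msg l (s c) i) := fun s =>
    hF0 _ fun i => Finset.prod_nonneg fun c _ => msg_nonneg h0 h1 (s c) i
  -- pointwise bound
  have hpt : ∀ t : Fin k → Tree n, ENNReal.ofReal (tsm 3 lam F (n + 1) ⟨k, t⟩) ≤
      ∑ s : Fin k → Msg, (∏ c, ENNReal.ofReal (wt (a (t c)) (b (t c)) (s c))) *
        ENNReal.ofReal (F (fun i => ∏ c, msg l (s c) i))
      + ∑ c, ENNReal.ofReal ε * ENNReal.ofReal (a (t c)) := by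
    intro t
    refine (ENNReal.ofReal_le_ofReal (tsm_cmp h0 h1 hr0 hr1 hlam hp hF n k t)).trans ?_
    refine ENNReal.ofReal_add_le.trans ?_
    refine add_le_add (le_of_eq ?_) (le_of_eq ?_)
    · rw [ENNReal.ofReal_sum_of_nonneg fun s _ => mul_nonneg (Finset.prod_nonneg fun c _ =>
        wt_nonneg (ha _) (hb _) (hab _) (s c)) (hFs s)]
      refine Finset.sum_congr rfl fun s _ => ?_
      rw [ENNReal.ofReal_mul (Finset.prod_nonneg fun c _ =>
        wt_nonneg (ha _) (hb _) (hab _) (s c)), ENNReal.ofReal_prod_of_nonneg fun c _ =>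
        wt_nonneg (ha _) (hb _) (hab _) (s c)]
    · rw [Finset.mul_sum, ENNReal.ofReal_sum_of_nonneg fun c _ => mul_nonneg hε (ha _)]
      exact Finset.sum_congr rfl fun c _ => ENNReal.ofReal_mul hε
  refine (ENNReal.tsum_le_tsum fun t => mul_le_mul_right (hpt t) _).trans ?_
  simp_rw [mul_add, Finset.mul_sum]
  rw [ENNReal.tsum_add]
  -- main term
  have hmain : ∑' t : Fin k → Tree n, ∑ s : Fin k → Msg,
      (∏ c, ENNReal.ofReal (treeProb ν n (t c))) *
        ((∏ c, ENNReal.ofReal (wt (a (t c)) (b (t c)) (s c))) *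
          ENNReal.ofReal (F (fun i => ∏ c, msg l (s c) i)))
      = ENNReal.ofReal (clos l F k (eW ν lam r n) (vW ν lam r n)) := by
    rw [Summable.tsum_finsetSum fun _ _ => ENNReal.summable]
    unfold clos
    have hwt : ∀ s : Msg, 0 ≤ wt (eW ν lam r n) (vW ν lam r n) s := by
      intro s
      refine wt_nonneg ?_ ?_ ?_ s
      · rw [← hew]; exact tsum_nonneg fun t => mul_nonneg (treeProb_nonneg hν n t) (ha t)
      · rw [← hvw]; exact tsum_nonneg fun t => mul_nonneg (treeProb_nonneg hν n t) (hb t)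
      · have ha1 : ∀ t, |a t| ≤ 1 := fun t => by
          rw [abs_of_nonneg (ha t)]; have := hb t; have := hab t; linarith
        have hb1 : ∀ t, |b t| ≤ 1 := fun t => by
          rw [abs_of_nonneg (hb t)]; have := ha t; have := hab t; linarith
        have hsa := summable_treeProb_mul hν hs n a ha1
        have hsb := summable_treeProb_mul hν hs n b hb1
        rw [← hew, ← hvw, ← hsa.tsum_add hsb, ← (hasSum_treeProb hν hs n).tsum_eq]
        refine (hsa.add hsb).tsum_le_tsum (fun t => ?_) (hasSum_treeProb hν hs n).summable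
        rw [← mul_add]
        exact mul_le_of_le_one_right (treeProb_nonneg hν n t) (hab t)
    rw [ENNReal.ofReal_sum_of_nonneg fun s _ =>
      mul_nonneg (Finset.prod_nonneg fun c _ => hwt (s c)) (hFs s)]
    refine Finset.sum_congr rfl fun s _ => ?_
    rw [ENNReal.ofReal_mul (Finset.prod_nonneg fun c _ => hwt (s c)),
      ENNReal.ofReal_prod_of_nonneg fun c _ => hwt (s c)]
    have h5 : ∀ t : Fin k → Tree n, (∏ c, ENNReal.ofReal (treeProb ν n (t c))) *
        ((∏ c, ENNReal.ofReal (wt (a (t c)) (b (t c)) (s c))) *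
          ENNReal.ofReal (F (fun i => ∏ c, msg l (s c) i)))
        = (∏ c, (fun (c : Fin k) (x : Tree n) => ENNReal.ofReal (treeProb ν n x) *
            ENNReal.ofReal (wt (a x) (b x) (s c))) c (t c)) *
          ENNReal.ofReal (F (fun i => ∏ c, msg l (s c) i)) := by
      intro t
      rw [← mul_assoc, ← Finset.prod_mul_distrib]
    rw [tsum_congr h5, ENNReal.tsum_mul_right,
      tsum_fin_prod k (fun (c : Fin k) (x : Tree n) => ENNReal.ofReal (treeProb ν n x) *
            ENNReal.ofReal (wt (a x) (b x) (s c)))]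
    congr 1
    refine Finset.prod_congr rfl fun c _ => ?_
    exact expT_wt hν hs n a b ha hb hab (s c)
  -- error term
  have herr : ∑' t : Fin k → Tree n, ∑ c : Fin k,
      (∏ c, ENNReal.ofReal (treeProb ν n (t c))) * (ENNReal.ofReal ε * ENNReal.ofReal (a (t c)))
      = ENNReal.ofReal (ε * (k * eW ν lam r n)) := by
    rw [Summable.tsum_finsetSum fun _ _ => ENNReal.summable]
    have h6 : ∀ c : Fin k, ∑' t : Fin k → Tree n,
        (∏ c, ENNReal.ofReal (treeProb ν n (t c))) * (ENNReal.ofReal ε * ENNReal.ofReal (a (t c)))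
        = ENNReal.ofReal ε * ENNReal.ofReal (eW ν lam r n) := by
      intro c
      have h7 : ∀ t : Fin k → Tree n, (∏ c, ENNReal.ofReal (treeProb ν n (t c))) *
          (ENNReal.ofReal ε * ENNReal.ofReal (a (t c)))
          = ENNReal.ofReal ε * ∏ c', (fun (c' : Fin k) (x : Tree n) =>
            ENNReal.ofReal (treeProb ν n x) *
              (if c' = c then ENNReal.ofReal (a x) else 1)) c' (t c') := by
        intro t
        simp only
        rw [Finset.prod_mul_distrib, Finset.prod_ite_eq' Finset.univ c]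
        simp only [Finset.mem_univ, if_true]
        ring
      rw [tsum_congr h7, ENNReal.tsum_mul_left,
        tsum_fin_prod k (fun (c' : Fin k) (x : Tree n) =>
            ENNReal.ofReal (treeProb ν n x) * (if c' = c then ENNReal.ofReal (a x) else 1))]
      congr 1
      rw [Finset.prod_eq_single c]
      · simp only [if_true]
        have ha1 : ∀ t, a t ≤ 1 := fun t => by have := hb t; have := hab t; linarith
        exact expT_ofReal_eq hν hs n a ha ha1
      · intro c' _ hc'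
        simp only [hc', if_false]
        exact expT_one hν (tsum_ofReal_offspring hν hs) n
      · intro h
        exact absurd (Finset.mem_univ c) h
    rw [Finset.sum_congr rfl fun c _ => h6 c, Finset.sum_const, Finset.card_univ, Fintype.card_fin,
      nsmul_eq_mul, ENNReal.ofReal_mul hε, ENNReal.ofReal_mul (Nat.cast_nonneg k),
      ENNReal.ofReal_natCast]
    ring
  have he0 : 0 ≤ eW ν lam r n := by
    rw [← hew]; exact tsum_nonneg fun t => mul_nonneg (treeProb_nonneg hν n t) (ha t)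
  have hv0 : 0 ≤ vW ν lam r n := by
    rw [← hvw]; exact tsum_nonneg fun t => mul_nonneg (treeProb_nonneg hν n t) (hb t)
  have hev : eW ν lam r n + vW ν lam r n ≤ 1 := by
    have ha1 : ∀ t, |a t| ≤ 1 := fun t => by
      rw [abs_of_nonneg (ha t)]; have := hb t; have := hab t; linarith
    have hb1 : ∀ t, |b t| ≤ 1 := fun t => by
      rw [abs_of_nonneg (hb t)]; have := ha t; have := hab t; linarith
    have hsa := summable_treeProb_mul hν hs n a ha1
    have hsb := summable_treeProb_mul hν hs n b hb1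
    rw [← hew, ← hvw, ← hsa.tsum_add hsb, ← (hasSum_treeProb hν hs n).tsum_eq]
    refine (hsa.add hsb).tsum_le_tsum (fun t => ?_) (hasSum_treeProb hν hs n).summable
    rw [← mul_add]
    exact mul_le_of_le_one_right (treeProb_nonneg hν n t) (hab t)
  rw [hmain, herr, ENNReal.ofReal_add (clos_nonneg h0 h1 he0 hv0 hev hF0 k)
    (mul_nonneg hε (mul_nonneg (Nat.cast_nonneg k) he0))]

end

end Vale.Agent.P154
end

section

/-!
# P154: limit laws

If nonreconstruction fails there is a limit law: a positive linear functional `L` on homogeneous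
functionals of three spins, obtained along an ultrafilter, with `L chi > 0`, satisfying the exact
identities `L (bG a τ) = G (L (bG a τ ∘ pl lam))` where `G s = ∑ k, ν k * s ^ k`.
-/

open scoped BigOperators ENNReal
open Filter Topology

namespace Vale.Agent.P154

section
variable {lam : ℝ} {ν : ℕ → ℝ}

/-- the ultrafilter used for all limits -/
noncomputable def uf : Ultrafilter ℕ := Filter.hyperfilter ℕ

theorem uf_le_atTop : (uf : Filter ℕ) ≤ atTop := by
  have h : (uf : Filter ℕ) ≤ cofinite := Filter.hyperfilter_le_cofinite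
  rwa [Nat.cofinite_eq_atTop] at h

/-- limit along the ultrafilter of the expectation of a functional -/
noncomputable def LL (ν : ℕ → ℝ) (lam : ℝ) (F : (Fin 3 → ℝ) → ℝ) : ℝ :=
  limUnder (uf : Filter ℕ) (fun n => ev ν 3 lam n F)

theorem abs_ev_le (hp : ∀ i j : Fin 3, 0 ≤ potts 3 lam i j) (hν : ∀ k, 0 ≤ ν k)
    (hs : HasSum ν 1) {F : (Fin 3 → ℝ) → ℝ} {C : ℝ} (hF : HomBdd F C) (n : ℕ) :
    |ev ν 3 lam n F| ≤ C := by
  have hq : 2 ≤ 3 := by norm_num
  rw [abs_le]
  constructor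
  · have h1 := ev_le_const hq hp hν hs (hF.const_mul (-1)) n
    rw [ev_const_mul, abs_neg, abs_one, one_mul] at h1
    linarith
  · exact ev_le_const hq hp hν hs hF n

theorem tendsto_LL (hp : ∀ i j : Fin 3, 0 ≤ potts 3 lam i j) (hν : ∀ k, 0 ≤ ν k)
    (hs : HasSum ν 1) {F : (Fin 3 → ℝ) → ℝ} {C : ℝ} (hF : HomBdd F C) :
    Tendsto (fun n => ev ν 3 lam n F) (uf : Filter ℕ) (𝓝 (LL ν lam F)) := by
  have h1 : ∀ n, ev ν 3 lam n F ∈ Set.Icc (-C) C := fun n => abs_le.1 (abs_ev_le hp hν hs hF n)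
  have hcomp : IsCompact (Set.Icc (-C) C) := isCompact_Icc
  have h2 : (Ultrafilter.map (fun n => ev ν 3 lam n F) uf : Filter ℝ) ≤ 𝓟 (Set.Icc (-C) C) := by
    rw [Filter.le_principal_iff, Ultrafilter.coe_map, Filter.mem_map]
    exact Filter.univ_mem' h1
  obtain ⟨x, -, hx⟩ := hcomp.ultrafilter_le_nhds _ h2
  exact tendsto_nhds_limUnder ⟨x, hx⟩

theorem LL_eq_of_tendsto (hp : ∀ i j : Fin 3, 0 ≤ potts 3 lam i j) (hν : ∀ k, 0 ≤ ν k)
    (hs : HasSum ν 1) {F : (Fin 3 → ℝ) → ℝ} {C : ℝ} (hF : HomBdd F C) {x : ℝ}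
    (h : Tendsto (fun n => ev ν 3 lam n F) (uf : Filter ℕ) (𝓝 x)) : LL ν lam F = x :=
  tendsto_nhds_unique (tendsto_LL hp hν hs hF) h

theorem LL_add (hp : ∀ i j : Fin 3, 0 ≤ potts 3 lam i j) (hν : ∀ k, 0 ≤ ν k)
    (hs : HasSum ν 1) {F G : (Fin 3 → ℝ) → ℝ} {C D : ℝ} (hF : HomBdd F C) (hG : HomBdd G D) :
    LL ν lam (fun v => F v + G v) = LL ν lam F + LL ν lam G := by
  refine LL_eq_of_tendsto hp hν hs (hF.add hG) ?_
  have h := (tendsto_LL hp hν hs hF).add (tendsto_LL hp hν hs hG)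
  refine h.congr fun n => ?_
  rw [ev_add (by norm_num) hp hν hs hF hG]

theorem LL_const_mul (hp : ∀ i j : Fin 3, 0 ≤ potts 3 lam i j) (hν : ∀ k, 0 ≤ ν k)
    (hs : HasSum ν 1) (a : ℝ) {F : (Fin 3 → ℝ) → ℝ} {C : ℝ} (hF : HomBdd F C) :
    LL ν lam (fun v => a * F v) = a * LL ν lam F := by
  refine LL_eq_of_tendsto hp hν hs (hF.const_mul a) ?_
  refine ((tendsto_LL hp hν hs hF).const_mul a).congr fun n => ?_
  rw [ev_const_mul]

theorem LL_mono (hp : ∀ i j : Fin 3, 0 ≤ potts 3 lam i j) (hν : ∀ k, 0 ≤ ν k)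
    (hs : HasSum ν 1) {F G : (Fin 3 → ℝ) → ℝ} {C D : ℝ} (hF : HomBdd F C) (hG : HomBdd G D)
    (h : ∀ v : Fin 3 → ℝ, (∀ i, 0 ≤ v i) → F v ≤ G v) : LL ν lam F ≤ LL ν lam G :=
  le_of_tendsto_of_tendsto (tendsto_LL hp hν hs hF) (tendsto_LL hp hν hs hG)
    (Filter.Eventually.of_forall fun n => ev_mono (by norm_num) hp hν hs hF hG h n)

theorem LL_mean (hp : ∀ i j : Fin 3, 0 ≤ potts 3 lam i j) (hν : ∀ k, 0 ≤ ν k)
    (hs : HasSum ν 1) : LL ν lam mean = 1 := by
  refine LL_eq_of_tendsto hp hν hs homBdd_mean ?_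
  simp_rw [ev_mean (by norm_num : 2 ≤ 3) hν hs]
  exact tendsto_const_nhds

/-- If the increments tend to zero, the shifted sequence has the same limit. -/
theorem tendsto_LL_succ (hp : ∀ i j : Fin 3, 0 ≤ potts 3 lam i j) (hν : ∀ k, 0 ≤ ν k)
    (hs : HasSum ν 1) {F : (Fin 3 → ℝ) → ℝ} {C : ℝ} (hF : HomBdd F C)
    (hinc : Tendsto (fun n => ev ν 3 lam (n + 1) F - ev ν 3 lam n F) atTop (𝓝 0)) :
    Tendsto (fun n => ev ν 3 lam (n + 1) F) (uf : Filter ℕ) (𝓝 (LL ν lam F)) := by
  have h := (tendsto_LL hp hν hs hF).add (hinc.mono_left uf_le_atTop)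
  rw [add_zero] at h
  refine h.congr fun n => ?_
  ring

/-! ### The second moment -/

/-- `mean - chi` is superlinear -/
theorem supLin_mean_sub_chi : SupLin (fun v : Fin 3 → ℝ => mean v + (-1) * chi v) := by
  intro ι s w v hw hv
  -- it suffices that the quadratic part is subadditive
  have hchi : ∀ u : Fin 3 → ℝ, chi u = ((∑ i, u i ^ 2) / (∑ i, u i) - (∑ i, u i) / 3) / 2 := by
    intro u
    unfold chi
    push_cast
    norm_num
  have hmean : ∀ u : Fin 3 → ℝ, mean u = (∑ i, u i) / 3 := by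
    intro u
    unfold mean
    push_cast
    rfl
  set S : Fin 3 → ℝ := fun i => ∑ a ∈ s, w a * v a i with hS
  have hsumS : ∑ i, S i = ∑ a ∈ s, w a * ∑ i, v a i := by
    rw [hS, Finset.sum_comm]
    refine Finset.sum_congr rfl fun a _ => ?_
    rw [Finset.mul_sum]
  have hs0 : ∀ a ∈ s, 0 ≤ ∑ i, v a i := fun a ha => Finset.sum_nonneg fun i _ => hv a ha i
  have hquad : (∑ i, S i ^ 2) / (∑ i, S i)
      ≤ ∑ a ∈ s, w a * ((∑ i, v a i ^ 2) / (∑ i, v a i)) := by
    -- Cauchy-Schwarz coordinatewise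
    have hcs : ∀ i, S i ^ 2 ≤ (∑ a ∈ s, w a * ∑ j, v a j)
        * ∑ a ∈ s, w a * (v a i ^ 2 / ∑ j, v a j) := by
      intro i
      have h := Finset.sum_sq_le_sum_mul_sum_of_sq_le_mul s
        (r := fun a => w a * v a i) (f := fun a => w a * ∑ j, v a j)
        (g := fun a => w a * (v a i ^ 2 / ∑ j, v a j))
        (fun a ha => mul_nonneg (hw a ha) (hs0 a ha))
        (fun a ha => mul_nonneg (hw a ha) (div_nonneg (sq_nonneg _) (hs0 a ha)))
        (fun a ha => by
          rcases (hs0 a ha).eq_or_lt with h0 | h0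
          · have hz : v a i = 0 :=
              (Finset.sum_eq_zero_iff_of_nonneg (fun j _ => hv a ha j)).1 h0.symm i
                (Finset.mem_univ i)
            rw [hz, ← h0]
            simp
          · refine le_of_eq ?_
            field_simp)
      exact h
    rcases (Finset.sum_nonneg fun a ha => mul_nonneg (hw a ha) (hs0 a ha) :
        0 ≤ ∑ a ∈ s, w a * ∑ j, v a j).eq_or_lt with h0 | h0
    · rw [hsumS, ← h0, div_zero]
      exact Finset.sum_nonneg fun a ha => mul_nonneg (hw a ha)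
        (div_nonneg (Finset.sum_nonneg fun i _ => sq_nonneg _) (hs0 a ha))
    · rw [hsumS, div_le_iff₀ h0]
      calc ∑ i, S i ^ 2 ≤ ∑ i, (∑ a ∈ s, w a * ∑ j, v a j)
            * ∑ a ∈ s, w a * (v a i ^ 2 / ∑ j, v a j) := Finset.sum_le_sum fun i _ => hcs i
        _ = _ := by
          rw [← Finset.mul_sum, Finset.sum_comm, mul_comm]
          congr 1
          refine Finset.sum_congr rfl fun a _ => ?_
          rw [← Finset.mul_sum, Finset.sum_div]
  simp only [hmean, hchi]
  rw [hsumS]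
  have e1 : ∑ a ∈ s, w a * ((∑ i, v a i) / 3
      + -1 * (((∑ i, v a i ^ 2) / (∑ i, v a i) - (∑ i, v a i) / 3) / 2))
      = (∑ a ∈ s, w a * ∑ i, v a i) / 2
        - (∑ a ∈ s, w a * ((∑ i, v a i ^ 2) / (∑ i, v a i))) / 2 := by
    rw [Finset.sum_div, Finset.sum_div, ← Finset.sum_sub_distrib]
    refine Finset.sum_congr rfl fun a _ => ?_
    ring
  rw [e1]
  rw [hsumS] at hquad
  linarith

theorem ev_chi_antitone (hp : ∀ i j : Fin 3, 0 ≤ potts 3 lam i j) (hν : ∀ k, 0 ≤ ν k)
    (hs : HasSum ν 1) : Antitone (fun n => ev ν 3 lam n chi) := by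
  have hq : 2 ≤ 3 := by norm_num
  have hb := (homBdd_mean (q := 3)).add ((homBdd_chi (q := 3) hq).const_mul (-1))
  have h0 : ∀ v : Fin 3 → ℝ, (∀ i, 0 ≤ v i) → 0 ≤ mean v + (-1) * chi v := by
    intro v hv
    have := homBdd_chi (q := 3) hq v hv
    have h1 := le_abs_self (chi v)
    linarith
  refine antitone_nat_of_succ_le fun n => ?_
  have h1 := ev_le_succ hq hp hν hs hb h0 supLin_mean_sub_chi n
  have e : ∀ n, ev ν 3 lam n (fun v => mean v + (-1) * chi v) = 1 - ev ν 3 lam n chi := by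
    intro n
    rw [ev_add hq hp hν hs homBdd_mean ((homBdd_chi hq).const_mul (-1)), ev_mean hq hν hs,
      ev_const_mul]
    ring
  rw [e, e] at h1
  linarith

theorem ev_chi_nonneg (hp : ∀ i j : Fin 3, 0 ≤ potts 3 lam i j) (hν : ∀ k, 0 ≤ ν k)
    (hs : HasSum ν 1) (n : ℕ) : 0 ≤ ev ν 3 lam n chi := by
  have hq : 2 ≤ 3 := by norm_num
  have h0 : ev ν 3 lam n (fun v => (0 : ℝ) * mean v) = 0 := by
    rw [ev_const_mul, zero_mul]
  rw [← h0]
  refine ev_mono hq hp hν hs ((homBdd_mean (q := 3)).const_mul 0) (homBdd_chi hq)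
    (fun v hv => ?_) n
  rw [zero_mul]
  have hs0 : 0 ≤ ∑ i, v i := Finset.sum_nonneg fun i _ => hv i
  rcases hs0.eq_or_lt with hs | hs
  · have hz : ∀ i, v i = 0 := fun i =>
      (Finset.sum_eq_zero_iff_of_nonneg (fun i _ => hv i)).1 hs.symm i (Finset.mem_univ i)
    have hc : chi v = 0 := by unfold chi; simp [hz]
    exact hc.ge
  · exact chi_nonneg hq hs

/-- If the limit law is trivial there is no reconstruction. -/
theorem nonrec_of_LL_chi (hp : ∀ i j : Fin 3, 0 ≤ potts 3 lam i j) (hν : ∀ k, 0 ≤ ν k)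
    (hs : HasSum ν 1) (h : LL ν lam chi ≤ 0) : Nonreconstruction ν 3 lam := by
  have hq : 2 ≤ 3 := by norm_num
  have hanti := ev_chi_antitone hp hν hs
  have hbdd : BddBelow (Set.range fun n => ev ν 3 lam n chi) := by
    refine ⟨0, ?_⟩
    rintro _ ⟨n, rfl⟩
    exact ev_chi_nonneg hp hν hs n
  have hlim := tendsto_atTop_ciInf hanti hbdd
  have h1 : LL ν lam chi = ⨅ n, ev ν 3 lam n chi :=
    LL_eq_of_tendsto hp hν hs (homBdd_chi hq) (hlim.mono_left uf_le_atTop)
  have h2 : (⨅ n, ev ν 3 lam n chi) = 0 := by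
    apply le_antisymm
    · rw [← h1]; exact h
    · exact le_ciInf fun n => ev_chi_nonneg hp hν hs n
  rw [h2] at hlim
  exact nonrec_of_ev_chi hq hp hν hs hlim

/-- the value of the limit law is below every finite level -/
theorem LL_chi_le (hp : ∀ i j : Fin 3, 0 ≤ potts 3 lam i j) (hν : ∀ k, 0 ≤ ν k)
    (hs : HasSum ν 1) (n : ℕ) : LL ν lam chi ≤ ev ν 3 lam n chi := by
  have h := tendsto_LL hp hν hs (homBdd_chi (q := 3) (by norm_num))
  refine le_of_tendsto h ?_
  exact (Filter.eventually_ge_atTop n).filter_mono uf_le_atTop |>.mono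
    fun m hm => ev_chi_antitone hp hν hs hm

end

end Vale.Agent.P154
end
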