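import Vale.Agent.P154.Bdl.B7
import Vale.Agent.P154.Bdl.B2
import Vale.Agent.P154.Bdl.B1
import Vale.Agent.P154.Bdl.B3

set_option linter.all false

section

/-!
# P154: operator form of the closure, and the closure at the limit law
-/

open scoped BigOperators ENNReal
open Filter Topology

namespace Vale.Agent.P154

/-- one message of the three-point law acting on a functional -/
noncomputable def opT (l e v : ℝ) (F : (Fin 3 → ℝ) → ℝ) : (Fin 3 → ℝ) → ℝ := fun u =>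
  (1 - e - v) * F u + e * ((∑ i, F (fun j => u j * eM l i j)) / 3)
    + v * ((∑ i, F (fun j => u j * vM l i j)) / 3)

theorem opT_eq (l e v : ℝ) (F : (Fin 3 → ℝ) → ℝ) (u : Fin 3 → ℝ) :
    opT l e v F u = ∑ s : Msg, wt e v s * F (fun i => u i * msg l s i) := by
  rw [sum_msg]
  change _ = (1 - e - v) * F (fun i => u i * 1)
    + ∑ i : Fin 3, e / 3 * F (fun j => u j * eM l i j)
    + ∑ i : Fin 3, v / 3 * F (fun j => u j * vM l i j)
  rw [← Finset.mul_sum, ← Finset.mul_sum]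
  simp only [mul_one]
  unfold opT
  ring

theorem clos_at (l e v : ℝ) : ∀ (k : ℕ) (F : (Fin 3 → ℝ) → ℝ) (u : Fin 3 → ℝ),
    ∑ s : Fin k → Msg, (∏ c, wt e v (s c)) * F (fun i => u i * ∏ c, msg l (s c) i)
      = ((opT l e v)^[k] F) u := by
  intro k
  induction k with
  | zero => intro F u; simp
  | succ k ih =>
    intro F u
    rw [← Equiv.sum_comp (Fin.consEquiv fun _ => Msg), Fintype.sum_prod_type]
    simp only [Fin.consEquiv_apply, Fin.prod_univ_succ, Fin.cons_zero, Fin.cons_succ]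
    rw [Function.iterate_succ_apply, ← ih, Finset.sum_comm]
    refine Finset.sum_congr rfl fun s _ => ?_
    rw [opT_eq, Finset.mul_sum]
    refine Finset.sum_congr rfl fun s0 _ => ?_
    have e1 : (fun i => u i * (msg l s0 i * ∏ c : Fin k, msg l (s c) i))
        = fun i => (u i * ∏ c : Fin k, msg l (s c) i) * msg l s0 i := by
      funext i
      ring
    rw [e1]
    ring

theorem clos_eq_op (l e v : ℝ) (k : ℕ) (F : (Fin 3 → ℝ) → ℝ) :
    clos l F k e v = ((opT l e v)^[k] F) (fun _ => 1) := by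
  rw [← clos_at]
  unfold clos
  simp only [one_mul]

theorem pl_hX (r : ℝ) {v : Fin 3 → ℝ} (hv : ∀ i, 0 ≤ v i) :
    hR (pl r v) = r ^ 2 * hR v := by
  unfold hR
  rw [mean_pl3]
  rcases (sum3_nonneg hv).eq_or_lt with h | h
  · rw [zero_of_sum3 hv h.symm]
    have : pl r (fun _ : Fin 3 => (0 : ℝ)) = fun _ => 0 := by
      funext i; unfold pl; rw [mean_zero3]; ring
    rw [this]
    unfold hX
    rw [mean_zero3]
    simp
  · unfold hX pl
    rw [mean3]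
    have h2 : r * v 0 + (1 - r) * ((v 0 + v 1 + v 2) / 3) + (r * v 1 + (1 - r) * ((v 0 + v 1 + v 2) / 3))
        + (r * v 2 + (1 - r) * ((v 0 + v 1 + v 2) / 3)) = v 0 + v 1 + v 2 := by ring
    rw [h2]
    field_simp
    ring

theorem pl_hT (r : ℝ) {v : Fin 3 → ℝ} (hv : ∀ i, 0 ≤ v i) :
    hT (pl r v) = r ^ 3 * hT v := by
  unfold hT
  rw [mean_pl3]
  rcases (sum3_nonneg hv).eq_or_lt with h | h
  · rw [zero_of_sum3 hv h.symm]
    have : pl r (fun _ : Fin 3 => (0 : ℝ)) = fun _ => 0 := by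
      funext i; unfold pl; rw [mean_zero3]; ring
    rw [this]
    unfold hX hP
    rw [mean_zero3]
    simp only [mul_zero, add_zero, ne_eq, OfNat.ofNat_ne_zero, not_false_eq_true, zero_pow,
      div_zero, sub_self, zero_div]
  · unfold hX hP pl
    rw [mean3]
    have h2 : r * v 0 + (1 - r) * ((v 0 + v 1 + v 2) / 3) + (r * v 1 + (1 - r) * ((v 0 + v 1 + v 2) / 3))
        + (r * v 2 + (1 - r) * ((v 0 + v 1 + v 2) / 3)) = v 0 + v 1 + v 2 := by ring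
    rw [h2]
    field_simp
    ring

theorem chi_eq_hR (v : Fin 3 → ℝ) : chi v = hR v := by
  unfold chi hR hX
  rw [mean3, Fin.sum_univ_three, Fin.sum_univ_three]
  by_cases h : v 0 + v 1 + v 2 = 0
  · rw [h]; simp
  · push_cast
    field_simp
    ring

theorem hphi_key (a b p q s t g : ℝ) (hs : s ≠ 0) (ht : t ≠ 0) (hst : s + t ≠ 0) :
    ((1 + g) * (s / 3) - (1 + 3 / 2 * g) * ((a * b + b * (s - a - b) + (s - a - b) * a) / s)
        + g / 2 * (9 * (a * b * (s - a - b)) / s ^ 2))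
    + ((1 + g) * (t / 3) - (1 + 3 / 2 * g) * ((p * q + q * (t - p - q) + (t - p - q) * p) / t)
        + g / 2 * (9 * (p * q * (t - p - q)) / t ^ 2))
    - ((1 + g) * ((s + t) / 3) - (1 + 3 / 2 * g) * (((a + p) * (b + q)
          + (b + q) * ((s - a - b) + (t - p - q)) + ((s - a - b) + (t - p - q)) * (a + p)) / (s + t))
        + g / 2 * (9 * ((a + p) * (b + q) * ((s - a - b) + (t - p - q))) / (s + t) ^ 2))
    = s * t / (18 * (s + t)) *
      ((3 * a / s - 3 * p / t) ^ 2 *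
          (1 + g * ((1 + s / (s + t)) * (3 * a / s - 1) + (2 - s / (s + t)) * (3 * p / t - 1)))
      + (3 * b / s - 3 * q / t) ^ 2 *
          (1 + g * ((1 + s / (s + t)) * (3 * b / s - 1) + (2 - s / (s + t)) * (3 * q / t - 1)))
      + (3 * (s - a - b) / s - 3 * (t - p - q) / t) ^ 2 *
          (1 + g * ((1 + s / (s + t)) * (3 * (s - a - b) / s - 1)
            + (2 - s / (s + t)) * (3 * (t - p - q) / t - 1)))) := by
  field_simp
  ring

/-- `R + g T` is convex for `g ≤ 1/3` -/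
theorem hphi_subadd {g : ℝ} (h0 : 0 ≤ g) (h1 : g ≤ 1 / 3) {u v : Fin 3 → ℝ}
    (hu : ∀ i, 0 ≤ u i) (hv : ∀ i, 0 ≤ v i) :
    hphi g (fun i => u i + v i) ≤ hphi g u + hphi g v := by
  have hz : hphi g (fun _ => 0) = 0 := by
    rw [hphi_eq, mean_zero3]; unfold hX hP; simp only [mul_zero, add_zero, div_zero, sub_self,
                                              ne_eq, OfNat.ofNat_ne_zero, not_false_eq_true,
                                              zero_pow]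
  rcases (sum3_nonneg hu).eq_or_lt with h | hs
  · rw [zero_of_sum3 hu h.symm, hz]; simp
  rcases (sum3_nonneg hv).eq_or_lt with h | ht
  · rw [zero_of_sum3 hv h.symm, hz]; simp
  have hst : 0 < (u 0 + u 1 + u 2) + (v 0 + v 1 + v 2) := add_pos hs ht
  obtain ⟨s, hsd⟩ : ∃ s, s = u 0 + u 1 + u 2 := ⟨_, rfl⟩
  obtain ⟨t, htd⟩ : ∃ t, t = v 0 + v 1 + v 2 := ⟨_, rfl⟩
  rw [← hsd] at hs hst
  rw [← htd] at ht hst
  have key : hphi g u + hphi g v - hphi g (fun i => u i + v i) = s * t / (18 * (s + t)) *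
      ((3 * u 0 / s - 3 * v 0 / t) ^ 2 *
          (1 + g * ((1 + s / (s + t)) * (3 * u 0 / s - 1) + (2 - s / (s + t)) * (3 * v 0 / t - 1)))
      + (3 * u 1 / s - 3 * v 1 / t) ^ 2 *
          (1 + g * ((1 + s / (s + t)) * (3 * u 1 / s - 1) + (2 - s / (s + t)) * (3 * v 1 / t - 1)))
      + (3 * u 2 / s - 3 * v 2 / t) ^ 2 *
          (1 + g * ((1 + s / (s + t)) * (3 * u 2 / s - 1)
            + (2 - s / (s + t)) * (3 * v 2 / t - 1)))) := by
    have hk := hphi_key (u 0) (u 1) (v 0) (v 1) s t g hs.ne' ht.ne' hst.ne'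
    have hu2 : s - u 0 - u 1 = u 2 := by rw [hsd]; ring
    have hv2 : t - v 0 - v 1 = v 2 := by rw [htd]; ring
    rw [hu2, hv2] at hk
    rw [← hk, hphi_eq, hphi_eq, hphi_eq, mean3, mean3, mean3]
    unfold hX hP
    have e3 : u 0 + v 0 + (u 1 + v 1) + (u 2 + v 2) = s + t := by rw [hsd, htd]; ring
    simp only [e3, ← hsd, ← htd]
  have hτ1 : 0 ≤ s / (s + t) := div_nonneg hs.le hst.le
  have hτ2 : s / (s + t) ≤ 1 := by rw [div_le_one hst]; linarith only [ht]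
  have hw : ∀ i, 0 ≤ 1 + g * ((1 + s / (s + t)) * (3 * u i / s - 1)
      + (2 - s / (s + t)) * (3 * v i / t - 1)) := by
    intro i
    have a1 : 0 ≤ 3 * u i / s := div_nonneg (mul_nonneg (by norm_num) (hu i)) hs.le
    have a2 : 0 ≤ 3 * v i / t := div_nonneg (mul_nonneg (by norm_num) (hv i)) ht.le
    have a3 : 0 ≤ (1 + s / (s + t)) * (3 * u i / s) := mul_nonneg (by linarith only [hτ1]) a1
    have a4 : 0 ≤ (2 - s / (s + t)) * (3 * v i / t) := mul_nonneg (by linarith only [hτ2]) a2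
    have a5 : (1 + s / (s + t)) * (3 * u i / s - 1) + (2 - s / (s + t)) * (3 * v i / t - 1)
        = (1 + s / (s + t)) * (3 * u i / s) + (2 - s / (s + t)) * (3 * v i / t) - 3 := by ring
    rw [a5]
    have a6 := mul_nonneg h0 (add_nonneg a3 a4)
    rw [mul_sub, ← add_sub_assoc]
    linarith only [a6, h1]
  have hfin : 0 ≤ hphi g u + hphi g v - hphi g (fun i => u i + v i) := by
    rw [key]
    refine mul_nonneg (by positivity) (add_nonneg (add_nonneg ?_ ?_) ?_)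
    · exact mul_nonneg (sq_nonneg _) (hw 0)
    · exact mul_nonneg (sq_nonneg _) (hw 1)
    · exact mul_nonneg (sq_nonneg _) (hw 2)
  linarith only [hfin]

theorem supLin_of_superadd {G : (Fin 3 → ℝ) → ℝ}
    (hadd : ∀ u v : Fin 3 → ℝ, (∀ i, 0 ≤ u i) → (∀ i, 0 ≤ v i) →
      G u + G v ≤ G (fun i => u i + v i))
    (hhom : ∀ (c : ℝ) (v : Fin 3 → ℝ), 0 ≤ c → (∀ i, 0 ≤ v i) → G (fun i => c * v i) = c * G v) :
    SupLin G := by
  intro ι s w v hw hv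
  classical
  induction s using Finset.induction_on with
  | empty =>
    simp only [Finset.sum_empty]
    have h := hhom 0 (fun _ => 0) le_rfl (fun _ => le_rfl)
    simp only [zero_mul] at h
    exact h.ge
  | insert a s ha ih =>
    rw [Finset.sum_insert ha]
    have h1 := ih (fun b hb => hw b (Finset.mem_insert_of_mem hb))
      (fun b hb => hv b (Finset.mem_insert_of_mem hb))
    have hwa := hw a (Finset.mem_insert_self a s)
    have hva := hv a (Finset.mem_insert_self a s)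
    have h2 := hadd (fun i => w a * v a i) (fun i => ∑ b ∈ s, w b * v b i)
      (fun i => mul_nonneg hwa (hva i))
      (fun i => Finset.sum_nonneg fun b hb => mul_nonneg (hw b (Finset.mem_insert_of_mem hb))
        (hv b (Finset.mem_insert_of_mem hb) i))
    rw [hhom (w a) (v a) hwa hva] at h2
    have e : (fun i => ∑ b ∈ insert a s, w b * v b i)
        = fun i => w a * v a i + ∑ b ∈ s, w b * v b i := by
      funext i
      rw [Finset.sum_insert ha]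
    rw [e]
    linarith

theorem supLin_two_mean_sub_hphi {g : ℝ} (h0 : 0 ≤ g) (h1 : g ≤ 1 / 3) :
    SupLin (fun v : Fin 3 → ℝ => 2 * mean v + (-1) * hphi g v) := by
  apply supLin_of_superadd
  · intro u v hu hv
    have h := hphi_subadd h0 h1 hu hv
    have e : mean (fun i => u i + v i) = mean u + mean v := by
      rw [mean3, mean3, mean3]; ring
    simp only [e]
    linarith only [h]
  · intro c v _ _
    simp only [mean_smul3, hphi_smul]
    ring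

theorem hphi_le_two_mean {g : ℝ} (h0 : 0 ≤ g) (h1 : g ≤ 1 / 3) {v : Fin 3 → ℝ}
    (hv : ∀ i, 0 ≤ v i) : hphi g v ≤ 2 * mean v := by
  have h := hphi_homBdd g v hv
  have h2 := (le_abs_self _).trans h
  rw [abs_of_nonneg h0] at h2
  have := mean_nonneg3 hv
  nlinarith only [h1, h2, this]

theorem wE_pl (r : ℝ) {v : Fin 3 → ℝ} (hv : ∀ i, 0 ≤ v i) :
    wE (pl r v) = (8 / 3 * r ^ 2) * hR v + (-(8 / 3 * r ^ 3)) * hT v := by
  unfold wE
  rw [pl_hX r hv, pl_hT r hv]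
  ring

theorem wV_pl (r : ℝ) {v : Fin 3 → ℝ} (hv : ∀ i, 0 ≤ v i) :
    wV (pl r v) = (1 / 3 * r ^ 2) * hR v + (2 / 3 * r ^ 3) * hT v := by
  unfold wV
  rw [pl_hX r hv, pl_hT r hv]
  ring

section
variable {ν : ℕ → ℝ} {lam : ℝ}

theorem eW_eq (hp : ∀ i j : Fin 3, 0 ≤ potts 3 lam i j) (hν : ∀ k, 0 ≤ ν k)
    (hs : HasSum ν 1) (r : ℝ) (n : ℕ) :
    eW ν lam r n = 8 / 3 * (r ^ 2 * ev ν 3 lam n hR - r ^ 3 * ev ν 3 lam n hT) := by
  unfold eW
  rw [ev_congr hp (fun v hv => wE_pl r hv) n,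
    ev_add (by norm_num) hp hν hs (hR_homBdd.const_mul _) (hT_homBdd.const_mul _),
    ev_const_mul, ev_const_mul]
  ring

theorem vW_eq (hp : ∀ i j : Fin 3, 0 ≤ potts 3 lam i j) (hν : ∀ k, 0 ≤ ν k)
    (hs : HasSum ν 1) (r : ℝ) (n : ℕ) :
    vW ν lam r n = (r ^ 2 * ev ν 3 lam n hR + 2 * (r ^ 3 * ev ν 3 lam n hT)) / 3 := by
  unfold vW
  rw [ev_congr hp (fun v hv => wV_pl r hv) n,
    ev_add (by norm_num) hp hν hs (hR_homBdd.const_mul _) (hT_homBdd.const_mul _),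
    ev_const_mul, ev_const_mul]
  ring

theorem eW_nonneg (hp : ∀ i j : Fin 3, 0 ≤ potts 3 lam i j) (hν : ∀ k, 0 ≤ ν k)
    {r : ℝ} (hr0 : 0 ≤ r) (hr1 : r ≤ 1) (n : ℕ) : 0 ≤ eW ν lam r n :=
  tsum_nonneg fun t => mul_nonneg (treeProb_nonneg hν n t) (Finset.sum_nonneg fun η _ =>
    wE_nonneg fun i => pl_nonneg_pos hr0 hr1 (fun j => lik_nonneg hp n t j η) i)

theorem vW_nonneg (hp : ∀ i j : Fin 3, 0 ≤ potts 3 lam i j) (hν : ∀ k, 0 ≤ ν k)
    {r : ℝ} (hr0 : 0 ≤ r) (hr1 : r ≤ 1) (n : ℕ) : 0 ≤ vW ν lam r n :=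
  tsum_nonneg fun t => mul_nonneg (treeProb_nonneg hν n t) (Finset.sum_nonneg fun η _ =>
    wV_nonneg fun i => pl_nonneg_pos hr0 hr1 (fun j => lik_nonneg hp n t j η) i)

theorem HomBdd.comp_pl_pos {F : (Fin 3 → ℝ) → ℝ} {C : ℝ} (hF : HomBdd F C) {r : ℝ}
    (hr0 : 0 ≤ r) (hr1 : r ≤ 1) : HomBdd (fun v => F (pl r v)) C := by
  intro v hv
  have h := hF (pl r v) (pl_nonneg_pos hr0 hr1 hv)
  rwa [mean_pl3] at h

theorem eW_add_vW_le (hp : ∀ i j : Fin 3, 0 ≤ potts 3 lam i j) (hν : ∀ k, 0 ≤ ν k)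
    (hs : HasSum ν 1) {r : ℝ} (hr0 : 0 ≤ r) (hr1 : r ≤ 1) (n : ℕ) :
    eW ν lam r n + vW ν lam r n ≤ 1 := by
  have hq : 2 ≤ 3 := by norm_num
  unfold eW vW
  rw [← ev_add hq hp hν hs (wE_homBdd.comp_pl_pos hr0 hr1) (wV_homBdd.comp_pl_pos hr0 hr1),
    ← ev_mean (lam := lam) hq hν hs n]
  refine ev_mono hq hp hν hs ((wE_homBdd.comp_pl_pos hr0 hr1).add
    (wV_homBdd.comp_pl_pos hr0 hr1)) homBdd_mean (fun v hv => ?_) n
  have h1 := hP_eq (pl r v)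
  have h2 := hP_nonneg (pl_nonneg_pos hr0 hr1 hv)
  rw [mean_pl3] at h1
  linarith only [h1, h2]

/-- the summand of the closed bound -/
noncomputable def stepTerm (ν : ℕ → ℝ) (l ε : ℝ) (F : (Fin 3 → ℝ) → ℝ) (e v : ℝ) (k : ℕ) : ℝ :=
  ν k * (((opT l e v)^[k] F) (fun _ => 1) + ε * (k * e))

theorem stepTerm_nonneg {l ε e v : ℝ} (h0 : 0 ≤ l) (h1 : l ≤ 1 / 2) (hε : 0 ≤ ε) (he : 0 ≤ e)
    (hv : 0 ≤ v) (hev : e + v ≤ 1) (hν : ∀ k, 0 ≤ ν k) {F : (Fin 3 → ℝ) → ℝ}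
    (hF0 : ∀ v : Fin 3 → ℝ, (∀ i, 0 ≤ v i) → 0 ≤ F v) (k : ℕ) :
    0 ≤ stepTerm ν l ε F e v k := by
  unfold stepTerm
  rw [← clos_eq_op]
  exact mul_nonneg (hν k) (add_nonneg (clos_nonneg h0 h1 he hv hev hF0 k)
    (mul_nonneg hε (mul_nonneg (Nat.cast_nonneg k) he)))

theorem stepTerm_le {l ε e v C : ℝ} (h0 : 0 ≤ l) (h1 : l ≤ 1 / 2) (hε : 0 ≤ ε) (he : 0 ≤ e)
    (hv : 0 ≤ v) (hev : e + v ≤ 1) (hν : ∀ k, 0 ≤ ν k) {F : (Fin 3 → ℝ) → ℝ}
    (hF : HomBdd F C) (k : ℕ) :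
    stepTerm ν l ε F e v k ≤ ν k * C + ε * (ν k * k) := by
  unfold stepTerm
  rw [← clos_eq_op, mul_add]
  have h2 := clos_le h0 h1 he hv hev hF k
  have h3 := mul_le_mul_of_nonneg_left h2 (hν k)
  have h4 : ν k * (ε * (k * e)) ≤ ε * (ν k * k) := by
    have h5 : ε * (k * e) ≤ ε * (k * 1) :=
      mul_le_mul_of_nonneg_left (mul_le_mul_of_nonneg_left (by linarith only [hv, hev]) (Nat.cast_nonneg k)) hε
    calc ν k * (ε * (k * e)) ≤ ν k * (ε * (k * 1)) := mul_le_mul_of_nonneg_left h5 (hν k)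
      _ = ε * (ν k * k) := by ring
  linarith only [h3, h4]

theorem summable_stepBound (hs : HasSum ν 1) (hsum : Summable fun k : ℕ => ν k * k) (C ε : ℝ) :
    Summable (fun k : ℕ => ν k * C + ε * (ν k * k)) :=
  (hs.summable.mul_right C).add (hsum.mul_left ε)

/-- **One step bound.** -/
theorem ev_step {l ε r C : ℝ} (h0 : 0 ≤ l) (h1 : l ≤ 1 / 2) (hr0 : 0 ≤ r) (hr1 : r ≤ 1)
    (hε : 0 ≤ ε) (hlam : lam = -l * r) (hp : ∀ i j : Fin 3, 0 ≤ potts 3 lam i j)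
    (hν : ∀ k, 0 ≤ ν k) (hs : HasSum ν 1) (hsum : Summable fun k : ℕ => ν k * k)
    {F : (Fin 3 → ℝ) → ℝ} (hF0 : ∀ v : Fin 3 → ℝ, (∀ i, 0 ≤ v i) → 0 ≤ F v)
    (hFC : HomBdd F C) (hF : CmpF l F ε) (n : ℕ) :
    ev ν 3 lam (n + 1) F ≤ ∑' k, stepTerm ν l ε F (eW ν lam r n) (vW ν lam r n) k := by
  have he := eW_nonneg (ν := ν) (lam := lam) hp hν hr0 hr1 n
  have hv := vW_nonneg (ν := ν) (lam := lam) hp hν hr0 hr1 n
  have hev := eW_add_vW_le hp hν hs hr0 hr1 n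
  have hnn := fun k => stepTerm_nonneg (ν := ν) h0 h1 hε he hv hev hν hF0 k
  have hsm : Summable (fun k => stepTerm ν l ε F (eW ν lam r n) (vW ν lam r n) k) :=
    Summable.of_nonneg_of_le hnn (fun k => stepTerm_le h0 h1 hε he hv hev hν hFC k)
      (summable_stepBound hs hsum C ε)
  have key := expT_step h0 h1 hr0 hr1 hε hlam hp hν hs hF0 hF n
  have e1 : ∑' k : ℕ, ENNReal.ofReal (ν k) *
        ENNReal.ofReal (clos l F k (eW ν lam r n) (vW ν lam r n) + ε * (k * eW ν lam r n))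
      = ENNReal.ofReal (∑' k, stepTerm ν l ε F (eW ν lam r n) (vW ν lam r n) k) := by
    rw [ENNReal.ofReal_tsum_of_nonneg hnn hsm]
    refine tsum_congr fun k => ?_
    unfold stepTerm
    rw [ENNReal.ofReal_mul (hν k), clos_eq_op]
  rw [e1] at key
  rw [ev_eq_toReal hν (n + 1) (tsm_nonneg hp hF0 (n + 1))]
  refine (ENNReal.toReal_mono ENNReal.ofReal_ne_top key).trans (le_of_eq ?_)
  exact ENNReal.toReal_ofReal (tsum_nonneg hnn)

theorem tendsto_ev_hphi_sub (hp : ∀ i j : Fin 3, 0 ≤ potts 3 lam i j) (hν : ∀ k, 0 ≤ ν k)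
    (hs : HasSum ν 1) {g : ℝ} (h0 : 0 ≤ g) (h1 : g ≤ 1 / 3) :
    Tendsto (fun n => ev ν 3 lam (n + 1) (hphi g) - ev ν 3 lam n (hphi g)) atTop (𝓝 0) := by
  have hq : 2 ≤ 3 := by norm_num
  have hb := ((homBdd_mean (q := 3)).const_mul 2).add ((hphi_homBdd g).const_mul (-1))
  have h2 := tendsto_ev_sub_of_supLin hq hp hν hs hb (fun v hv => by
    have := hphi_le_two_mean h0 h1 hv
    linarith only [this]) (supLin_two_mean_sub_hphi h0 h1)
  have h3 := h2.neg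
  rw [neg_zero] at h3
  refine h3.congr fun n => ?_
  have e : ∀ n, ev ν 3 lam n (fun v => 2 * mean v + (-1) * hphi g v)
      = 2 - ev ν 3 lam n (hphi g) := by
    intro n
    rw [ev_add hq hp hν hs ((homBdd_mean (q := 3)).const_mul 2) ((hphi_homBdd g).const_mul (-1)),
      ev_const_mul, ev_mean hq hν hs, ev_const_mul]
    ring
  rw [e, e]
  ring

theorem continuous_clos (l : ℝ) (F : (Fin 3 → ℝ) → ℝ) (k : ℕ) :
    Continuous (fun p : ℝ × ℝ => clos l F k p.1 p.2) := by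
  unfold clos
  refine continuous_finsetSum _ fun s _ => Continuous.mul ?_ continuous_const
  refine continuous_finsetProd _ fun c _ => ?_
  rcases s c with _ | ⟨b, j⟩
  · change Continuous (fun p : ℝ × ℝ => 1 - p.1 - p.2)
    fun_prop
  · cases b
    · change Continuous (fun p : ℝ × ℝ => p.2 / 3)
      fun_prop
    · change Continuous (fun p : ℝ × ℝ => p.1 / 3)
      fun_prop

theorem tendsto_clos (l : ℝ) (F : (Fin 3 → ℝ) → ℝ) (k : ℕ) {f : Filter ℕ} {a b : ℕ → ℝ}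
    {E V : ℝ} (ha : Tendsto a f (𝓝 E)) (hb : Tendsto b f (𝓝 V)) :
    Tendsto (fun n => clos l F k (a n) (b n)) f (𝓝 (clos l F k E V)) := by
  have h1 : Tendsto (fun n => (a n, b n)) f (𝓝 (E, V)) := ha.prodMk_nhds hb
  have h2 := (continuous_clos l F k).tendsto (E, V)
  have h3 := h2.comp h1
  exact h3

theorem tendsto_tsum_stepTerm {l ε C : ℝ} (h0 : 0 ≤ l) (h1 : l ≤ 1 / 2) (hε : 0 ≤ ε)
    (hν : ∀ k, 0 ≤ ν k) (hs : HasSum ν 1) (hsum : Summable fun k : ℕ => ν k * k)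
    {F : (Fin 3 → ℝ) → ℝ} (hF0 : ∀ v : Fin 3 → ℝ, (∀ i, 0 ≤ v i) → 0 ≤ F v)
    (hFC : HomBdd F C) {f : Filter ℕ} {a b : ℕ → ℝ} {E V : ℝ} (ha : Tendsto a f (𝓝 E))
    (hb : Tendsto b f (𝓝 V)) (ha0 : ∀ n, 0 ≤ a n) (hb0 : ∀ n, 0 ≤ b n)
    (hab : ∀ n, a n + b n ≤ 1) :
    Tendsto (fun n => ∑' k, stepTerm ν l ε F (a n) (b n) k) f
      (𝓝 (∑' k, stepTerm ν l ε F E V k)) := by
  refine tendsto_tsum_of_dominated_convergence (summable_stepBound hs hsum C ε) ?_ ?_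
  · intro k
    have hcl := tendsto_clos l F k ha hb
    have h3 : Tendsto (fun n => ε * ((k : ℝ) * a n)) f (𝓝 (ε * ((k : ℝ) * E))) :=
      (ha.const_mul (k : ℝ)).const_mul ε
    have h2 : Tendsto (fun n => ν k * (clos l F k (a n) (b n) + ε * ((k : ℝ) * a n))) f
        (𝓝 (ν k * (clos l F k E V + ε * ((k : ℝ) * E)))) :=
      Tendsto.const_mul _ (Tendsto.add hcl h3)
    simp only [clos_eq_op] at h2
    exact h2
  · refine Filter.Eventually.of_forall fun n k => ?_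
    rw [Real.norm_eq_abs, abs_of_nonneg (stepTerm_nonneg h0 h1 hε (ha0 n) (hb0 n) (hab n) hν hF0 k)]
    exact stepTerm_le h0 h1 hε (ha0 n) (hb0 n) (hab n) hν hFC k

/-- **Closure at the limit law.** -/
theorem LL_step {l ε r C : ℝ} (h0 : 0 ≤ l) (h1 : l ≤ 1 / 2) (hr0 : 0 ≤ r) (hr1 : r ≤ 1)
    (hε : 0 ≤ ε) (hlam : lam = -l * r) (hp : ∀ i j : Fin 3, 0 ≤ potts 3 lam i j)
    (hν : ∀ k, 0 ≤ ν k) (hs : HasSum ν 1) (hsum : Summable fun k : ℕ => ν k * k)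
    {F : (Fin 3 → ℝ) → ℝ} (hF0 : ∀ v : Fin 3 → ℝ, (∀ i, 0 ≤ v i) → 0 ≤ F v)
    (hFC : HomBdd F C) (hF : CmpF l F ε)
    (hinc : Tendsto (fun n => ev ν 3 lam (n + 1) F - ev ν 3 lam n F) atTop (𝓝 0)) :
    LL ν lam F ≤ ∑' k, stepTerm ν l ε F
      (8 / 3 * (r ^ 2 * LL ν lam hR - r ^ 3 * LL ν lam hT))
      ((r ^ 2 * LL ν lam hR + 2 * (r ^ 3 * LL ν lam hT)) / 3) k := by
  have hL := tendsto_LL_succ hp hν hs hFC hinc
  have hx := tendsto_LL hp hν hs hR_homBdd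
  have hy := tendsto_LL hp hν hs hT_homBdd
  have he : Tendsto (fun n => eW ν lam r n) (uf : Filter ℕ)
      (𝓝 (8 / 3 * (r ^ 2 * LL ν lam hR - r ^ 3 * LL ν lam hT))) := by
    refine (((hx.const_mul (r ^ 2)).sub (hy.const_mul (r ^ 3))).const_mul (8 / 3)).congr
      fun n => ?_
    rw [eW_eq hp hν hs]
  have hv : Tendsto (fun n => vW ν lam r n) (uf : Filter ℕ)
      (𝓝 ((r ^ 2 * LL ν lam hR + 2 * (r ^ 3 * LL ν lam hT)) / 3)) := by
    refine (((hx.const_mul (r ^ 2)).add ((hy.const_mul (r ^ 3)).const_mul 2)).div_const 3).congr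
      fun n => ?_
    rw [vW_eq hp hν hs]
  have hR' := tendsto_tsum_stepTerm (ν := ν) h0 h1 hε hν hs hsum hF0 hFC he hv
    (fun n => eW_nonneg hp hν hr0 hr1 n) (fun n => vW_nonneg hp hν hr0 hr1 n)
    (fun n => eW_add_vW_le hp hν hs hr0 hr1 n)
  exact le_of_tendsto_of_tendsto hL hR' (Filter.Eventually.of_forall fun n =>
    ev_step h0 h1 hr0 hr1 hε hlam hp hν hs hsum hF0 hFC hF n)

theorem hphi_zero_eq : hphi 0 = hR := by
  funext v
  unfold hphi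
  ring

/-- **Main reduction.** If there is reconstruction, the second and third moments `x, y` of the
limit law satisfy both closed inequalities. -/
theorem af_limit {l ε g r : ℝ} (h0 : 0 ≤ l) (h1 : l ≤ 1 / 2) (hr0 : 0 ≤ r) (hr1 : r ≤ 1)
    (hε : 0 ≤ ε) (hg0 : 0 ≤ g) (hg1 : g ≤ 1 / 3) (hlam : lam = -l * r)
    (hν : ∀ k, 0 ≤ ν k) (hs : HasSum ν 1) (hsum : Summable fun k : ℕ => ν k * k)
    (hC0 : Cmp l 0 0) (hCg : Cmp l g ε) (hrec : ¬ Nonreconstruction ν 3 lam) :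
    ∃ x y : ℝ, x = LL ν lam hR ∧ y = LL ν lam hT ∧ 0 < x ∧ x ≤ 1 ∧ y ≤ x ∧ -x / 2 ≤ y ∧
      3 * x - 2 * y ≤ 1 ∧
      x ≤ ∑' k, stepTerm ν l 0 hR (8 / 3 * (r ^ 2 * x - r ^ 3 * y))
        ((r ^ 2 * x + 2 * (r ^ 3 * y)) / 3) k ∧
      x + g * y ≤ ∑' k, stepTerm ν l ε (hphi g) (8 / 3 * (r ^ 2 * x - r ^ 3 * y))
        ((r ^ 2 * x + 2 * (r ^ 3 * y)) / 3) k := by
  have hp : ∀ i j : Fin 3, 0 ≤ potts 3 lam i j := by
    have hb : l * r ≤ 1 / 2 := by nlinarith only [h0, h1, hr1]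
    have hb0 : 0 ≤ l * r := mul_nonneg h0 hr0
    refine anti_potts_nonneg (by norm_num) ?_ ?_
    · rw [hlam]; push_cast; linarith only [hb]
    · rw [hlam]; linarith only [hb0]
  have hq : 2 ≤ 3 := by norm_num
  have hchi : (chi : (Fin 3 → ℝ) → ℝ) = hR := funext chi_eq_hR
  refine ⟨_, _, rfl, rfl, ?_, ?_, ?_, ?_, ?_, ?_, ?_⟩
  · by_contra hcon
    push Not at hcon
    exact hrec (nonrec_of_LL_chi hp hν hs (by rw [hchi]; exact hcon))
  · have h := LL_mono hp hν hs hR_homBdd (homBdd_mean (q := 3)) (fun v hv => by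
      have := hX_nonneg hv
      unfold hR
      linarith only [this])
    rwa [LL_mean hp hν hs] at h
  · exact LL_mono hp hν hs hT_homBdd hR_homBdd (fun v hv => hT_le_hR hv)
  · have h := LL_mono hp hν hs (hR_homBdd.const_mul (-1 / 2)) hT_homBdd (fun v hv => by
      have := hT_ge hv
      linarith only [this])
    rw [LL_const_mul hp hν hs _ hR_homBdd] at h
    linarith only [h]
  · have h := LL_mono hp hν hs ((hR_homBdd.const_mul 3).add (hT_homBdd.const_mul (-2)))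
      (homBdd_mean (q := 3)) (fun v hv => by
        have h2 := hP_nonneg hv
        have e : hP v = mean v - 3 * hR v + 2 * hT v := by unfold hR hT; ring
        rw [e] at h2
        linarith only [h2])
    rw [LL_mean hp hν hs, LL_add hp hν hs (hR_homBdd.const_mul 3) (hT_homBdd.const_mul (-2)),
      LL_const_mul hp hν hs _ hR_homBdd, LL_const_mul hp hν hs _ hT_homBdd] at h
    linarith only [h]
  · have hF := hC0.toF h0 h1
    rw [hphi_zero_eq] at hF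
    have hinc := tendsto_ev_hphi_sub (ν := ν) (lam := lam) hp hν hs (g := 0) le_rfl (by norm_num)
    rw [hphi_zero_eq] at hinc
    exact LL_step h0 h1 hr0 hr1 le_rfl hlam hp hν hs hsum (fun v hv => hR_nonneg hv) hR_homBdd hF
      hinc
  · have hF := hCg.toF h0 h1
    have hinc := tendsto_ev_hphi_sub (ν := ν) (lam := lam) hp hν hs hg0 hg1
    have h := LL_step h0 h1 hr0 hr1 hε hlam hp hν hs hsum
      (fun v hv => hphi_nonneg hg0 (by linarith only [hg1]) hv) (hphi_homBdd g) hF hinc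
    have e : LL ν lam (hphi g) = LL ν lam hR + g * LL ν lam hT := by
      have h2 := LL_add hp hν hs hR_homBdd (hT_homBdd.const_mul g)
      rw [LL_const_mul hp hν hs _ hT_homBdd] at h2
      exact h2
    rw [e] at h
    exact h

end

end Vale.Agent.P154
end

section

/-!
# P154: three-point comparison, exact formulas

For two vectors `u, b` with sum three, the sum of `hphi g (u * σ b)` over the three cyclic
permutations `σ` only depends on `X, P` of `u` and of `b` and on the product `D` of the three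
overlaps.  The average over all permutations is bounded by the value at the mean overlap product.
-/

open scoped BigOperators

namespace Vale.Agent.P154.Cmp3

/-- scalar version of `hphi` -/
noncomputable def ph (g a b c : ℝ) : ℝ :=
  (1 + g) * ((a + b + c) / 3) - (1 + 3 / 2 * g) * ((a * b + b * c + c * a) / (a + b + c))
    + g / 2 * (9 * (a * b * c) / (a + b + c) ^ 2)

theorem hphi_eq (g : ℝ) (v : Fin 3 → ℝ) : hphi g v = ph g (v 0) (v 1) (v 2) := by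
  unfold hphi hR hT hX hP mean ph
  rw [Fin.sum_univ_three]
  push_cast
  ring

/-- the three overlaps and the exact sum over a parity class -/
theorem cls_sum {g u0 u1 u2 b0 b1 b2 : ℝ} (h0 : 0 < u0 * b0 + u1 * b1 + u2 * b2)
    (h1 : 0 < u0 * b1 + u1 * b2 + u2 * b0) (h2 : 0 < u0 * b2 + u1 * b0 + u2 * b1)
    {X P Y B D A E : ℝ}
    (hu : u0 + u1 + u2 = 3) (hb : b0 + b1 + b2 = 3)
    (hX : u0 * u1 + u1 * u2 + u2 * u0 = 3 * X) (hP : u0 * u1 * u2 = P)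
    (hY : b0 * b1 + b1 * b2 + b2 * b0 = 3 * Y) (hB : b0 * b1 * b2 = B)
    (hD : (u0 * b0 + u1 * b1 + u2 * b2) * (u0 * b1 + u1 * b2 + u2 * b0)
      * (u0 * b2 + u1 * b0 + u2 * b1) = 27 * D)
    (hA : A = X ^ 2 * Y ^ 2 + X * (1 - X) * B + Y * (1 - Y) * P)
    (hE : E = 1 - (1 - X) * (1 - Y)) :
    ph g (u0 * b0) (u1 * b1) (u2 * b2) + ph g (u0 * b1) (u1 * b2) (u2 * b0)
      + ph g (u0 * b2) (u1 * b0) (u2 * b1)
      = 3 * ((1 + g) - (1 + 3 / 2 * g) * (A / D) + g / 2 * (P * B * (3 * E ^ 2 - 2 * D) / D ^ 2)) := by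
  obtain ⟨Z0, hZ0⟩ : ∃ z, z = (u0 * b0 + u1 * b1 + u2 * b2) / 3 := ⟨_, rfl⟩
  obtain ⟨Z1, hZ1⟩ : ∃ z, z = (u0 * b1 + u1 * b2 + u2 * b0) / 3 := ⟨_, rfl⟩
  obtain ⟨Z2, hZ2⟩ : ∃ z, z = (u0 * b2 + u1 * b0 + u2 * b1) / 3 := ⟨_, rfl⟩
  have p0 : 0 < Z0 := by rw [hZ0]; linarith only [h0]
  have p1 : 0 < Z1 := by rw [hZ1]; linarith only [h1]
  have p2 : 0 < Z2 := by rw [hZ2]; linarith only [h2]
  have e0 : u0 * b0 + u1 * b1 + u2 * b2 = 3 * Z0 := by rw [hZ0]; ring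
  have e1 : u0 * b1 + u1 * b2 + u2 * b0 = 3 * Z1 := by rw [hZ1]; ring
  have e2 : u0 * b2 + u1 * b0 + u2 * b1 = 3 * Z2 := by rw [hZ2]; ring
  have hu2 : u2 = 3 - u0 - u1 := by linarith only [hu]
  have hb2 : b2 = 3 - b0 - b1 := by linarith only [hb]
  have hXv : X = (u0 * u1 + u1 * u2 + u2 * u0) / 3 := by linarith only [hX]
  have hYv : Y = (b0 * b1 + b1 * b2 + b2 * b0) / 3 := by linarith only [hY]
  have hDZ : D = Z0 * Z1 * Z2 := by
    have : 27 * D = 27 * (Z0 * Z1 * Z2) := by rw [← hD, e0, e1, e2]; ring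
    linarith only [this]
  have hsum : Z0 + Z1 + Z2 = 3 := by
    rw [hZ0, hZ1, hZ2, hu2, hb2]; ring
  have hpair : Z0 * Z1 + Z1 * Z2 + Z2 * Z0 = 3 * E := by
    rw [hE, hXv, hYv, hZ0, hZ1, hZ2, hu2, hb2]; ring
  obtain ⟨W0, hW0⟩ : ∃ z, z = (u0 * b0 * (u1 * b1) + u1 * b1 * (u2 * b2) + u2 * b2 * (u0 * b0)) / 3 :=
    ⟨_, rfl⟩
  obtain ⟨W1, hW1⟩ : ∃ z, z = (u0 * b1 * (u1 * b2) + u1 * b2 * (u2 * b0) + u2 * b0 * (u0 * b1)) / 3 :=
    ⟨_, rfl⟩
  obtain ⟨W2, hW2⟩ : ∃ z, z = (u0 * b2 * (u1 * b0) + u1 * b0 * (u2 * b1) + u2 * b1 * (u0 * b2)) / 3 :=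
    ⟨_, rfl⟩
  have hWA : W0 * (Z1 * Z2) + W1 * (Z2 * Z0) + W2 * (Z0 * Z1) = 3 * A := by
    rw [hA, hXv, hYv, ← hP, ← hB, hW0, hW1, hW2, hZ0, hZ1, hZ2, hu2, hb2]; ring
  have f0 : ph g (u0 * b0) (u1 * b1) (u2 * b2)
      = (1 + g) * Z0 - (1 + 3 / 2 * g) * (W0 / Z0) + g / 2 * (P * B / Z0 ^ 2) := by
    unfold ph
    rw [e0, hW0, ← hP, ← hB]
    field_simp
    ring
  have f1 : ph g (u0 * b1) (u1 * b2) (u2 * b0)
      = (1 + g) * Z1 - (1 + 3 / 2 * g) * (W1 / Z1) + g / 2 * (P * B / Z1 ^ 2) := by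
    unfold ph
    rw [e1, hW1, ← hP, ← hB]
    field_simp
    ring
  have f2 : ph g (u0 * b2) (u1 * b0) (u2 * b1)
      = (1 + g) * Z2 - (1 + 3 / 2 * g) * (W2 / Z2) + g / 2 * (P * B / Z2 ^ 2) := by
    unfold ph
    rw [e2, hW2, ← hP, ← hB]
    field_simp
    ring
  have g1 : W0 / Z0 + W1 / Z1 + W2 / Z2 = 3 * (A / D) := by
    rw [hDZ]
    have : 3 * (A / (Z0 * Z1 * Z2)) = (3 * A) / (Z0 * Z1 * Z2) := by ring
    rw [this, ← hWA]
    (clear * - p0 p1 p2; field_simp)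
  have g2 : 1 / Z0 ^ 2 + 1 / Z1 ^ 2 + 1 / Z2 ^ 2 = 3 * ((3 * E ^ 2 - 2 * D) / D ^ 2) := by
    have hE3 : 3 * (3 * E ^ 2 - 2 * D) = (Z0 * Z1 + Z1 * Z2 + Z2 * Z0) ^ 2
        - 2 * (Z0 * Z1 * Z2) * (Z0 + Z1 + Z2) := by
      rw [hpair, hsum, hDZ]; ring
    have : 3 * ((3 * E ^ 2 - 2 * D) / D ^ 2) = (3 * (3 * E ^ 2 - 2 * D)) / D ^ 2 := by ring
    rw [this, hE3, hDZ]
    field_simp
    ring
  rw [f0, f1, f2]
  have g3 : P * B / Z0 ^ 2 + P * B / Z1 ^ 2 + P * B / Z2 ^ 2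
      = 3 * (P * B * (3 * E ^ 2 - 2 * D) / D ^ 2) := by
    have : P * B / Z0 ^ 2 + P * B / Z1 ^ 2 + P * B / Z2 ^ 2
        = P * B * (1 / Z0 ^ 2 + 1 / Z1 ^ 2 + 1 / Z2 ^ 2) := by ring
    rw [this, g2]; ring
  linear_combination (1 + g) * hsum - (1 + 3 / 2 * g) * g1 + g / 2 * g3

theorem amgm {a b c : ℝ} (ha : 0 ≤ a) (hb : 0 ≤ b) (hc : 0 ≤ c) :
    a * b * c ≤ (a * b + b * c + c * a) / 3 * ((a + b + c) / 3) := by
  have h : (a * b + b * c + c * a) / 3 * ((a + b + c) / 3) - a * b * c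
      = (a * (b - c) ^ 2 + b * (c - a) ^ 2 + c * (a - b) ^ 2) / 9 := by ring
  have : 0 ≤ (a * (b - c) ^ 2 + b * (c - a) ^ 2 + c * (a - b) ^ 2) / 9 := by (clear * - ha hb hc; positivity)
  linarith only [this]

theorem sq_sum_ge (a b c : ℝ) :
    3 * (a * b * c) * (a + b + c) ≤ (a * b + b * c + c * a) ^ 2 := by
  have h : (a * b + b * c + c * a) ^ 2 - 3 * (a * b * c) * (a + b + c)
      = ((a * b - b * c) ^ 2 + (b * c - c * a) ^ 2 + (c * a - a * b) ^ 2) / 2 := by ring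
  have : 0 ≤ ((a * b - b * c) ^ 2 + (b * c - c * a) ^ 2 + (c * a - a * b) ^ 2) / 2 := by (clear * -; positivity)
  linarith only [this]

/-- facts about a parity class -/
theorem cls_facts {u0 u1 u2 b0 b1 b2 : ℝ} (pu0 : 0 ≤ u0) (pu1 : 0 ≤ u1) (pu2 : 0 ≤ u2)
    (pb0 : 0 ≤ b0) (pb1 : 0 ≤ b1) (pb2 : 0 ≤ b2)
    {X P Y B D A E : ℝ}
    (hu : u0 + u1 + u2 = 3) (hb : b0 + b1 + b2 = 3)
    (hX : u0 * u1 + u1 * u2 + u2 * u0 = 3 * X) (hP : u0 * u1 * u2 = P)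
    (hY : b0 * b1 + b1 * b2 + b2 * b0 = 3 * Y) (hB : b0 * b1 * b2 = B)
    (hD : (u0 * b0 + u1 * b1 + u2 * b2) * (u0 * b1 + u1 * b2 + u2 * b0)
      * (u0 * b2 + u1 * b0 + u2 * b1) = 27 * D)
    (hA : A = X ^ 2 * Y ^ 2 + X * (1 - X) * B + Y * (1 - Y) * P)
    (hE : E = 1 - (1 - X) * (1 - Y)) :
    D ≤ E ^ 2 ∧ P * B * (3 * E ^ 2 - 2 * D) ≤ A * D := by
  obtain ⟨Z0, hZ0⟩ : ∃ z, z = (u0 * b0 + u1 * b1 + u2 * b2) / 3 := ⟨_, rfl⟩
  obtain ⟨Z1, hZ1⟩ : ∃ z, z = (u0 * b1 + u1 * b2 + u2 * b0) / 3 := ⟨_, rfl⟩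
  obtain ⟨Z2, hZ2⟩ : ∃ z, z = (u0 * b2 + u1 * b0 + u2 * b1) / 3 := ⟨_, rfl⟩
  have p0 : 0 ≤ Z0 := by rw [hZ0]; (clear * - pu0 pu1 pu2 pb0 pb1 pb2; positivity)
  have p1 : 0 ≤ Z1 := by rw [hZ1]; (clear * - pu0 pu1 pu2 pb0 pb1 pb2; positivity)
  have p2 : 0 ≤ Z2 := by rw [hZ2]; (clear * - pu0 pu1 pu2 pb0 pb1 pb2; positivity)
  have e0 : u0 * b0 + u1 * b1 + u2 * b2 = 3 * Z0 := by rw [hZ0]; ring
  have e1 : u0 * b1 + u1 * b2 + u2 * b0 = 3 * Z1 := by rw [hZ1]; ring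
  have e2 : u0 * b2 + u1 * b0 + u2 * b1 = 3 * Z2 := by rw [hZ2]; ring
  have hu2 : u2 = 3 - u0 - u1 := by linarith only [hu]
  have hb2 : b2 = 3 - b0 - b1 := by linarith only [hb]
  have hXv : X = (u0 * u1 + u1 * u2 + u2 * u0) / 3 := by linarith only [hX]
  have hYv : Y = (b0 * b1 + b1 * b2 + b2 * b0) / 3 := by linarith only [hY]
  have hDZ : D = Z0 * Z1 * Z2 := by
    have : 27 * D = 27 * (Z0 * Z1 * Z2) := by rw [← hD, e0, e1, e2]; ring
    linarith only [this]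
  have hsum : Z0 + Z1 + Z2 = 3 := by
    rw [hZ0, hZ1, hZ2, hu2, hb2]; ring
  have hpair : Z0 * Z1 + Z1 * Z2 + Z2 * Z0 = 3 * E := by
    rw [hE, hXv, hYv, hZ0, hZ1, hZ2, hu2, hb2]; ring
  obtain ⟨W0, hW0⟩ : ∃ z, z = (u0 * b0 * (u1 * b1) + u1 * b1 * (u2 * b2) + u2 * b2 * (u0 * b0)) / 3 :=
    ⟨_, rfl⟩
  obtain ⟨W1, hW1⟩ : ∃ z, z = (u0 * b1 * (u1 * b2) + u1 * b2 * (u2 * b0) + u2 * b0 * (u0 * b1)) / 3 :=
    ⟨_, rfl⟩
  obtain ⟨W2, hW2⟩ : ∃ z, z = (u0 * b2 * (u1 * b0) + u1 * b0 * (u2 * b1) + u2 * b1 * (u0 * b2)) / 3 :=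
    ⟨_, rfl⟩
  have hWA : W0 * (Z1 * Z2) + W1 * (Z2 * Z0) + W2 * (Z0 * Z1) = 3 * A := by
    rw [hA, hXv, hYv, ← hP, ← hB, hW0, hW1, hW2, hZ0, hZ1, hZ2, hu2, hb2]; ring
  have q0 : P * B ≤ W0 * Z0 := by
    have := amgm (mul_nonneg pu0 pb0) (mul_nonneg pu1 pb1) (mul_nonneg pu2 pb2)
    rw [← hP, ← hB, hW0, hZ0]
    refine le_trans (le_of_eq ?_) this
    ring
  have q1 : P * B ≤ W1 * Z1 := by
    have := amgm (mul_nonneg pu0 pb1) (mul_nonneg pu1 pb2) (mul_nonneg pu2 pb0)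
    rw [← hP, ← hB, hW1, hZ1]
    refine le_trans (le_of_eq ?_) this
    ring
  have q2 : P * B ≤ W2 * Z2 := by
    have := amgm (mul_nonneg pu0 pb2) (mul_nonneg pu1 pb0) (mul_nonneg pu2 pb1)
    rw [← hP, ← hB, hW2, hZ2]
    refine le_trans (le_of_eq ?_) this
    ring
  constructor
  · have h3 := sq_sum_ge Z0 Z1 Z2
    rw [hpair, hsum, ← hDZ] at h3
    linarith only [h3]
  · have hE3 : 3 * (3 * E ^ 2 - 2 * D) = (Z0 * Z1) ^ 2 + (Z1 * Z2) ^ 2 + (Z2 * Z0) ^ 2 := by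
      have : 9 * E ^ 2 = (Z0 * Z1 + Z1 * Z2 + Z2 * Z0) ^ 2 := by rw [hpair]; ring
      have h6 : 6 * D = 2 * (Z0 * Z1 * Z2) * (Z0 + Z1 + Z2) := by rw [hsum, hDZ]; ring
      linear_combination this - h6
    have t0 : P * B * (Z1 * Z2) ^ 2 ≤ W0 * Z0 * (Z1 * Z2) ^ 2 :=
      mul_le_mul_of_nonneg_right q0 (sq_nonneg _)
    have t1 : P * B * (Z2 * Z0) ^ 2 ≤ W1 * Z1 * (Z2 * Z0) ^ 2 :=
      mul_le_mul_of_nonneg_right q1 (sq_nonneg _)
    have t2 : P * B * (Z0 * Z1) ^ 2 ≤ W2 * Z2 * (Z0 * Z1) ^ 2 :=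
      mul_le_mul_of_nonneg_right q2 (sq_nonneg _)
    have hAD : 3 * (A * D) = W0 * Z0 * (Z1 * Z2) ^ 2 + W1 * Z1 * (Z2 * Z0) ^ 2
        + W2 * Z2 * (Z0 * Z1) ^ 2 := by
      have : 3 * (A * D) = (3 * A) * D := by ring
      rw [this, ← hWA, hDZ]; ring
    have hQ : 3 * (P * B * (3 * E ^ 2 - 2 * D)) = P * B * ((Z0 * Z1) ^ 2 + (Z1 * Z2) ^ 2
        + (Z2 * Z0) ^ 2) := by rw [← hE3]; ring
    linarith only [t0, t1, t2, hAD, hQ]

/-- Concavity: averaging over the two parity classes. -/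
theorem concav {A E Q D1 D2 g : ℝ} (hg : 0 ≤ g) (hg1 : g ≤ 1 / 2) (h1 : 0 < D1) (h2 : 0 < D2)
    (hQ : 0 ≤ Q) (hE1 : D1 ≤ E ^ 2) (hE2 : D2 ≤ E ^ 2)
    (hA1 : Q * (3 * E ^ 2 - 2 * D1) ≤ A * D1) (hA2 : Q * (3 * E ^ 2 - 2 * D2) ≤ A * D2) :
    ((-((1 + 3 / 2 * g) * (A / D1)) + g / 2 * (Q * (3 * E ^ 2 - 2 * D1) / D1 ^ 2))
      + (-((1 + 3 / 2 * g) * (A / D2)) + g / 2 * (Q * (3 * E ^ 2 - 2 * D2) / D2 ^ 2))) / 2
      ≤ -((1 + 3 / 2 * g) * (A / ((D1 + D2) / 2)))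
        + g / 2 * (Q * (3 * E ^ 2 - 2 * ((D1 + D2) / 2)) / ((D1 + D2) / 2) ^ 2) := by
  obtain ⟨D0, hD0⟩ : ∃ z, z = (D1 + D2) / 2 := ⟨_, rfl⟩
  obtain ⟨k, hk⟩ : ∃ z, z = (D1 - D2) / 2 := ⟨_, rfl⟩
  have e1 : D1 = D0 + k := by rw [hD0, hk]; ring
  have e2 : D2 = D0 - k := by rw [hD0, hk]; ring
  have p0 : 0 < D0 := by rw [hD0]; linarith only [h1, h2]
  rw [← hD0]
  have hM : D1 * D2 = D0 ^ 2 - k ^ 2 := by rw [e1, e2]; ring
  -- the bracket
  have hE0 : D0 ≤ E ^ 2 := by rw [hD0]; linarith only [hE1, hE2]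
  have hAM : Q * (3 * E ^ 2 * D0 - 2 * (D1 * D2)) ≤ A * (D1 * D2) := by
    have a1 := mul_le_mul_of_nonneg_right hA1 h2.le
    have a2 := mul_le_mul_of_nonneg_right hA2 h1.le
    have : D0 = (D1 + D2) / 2 := hD0
    rw [this]
    linarith only [a1, a2]
  have hbr : 0 ≤ (1 + 3 / 2 * g) * A * D0 * (D1 * D2)
      - g / 2 * Q * (3 * E ^ 2 * (3 * D0 ^ 2 - k ^ 2) - 2 * D0 * (D1 * D2)) := by
    have hMle : D1 * D2 ≤ D0 ^ 2 := by rw [hM]; linarith only [sq_nonneg k]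
    have hMpos : 0 < D1 * D2 := mul_pos h1 h2
    have s1 : (1 + 3 / 2 * g) * D0 * (Q * (3 * E ^ 2 * D0 - 2 * (D1 * D2)))
        ≤ (1 + 3 / 2 * g) * D0 * (A * (D1 * D2)) :=
      mul_le_mul_of_nonneg_left hAM (by positivity)
    have s2 : 0 ≤ (1 + 3 / 2 * g) * D0 * (3 * E ^ 2 * D0 - 2 * (D1 * D2))
        - g / 2 * (3 * E ^ 2 * (3 * D0 ^ 2 - k ^ 2) - 2 * D0 * (D1 * D2)) := by
      have s3 : (1 + 3 / 2 * g) * D0 * (3 * E ^ 2 * D0 - 2 * (D1 * D2))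
          - g / 2 * (3 * E ^ 2 * (3 * D0 ^ 2 - k ^ 2) - 2 * D0 * (D1 * D2))
          = 3 * D0 ^ 2 * (E ^ 2 - D0) + 3 * D0 * (D0 ^ 2 - D1 * D2)
            + (1 - 2 * g) * D0 * (D1 * D2) + 3 / 2 * g * E ^ 2 * k ^ 2 := by ring
      rw [s3]
      have s4 : 0 ≤ E ^ 2 - D0 := by linarith only [hE1, hE2, hD0]
      have s5 : 0 ≤ D0 ^ 2 - D1 * D2 := by linarith only [hMle]
      have s6 : 0 ≤ 1 - 2 * g := by linarith only [hg1]
      (clear * - hg h1 h2 p0 hE0 hMle s6; positivity)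
    have s7 := mul_nonneg hQ s2
    linarith only [s1, s7]
  have key : -((1 + 3 / 2 * g) * (A / D0)) + g / 2 * (Q * (3 * E ^ 2 - 2 * D0) / D0 ^ 2)
      - ((-((1 + 3 / 2 * g) * (A / D1)) + g / 2 * (Q * (3 * E ^ 2 - 2 * D1) / D1 ^ 2))
        + (-((1 + 3 / 2 * g) * (A / D2)) + g / 2 * (Q * (3 * E ^ 2 - 2 * D2) / D2 ^ 2))) / 2
      = k ^ 2 / (D0 ^ 2 * (D1 * D2) ^ 2) * ((1 + 3 / 2 * g) * A * D0 * (D1 * D2)
      - g / 2 * Q * (3 * E ^ 2 * (3 * D0 ^ 2 - k ^ 2) - 2 * D0 * (D1 * D2))) := by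
    have n1 : D0 + k ≠ 0 := by rw [← e1]; exact h1.ne'
    have n2 : D0 - k ≠ 0 := by rw [← e2]; exact h2.ne'
    rw [e1, e2]
    field_simp
    ring
  have : 0 ≤ k ^ 2 / (D0 ^ 2 * (D1 * D2) ^ 2) * ((1 + 3 / 2 * g) * A * D0 * (D1 * D2)
      - g / 2 * Q * (3 * E ^ 2 * (3 * D0 ^ 2 - k ^ 2) - 2 * D0 * (D1 * D2))) :=
    mul_nonneg (by (clear * - h1 h2 p0; positivity)) hbr
  linarith

end Vale.Agent.P154.Cmp3
end

section

/-!
# P154: three-point comparison, assembly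
-/

open scoped BigOperators

namespace Vale.Agent.P154.Cmp3

theorem avgPerm_hphi (g : ℝ) (u b : Fin 3 → ℝ) : avgPerm (hphi g) u b =
    ((ph g (u 0 * b 0) (u 1 * b 1) (u 2 * b 2) + ph g (u 0 * b 1) (u 1 * b 2) (u 2 * b 0)
      + ph g (u 0 * b 2) (u 1 * b 0) (u 2 * b 1))
    + (ph g (u 0 * b 0) (u 1 * b 2) (u 2 * b 1) + ph g (u 0 * b 2) (u 1 * b 1) (u 2 * b 0)
      + ph g (u 0 * b 1) (u 1 * b 0) (u 2 * b 2))) / 6 := by
  unfold avgPerm
  have h := Q3.sum_perm3 (fun c => hphi g (fun i => u i * c i)) b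
  simp only at h
  rw [h]
  have hf : ((Nat.factorial 3 : ℕ) : ℝ) = 6 := by norm_num [Nat.factorial]
  rw [hf]
  simp only [hphi_eq]
  have e : ∀ c0 c1 c2 : ℝ, (![c0, c1, c2] : Fin 3 → ℝ) 0 = c0
      ∧ (![c0, c1, c2] : Fin 3 → ℝ) 1 = c1 ∧ (![c0, c1, c2] : Fin 3 → ℝ) 2 = c2 :=
    fun _ _ _ => ⟨rfl, rfl, rfl⟩
  simp only [(e _ _ _).1, (e _ _ _).2.1, (e _ _ _).2.2]
  ring

/-- average over the three positions of a message with one distinguished coordinate -/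
theorem base_sum {g B c : ℝ} {u : Fin 3 → ℝ} (hu : ∀ i, 0 < u i) (su : u 0 + u 1 + u 2 = 3)
    (hB : 0 ≤ B) (hc : 0 < c) (hBc : B + 2 * c = 3) {M : Fin 3 → Fin 3 → ℝ}
    (hM : ∀ i j, M i j = if j = i then B else c)
    {X P Y Q D A E : ℝ}
    (hX : u 0 * u 1 + u 1 * u 2 + u 2 * u 0 = 3 * X) (hP : u 0 * u 1 * u 2 = P)
    (hY : 2 * (B * c) + c ^ 2 = 3 * Y) (hQ : B * c ^ 2 = Q)
    (hD : (u 0 * B + (u 1 + u 2) * c) * (u 1 * B + (u 2 + u 0) * c)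
      * (u 2 * B + (u 0 + u 1) * c) = 27 * D)
    (hA : A = X ^ 2 * Y ^ 2 + X * (1 - X) * Q + Y * (1 - Y) * P)
    (hE : E = 1 - (1 - X) * (1 - Y)) :
    (∑ i, hphi g (fun j => u j * M i j)) / 3
      = (1 + g) - (1 + 3 / 2 * g) * (A / D) + g / 2 * (P * Q * (3 * E ^ 2 - 2 * D) / D ^ 2) := by
  rw [Fin.sum_univ_three, hphi_eq, hphi_eq, hphi_eq]
  have h00 : M 0 0 = B := by rw [hM]; simp
  have h01 : M 0 1 = c := by rw [hM]; simp
  have h02 : M 0 2 = c := by rw [hM]; simp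
  have h10 : M 1 0 = c := by rw [hM]; simp
  have h11 : M 1 1 = B := by rw [hM]; simp
  have h12 : M 1 2 = c := by rw [hM]; simp
  have h20 : M 2 0 = c := by rw [hM]; simp
  have h21 : M 2 1 = c := by rw [hM]; simp
  have h22 : M 2 2 = B := by rw [hM]; simp
  simp only [h00, h01, h02, h10, h11, h12, h20, h21, h22]
  have p0 := hu 0
  have p1 := hu 1
  have p2 := hu 2
  have q0 : 0 < u 0 * B + u 1 * c + u 2 * c := by
    have : 0 ≤ u 0 * B := by (clear * - hB p0; positivity)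
    have h1 : 0 < u 1 * c := by (clear * - hc p1; positivity)
    have h2 : 0 < u 2 * c := by positivity
    linarith only [this, h1, h2]
  have q1 : 0 < u 0 * c + u 1 * c + u 2 * B := by
    have : 0 ≤ u 2 * B := by (clear * - hB p2; positivity)
    have h1 : 0 < u 0 * c := by positivity
    have h2 : 0 < u 1 * c := by positivity
    linarith only [this, h1, h2]
  have q2 : 0 < u 0 * c + u 1 * B + u 2 * c := by
    have : 0 ≤ u 1 * B := by (clear * - hB p1; positivity)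
    have h1 : 0 < u 0 * c := by positivity
    have h2 : 0 < u 2 * c := by positivity
    linarith only [this, h1, h2]
  have key := cls_sum (g := g) (u0 := u 0) (u1 := u 1) (u2 := u 2) (b0 := B) (b1 := c) (b2 := c)
    q0 q1 q2 (X := X) (P := P) (Y := Y) (B := Q) (D := D) (A := A) (E := E) su
    (by linarith only [hBc]) hX hP (by rw [← hY]; ring) (by rw [← hQ]; ring) (by rw [← hD]; ring) hA hE
  linarith only [key]

theorem schur_ord {a b c : ℝ} (hc : 0 ≤ c) (hab : b ≤ a) (hbc : c ≤ b) :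
    0 ≤ a * (a - b) * (a - c) + b * (b - a) * (b - c) + c * (c - a) * (c - b) := by
  have e : a * (a - b) * (a - c) + b * (b - a) * (b - c) + c * (c - a) * (c - b)
      = (a - b) ^ 2 * (a + b - c) + c * ((a - c) * (b - c)) := by ring
  rw [e]
  exact add_nonneg (mul_nonneg (sq_nonneg _) (by linarith))
    (mul_nonneg hc (mul_nonneg (by linarith) (by linarith)))

theorem schur_sum {a b c : ℝ} (ha : 0 ≤ a) (hb : 0 ≤ b) (hc : 0 ≤ c) :
    0 ≤ a * (a - b) * (a - c) + b * (b - a) * (b - c) + c * (c - a) * (c - b) := by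
  rcases le_total a b with h1 | h1 <;> rcases le_total b c with h2 | h2
  · exact (schur_ord ha h2 h1).trans (le_of_eq (by ring))
  · rcases le_total a c with h3 | h3
    · exact (schur_ord ha h2 h3).trans (le_of_eq (by ring))
    · exact (schur_ord hc h1 h3).trans (le_of_eq (by ring))
  · rcases le_total a c with h3 | h3
    · exact (schur_ord hb h3 h1).trans (le_of_eq (by ring))
    · exact (schur_ord hb h3 h2).trans (le_of_eq (by ring))
  · exact (schur_ord hc h1 h2).trans (le_of_eq (by ring))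

theorem moments {u0 u1 u2 X P x s : ℝ} (p0 : 0 < u0) (p1 : 0 < u1) (p2 : 0 < u2)
    (su : u0 + u1 + u2 = 3) (hX : u0 * u1 + u1 * u2 + u2 * u0 = 3 * X) (hP : u0 * u1 * u2 = P)
    (hx : x = 1 - X) (hs : s = (P + 2 - 3 * X) / 2) :
    0 ≤ 1 - 3 * x + 2 * s ∧ 0 ≤ x - s ∧ 0 ≤ x + 2 * s ∧ 0 ≤ x ^ 3 - s ^ 2 ∧ 0 ≤ x := by
  have hu2 : u2 = 3 - u0 - u1 := by linarith only [su]
  have hXv : X = (u0 * u1 + u1 * u2 + u2 * u0) / 3 := by linarith only [hX]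
  refine ⟨?_, ?_, ?_, ?_, ?_⟩
  · rw [hx, hs, ← hP]
    have : 0 < u0 * u1 * u2 := by positivity
    linarith only [this]
  · have h := amgm p0.le p1.le p2.le
    rw [su, hP, hX] at h
    rw [hx, hs]
    linarith only [h]
  · -- Schur
    have hsch : 0 ≤ u0 * (u0 - u1) * (u0 - u2) + u1 * (u1 - u0) * (u1 - u2)
        + u2 * (u2 - u0) * (u2 - u1) := by
      exact schur_sum p0.le p1.le p2.le
    have e : u0 * (u0 - u1) * (u0 - u2) + u1 * (u1 - u0) * (u1 - u2)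
        + u2 * (u2 - u0) * (u2 - u1) = 9 * (x + 2 * s) := by
      rw [hx, hs, hXv, ← hP, hu2]; ring
    rw [e] at hsch
    linarith only [hsch]
  · have e : x ^ 3 - s ^ 2 = ((u0 - u1) * (u1 - u2) * (u2 - u0)) ^ 2 / 108 := by
      rw [hx, hs, hXv, ← hP, hu2]; ring
    rw [e]
    (clear * -; positivity)
  · have e : x = ((u0 - u1) ^ 2 + (u1 - u2) ^ 2 + (u2 - u0) ^ 2) / 18 := by
      rw [hx, hXv, hu2]; ring
    rw [e]
    (clear * -; positivity)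

/-- The average over all permutations is bounded by the value at the mean overlap product. -/
theorem avg_bound {g : ℝ} (hg0 : 0 ≤ g) (hg1 : g ≤ 1 / 2) {u b : Fin 3 → ℝ} (hu : ∀ i, 0 < u i)
    (hb : ∀ i, 0 < b i) (su : u 0 + u 1 + u 2 = 3) (sb : b 0 + b 1 + b 2 = 3)
    {X P Y B A E D0 : ℝ}
    (eX : u 0 * u 1 + u 1 * u 2 + u 2 * u 0 = 3 * X) (eP : u 0 * u 1 * u 2 = P)
    (bY : b 0 * b 1 + b 1 * b 2 + b 2 * b 0 = 3 * Y) (bB : b 0 * b 1 * b 2 = B)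
    (hA : A = X ^ 2 * Y ^ 2 + X * (1 - X) * B + Y * (1 - Y) * P)
    (hE : E = 1 - (1 - X) * (1 - Y))
    (hD : D0 = 1 - 3 * ((1 - X) * (1 - Y)) + (P + 2 - 3 * X) * (B + 2 - 3 * Y) / 2) :
    0 < D0 ∧ avgPerm (hphi g) u b ≤ (1 + g)
      + (-((1 + 3 / 2 * g) * (A / D0)) + g / 2 * (P * B * (3 * E ^ 2 - 2 * D0) / D0 ^ 2)) := by
  obtain ⟨D1, hD1⟩ : ∃ D, (u 0 * b 0 + u 1 * b 1 + u 2 * b 2) * (u 0 * b 1 + u 1 * b 2 + u 2 * b 0)
      * (u 0 * b 2 + u 1 * b 0 + u 2 * b 1) = 27 * D := ⟨_ / 27, (mul_div_cancel₀ _ (by norm_num)).symm⟩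
  obtain ⟨D2, hD2⟩ : ∃ D, (u 0 * b 0 + u 1 * b 2 + u 2 * b 1) * (u 0 * b 2 + u 1 * b 1 + u 2 * b 0)
      * (u 0 * b 1 + u 1 * b 0 + u 2 * b 2) = 27 * D := ⟨_ / 27, (mul_div_cancel₀ _ (by norm_num)).symm⟩
  have pu0 := hu 0
  have pu1 := hu 1
  have pu2 := hu 2
  have pb0 := hb 0
  have pb1 := hb 1
  have pb2 := hb 2
  have k1 := cls_sum (g := g) (by (clear * - pu0 pu1 pu2 pb0 pb1 pb2; positivity)) (by (clear * - pu0 pu1 pu2 pb0 pb1 pb2; positivity)) (by (clear * - pu0 pu1 pu2 pb0 pb1 pb2; positivity)) su sb eX eP bY bB hD1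
    hA hE
  have sb' : b 0 + b 2 + b 1 = 3 := by linarith only [sb]
  have bY' : b 0 * b 2 + b 2 * b 1 + b 1 * b 0 = 3 * Y := by rw [← bY]; ring
  have bB' : b 0 * b 2 * b 1 = B := by rw [← bB]; ring
  have k2 := cls_sum (g := g) (by (clear * - pu0 pu1 pu2 pb0 pb1 pb2; positivity)) (by (clear * - pu0 pu1 pu2 pb0 pb1 pb2; positivity)) (by (clear * - pu0 pu1 pu2 pb0 pb1 pb2; positivity)) su sb' eX eP bY' bB'
    hD2 hA hE
  obtain ⟨f1, f2⟩ := cls_facts pu0.le pu1.le pu2.le pb0.le pb1.le pb2.le su sb eX eP bY bB hD1 hA hE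
  obtain ⟨f3, f4⟩ := cls_facts pu0.le pu1.le pu2.le pb0.le pb2.le pb1.le su sb' eX eP bY' bB' hD2
    hA hE
  have pD1 : 0 < D1 := by
    have : 0 < 27 * D1 := by rw [← hD1]; (clear * - pu0 pu1 pu2 pb0 pb1 pb2; positivity)
    linarith only [this]
  have pD2 : 0 < D2 := by
    have : 0 < 27 * D2 := by rw [← hD2]; (clear * - pu0 pu1 pu2 pb0 pb1 pb2; positivity)
    linarith only [this]
  have hPB : 0 ≤ P * B := by rw [← eP, ← bB]; (clear * - pu0 pu1 pu2 pb0 pb1 pb2; positivity)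
  have hcc := concav (A := A) (Q := P * B) hg0 hg1 pD1 pD2 hPB f1 f3 f2 f4
  have hD0 : D0 = (D1 + D2) / 2 := by
    have hu2 : u 2 = 3 - u 0 - u 1 := by linarith only [su]
    have hb2 : b 2 = 3 - b 0 - b 1 := by linarith only [sb]
    have hXv : X = (u 0 * u 1 + u 1 * u 2 + u 2 * u 0) / 3 := by linarith only [eX]
    have hYv : Y = (b 0 * b 1 + b 1 * b 2 + b 2 * b 0) / 3 := by linarith only [bY]
    have h54 : 54 * D0 = 27 * D1 + 27 * D2 := by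
      rw [← hD1, ← hD2, hD, hXv, hYv, ← eP, ← bB, hu2, hb2]; ring
    linarith only [h54]
  rw [← hD0] at hcc
  refine ⟨by rw [hD0]; linarith only [pD1, pD2], ?_⟩
  rw [avgPerm_hphi, k1, k2]
  linarith only [hcc]

/-- Exact values of the base messages. -/
theorem base_values {l g c1 c2 yE yV BE BV : ℝ} {DE DV EE EV : ℝ}
    (hl0 : 0 < l) (hl1 : l ≤ 1 / 2)
    (hc1 : c1 = 1 + 3 / 2 * g) (hc2 : c2 = g / 2) (hyE : yE = l ^ 2 / 4) (hyV : yV = l ^ 2)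
    (hBE : BE = (1 + l) * (1 - l / 2) ^ 2) (hBV : BV = (1 - 2 * l) * (1 + l) ^ 2)
    {u : Fin 3 → ℝ} (hu : ∀ i, 0 < u i) (su : u 0 + u 1 + u 2 = 3)
    {X P x s : ℝ} (eX : u 0 * u 1 + u 1 * u 2 + u 2 * u 0 = 3 * X) (eP : u 0 * u 1 * u 2 = P)
    (hx : x = 1 - X) (hs : s = (P + 2 - 3 * X) / 2)
    (hDE : DE = 1 - 3 * x * (l ^ 2 / 4) + s * (l ^ 3 / 4))
    (hDV : DV = 1 - 3 * x * l ^ 2 - 2 * s * l ^ 3)
    (hEE : EE = 1 - x * (l ^ 2 / 4)) (hEV : EV = 1 - x * l ^ 2) :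
    0 < DE ∧ 0 < DV ∧ ∃ αE βE αV βV : ℝ,
      αE * DE = X ^ 2 * (1 - yE) ^ 2 + X * (1 - X) * BE + yE * (1 - yE) * P ∧
      βE * DE ^ 2 = P * BE * (3 * EE ^ 2 - 2 * DE) ∧
      αV * DV = X ^ 2 * (1 - yV) ^ 2 + X * (1 - X) * BV + yV * (1 - yV) * P ∧
      βV * DV ^ 2 = P * BV * (3 * EV ^ 2 - 2 * DV) ∧
      (∑ i, hphi g (fun j => u j * eM l i j)) / 3 = (1 + g) - c1 * αE + c2 * βE ∧
      (∑ i, hphi g (fun j => u j * vM l i j)) / 3 = (1 + g) - c1 * αV + c2 * βV := by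
  have hu2 : u 2 = 3 - u 0 - u 1 := by linarith only [su]
  have hXv : X = (u 0 * u 1 + u 1 * u 2 + u 2 * u 0) / 3 := by linarith only [eX]
  have hXx : X = 1 - x := by linarith only [hx]
  have pu0 := hu 0
  have pu1 := hu 1
  have pu2 := hu 2
  have qE : DE = (u 0 * (1 + l) + (u 1 + u 2) * (1 - l / 2))
      * (u 1 * (1 + l) + (u 2 + u 0) * (1 - l / 2)) * (u 2 * (1 + l) + (u 0 + u 1) * (1 - l / 2))
      / 27 := by
    rw [hDE, hx, hs, hXv, ← eP, hu2]; ring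
  have qV : DV = (u 0 * (1 - 2 * l) + (u 1 + u 2) * (1 + l))
      * (u 1 * (1 - 2 * l) + (u 2 + u 0) * (1 + l)) * (u 2 * (1 - 2 * l) + (u 0 + u 1) * (1 + l))
      / 27 := by
    rw [hDV, hx, hs, hXv, ← eP, hu2]; ring
  have l1 : 0 < 1 + l := by linarith only [hl0, hl1]
  have l2 : 0 < 1 - l / 2 := by linarith only [hl0, hl1]
  have l3 : 0 ≤ 1 - 2 * l := by linarith only [hl1]
  have pDE : 0 < DE := by rw [qE]; (clear * - hl0 pu0 pu1 pu2 l2; positivity)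
  have pDV : 0 < DV := by
    rw [qV]
    have a0 : 0 < u 0 * (1 - 2 * l) + (u 1 + u 2) * (1 + l) := by (clear * - hl0 pu0 pu1 pu2 l3; positivity)
    have a1 : 0 < u 1 * (1 - 2 * l) + (u 2 + u 0) * (1 + l) := by (clear * - hl0 pu0 pu1 pu2 l3; positivity)
    have a2 : 0 < u 2 * (1 - 2 * l) + (u 0 + u 1) * (1 + l) := by (clear * - hl0 pu0 pu1 pu2 l3; positivity)
    (clear * - hl0 pu0 pu1 pu2 l3; positivity)
  have bE := base_sum (g := g) (M := eM l) hu su l1.le l2 (by ring) (fun i j => rfl)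
    (X := X) (P := P) (Y := 1 - yE) (Q := BE) (D := DE)
    (A := X ^ 2 * (1 - yE) ^ 2 + X * (1 - X) * BE + (1 - yE) * (1 - (1 - yE)) * P)
    (E := EE) eX eP (by rw [hyE]; ring) (by rw [hBE]) (by rw [qE]; ring) (by ring)
    (by rw [hEE, hyE, hXx]; ring)
  have bV := base_sum (g := g) (M := vM l) hu su l3 l1 (by ring) (fun i j => rfl)
    (X := X) (P := P) (Y := 1 - yV) (Q := BV) (D := DV)
    (A := X ^ 2 * (1 - yV) ^ 2 + X * (1 - X) * BV + (1 - yV) * (1 - (1 - yV)) * P)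
    (E := EV) eX eP (by rw [hyV]; ring) (by rw [hBV]) (by rw [qV]; ring) (by ring)
    (by rw [hEV, hyV, hXx]; ring)
  refine ⟨pDE, pDV, (X ^ 2 * (1 - yE) ^ 2 + X * (1 - X) * BE
    + (1 - yE) * (1 - (1 - yE)) * P) / DE, P * BE * (3 * EE ^ 2 - 2 * DE) / DE ^ 2,
    (X ^ 2 * (1 - yV) ^ 2 + X * (1 - X) * BV
    + (1 - yV) * (1 - (1 - yV)) * P) / DV, P * BV * (3 * EV ^ 2 - 2 * DV) / DV ^ 2,
    ?_, ?_, ?_, ?_, ?_, ?_⟩
  · rw [div_mul_cancel₀ _ pDE.ne']; ring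
  · rw [div_mul_cancel₀ _ (pow_ne_zero 2 pDE.ne')]
  · rw [div_mul_cancel₀ _ pDV.ne']; ring
  · rw [div_mul_cancel₀ _ (pow_ne_zero 2 pDV.ne')]
  · rw [bE, hc1, hc2]
  · rw [bV, hc1, hc2]

/-- nine nonnegative coefficients -/
def Coefs (c1 c2 ε X P DE DV EE EV BE BV yE yV αE βE αV βV : ℝ) : Prop :=
  0 ≤ c001 c1 c2 ε X P DE EE BE yE αE βE ∧
  0 ≤ c011 c1 c2 ε X P DE EE BE yE αE βE ∧
  0 ≤ c002 c1 c2 X P DV EV BV yV αV βV ∧
  0 ≤ c022 c1 c2 X P DV EV BV yV αV βV ∧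
  0 ≤ c112 c1 c2 ε X P DE DV EE EV BE BV yE yV αE βE αV βV ∧
  0 ≤ c122 c1 c2 ε X P DE DV EE EV BE BV yE yV αE βE αV βV ∧
  0 ≤ c012 c1 c2 ε X P DE DV EE EV BE BV yE yV αE βE αV βV ∧
  0 ≤ c111 c1 c2 ε X P DE EE BE yE αE βE ∧
  0 ≤ c222 c1 c2 X P DV EV BV yV αV βV

theorem final_ineq {c1 c2 ε X P DE DV EE EV BE BV yE yV αE βE αV βV e f D0 E0 B0 y A0 : ℝ}
    (hC : Coefs c1 c2 ε X P DE DV EE EV BE BV yE yV αE βE αV βV)
    (he : 0 ≤ e) (hf : 0 ≤ f) (hef : 0 ≤ 1 - e - f) (pD0 : 0 < D0)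
    (hD : D0 = (1 - e - f) + e*DE + f*DV) (hE : E0 = (1 - e - f) + e*EE + f*EV)
    (hB : B0 = (1 - e - f) + e*BE + f*BV) (hy : y = e*yE + f*yV)
    (hA : A0 = X^2*(1 - y)^2 + X*(1 - X)*B0 + y*(1 - y)*P) :
    -(c1 * (A0 / D0)) + c2 * (P * B0 * (3 * E0 ^ 2 - 2 * D0) / D0 ^ 2)
      ≤ (1 - e - f) * (-(c1 * X) + c2 * P) + e * (-(c1 * αE) + c2 * βE)
      + f * (-(c1 * αV) + c2 * βV) + ε * e := by
  obtain ⟨C1, C2, C3, C4, C5, C6, C7, C8, C9⟩ := hC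
  have hexp := expand c1 c2 ε X P DE DV EE EV BE BV yE yV αE βE αV βV e f D0 E0 B0 y A0
    hD hE hB hy hA
  have hnn : 0 ≤ ((1 - e - f)*(-(c1*X) + c2*P) + e*(-(c1*αE) + c2*βE)
      + f*(-(c1*αV) + c2*βV) + ε*e)*D0^2 + c1*A0*D0 - c2*(P*B0*(3*E0^2 - 2*D0)) := by
    rw [hexp]
    have t1 : 0 ≤ (1 - e - f) ^ 2 * e := by (clear * - he; positivity)
    have t2 : 0 ≤ (1 - e - f) * e ^ 2 := by (clear * - hef; positivity)
    have t3 : 0 ≤ (1 - e - f) ^ 2 * f := by (clear * - hf; positivity)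
    have t4 : 0 ≤ (1 - e - f) * f ^ 2 := by (clear * - hef; positivity)
    have t5 : 0 ≤ e ^ 2 * f := by (clear * - hf; positivity)
    have t6 : 0 ≤ e * f ^ 2 := by (clear * - he; positivity)
    have t7 : 0 ≤ (1 - e - f) * e * f := by (clear * - he hf hef; positivity)
    have t8 : 0 ≤ e ^ 3 := by positivity
    have t9 : 0 ≤ f ^ 3 := by (clear * - hf; positivity)
    have r1 := mul_nonneg t1 C1
    have r2 := mul_nonneg t2 C2
    have r3 := mul_nonneg t3 C3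
    have r4 := mul_nonneg t4 C4
    have r5 := mul_nonneg t5 C5
    have r6 := mul_nonneg t6 C6
    have r7 := mul_nonneg t7 C7
    have r8 := mul_nonneg t8 C8
    have r9 := mul_nonneg t9 C9
    exact add_nonneg (add_nonneg (add_nonneg (add_nonneg (add_nonneg (add_nonneg (add_nonneg
      (add_nonneg r1 r2) r3) r4) r5) r6) r7) r8) r9
  have h2 : 0 < D0 ^ 2 := by positivity
  have e1 : -(c1 * (A0 / D0)) + c2 * (P * B0 * (3 * E0 ^ 2 - 2 * D0) / D0 ^ 2)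
      = (-(c1 * A0 * D0) + c2 * (P * B0 * (3 * E0 ^ 2 - 2 * D0))) / D0 ^ 2 := by
    field_simp
  rw [e1, div_le_iff₀ h2]
  linarith only [hnn]

/-- Assembly. -/
theorem cmp_core {l g ε c1 c2 yE yV BE BV : ℝ} {DE DV : ℝ → ℝ → ℝ} {EE EV : ℝ → ℝ}
    (hl0 : 0 < l) (hl1 : l ≤ 1 / 2) (hg0 : 0 ≤ g) (hg1 : g ≤ 1 / 2)
    (hc1 : c1 = 1 + 3 / 2 * g) (hc2 : c2 = g / 2) (hyE : yE = l ^ 2 / 4) (hyV : yV = l ^ 2)
    (hBE : BE = (1 + l) * (1 - l / 2) ^ 2) (hBV : BV = (1 - 2 * l) * (1 + l) ^ 2)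
    (hDE : ∀ x s, DE x s = 1 - 3 * x * (l ^ 2 / 4) + s * (l ^ 3 / 4))
    (hDV : ∀ x s, DV x s = 1 - 3 * x * l ^ 2 - 2 * s * l ^ 3)
    (hEE : ∀ x, EE x = 1 - x * (l ^ 2 / 4)) (hEV : ∀ x, EV x = 1 - x * l ^ 2)
    (H : ∀ x s αE βE αV βV : ℝ, 0 ≤ 1 - 3 * x + 2 * s → 0 ≤ x - s → 0 ≤ x + 2 * s →
      0 ≤ x ^ 3 - s ^ 2 → 0 ≤ x → 0 < DE x s → 0 < DV x s →
      αE * DE x s = (1 - x) ^ 2 * (1 - yE) ^ 2 + (1 - x) * (1 - (1 - x)) * BE
        + yE * (1 - yE) * (1 - 3 * x + 2 * s) →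
      βE * DE x s ^ 2 = (1 - 3 * x + 2 * s) * BE * (3 * EE x ^ 2 - 2 * DE x s) →
      αV * DV x s = (1 - x) ^ 2 * (1 - yV) ^ 2 + (1 - x) * (1 - (1 - x)) * BV
        + yV * (1 - yV) * (1 - 3 * x + 2 * s) →
      βV * DV x s ^ 2 = (1 - 3 * x + 2 * s) * BV * (3 * EV x ^ 2 - 2 * DV x s) →
      Coefs c1 c2 ε (1 - x) (1 - 3 * x + 2 * s) (DE x s) (DV x s) (EE x) (EV x) BE BV yE yV
        αE βE αV βV) :
    Cmp l g ε := by
  intro u w hu hw su sw
  rw [Fin.sum_univ_three] at su sw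
  -- moments of u
  obtain ⟨X, eX⟩ : ∃ X, u 0 * u 1 + u 1 * u 2 + u 2 * u 0 = 3 * X :=
    ⟨(u 0 * u 1 + u 1 * u 2 + u 2 * u 0) / 3, by ring⟩
  obtain ⟨P, eP⟩ : ∃ P, u 0 * u 1 * u 2 = P := ⟨_, rfl⟩
  obtain ⟨x, hx⟩ : ∃ x, x = 1 - X := ⟨_, rfl⟩
  obtain ⟨s, hs⟩ : ∃ s, s = (P + 2 - 3 * X) / 2 := ⟨_, rfl⟩
  have hXx : X = 1 - x := by linarith only [hx]
  have hPx : P = 1 - 3 * x + 2 * s := by rw [hx, hs]; ring
  obtain ⟨m0, m1, m2, m3, m4⟩ := moments (hu 0) (hu 1) (hu 2) su eX eP hx hs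
  -- moments of w
  obtain ⟨Xw, eXw⟩ : ∃ X, w 0 * w 1 + w 1 * w 2 + w 2 * w 0 = 3 * X :=
    ⟨(w 0 * w 1 + w 1 * w 2 + w 2 * w 0) / 3, by ring⟩
  obtain ⟨Pw, ePw⟩ : ∃ P, w 0 * w 1 * w 2 = P := ⟨_, rfl⟩
  obtain ⟨r, hr⟩ : ∃ x, x = 1 - Xw := ⟨_, rfl⟩
  obtain ⟨t, ht⟩ : ∃ s, s = (Pw + 2 - 3 * Xw) / 2 := ⟨_, rfl⟩
  obtain ⟨n0, n1, n2, n3, n4⟩ := moments (hw 0) (hw 1) (hw 2) sw eXw ePw hr ht
  -- evaluation of the functionals
  have hXu : hX u = X := by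
    unfold hX; rw [su, eX]; ring
  have hPu : hP u = P := by
    unfold hP; rw [su, eP]; ring
  have hmu : mean u = 1 := by
    unfold mean; rw [Fin.sum_univ_three, su]; norm_num
  have hXw' : hX w = Xw := by
    unfold hX; rw [sw, eXw]; ring
  have hPw' : hP w = Pw := by
    unfold hP; rw [sw, ePw]; ring
  have hmw : mean w = 1 := by
    unfold mean; rw [Fin.sum_univ_three, sw]; norm_num
  obtain ⟨e, he⟩ : ∃ e, e = wE w := ⟨_, rfl⟩
  obtain ⟨f, hf⟩ : ∃ f, f = wV w := ⟨_, rfl⟩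
  have hRw : hR w = r := by unfold hR; rw [hmw, hXw', hr]
  have hTw : hT w = t := by unfold hT; rw [hmw, hXw', hPw', ht]; ring
  have he' : e = 8 / 3 * (r - t) := by rw [he, wE, hRw, hTw]
  have hf' : f = (r + 2 * t) / 3 := by rw [hf, wV, hRw, hTw]
  have he0 : 0 ≤ e := by rw [he']; linarith only [n1]
  have hf0 : 0 ≤ f := by rw [hf']; linarith only [n2]
  have hPef : Pw = 1 - e - f := by rw [he', hf', hr, ht]; ring
  have hPef0 : 0 ≤ 1 - e - f := by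
    rw [← hPef, ← ePw]
    exact (mul_pos (mul_pos (hw 0) (hw 1)) (hw 2)).le
  have hphiu : hphi g u = (1 + g) - c1 * X + c2 * P := by
    unfold hphi hR hT; rw [hmu, hXu, hPu, hc1, hc2]; ring
  -- the message
  obtain ⟨b, hb⟩ : ∃ b : Fin 3 → ℝ, b = pl (-l) w := ⟨_, rfl⟩
  have hbi : ∀ i, b i = (1 + l) - l * w i := by
    intro i; rw [hb]; unfold pl; rw [hmw]; ring
  have hw3 : ∀ i, w i < 3 := by
    intro i
    have h0 := hw 0
    have h1 := hw 1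
    have h2 := hw 2
    fin_cases i
    · change w 0 < 3; linarith only [sw, h1, h2]
    · change w 1 < 3; linarith only [sw, h0, h2]
    · change w 2 < 3; linarith only [sw, h0, h1]
  have hbpos : ∀ i, 0 < b i := by
    intro i
    rw [hbi]
    have h1 : l * w i < l * 3 := mul_lt_mul_of_pos_left (hw3 i) hl0
    linarith only [hl1, h1]
  have sb : b 0 + b 1 + b 2 = 3 := by
    rw [hbi, hbi, hbi]; linear_combination (-l) * sw
  obtain ⟨Y, hY⟩ : ∃ Y, Y = 1 - l ^ 2 * r := ⟨_, rfl⟩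
  obtain ⟨B, hB⟩ : ∃ B, B = 1 - 3 * l ^ 2 * r - 2 * l ^ 3 * t := ⟨_, rfl⟩
  have hw2 : w 2 = 3 - w 0 - w 1 := by linarith only [sw]
  have hXwv : Xw = (w 0 * w 1 + w 1 * w 2 + w 2 * w 0) / 3 := by linarith only [eXw]
  have bY : b 0 * b 1 + b 1 * b 2 + b 2 * b 0 = 3 * Y := by
    rw [hY, hr, hXwv, hbi, hbi, hbi, hw2]; ring
  have bB : b 0 * b 1 * b 2 = B := by
    rw [hB, hr, ht, hXwv, ← ePw, hbi, hbi, hbi, hw2]; ring
  obtain ⟨A, hA⟩ : ∃ A, A = X ^ 2 * Y ^ 2 + X * (1 - X) * B + Y * (1 - Y) * P := ⟨_, rfl⟩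
  obtain ⟨E, hE⟩ : ∃ E, E = 1 - (1 - X) * (1 - Y) := ⟨_, rfl⟩
  obtain ⟨D0, hD0⟩ : ∃ D0, D0 = 1 - 3 * ((1 - X) * (1 - Y)) + (P + 2 - 3 * X) * (B + 2 - 3 * Y) / 2 :=
    ⟨_, rfl⟩
  obtain ⟨pD0, hav⟩ := avg_bound hg0 hg1 hu hbpos su sb eX eP bY bB hA hE hD0
  obtain ⟨pDE, pDV, αE, βE, αV, βV, haE, hbE, haV, hbV, vE, vV⟩ := base_values (g := g) (c1 := c1)
    (c2 := c2) (yE := yE) (yV := yV) (BE := BE) (BV := BV) (DE := DE x s) (DV := DV x s)
    (EE := EE x) (EV := EV x) hl0 hl1 hc1 hc2 hyE hyV hBE hBV hu su eX eP hx hs (hDE x s) (hDV x s)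
    (hEE x) (hEV x)
  rw [hXx, hPx] at haE haV
  rw [hPx] at hbE hbV
  have hC := H x s αE βE αV βV m0 m1 m2 m3 m4 pDE pDV haE hbE haV hbV
  rw [← hXx, ← hPx] at hC
  have hfin := final_ineq (e := e) (f := f) (D0 := D0) (E0 := E) (B0 := B) (y := 1 - Y) (A0 := A)
    hC he0 hf0 hPef0 pD0
    (by rw [hD0, hDE, hDV, hY, hB, he', hf', hXx, hPx]; ring)
    (by rw [hE, hEE, hEV, hY, he', hf', hXx]; ring)
    (by rw [hB, hBE, hBV, he', hf']; ring)
    (by rw [hY, he', hf', hyE, hyV]; ring) (by rw [hA]; ring)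
  rw [← hb, hphiu, vE, vV, hPw', hPef, ← he, ← hf]
  rw [← hc1, ← hc2] at hav
  linarith only [hav, hfin]

end Vale.Agent.P154.Cmp3
end

section

/-!
# P154: the three-point comparison for the needed parameters
-/

namespace Vale.Agent.P154.Cmp3

theorem cmp_half_zero : Cmp (1/2) (0) (0) := by
  refine cmp_core (c1 := 1) (c2 := 0) (yE := 1/16) (yV := 1/4) (BE := 27/32) (BV := 0)
    (DE := fun x s => 1 + 1/32*s - 3/16*x) (DV := fun x s => 1 - 1/4*s - 3/4*x) (EE := fun x => 1 - 1/16*x) (EV := fun x => 1 - 1/4*x)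
    (by norm_num) (by norm_num) (by norm_num) (by norm_num) (by norm_num) (by norm_num)
    (by norm_num) (by norm_num) (by norm_num) (by norm_num) (fun x s => by ring)
    (fun x s => by ring) (fun x => by ring) (fun x => by ring) ?_
  intro x s αE βE αV βV h0 h1 h2 hd hx hDE hDV haE hbE haV hbV
  exact ⟨a_c001_nn h0 h1 h2 hd hx hDE hDV haE hbE haV hbV,
    a_c011_nn h0 h1 h2 hd hx hDE hDV haE hbE haV hbV,
    a_c002_nn h0 h1 h2 hd hx hDE hDV haE hbE haV hbV,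
    a_c022_nn h0 h1 h2 hd hx hDE hDV haE hbE haV hbV,
    a_c112_nn h0 h1 h2 hd hx hDE hDV haE hbE haV hbV,
    a_c122_nn h0 h1 h2 hd hx hDE hDV haE hbE haV hbV,
    a_c012_nn h0 h1 h2 hd hx hDE hDV haE hbE haV hbV,
    a_c111_nn h0 h1 h2 hd hx hDE hDV haE hbE haV hbV,
    a_c222_nn h0 h1 h2 hd hx hDE hDV haE hbE haV hbV⟩

theorem cmp_half_fifth : Cmp (1/2) (1/5) (1/5000) := by
  refine cmp_core (c1 := 13/10) (c2 := 1/10) (yE := 1/16) (yV := 1/4) (BE := 27/32) (BV := 0)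
    (DE := fun x s => 1 + 1/32*s - 3/16*x) (DV := fun x s => 1 - 1/4*s - 3/4*x) (EE := fun x => 1 - 1/16*x) (EV := fun x => 1 - 1/4*x)
    (by norm_num) (by norm_num) (by norm_num) (by norm_num) (by norm_num) (by norm_num)
    (by norm_num) (by norm_num) (by norm_num) (by norm_num) (fun x s => by ring)
    (fun x s => by ring) (fun x => by ring) (fun x => by ring) ?_
  intro x s αE βE αV βV h0 h1 h2 hd hx hDE hDV haE hbE haV hbV
  exact ⟨b_c001_nn h0 h1 h2 hd hx hDE hDV haE hbE haV hbV,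
    b_c011_nn h0 h1 h2 hd hx hDE hDV haE hbE haV hbV,
    b_c002_nn h0 h1 h2 hd hx hDE hDV haE hbE haV hbV,
    b_c022_nn h0 h1 h2 hd hx hDE hDV haE hbE haV hbV,
    b_c112_nn h0 h1 h2 hd hx hDE hDV haE hbE haV hbV,
    b_c122_nn h0 h1 h2 hd hx hDE hDV haE hbE haV hbV,
    b_c012_nn h0 h1 h2 hd hx hDE hDV haE hbE haV hbV,
    b_c111_nn h0 h1 h2 hd hx hDE hDV haE hbE haV hbV,
    b_c222_nn h0 h1 h2 hd hx hDE hDV haE hbE haV hbV⟩

theorem cmp_nine_zero : Cmp (9/20) (0) (0) := by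
  refine cmp_core (c1 := 1) (c2 := 0) (yE := 81/1600) (yV := 81/400) (BE := 27869/32000) (BV := 841/4000)
    (DE := fun x s => 1 + 729/32000*s - 243/1600*x) (DV := fun x s => 1 - 729/4000*s - 243/400*x) (EE := fun x => 1 - 81/1600*x) (EV := fun x => 1 - 81/400*x)
    (by norm_num) (by norm_num) (by norm_num) (by norm_num) (by norm_num) (by norm_num)
    (by norm_num) (by norm_num) (by norm_num) (by norm_num) (fun x s => by ring)
    (fun x s => by ring) (fun x => by ring) (fun x => by ring) ?_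
  intro x s αE βE αV βV h0 h1 h2 hd hx hDE hDV haE hbE haV hbV
  exact ⟨c_c001_nn h0 h1 h2 hd hx hDE hDV haE hbE haV hbV,
    c_c011_nn h0 h1 h2 hd hx hDE hDV haE hbE haV hbV,
    c_c002_nn h0 h1 h2 hd hx hDE hDV haE hbE haV hbV,
    c_c022_nn h0 h1 h2 hd hx hDE hDV haE hbE haV hbV,
    c_c112_nn h0 h1 h2 hd hx hDE hDV haE hbE haV hbV,
    c_c122_nn h0 h1 h2 hd hx hDE hDV haE hbE haV hbV,
    c_c012_nn h0 h1 h2 hd hx hDE hDV haE hbE haV hbV,
    c_c111_nn h0 h1 h2 hd hx hDE hDV haE hbE haV hbV,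
    c_c222_nn h0 h1 h2 hd hx hDE hDV haE hbE haV hbV⟩

theorem cmp_nine_sixth : Cmp (9/20) (1/6) (0) := by
  refine cmp_core (c1 := 5/4) (c2 := 1/12) (yE := 81/1600) (yV := 81/400) (BE := 27869/32000) (BV := 841/4000)
    (DE := fun x s => 1 + 729/32000*s - 243/1600*x) (DV := fun x s => 1 - 729/4000*s - 243/400*x) (EE := fun x => 1 - 81/1600*x) (EV := fun x => 1 - 81/400*x)
    (by norm_num) (by norm_num) (by norm_num) (by norm_num) (by norm_num) (by norm_num)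
    (by norm_num) (by norm_num) (by norm_num) (by norm_num) (fun x s => by ring)
    (fun x s => by ring) (fun x => by ring) (fun x => by ring) ?_
  intro x s αE βE αV βV h0 h1 h2 hd hx hDE hDV haE hbE haV hbV
  exact ⟨d_c001_nn h0 h1 h2 hd hx hDE hDV haE hbE haV hbV,
    d_c011_nn h0 h1 h2 hd hx hDE hDV haE hbE haV hbV,
    d_c002_nn h0 h1 h2 hd hx hDE hDV haE hbE haV hbV,
    d_c022_nn h0 h1 h2 hd hx hDE hDV haE hbE haV hbV,
    d_c112_nn h0 h1 h2 hd hx hDE hDV haE hbE haV hbV,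
    d_c122_nn h0 h1 h2 hd hx hDE hDV haE hbE haV hbV,
    d_c012_nn h0 h1 h2 hd hx hDE hDV haE hbE haV hbV,
    d_c111_nn h0 h1 h2 hd hx hDE hDV haE hbE haV hbV,
    d_c222_nn h0 h1 h2 hd hx hDE hDV haE hbE haV hbV⟩

end Vale.Agent.P154.Cmp3
end

section

/-!
# P154: regular tree with five children at the Kesten-Stigum point, antiferromagnetic side

The closure of the three-point law at base strength `9/20` is a polynomial of degree five in the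
weights.  Its coefficients are bounded by rational numbers by evaluation, and the two closed
inequalities of `af_limit` are contradicted by Bernstein certificates.
-/

open scoped BigOperators
open Vale.Agent.P154.Bern

namespace Vale.Agent.P154.R5

/-! ### Operators of the two message types -/

noncomputable def aE (l : ℝ) (F : (Fin 3 → ℝ) → ℝ) : (Fin 3 → ℝ) → ℝ := fun u =>
  (∑ i, F (fun j => u j * eM l i j)) / 3

noncomputable def aV (l : ℝ) (F : (Fin 3 → ℝ) → ℝ) : (Fin 3 → ℝ) → ℝ := fun u =>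
  (∑ i, F (fun j => u j * vM l i j)) / 3

theorem opT_aE (l e v : ℝ) (F : (Fin 3 → ℝ) → ℝ) :
    opT l e v F = fun u => (1 - e - v) * F u + e * aE l F u + v * aV l F u := rfl

theorem aV_aE (l : ℝ) (F : (Fin 3 → ℝ) → ℝ) : aV l (aE l F) = aE l (aV l F) := by
  funext u
  unfold aV aE
  congr 1
  rw [← Finset.sum_div, ← Finset.sum_div, Finset.sum_comm]
  congr 1
  refine Finset.sum_congr rfl fun i _ => Finset.sum_congr rfl fun k _ => ?_
  congr 1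
  funext j
  ring

theorem aV_aE_iter (l : ℝ) (i : ℕ) (F : (Fin 3 → ℝ) → ℝ) :
    aV l ((aE l)^[i] F) = (aE l)^[i] (aV l F) := by
  induction i generalizing F with
  | zero => rfl
  | succ i ih => rw [Function.iterate_succ_apply, Function.iterate_succ_apply, ih, aV_aE]

/-- `i` edge messages and `j` vertex messages -/
noncomputable def HH (l : ℝ) (F : (Fin 3 → ℝ) → ℝ) (i j : ℕ) : (Fin 3 → ℝ) → ℝ :=
  (aE l)^[i] ((aV l)^[j] F)

theorem opT_HH (l e v : ℝ) (F : (Fin 3 → ℝ) → ℝ) (i j : ℕ) :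
    opT l e v (HH l F i j) = fun u => (1 - e - v) * HH l F i j u + e * HH l F (i + 1) j u
      + v * HH l F i (j + 1) u := by
  rw [opT_aE]
  have h1 : aE l (HH l F i j) = HH l F (i + 1) j := by
    unfold HH
    rw [Function.iterate_succ_apply' (aE l) i]
  have h2 : aV l (HH l F i j) = HH l F i (j + 1) := by
    unfold HH
    rw [aV_aE_iter, Function.iterate_succ_apply' (aV l) j]
  rw [h1, h2]

theorem opT_lin (l e v a b c : ℝ) (F G K : (Fin 3 → ℝ) → ℝ) :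
    opT l e v (fun u => a * F u + b * G u + c * K u)
      = fun u => a * opT l e v F u + b * opT l e v G u + c * opT l e v K u := by
  funext u
  unfold opT
  rw [Finset.sum_add_distrib, Finset.sum_add_distrib, Finset.sum_add_distrib,
    Finset.sum_add_distrib, ← Finset.mul_sum, ← Finset.mul_sum, ← Finset.mul_sum,
    ← Finset.mul_sum, ← Finset.mul_sum, ← Finset.mul_sum]
  ring

theorem opT_iter_lin (l e v a b c : ℝ) (n : ℕ) : ∀ (F G K : (Fin 3 → ℝ) → ℝ),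
    (opT l e v)^[n] (fun u => a * F u + b * G u + c * K u)
      = fun u => a * (opT l e v)^[n] F u + b * (opT l e v)^[n] G u + c * (opT l e v)^[n] K u := by
  induction n with
  | zero => intro F G K; rfl
  | succ n ih =>
    intro F G K
    rw [Function.iterate_succ_apply, opT_lin, ih]
    rfl

/-- Pascal-type recursion with given leaves -/
def pol (w e v : ℝ) (h : ℕ → ℕ → ℝ) : ℕ → ℕ → ℕ → ℝ
  | 0, i, j => h i j
  | k + 1, i, j => w * pol w e v h k i j + e * pol w e v h k (i + 1) j + v * pol w e v h k i (j + 1)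

theorem opT_le_pol {l e v : ℝ} (he : 0 ≤ e) (hv : 0 ≤ v) (hev : e + v ≤ 1)
    {F : (Fin 3 → ℝ) → ℝ} {h : ℕ → ℕ → ℝ} {N : ℕ}
    (hF : ∀ i j, i + j ≤ N → HH l F i j (fun _ => 1) ≤ h i j) :
    ∀ k i j, k + i + j ≤ N → (opT l e v)^[k] (HH l F i j) (fun _ => 1)
      ≤ pol (1 - e - v) e v h k i j := by
  intro k
  induction k with
  | zero =>
    intro i j hij
    exact hF i j (by omega)
  | succ k ih =>
    intro i j hij
    rw [Function.iterate_succ_apply, opT_HH, opT_iter_lin]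
    have h1 := ih i j (by omega)
    have h2 := ih (i + 1) j (by omega)
    have h3 := ih i (j + 1) (by omega)
    have hw : 0 ≤ 1 - e - v := by linarith only [hev]
    exact add_le_add (add_le_add (mul_le_mul_of_nonneg_left h1 hw)
      (mul_le_mul_of_nonneg_left h2 he)) (mul_le_mul_of_nonneg_left h3 hv)

/-! ### Evaluation by integer arithmetic -/

/-- sum of two fractions -/
def fadd (p q : ℕ × ℕ) : ℕ × ℕ := (p.1 * q.2 + q.1 * p.2, p.2 * q.2)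

def avz (B C : ℕ) (G : ℕ → ℕ → ℕ → ℕ × ℕ) : ℕ → ℕ → ℕ → ℕ × ℕ := fun a b c =>
  fadd (fadd (G (a * B) (b * C) (c * C)) (G (a * C) (b * B) (c * C)))
    (G (a * C) (b * C) (c * B))

/-- `κ F` is represented on positive integer vectors by the fraction `G` -/
def RepS (κ : ℝ) (F : (Fin 3 → ℝ) → ℝ) (G : ℕ → ℕ → ℕ → ℕ × ℕ) : Prop :=
  ∀ a b c : ℕ, 0 < a → 0 < b → 0 < c → 0 < (G a b c).2 ∧
    κ * F ![(a : ℝ), (b : ℝ), (c : ℝ)] * ((G a b c).2 : ℝ) = ((G a b c).1 : ℝ)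

/-- homogeneity of degree one -/
def Hm (F : (Fin 3 → ℝ) → ℝ) : Prop := ∀ (c : ℝ) (u : Fin 3 → ℝ), F (fun i => c * u i) = c * F u

theorem Hm.step {F : (Fin 3 → ℝ) → ℝ} (h : Hm F) (M : Fin 3 → Fin 3 → ℝ) :
    Hm (fun u => (∑ i, F (fun j => u j * M i j)) / 3) := by
  intro c u
  have e : ∀ i, F (fun j => c * u j * M i j) = c * F (fun j => u j * M i j) := by
    intro i
    rw [← h]
    congr 1
    funext j
    ring
  change (∑ i, F (fun j => c * u j * M i j)) / 3 = c * ((∑ i, F (fun j => u j * M i j)) / 3)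
  simp_rw [e]
  rw [← Finset.mul_sum]
  ring

theorem RepS.step {κ : ℝ} {F : (Fin 3 → ℝ) → ℝ} {G : ℕ → ℕ → ℕ → ℕ × ℕ} (h : RepS κ F G)
    (hF : Hm F) {B C : ℕ} (hB : 0 < B) (hC : 0 < C) {s : ℝ} (hs : s ≠ 0)
    {M : Fin 3 → Fin 3 → ℝ} (hM : ∀ i j, s * M i j = if j = i then (B : ℝ) else (C : ℝ)) :
    RepS (3 * s * κ) (fun u => (∑ i, F (fun j => u j * M i j)) / 3) (avz B C G) := by
  intro a b c ha hb hc
  have hM' : ∀ i j, M i j = s⁻¹ * if j = i then (B : ℝ) else (C : ℝ) := by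
    intro i j
    rw [← hM i j]
    field_simp
  have key : ∀ (i : Fin 3) (x y z : ℕ), (∀ j, (![(a : ℝ), (b : ℝ), (c : ℝ)] : Fin 3 → ℝ) j
      * (if j = i then (B : ℝ) else (C : ℝ)) = (![(x : ℝ), (y : ℝ), (z : ℝ)] : Fin 3 → ℝ) j) →
      s * F (fun j => (![(a : ℝ), (b : ℝ), (c : ℝ)] : Fin 3 → ℝ) j * M i j)
        = F ![(x : ℝ), (y : ℝ), (z : ℝ)] := by
    intro i x y z hx
    rw [← hF]
    congr 1
    funext j
    rw [← hx j, hM']
    (clear * - hB hC hs; field_simp)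
  have h0 := key 0 (a * B) (b * C) (c * C) (fun j => by push_cast; fin_cases j <;> simp)
  have h1 := key 1 (a * C) (b * B) (c * C) (fun j => by push_cast; fin_cases j <;> simp)
  have h2 := key 2 (a * C) (b * C) (c * B) (fun j => by push_cast; fin_cases j <;> simp)
  obtain ⟨p0, g0⟩ := h (a * B) (b * C) (c * C) (Nat.mul_pos ha hB) (Nat.mul_pos hb hC)
    (Nat.mul_pos hc hC)
  obtain ⟨p1, g1⟩ := h (a * C) (b * B) (c * C) (Nat.mul_pos ha hC) (Nat.mul_pos hb hB)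
    (Nat.mul_pos hc hC)
  obtain ⟨p2, g2⟩ := h (a * C) (b * C) (c * B) (Nat.mul_pos ha hC) (Nat.mul_pos hb hC)
    (Nat.mul_pos hc hB)
  refine ⟨Nat.mul_pos (Nat.mul_pos p0 p1) p2, ?_⟩
  change 3 * s * κ * ((∑ i, F (fun j => (![(a : ℝ), (b : ℝ), (c : ℝ)] : Fin 3 → ℝ) j * M i j)) / 3)
    * _ = _
  rw [Fin.sum_univ_three]
  unfold avz fadd
  push_cast at g0 g1 g2 h0 h1 h2 ⊢
  rw [← h0] at g0
  rw [← h1] at g1
  rw [← h2] at g2
  rw [← g0, ← g1, ← g2]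
  ring

theorem hR_Hm : Hm hR := by
  intro c u
  unfold hR
  rw [hX_smul]
  simp only [mean]
  rw [← Finset.mul_sum]
  ring

theorem hphi_Hm (g : ℝ) : Hm (hphi g) := fun c u => hphi_smul g c u

def hRz (a b c : ℕ) : ℕ × ℕ := (a * a + b * b + c * c - (a * b + b * c + c * a), 3 * (a + b + c))

def hGz (a b c : ℕ) : ℕ × ℕ :=
  (14 * ((a + b + c) * ((a + b + c) * (a + b + c))) + 27 * (a * b * c)
    - 45 * ((a * b + b * c + c * a) * (a + b + c)), 36 * ((a + b + c) * (a + b + c)))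

theorem rep_hR : RepS 1 hR hRz := by
  intro a b c ha hb hc
  have hs : (0 : ℝ) < (a : ℝ) + b + c := by positivity
  have hle : a * b + b * c + c * a ≤ a * a + b * b + c * c := by
    have h : (a : ℝ) * b + b * c + c * a ≤ a * a + b * b + c * c := by
      nlinarith only [sq_nonneg ((a : ℝ) - b), sq_nonneg ((b : ℝ) - c), sq_nonneg ((c : ℝ) - a)]
    exact_mod_cast h
  refine ⟨by unfold hRz; positivity, ?_⟩
  unfold hR hX mean hRz
  rw [Fin.sum_univ_three]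
  simp only [Matrix.cons_val_zero, Matrix.cons_val_one, Matrix.cons_val]
  rw [Nat.cast_sub hle]
  push_cast
  field_simp
  ring

theorem rep_hphi : RepS 1 (hphi (1 / 6)) hGz := by
  intro a b c ha hb hc
  have ha' : (0 : ℝ) < a := by exact_mod_cast ha
  have hb' : (0 : ℝ) < b := by exact_mod_cast hb
  have hc' : (0 : ℝ) < c := by exact_mod_cast hc
  have hs : (0 : ℝ) < (a : ℝ) + b + c := by positivity
  have hle : 45 * ((a * b + b * c + c * a) * (a + b + c))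
      ≤ 14 * ((a + b + c) * ((a + b + c) * (a + b + c))) + 27 * (a * b * c) := by
    have h1 := Cmp3.schur_sum ha'.le hb'.le hc'.le
    have h2 : 0 ≤ ((a : ℝ) + b + c) * ((a - b) ^ 2 + (b - c) ^ 2 + (c - a) ^ 2) := by (clear * - ha hb hc; positivity)
    have h : (45 * (((a : ℝ) * b + b * c + c * a) * (a + b + c)))
        ≤ 14 * ((a + b + c) * ((a + b + c) * (a + b + c))) + 27 * (a * b * c) := by
      linarith only [h1, h2]
    exact_mod_cast h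
  refine ⟨by unfold hGz; positivity, ?_⟩
  unfold hphi hR hT hX hP mean hGz
  rw [Fin.sum_univ_three]
  simp only [Matrix.cons_val_zero, Matrix.cons_val_one, Matrix.cons_val]
  rw [Nat.cast_sub hle]
  push_cast
  field_simp
  ring

def tz (G : ℕ → ℕ → ℕ → ℕ × ℕ) (i j : ℕ) : ℕ × ℕ :=
  ((avz 58 31)^[i] ((avz 2 29)^[j] G)) 1 1 1

theorem rep_HH {F : (Fin 3 → ℝ) → ℝ} {G : ℕ → ℕ → ℕ → ℕ × ℕ} (h : RepS 1 F G) (hF : Hm F)
    (i j : ℕ) : RepS (120 ^ i * 60 ^ j) (HH (9 / 20) F i j)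
      ((avz 58 31)^[i] ((avz 2 29)^[j] G)) := by
  unfold HH
  have h1 : ∀ j : ℕ, RepS (60 ^ j) ((aV (9 / 20))^[j] F) ((avz 2 29)^[j] G)
      ∧ Hm ((aV (9 / 20))^[j] F) := by
    intro j
    induction j with
    | zero => exact ⟨by simpa using h, hF⟩
    | succ j ih =>
      rw [Function.iterate_succ_apply', Function.iterate_succ_apply']
      refine ⟨?_, ih.2.step _⟩
      have h2 := ih.1.step ih.2 (B := 2) (C := 29) (by norm_num) (by norm_num) (s := 20)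
        (by norm_num) (M := vM (9 / 20)) (fun i j => by unfold vM; split_ifs <;> norm_num)
      have e : (3 * 20 * 60 ^ j : ℝ) = 60 ^ (j + 1) := by rw [pow_succ]; ring
      rw [e] at h2
      exact h2
  have h3 : RepS (120 ^ i * 60 ^ j) ((aE (9 / 20))^[i] ((aV (9 / 20))^[j] F))
        ((avz 58 31)^[i] ((avz 2 29)^[j] G)) ∧ Hm ((aE (9 / 20))^[i] ((aV (9 / 20))^[j] F)) := by
    induction i with
    | zero => exact ⟨by simpa using (h1 j).1, (h1 j).2⟩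
    | succ i ih =>
      rw [Function.iterate_succ_apply', Function.iterate_succ_apply']
      refine ⟨?_, ih.2.step _⟩
      have h2 := ih.1.step ih.2 (B := 58) (C := 31) (by norm_num) (by norm_num) (s := 40)
        (by norm_num) (M := eM (9 / 20)) (fun i j => by unfold eM; split_ifs <;> norm_num)
      have e : (3 * 40 * (120 ^ i * 60 ^ j) : ℝ) = 120 ^ (i + 1) * 60 ^ j := by
        rw [pow_succ]; ring
      rw [e] at h2
      exact h2
  exact h3.1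

def pn (a : ℕ) : ℕ → ℕ
  | 0 => 1
  | n + 1 => Nat.mul (pn a n) a

theorem pn_eq (a n : ℕ) : pn a n = a ^ n := by
  induction n with
  | zero => rfl
  | succ n ih => rw [pn, ih, pow_succ]; rfl

/-- the table entry `t.1 / t.2` bounds the value `p.1 / p.2` divided by `120 ^ i * 60 ^ j` -/
def okz (t p : ℕ × ℕ) (i j : ℕ) : Bool :=
  and (Nat.ble 1 t.2) (Nat.ble (Nat.mul p.1 t.2)
    (Nat.mul (Nat.mul (pn 120 i) (pn 60 j)) (Nat.mul t.1 p.2)))

theorem HH_le_of_table {F : (Fin 3 → ℝ) → ℝ} {G : ℕ → ℕ → ℕ → ℕ × ℕ} (h : RepS 1 F G)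
    (hF : Hm F) (N : ℕ) (tab : ℕ → ℕ → ℕ × ℕ)
    (ht : ∀ i ∈ List.range (N + 1), ∀ j ∈ List.range (N + 1 - i),
      okz (tab i j) (tz G i j) i j = true) :
    ∀ i j, i + j ≤ N → HH (9 / 20) F i j (fun _ => 1)
      ≤ ((tab i j).1 : ℝ) / ((tab i j).2 : ℝ) := by
  intro i j hij
  have h1 := ht i (List.mem_range.2 (by omega)) j (List.mem_range.2 (by omega))
  have h2 := (Bool.and_eq_true _ _).mp h1
  have h3 : 1 ≤ (tab i j).2 := Nat.le_of_ble_eq_true h2.1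
  have h4 := Nat.le_of_ble_eq_true h2.2
  obtain ⟨h5, h6⟩ := rep_HH h hF i j 1 1 1 one_pos one_pos one_pos
  have e : (fun _ => (1 : ℝ)) = (![((1 : ℕ) : ℝ), ((1 : ℕ) : ℝ), ((1 : ℕ) : ℝ)] : Fin 3 → ℝ) := by
    funext j
    fin_cases j <;> simp
  rw [e]
  have h7 : (((tz G i j).1 * (tab i j).2 : ℕ) : ℝ)
      ≤ (((pn 120 i * pn 60 j) * ((tab i j).1 * (tz G i j).2) : ℕ) : ℝ) := Nat.cast_le.2 h4
  rw [pn_eq, pn_eq] at h7
  push_cast at h7
  have h8 : (0 : ℝ) < ((tab i j).2 : ℝ) := by exact_mod_cast h3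
  have h9 : (0 : ℝ) < ((tz G i j).2 : ℝ) := by exact_mod_cast h5
  change 120 ^ i * 60 ^ j * HH (9 / 20) F i j _ * ((tz G i j).2 : ℝ) = ((tz G i j).1 : ℝ) at h6
  rw [le_div_iff₀ h8]
  have h10 : (0 : ℝ) < 120 ^ i * 60 ^ j * ((tz G i j).2 : ℝ) := by positivity
  refine le_of_mul_le_mul_left ?_ h10
  rw [← h6] at h7
  refine le_trans (le_of_eq ?_) (h7.trans (le_of_eq ?_)) <;> ring

/-! ### The case of five children -/

/-- bounds times `3200000` -/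
def nR : ℕ → ℕ → ℕ
  | 0, 0 => 0
  | 0, 1 => 648000
  | 0, 2 => 1508288
  | 0, 3 => 2059712
  | 0, 4 => 2398208
  | 0, 5 => 2642784
  | 1, 0 => 162000
  | 1, 1 => 804608
  | 1, 2 => 1595296
  | 1, 3 => 2111872
  | 1, 4 => 2435552
  | 2, 0 => 311104
  | 2, 1 => 942432
  | 2, 2 => 1674208
  | 2, 3 => 2160032
  | 3, 0 => 449824
  | 3, 1 => 1066528
  | 3, 2 => 1747264
  | 4, 0 => 579584
  | 4, 1 => 1179648
  | 5, 0 => 701376
  | _, _ => 0

def nG : ℕ → ℕ → ℕ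
  | 0, 0 => 0
  | 0, 1 => 599400
  | 0, 2 => 1633024
  | 0, 3 => 2321888
  | 0, 4 => 2736416
  | 0, 5 => 3038560
  | 1, 0 => 168075
  | 1, 1 => 791520
  | 1, 2 => 1742048
  | 1, 3 => 2385568
  | 1, 4 => 2782784
  | 2, 0 => 327392
  | 2, 1 => 960544
  | 2, 2 => 1840768
  | 2, 3 => 2444576
  | 3, 0 => 478528
  | 3, 1 => 1112640
  | 3, 2 => 1932000
  | 4, 0 => 621888
  | 4, 1 => 1251232
  | 5, 0 => 758016
  | _, _ => 0

def zR (i j : ℕ) : ℤ := Int.ofNat (nR i j)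

def zG (i j : ℕ) : ℤ := Int.ofNat (nG i j)

def tabR (i j : ℕ) : ℚ := (zR i j : ℚ) / 3200000

def tabG (i j : ℕ) : ℚ := (zG i j : ℚ) / 3200000

theorem tabR_ok : ∀ i ∈ List.range (5 + 1), ∀ j ∈ List.range (5 + 1 - i),
    okz (nR i j, 3200000) (tz hRz i j) i j = true := by
  decide +kernel

theorem tabG_ok : ∀ i ∈ List.range (5 + 1), ∀ j ∈ List.range (5 + 1 - i),
    okz (nG i j, 3200000) (tz hGz i j) i j = true := by
  decide +kernel

theorem tabR_cast (i j : ℕ) : ((tabR i j : ℚ) : ℝ) = (nR i j : ℝ) / ((3200000 : ℕ) : ℝ) := by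
  unfold tabR zR
  push_cast
  simp

theorem tabG_cast (i j : ℕ) : ((tabG i j : ℚ) : ℝ) = (nG i j : ℝ) / ((3200000 : ℕ) : ℝ) := by
  unfold tabG zG
  push_cast
  simp

theorem zR_cast (i j : ℕ) : (zR i j : ℝ) = 3200000 * ((tabR i j : ℚ) : ℝ) := by
  unfold tabR
  push_cast
  ring

theorem zG_cast (i j : ℕ) : (zG i j : ℝ) = 3200000 * ((tabG i j : ℚ) : ℝ) := by
  unfold tabG
  push_cast
  ring

theorem pol_scale (s c w e v : ℝ) (h : ℕ → ℕ → ℝ) : ∀ k i j,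
    pol (s * w) (s * e) (s * v) (fun i j => c * h i j) k i j = s ^ k * c * pol w e v h k i j
  | 0, i, j => by simp [pol]
  | k + 1, i, j => by
    rw [pol, pol, pol_scale s c w e v h k i j, pol_scale s c w e v h k (i + 1) j,
      pol_scale s c w e v h k i (j + 1), pow_succ]
    ring

/-- the Pascal recursion as an expression -/
def polE (w e v : PE) (h : ℕ → ℕ → ℤ) : ℕ → ℕ → ℕ → PE
  | 0, i, j => PE.c (h i j)
  | k + 1, i, j => PE.add (PE.add (PE.mul w (polE w e v h k i j)) (PE.mul e (polE w e v h k (i + 1) j)))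
      (PE.mul v (polE w e v h k i (j + 1)))

theorem polE_ev (w e v : PE) (h : ℕ → ℕ → ℤ) (x y : ℝ) : ∀ k i j,
    (polE w e v h k i j).ev x y
      = pol (w.ev x y) (e.ev x y) (v.ev x y) (fun i j => (h i j : ℝ)) k i j
  | 0, i, j => rfl
  | k + 1, i, j => by
    rw [polE, PE.ev, PE.ev, PE.ev, PE.ev, PE.ev, polE_ev w e v h x y k i j,
      polE_ev w e v h x y k (i + 1) j, polE_ev w e v h x y k i (j + 1)]
    rfl

/-- `c0 + c1 u + c2 u v` -/
def f5 (c0 c1 c2 : ℤ) : PE := PE.add (PE.c c0) (PE.mul PE.u (PE.add (PE.c c1) (PE.mul (PE.c c2) PE.v)))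

theorem f5_ev (c0 c1 c2 : ℤ) (x y : ℝ) :
    (f5 c0 c1 c2).ev x y = (c0 : ℝ) + x * ((c1 : ℝ) + (c2 : ℝ) * y) := rfl

/-- `x - pol`, negative `t = -v/2` -/
def eN : PE := PE.add (f5 0 2711323550217600000 0)
  (PE.mul (PE.c (-1)) (polE (f5 243 (-720) (-240)) (f5 0 640 320) (f5 0 80 (-80)) zR 5 0 0))

/-- `x - pol`, `t = v` -/
def eP : PE := PE.add (f5 0 2711323550217600000 0)
  (PE.mul (PE.c (-1)) (polE (f5 243 (-720) 480) (f5 0 640 (-640)) (f5 0 80 160) zR 5 0 0))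

/-- `x + x t / 6 - pol`, `t = v` -/
def eG : PE := PE.add (f5 0 2711323550217600000 451887258369600000)
  (PE.mul (PE.c (-1)) (polE (f5 243 (-720) 480) (f5 0 640 (-640)) (f5 0 80 160) zG 5 0 0))

set_option maxRecDepth 100000 in
theorem cov_eN : cover2 (CTree.leaf 0) [eN] = true := by decide +kernel

open CTree in
set_option maxRecDepth 100000 in
theorem cov_eP : cover2 (su (su (sv (sv (leaf 0) (leaf 1)) (leaf 1)) (leaf 1)) (leaf 1))
    [eP, PE.mul PE.u eG] = true := by decide +kernel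

theorem eN_ev {x t : ℝ} : eN.ev x (-2 * t) = 2711323550217600000 * (x - pol (1 - 9 * (80 / 243 * x)
      + 6 * (80 / 243 * x * t)) (8 * (80 / 243 * x - 80 / 243 * x * t))
      (80 / 243 * x + 2 * (80 / 243 * x * t)) (fun i j => ((tabR i j : ℚ) : ℝ)) 5 0 0) := by
  have h := pol_scale 243 3200000 (1 - 9 * (80 / 243 * x) + 6 * (80 / 243 * x * t))
    (8 * (80 / 243 * x - 80 / 243 * x * t)) (80 / 243 * x + 2 * (80 / 243 * x * t))
    (fun i j => ((tabR i j : ℚ) : ℝ)) 5 0 0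
  unfold eN
  rw [PE.ev, PE.ev, polE_ev, f5_ev, f5_ev, f5_ev, f5_ev]
  have e1 : (fun i j => ((zR i j : ℤ) : ℝ)) = fun i j => 3200000 * ((tabR i j : ℚ) : ℝ) := by
    funext i j; exact zR_cast i j
  have e2 : ((243 : ℤ) : ℝ) + x * (((-720 : ℤ) : ℝ) + ((-240 : ℤ) : ℝ) * (-2 * t))
      = 243 * (1 - 9 * (80 / 243 * x) + 6 * (80 / 243 * x * t)) := by push_cast; ring
  have e3 : ((0 : ℤ) : ℝ) + x * (((640 : ℤ) : ℝ) + ((320 : ℤ) : ℝ) * (-2 * t))
      = 243 * (8 * (80 / 243 * x - 80 / 243 * x * t)) := by push_cast; ring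
  have e4 : ((0 : ℤ) : ℝ) + x * (((80 : ℤ) : ℝ) + ((-80 : ℤ) : ℝ) * (-2 * t))
      = 243 * (80 / 243 * x + 2 * (80 / 243 * x * t)) := by push_cast; ring
  rw [e1, e2, e3, e4, h, PE.ev]
  push_cast
  ring

theorem eP_ev {x t : ℝ} : eP.ev x t = 2711323550217600000 * (x - pol (1 - 9 * (80 / 243 * x)
      + 6 * (80 / 243 * x * t)) (8 * (80 / 243 * x - 80 / 243 * x * t))
      (80 / 243 * x + 2 * (80 / 243 * x * t)) (fun i j => ((tabR i j : ℚ) : ℝ)) 5 0 0) := by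
  have h := pol_scale 243 3200000 (1 - 9 * (80 / 243 * x) + 6 * (80 / 243 * x * t))
    (8 * (80 / 243 * x - 80 / 243 * x * t)) (80 / 243 * x + 2 * (80 / 243 * x * t))
    (fun i j => ((tabR i j : ℚ) : ℝ)) 5 0 0
  unfold eP
  rw [PE.ev, PE.ev, polE_ev, f5_ev, f5_ev, f5_ev, f5_ev]
  have e1 : (fun i j => ((zR i j : ℤ) : ℝ)) = fun i j => 3200000 * ((tabR i j : ℚ) : ℝ) := by
    funext i j; exact zR_cast i j
  have e2 : ((243 : ℤ) : ℝ) + x * (((-720 : ℤ) : ℝ) + ((480 : ℤ) : ℝ) * t)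
      = 243 * (1 - 9 * (80 / 243 * x) + 6 * (80 / 243 * x * t)) := by push_cast; ring
  have e3 : ((0 : ℤ) : ℝ) + x * (((640 : ℤ) : ℝ) + ((-640 : ℤ) : ℝ) * t)
      = 243 * (8 * (80 / 243 * x - 80 / 243 * x * t)) := by push_cast; ring
  have e4 : ((0 : ℤ) : ℝ) + x * (((80 : ℤ) : ℝ) + ((160 : ℤ) : ℝ) * t)
      = 243 * (80 / 243 * x + 2 * (80 / 243 * x * t)) := by push_cast; ring
  rw [e1, e2, e3, e4, h, PE.ev]
  push_cast
  ring

theorem eG_ev {x t : ℝ} : eG.ev x t = 2711323550217600000 * (x + x * t / 6 - pol (1 - 9 * (80 / 243 * x)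
      + 6 * (80 / 243 * x * t)) (8 * (80 / 243 * x - 80 / 243 * x * t))
      (80 / 243 * x + 2 * (80 / 243 * x * t)) (fun i j => ((tabG i j : ℚ) : ℝ)) 5 0 0) := by
  have h := pol_scale 243 3200000 (1 - 9 * (80 / 243 * x) + 6 * (80 / 243 * x * t))
    (8 * (80 / 243 * x - 80 / 243 * x * t)) (80 / 243 * x + 2 * (80 / 243 * x * t))
    (fun i j => ((tabG i j : ℚ) : ℝ)) 5 0 0
  unfold eG
  rw [PE.ev, PE.ev, polE_ev, f5_ev, f5_ev, f5_ev, f5_ev]
  have e1 : (fun i j => ((zG i j : ℤ) : ℝ)) = fun i j => 3200000 * ((tabG i j : ℚ) : ℝ) := by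
    funext i j; exact zG_cast i j
  have e2 : ((243 : ℤ) : ℝ) + x * (((-720 : ℤ) : ℝ) + ((480 : ℤ) : ℝ) * t)
      = 243 * (1 - 9 * (80 / 243 * x) + 6 * (80 / 243 * x * t)) := by push_cast; ring
  have e3 : ((0 : ℤ) : ℝ) + x * (((640 : ℤ) : ℝ) + ((-640 : ℤ) : ℝ) * t)
      = 243 * (8 * (80 / 243 * x - 80 / 243 * x * t)) := by push_cast; ring
  have e4 : ((0 : ℤ) : ℝ) + x * (((80 : ℤ) : ℝ) + ((160 : ℤ) : ℝ) * t)
      = 243 * (80 / 243 * x + 2 * (80 / 243 * x * t)) := by push_cast; ring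
  rw [e1, e2, e3, e4, h, PE.ev]
  push_cast
  ring

theorem tsum_regular (d : ℕ) (l ε : ℝ) (F : (Fin 3 → ℝ) → ℝ) (e v : ℝ) :
    ∑' k, stepTerm (regularOffspring d) l ε F e v k
      = ((opT l e v)^[d] F) (fun _ => 1) + ε * (d * e) := by
  rw [tsum_eq_single d]
  · unfold stepTerm regularOffspring
    simp
  · intro k hk
    unfold stepTerm regularOffspring
    simp [hk]

/-- numerical consequences of the constraints -/
theorem five_prep {r x y a t : ℝ} (hr0 : 0 < r) (hr2 : r ^ 2 = 80 / 81)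
    (hx0 : 0 < x) (hx1 : x ≤ 1) (hyx : y ≤ x) (hy0 : -x / 2 ≤ y) (hsx : 3 * x - 2 * y ≤ 1)
    (ha : a = 80 / 243 * x) (htx : t * x = r * y) :
    r ≤ 1 ∧ 0 < a ∧ a ≤ 80 / 243 ∧ t ≤ 1 ∧ -1 / 2 ≤ t ∧ 0 ≤ 8 * (a - a * t) ∧
      0 ≤ a + 2 * (a * t) ∧ 8 * (a - a * t) + (a + 2 * (a * t)) ≤ 1 := by
  have hr1 : r ≤ 1 := by
    by_contra h
    push Not at h
    nlinarith only [hr0, hr2, h]
  have ha0 : 0 < a := by rw [ha]; positivity
  have hty : t ≤ 1 := by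
    by_contra h
    push Not at h
    have h1 : x < t * x := by nlinarith only [hx0, h]
    rw [htx] at h1
    rcases le_total y 0 with hy | hy
    · have : r * y ≤ 0 := mul_nonpos_of_nonneg_of_nonpos hr0.le hy
      linarith only [hx0, h1, this]
    · have : r * y ≤ 1 * y := mul_le_mul_of_nonneg_right hr1 hy
      linarith only [hyx, h1, this]
  have htm : -1 / 2 ≤ t := by
    by_contra h
    push Not at h
    have h1 : t * x < -1 / 2 * x := mul_lt_mul_of_pos_right h hx0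
    rw [htx] at h1
    rcases le_total y 0 with hy | hy
    · have : 1 * y ≤ r * y := mul_le_mul_of_nonpos_right hr1 hy
      linarith only [hy0, h1, this]
    · have : 0 ≤ r * y := mul_nonneg hr0.le hy
      linarith only [ha, ha0, h1, this]
  have hat : a * t = 80 / 243 * (r * y) := by rw [ha, ← htx]; ring
  refine ⟨hr1, ha0, by rw [ha]; linarith only [hx1], hty, htm, ?_, ?_, ?_⟩
  · have : 0 ≤ a * (1 - t) := mul_nonneg ha0.le (by linarith only [hty])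
    linarith only [this]
  · have : 0 ≤ a * (1 + 2 * t) := mul_nonneg ha0.le (by linarith only [htm])
    linarith only [this]
  · have h1 : 8 * (a - a * t) + (a + 2 * (a * t)) = 80 / 81 * (3 * x - 2 * (r * y)) := by
      rw [hat, ha]; ring
    rw [h1]
    have h2 : 3 * x - 2 * (r * y) = (3 * x - 2 * y) + 2 * ((1 - r) * y) := by ring
    rw [h2]
    have h3 : (1 - r) * y ≤ (1 - r) * 1 := mul_le_mul_of_nonneg_left (by linarith only [hx1, hyx]) (by linarith only [hr1])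
    have h4 : 159 / 160 ≤ r := by
      by_contra h
      push Not at h
      nlinarith only [hr0, hr2, hx1, ha, ha0, h]
    linarith only [hsx, h3, h4]

theorem five_contra {r x y a t : ℝ} (hr0 : 0 < r) (hr2 : r ^ 2 = 80 / 81)
    (hx0 : 0 < x) (hx1 : x ≤ 1) (hyx : y ≤ x) (hy0 : -x / 2 ≤ y) (hsx : 3 * x - 2 * y ≤ 1)
    (ha : a = 80 / 243 * x) (htx : t * x = r * y)
    (hB1 : x ≤ pol (1 - 9 * a + 6 * (a * t)) (8 * (a - a * t)) (a + 2 * (a * t))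
      (fun i j => ((tabR i j : ℚ) : ℝ)) 5 0 0)
    (hB2 : x + 1 / 6 * y ≤ pol (1 - 9 * a + 6 * (a * t)) (8 * (a - a * t)) (a + 2 * (a * t))
      (fun i j => ((tabG i j : ℚ) : ℝ)) 5 0 0) : False := by
  obtain ⟨hr1, ha0, ha1, hty, htm, -, -, -⟩ := five_prep hr0 hr2 hx0 hx1 hyx hy0 hsx ha htx
  subst ha
  rcases le_total t 0 with ht | ht
  · obtain ⟨e, he, hpos⟩ := cover2_sound cov_eN (u := x) (v := -2 * t) hx0 hx1 (by linarith only [ht])
      (by linarith only [htm])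
    rw [List.mem_singleton.1 he, eN_ev] at hpos
    linarith only [hB1, hpos]
  · obtain ⟨e, he, hpos⟩ := cover2_sound cov_eP (u := x) (v := t) hx0 hx1 ht hty
    rcases List.mem_cons.1 he with he | he
    · rw [he, eP_ev] at hpos
      linarith only [hB1, hpos]
    · rw [List.mem_singleton.1 he] at hpos
      have h1 : 0 < x * eG.ev x t := hpos
      have h2 : 0 < eG.ev x t := pos_of_mul_pos_right h1 hx0.le
      rw [eG_ev] at h2
      have hy1 : 0 ≤ r * y := by rw [← htx]; exact mul_nonneg ht hx0.le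
      have hy2 : 0 ≤ y := by
        by_contra h
        push Not at h
        have : r * y < 0 := mul_neg_of_pos_of_neg hr0 h
        linarith only [hy1, this]
      have hry : r * y ≤ 1 * y := mul_le_mul_of_nonneg_right hr1 hy2
      have h3 : x * t = r * y := by rw [mul_comm, htx]
      rw [h3] at h2
      linarith only [hB2, h2, hry]

theorem hν5 : ∀ k, 0 ≤ regularOffspring 5 k := by
  intro k; unfold regularOffspring; split_ifs <;> norm_num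

theorem hs5 : HasSum (regularOffspring 5) 1 := hasSum_ite_eq (5 : ℕ) (1 : ℝ)

theorem hsum5 : Summable fun k : ℕ => regularOffspring 5 k * k := by
  refine summable_of_ne_finset_zero (s := {5}) ?_
  intro k hk
  have : k ≠ 5 := by simpa using hk
  unfold regularOffspring
  simp [this]

theorem bound1 {e v : ℝ} (he0 : 0 ≤ e) (hv0 : 0 ≤ v) (hev : e + v ≤ 1) :
    ((opT (9 / 20) e v)^[5] hR) (fun _ => 1)
      ≤ pol (1 - e - v) e v (fun i j => ((tabR i j : ℚ) : ℝ)) 5 0 0 := by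
  simp only [tabR_cast]
  exact opT_le_pol he0 hv0 hev (F := hR) (N := 5)
    (HH_le_of_table rep_hR hR_Hm 5 (fun i j => (nR i j, 3200000)) tabR_ok) 5 0 0 (by norm_num)

theorem bound2 {e v : ℝ} (he0 : 0 ≤ e) (hv0 : 0 ≤ v) (hev : e + v ≤ 1) :
    ((opT (9 / 20) e v)^[5] (hphi (1 / 6))) (fun _ => 1)
      ≤ pol (1 - e - v) e v (fun i j => ((tabG i j : ℚ) : ℝ)) 5 0 0 := by
  simp only [tabG_cast]
  exact opT_le_pol he0 hv0 hev (F := hphi (1 / 6)) (N := 5)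
    (HH_le_of_table rep_hphi (hphi_Hm _) 5 (fun i j => (nG i j, 3200000)) tabG_ok) 5 0 0
    (by norm_num)

/-- **Five children.** -/
theorem nonrec_five : Nonreconstruction (regularOffspring 5) 3 (-(1 / Real.sqrt 5)) := by
  by_contra hrec
  have hs5' : Real.sqrt 5 ^ 2 = 5 := Real.sq_sqrt (by norm_num)
  have hs0 : 0 < Real.sqrt 5 := Real.sqrt_pos.2 (by norm_num)
  obtain ⟨r, hr⟩ : ∃ r : ℝ, r = 20 / (9 * Real.sqrt 5) := ⟨_, rfl⟩
  have hr0 : 0 < r := by rw [hr]; positivity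
  have hr2 : r ^ 2 = 80 / 81 := by
    rw [hr, div_pow, mul_pow, hs5']; norm_num
  have hr1 : r ≤ 1 := by
    by_contra h
    push Not at h
    nlinarith only [hr0, hr2, h]
  have hlam : -(1 / Real.sqrt 5) = -(9 / 20) * r := by
    rw [hr]; field_simp
  obtain ⟨x, y, -, -, hx0, hx1, hyx, hy0, hsx, hE1, hE2⟩ := af_limit (l := 9 / 20) (ε := 0)
    (g := 1 / 6) (by norm_num) (by norm_num) hr0.le hr1 le_rfl (by norm_num) (by norm_num) hlam
    hν5 hs5 hsum5 Cmp3.cmp_nine_zero Cmp3.cmp_nine_sixth hrec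
  rw [tsum_regular] at hE1 hE2
  obtain ⟨a, ha⟩ : ∃ a : ℝ, a = 80 / 243 * x := ⟨_, rfl⟩
  obtain ⟨t, ht⟩ : ∃ t : ℝ, t = r * y / x := ⟨_, rfl⟩
  have htx : t * x = r * y := by rw [ht]; (clear * - hr0 hx0; field_simp)
  have hat : a * t = 80 / 243 * (r * y) := by rw [ha, ← htx]; ring
  have he : 8 / 3 * (r ^ 2 * x - r ^ 3 * y) = 8 * (a - a * t) := by
    rw [hat, ha]
    linear_combination (8 / 3 * x - 8 / 3 * (r * y)) * hr2
  have hv : (r ^ 2 * x + 2 * (r ^ 3 * y)) / 3 = a + 2 * (a * t) := by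
    rw [hat, ha]
    linear_combination (x / 3 + 2 / 3 * (r * y)) * hr2
  have hw : 1 - 8 * (a - a * t) - (a + 2 * (a * t)) = 1 - 9 * a + 6 * (a * t) := by ring
  obtain ⟨-, -, -, -, -, he0, hv0, hev⟩ := five_prep hr0 hr2 hx0 hx1 hyx hy0 hsx ha htx
  rw [he, hv] at hE1 hE2
  have hB1 := bound1 he0 hv0 hev
  have hB2 := bound2 he0 hv0 hev
  rw [hw] at hB1 hB2
  refine five_contra hr0 hr2 hx0 hx1 hyx hy0 hsx ha htx ?_ ?_
  · linarith only [hE1, hB1]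
  · linarith only [hE2, hB2]

end Vale.Agent.P154.R5
end

section

/-!
# P154: the closed two-variable recursions of the three-point law, statements only

Base strength `l = 1/2`.  An edge message multiplies one coordinate by 2 (relative), a vertex
message kills one coordinate.  `tX3 j`, `tX2 j / 3`, `tP3 j` are the averages of `hX`, `hX`
restricted to two coordinates, and `hP` over products of `j` edge messages.
-/

open scoped BigOperators

namespace Vale.Agent.P154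

/-- average of `hX` over products of `j` edge messages -/
noncomputable def tX3 (j : ℕ) : ℝ :=
  (∑ i ∈ Finset.range (j + 1), ∑ k ∈ Finset.range (j + 1 - i),
    ((j.choose i * (j - i).choose k : ℕ) : ℝ) *
      ((2 ^ i * 2 ^ k + 2 ^ k * 2 ^ (j - i - k) + 2 ^ (j - i - k) * 2 ^ i) /
        (2 ^ i + 2 ^ k + 2 ^ (j - i - k)))) / 4 ^ j

/-- three times the average of `hX` over products of `j` edge messages, third spin killed -/
noncomputable def tX2 (j : ℕ) : ℝ :=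
  3 * (∑ i ∈ Finset.range (j + 1), ∑ k ∈ Finset.range (j + 1 - i),
    ((j.choose i * (j - i).choose k : ℕ) : ℝ) * (2 ^ i * 2 ^ k / (2 ^ i + 2 ^ k))) / 4 ^ j

/-- average of `hP` over products of `j` edge messages -/
noncomputable def tP3 (j : ℕ) : ℝ :=
  (∑ i ∈ Finset.range (j + 1), ∑ k ∈ Finset.range (j + 1 - i),
    ((j.choose i * (j - i).choose k : ℕ) : ℝ) *
      (9 / (2 ^ i + 2 ^ k + 2 ^ (j - i - k)) ^ 2)) / 2 ^ j

/-- Poisson numbers of messages: `a` edge messages, `b` vertex messages on average -/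
noncomputable def pX (a b : ℝ) : ℝ :=
  ∑' j : ℕ, Real.exp (-a) * a ^ j / (j.factorial : ℝ) *
    (Real.exp (-b) * (tX3 j - tX2 j) + Real.exp (-b / 2) * tX2 j)

noncomputable def pP (a b : ℝ) : ℝ :=
  ∑' j : ℕ, Real.exp (-a) * a ^ j / (j.factorial : ℝ) * (Real.exp (-b) * tP3 j)

/-- exactly `N` messages, each an edge message with probability `e` and a vertex message with
probability `v` -/
noncomputable def rX (N : ℕ) (e v : ℝ) : ℝ :=
  ∑ j ∈ Finset.range (N + 1), (N.choose j : ℝ) * e ^ j *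
    ((1 - e - v) ^ (N - j) * (tX3 j - tX2 j) + (1 - e - v / 2) ^ (N - j) * tX2 j)

noncomputable def rP (N : ℕ) (e v : ℝ) : ℝ :=
  ∑ j ∈ Finset.range (N + 1), (N.choose j : ℝ) * e ^ j * ((1 - e - v) ^ (N - j) * tP3 j)

/-- region of the pairs `(x, y)`, where `x = E R`, `y = c E T` with `0 ≤ c ≤ 1` -/
def Reg (x y : ℝ) : Prop :=
  0 < x ∧ x ≤ 1 ∧ y ≤ x ∧ -x / 2 ≤ y ∧ (y < 0 → 3 * x - 2 * y ≤ 1)

/-- The final inequality for the Poisson tree (all `d ≥ 4` at once): for every `x` one `g` such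
that at every `y` either `x` strictly decreases, or `y > 0` and `x + g y` strictly decreases. -/
def PoisB : Prop :=
  ∀ x : ℝ, 0 < x → x ≤ 1 → ∃ g : ℝ, 0 ≤ g ∧ g ≤ 1 / 5 ∧ ∀ y : ℝ, Reg x y →
    (1 - pX (32 / 3 * (x - y)) (4 / 3 * (x + 2 * y)) < x) ∨
    (0 < y ∧
      (1 + 3 / 2 * g) * (1 - pX (32 / 3 * (x - y)) (4 / 3 * (x + 2 * y)))
        - g / 2 * (1 - pP (32 / 3 * (x - y)) (4 / 3 * (x + 2 * y)))
        + g / 1000 * (32 / 3 * (x - y)) < x + g * y)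

/-- The same for the regular tree with `d` children at `lam = -1/√d`, `d ≥ 6`. -/
def RegB (d : ℕ) : Prop :=
  ∀ x : ℝ, 0 < x → x ≤ 1 → ∃ g : ℝ, 0 ≤ g ∧ g ≤ 1 / 5 ∧ ∀ y : ℝ, Reg x y → 12 * x - 8 * y ≤ d →
    (1 - rX d (32 / 3 * (x - y) / d) (4 / 3 * (x + 2 * y) / d) < x) ∨
    (0 < y ∧
      (1 + 3 / 2 * g) * (1 - rX d (32 / 3 * (x - y) / d) (4 / 3 * (x + 2 * y) / d))
        - g / 2 * (1 - rP d (32 / 3 * (x - y) / d) (4 / 3 * (x + 2 * y) / d))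
        + g / 1000 * (32 / 3 * (x - y)) < x + g * (Real.sqrt d / 2) * y)

/-- The regular tree with five children at `lam = -1/√5`; base strength `l = 9/20`. -/
def RegB5 : Prop :=
  ∀ x : ℝ, 0 < x → x ≤ 1 → ∃ g : ℝ, 0 ≤ g ∧ g ≤ 1 / 6 ∧ ∀ y : ℝ, Reg x y →
    80 / 81 * (3 * x - 2 * y) ≤ 1 →
    (clos (9 / 20) hR 5 (640 / 243 * (x - y)) (80 / 243 * (x + 2 * y)) < x) ∨
    (0 < y ∧ clos (9 / 20) (hphi g) 5 (640 / 243 * (x - y)) (80 / 243 * (x + 2 * y))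
      < x + g * (9 * Real.sqrt 5 / 20) * y)

end Vale.Agent.P154
end
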