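import Vale.Agent.P154.Bdl.B8
import Vale.Agent.P154.Bdl.B1
import Vale.Agent.P154.Bdl.B3
import Vale.Agent.P154.Defs

set_option linter.all false

section

/-!
# P154: closed forms of the iterated three-point operator at base strength `1/2`
-/

open scoped BigOperators
open Filter Topology

namespace Vale.Agent.P154

/-- functionals of three spins -/
abbrev Fun3 := (Fin 3 → ℝ) → ℝ

/-- multiplication by a fixed vector, acting on functionals -/
noncomputable def pb (m : Fin 3 → ℝ) : Module.End ℝ Fun3 :=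
  LinearMap.funLeft ℝ ℝ (fun (u : Fin 3 → ℝ) (i : Fin 3) => u i * m i)

theorem pb_apply (m : Fin 3 → ℝ) (F : Fun3) (u : Fin 3 → ℝ) :
    pb m F u = F (fun i => u i * m i) := rfl

theorem pb_mul (m m' : Fin 3 → ℝ) : pb m * pb m' = pb (fun i => m i * m' i) := by
  apply LinearMap.ext
  intro F
  funext u
  rw [Module.End.mul_apply, pb_apply, pb_apply, pb_apply]
  congr 1
  funext i
  ring

theorem pb_comm (m m' : Fin 3 → ℝ) : Commute (pb m) (pb m') := by
  unfold Commute SemiconjBy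
  rw [pb_mul, pb_mul]
  congr 1
  funext i
  ring

/-- average over the three edge messages -/
noncomputable def opE : Module.End ℝ Fun3 := (1 / 3 : ℝ) • ∑ i : Fin 3, pb (eM (1 / 2) i)

/-- average over the three vertex messages -/
noncomputable def opV : Module.End ℝ Fun3 := (1 / 3 : ℝ) • ∑ i : Fin 3, pb (vM (1 / 2) i)

theorem opE_apply (F : Fun3) (u : Fin 3 → ℝ) :
    opE F u = (∑ i, F (fun j => u j * eM (1 / 2) i j)) / 3 := by
  unfold opE
  rw [LinearMap.smul_apply, LinearMap.sum_apply, Pi.smul_apply, Finset.sum_apply, smul_eq_mul]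
  simp only [pb_apply]
  ring

theorem opV_apply (F : Fun3) (u : Fin 3 → ℝ) :
    opV F u = (∑ i, F (fun j => u j * vM (1 / 2) i j)) / 3 := by
  unfold opV
  rw [LinearMap.smul_apply, LinearMap.sum_apply, Pi.smul_apply, Finset.sum_apply, smul_eq_mul]
  simp only [pb_apply]
  ring

theorem opE_comm_opV : Commute opE opV := by
  unfold opE opV
  refine Commute.smul_left (Commute.smul_right ?_ _) _
  refine Commute.sum_left _ _ _ fun i _ => Commute.sum_right _ _ _ fun j _ => pb_comm _ _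

/-- the operator of one message, as a linear map -/
noncomputable def opL (e v : ℝ) : Module.End ℝ Fun3 :=
  ((1 - e - v) • (1 : Module.End ℝ Fun3) + v • opV) + e • opE

theorem opL_apply (e v : ℝ) (F : Fun3) : opL e v F = opT (1 / 2) e v F := by
  funext u
  unfold opL opT
  rw [LinearMap.add_apply, LinearMap.add_apply, Pi.add_apply, Pi.add_apply, LinearMap.smul_apply,
    LinearMap.smul_apply, LinearMap.smul_apply, Pi.smul_apply, Pi.smul_apply, Pi.smul_apply,
    opE_apply, opV_apply]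
  simp only [Module.End.one_apply, smul_eq_mul]
  ring

theorem opL_pow (e v : ℝ) (k : ℕ) (F : Fun3) : (opL e v ^ k) F = (opT (1 / 2) e v)^[k] F := by
  rw [Module.End.pow_apply]
  congr 1
  funext G
  exact opL_apply e v G

theorem opL_comm (e v : ℝ) :
    Commute (e • opE) ((1 - e - v) • (1 : Module.End ℝ Fun3) + v • opV) := by
  refine Commute.add_right ?_ ?_
  · exact Commute.smul_right (Commute.one_right _) _
  · exact Commute.smul_left (Commute.smul_right opE_comm_opV _) _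

/-- expansion in the number of edge messages -/
theorem opL_pow_expand (e v : ℝ) (k : ℕ) (F : Fun3) (u : Fin 3 → ℝ) :
    ((opL e v ^ k) F) u = ∑ j ∈ Finset.range (k + 1), (k.choose j : ℝ) * e ^ j *
      ((opE ^ j) ((((1 - e - v) • (1 : Module.End ℝ Fun3) + v • opV) ^ (k - j)) F)) u := by
  have h : opL e v = e • opE + ((1 - e - v) • (1 : Module.End ℝ Fun3) + v • opV) := by
    unfold opL
    rw [add_comm]
  rw [h, (opL_comm e v).add_pow, LinearMap.sum_apply, Finset.sum_apply]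
  refine Finset.sum_congr rfl fun j _ => ?_
  rw [Module.End.mul_apply, Module.End.mul_apply, smul_pow, LinearMap.smul_apply, Pi.smul_apply,
    smul_eq_mul, Module.End.natCast_apply, map_nsmul, map_nsmul, Pi.smul_apply, nsmul_eq_mul]
  ring

theorem smul_one_add_opV_pow_hX (c v : ℝ) (hV : opV (opV hX) = (1 / 2 : ℝ) • opV hX) (n : ℕ) :
    ((c • (1 : Module.End ℝ Fun3) + v • opV) ^ n) hX
      = c ^ n • hX + (2 * ((c + v / 2) ^ n - c ^ n)) • opV hX := by
  induction n with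
  | zero => simp only [pow_zero, Module.End.one_apply, one_smul, sub_self, mul_zero, zero_smul,
              add_zero]
  | succ n ih =>
    rw [pow_succ', Module.End.mul_apply, ih, LinearMap.add_apply, LinearMap.smul_apply,
      LinearMap.smul_apply, Module.End.one_apply, map_add, map_smul, map_smul, hV]
    funext u
    simp only [Pi.add_apply, Pi.smul_apply, smul_eq_mul]
    ring

theorem smul_one_add_opV_pow_hP (c v : ℝ) (hV : opV hP = 0) (n : ℕ) :
    ((c • (1 : Module.End ℝ Fun3) + v • opV) ^ n) hP = c ^ n • hP := by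
  induction n with
  | zero => simp
  | succ n ih =>
    rw [pow_succ', Module.End.mul_apply, ih, LinearMap.add_apply, LinearMap.smul_apply,
      LinearMap.smul_apply, Module.End.one_apply, map_smul, hV]
    funext u
    simp only [Pi.add_apply, Pi.smul_apply, smul_eq_mul, Pi.zero_apply]
    ring

theorem hX_vM_vM (u : Fin 3 → ℝ) (i j : Fin 3) :
    hX (fun k => (u k * vM (1 / 2) i k) * vM (1 / 2) j k)
      = if i = j then 3 / 2 * hX (fun k => u k * vM (1 / 2) i k) else 0 := by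
  by_cases h : i = j
  · subst h
    rw [if_pos rfl, ← hX_smul]
    congr 1
    funext k
    unfold vM
    split_ifs <;> ring
  · rw [if_neg h]
    unfold hX vM
    fin_cases i <;> fin_cases j <;> simp at h ⊢

theorem opV_opV_hX : opV (opV hX) = (1 / 2 : ℝ) • opV hX := by
  funext u
  rw [opV_apply]
  simp_rw [opV_apply]
  rw [Pi.smul_apply, opV_apply, smul_eq_mul]
  simp_rw [hX_vM_vM]
  simp only [Finset.sum_ite_eq, Finset.mem_univ, if_true]
  rw [← Finset.sum_div, ← Finset.mul_sum]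
  ring

theorem opV_hP : opV hP = 0 := by
  funext u
  rw [opV_apply, Pi.zero_apply]
  have h : ∀ i : Fin 3, hP (fun j => u j * vM (1 / 2) i j) = 0 := by
    intro i
    unfold hP vM
    fin_cases i <;> simp
  rw [Finset.sum_eq_zero fun i _ => h i, zero_div]

/-- the three sequences of the closed forms -/
noncomputable def s3 (j : ℕ) : ℝ := ((opE ^ j) hX) (fun _ => 1)
noncomputable def s2 (j : ℕ) : ℝ := 2 * ((opE ^ j) (opV hX)) (fun _ => 1)
noncomputable def sP (j : ℕ) : ℝ := ((opE ^ j) hP) (fun _ => 1)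

theorem iter_hX (e v : ℝ) (k : ℕ) :
    ((opT (1 / 2) e v)^[k] hX) (fun _ => 1) = ∑ j ∈ Finset.range (k + 1),
      (k.choose j : ℝ) * e ^ j *
        ((1 - e - v) ^ (k - j) * (s3 j - s2 j) + (1 - e - v / 2) ^ (k - j) * s2 j) := by
  rw [← opL_pow, opL_pow_expand]
  refine Finset.sum_congr rfl fun j _ => ?_
  rw [smul_one_add_opV_pow_hX _ _ opV_opV_hX, map_add, map_smul, map_smul, Pi.add_apply,
    Pi.smul_apply, Pi.smul_apply, smul_eq_mul, smul_eq_mul]
  unfold s3 s2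
  have e1 : 1 - e - v + v / 2 = 1 - e - v / 2 := by ring
  rw [e1]
  ring

theorem iter_hP (e v : ℝ) (k : ℕ) :
    ((opT (1 / 2) e v)^[k] hP) (fun _ => 1) = ∑ j ∈ Finset.range (k + 1),
      (k.choose j : ℝ) * e ^ j * ((1 - e - v) ^ (k - j) * sP j) := by
  rw [← opL_pow, opL_pow_expand]
  refine Finset.sum_congr rfl fun j _ => ?_
  rw [smul_one_add_opV_pow_hP _ _ opV_hP, map_smul, Pi.smul_apply, smul_eq_mul]
  rfl

/-! ### The tables -/

/-- doubling of one coordinate -/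
def dbl (i j : Fin 3) : ℝ := if j = i then 2 else 1

theorem eM_half (i j : Fin 3) : eM (1 / 2) i j = 3 / 4 * dbl i j := by
  unfold eM dbl
  split_ifs <;> norm_num

/-- homogeneous functionals -/
def Hom (F : Fun3) : Prop := ∀ (c : ℝ) (u : Fin 3 → ℝ), F (fun i => c * u i) = c * F u

theorem Hom.pb {F : Fun3} (h : Hom F) (m : Fin 3 → ℝ) : Hom (pb m F) := by
  intro c u
  rw [pb_apply, pb_apply, ← h]
  congr 1
  funext i
  ring

theorem Hom.add {F G : Fun3} (h : Hom F) (h' : Hom G) : Hom (F + G) := by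
  intro c u
  rw [Pi.add_apply, Pi.add_apply, h, h']
  ring

theorem Hom.smul {F : Fun3} (h : Hom F) (a : ℝ) : Hom (a • F) := by
  intro c u
  rw [Pi.smul_apply, Pi.smul_apply, h, smul_eq_mul, smul_eq_mul]
  ring

/-- sum of the three doublings -/
noncomputable def opD : Module.End ℝ Fun3 := pb (dbl 0) + (pb (dbl 1) + pb (dbl 2))

theorem Hom.opD {F : Fun3} (h : Hom F) : Hom (opD F) := by
  unfold Vale.Agent.P154.opD
  rw [LinearMap.add_apply, LinearMap.add_apply]
  exact (h.pb _).add ((h.pb _).add (h.pb _))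

theorem opE_eq_opD {F : Fun3} (h : Hom F) : opE F = (1 / 4 : ℝ) • opD F := by
  funext u
  rw [opE_apply, Pi.smul_apply, smul_eq_mul]
  unfold opD
  rw [LinearMap.add_apply, LinearMap.add_apply, Pi.add_apply, Pi.add_apply, pb_apply, pb_apply,
    pb_apply]
  have h1 : ∀ i : Fin 3, F (fun j => u j * eM (1 / 2) i j) = 3 / 4 * F (fun j => u j * dbl i j) := by
    intro i
    rw [← h]
    congr 1
    funext j
    rw [eM_half]
    ring
  simp_rw [h1]
  rw [Fin.sum_univ_three]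
  ring

theorem opE_pow_eq {F : Fun3} (h : Hom F) (j : ℕ) :
    (opE ^ j) F = (1 / 4 : ℝ) ^ j • (opD ^ j) F ∧ Hom ((opD ^ j) F) := by
  induction j with
  | zero => simp [h]
  | succ j ih =>
    constructor
    · rw [pow_succ', Module.End.mul_apply, ih.1, map_smul, opE_eq_opD ih.2, smul_smul,
        pow_succ' opD, Module.End.mul_apply, pow_succ]
    · rw [pow_succ', Module.End.mul_apply]
      exact ih.2.opD

theorem pb_pow (m : Fin 3 → ℝ) (n : ℕ) : pb m ^ n = pb (fun i => m i ^ n) := by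
  induction n with
  | zero =>
    apply LinearMap.ext
    intro F
    funext u
    rw [pow_zero, Module.End.one_apply, pb_apply]
    congr 1
    funext i
    simp
  | succ n ih =>
    rw [pow_succ, ih, pb_mul]
    congr 1

theorem opD_pow_apply (j : ℕ) (F : Fun3) (u : Fin 3 → ℝ) :
    ((opD ^ j) F) u = ∑ a ∈ Finset.range (j + 1), ∑ b ∈ Finset.range (j + 1 - a),
      ((j.choose a * (j - a).choose b : ℕ) : ℝ) *
        F ![u 0 * 2 ^ a, u 1 * 2 ^ b, u 2 * 2 ^ (j - a - b)] := by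
  unfold opD
  have c1 : Commute (pb (dbl 0)) (pb (dbl 1) + pb (dbl 2)) :=
    Commute.add_right (pb_comm _ _) (pb_comm _ _)
  rw [c1.add_pow, LinearMap.sum_apply, Finset.sum_apply]
  refine Finset.sum_congr rfl fun a ha => ?_
  have ha' : a ≤ j := Nat.lt_succ_iff.1 (Finset.mem_range.1 ha)
  have hr : j + 1 - a = j - a + 1 := by omega
  rw [hr, (pb_comm (dbl 1) (dbl 2)).add_pow, Module.End.mul_apply, Module.End.mul_apply,
    Module.End.natCast_apply, map_nsmul, map_nsmul, Pi.smul_apply, nsmul_eq_mul,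
    LinearMap.sum_apply, map_sum, Finset.sum_apply, Finset.mul_sum]
  refine Finset.sum_congr rfl fun b _ => ?_
  rw [Module.End.mul_apply, Module.End.mul_apply, Module.End.natCast_apply, map_nsmul, map_nsmul,
    map_nsmul, Pi.smul_apply, nsmul_eq_mul, pb_pow, pb_pow, pb_pow, pb_apply, pb_apply, pb_apply]
  have e1 : (fun i => u i * dbl 0 i ^ a * dbl 1 i ^ b * dbl 2 i ^ (j - a - b))
      = ![u 0 * 2 ^ a, u 1 * 2 ^ b, u 2 * 2 ^ (j - a - b)] := by
    funext i
    fin_cases i <;> simp [dbl]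
  rw [e1]
  push_cast
  ring

theorem s3_eq (j : ℕ) : s3 j = tX3 j := by
  unfold s3 tX3
  rw [(opE_pow_eq (fun c u => hX_smul c u) j).1, Pi.smul_apply, opD_pow_apply, smul_eq_mul,
    Finset.mul_sum, Finset.sum_div]
  refine Finset.sum_congr rfl fun a _ => ?_
  rw [Finset.mul_sum, Finset.sum_div]
  refine Finset.sum_congr rfl fun b _ => ?_
  unfold hX
  simp only [one_div, inv_pow, Nat.cast_mul, one_mul, Fin.isValue, Matrix.cons_val_zero,
    Matrix.cons_val_one, Matrix.cons_val]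
  ring

/-- symmetric functionals -/
def Sym3 (F : Fun3) : Prop := ∀ (σ : Equiv.Perm (Fin 3)) (u : Fin 3 → ℝ), F (fun i => u (σ i)) = F u

theorem Sym3.opE {F : Fun3} (h : Sym3 F) : Sym3 (opE F) := by
  intro σ u
  rw [opE_apply, opE_apply]
  congr 1
  rw [← Equiv.sum_comp σ (fun i => F (fun j => u j * eM (1 / 2) i j))]
  refine Finset.sum_congr rfl fun i _ => ?_
  rw [← h σ (fun j => u j * eM (1 / 2) (σ i) j)]
  congr 1
  funext j
  unfold eM
  simp only [EmbeddingLike.apply_eq_iff_eq]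

theorem Sym3.opE_pow {F : Fun3} (h : Sym3 F) (j : ℕ) : Sym3 ((Vale.Agent.P154.opE ^ j) F) := by
  induction j with
  | zero => simpa using h
  | succ j ih =>
    rw [pow_succ', Module.End.mul_apply]
    exact ih.opE

theorem hX_sym : Sym3 hX := by
  intro σ u
  have e : ∀ w : Fin 3 → ℝ, hX w = ((∑ i, w i) ^ 2 - ∑ i, w i ^ 2) / 2 / (∑ i, w i) := by
    intro w
    unfold hX
    rw [Fin.sum_univ_three, Fin.sum_univ_three]
    congr 1
    ring
  rw [e, e, Equiv.sum_comp σ u, Equiv.sum_comp σ (fun i => u i ^ 2)]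

theorem s2_eq (j : ℕ) : s2 j = tX2 j := by
  have h1 : ((opE ^ j) (opV hX)) (fun _ => 1) = (∑ i, ((opE ^ j) hX) (vM (1 / 2) i)) / 3 := by
    have hc : Commute (opE ^ j) opV := opE_comm_opV.pow_left j
    have h2 : (opE ^ j) (opV hX) = opV ((opE ^ j) hX) := by
      rw [← Module.End.mul_apply, hc.eq, Module.End.mul_apply]
    rw [h2, opV_apply]
    simp only [one_mul]
  have hsym := hX_sym.opE_pow j
  have h3 : ∀ i : Fin 3, ((opE ^ j) hX) (vM (1 / 2) i) = ((opE ^ j) hX) (vM (1 / 2) 2) := by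
    intro i
    have h4 : vM (1 / 2) i = fun k => vM (1 / 2) 2 (Equiv.swap i 2 k) := by
      funext k
      unfold vM
      have : (Equiv.swap i 2 k = 2) ↔ k = i := by
        rw [Equiv.swap_apply_eq_iff, Equiv.swap_apply_right]
      simp only [this]
    rw [h4]
    exact hsym (Equiv.swap i 2) (vM (1 / 2) 2)
  unfold s2
  rw [h1, Finset.sum_congr rfl fun i _ => h3 i, Finset.sum_const, Finset.card_univ,
    Fintype.card_fin, nsmul_eq_mul, (opE_pow_eq (fun c u => hX_smul c u) j).1, Pi.smul_apply,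
    opD_pow_apply, smul_eq_mul]
  unfold tX2
  have h5 : ∀ a b : ℕ, hX ![vM (1 / 2) 2 0 * 2 ^ a, vM (1 / 2) 2 1 * 2 ^ b,
      vM (1 / 2) 2 2 * 2 ^ (j - a - b)] = 3 / 2 * (2 ^ a * 2 ^ b / (2 ^ a + 2 ^ b)) := by
    intro a b
    have e0 : vM (1 / 2) 2 0 = 3 / 2 := by
      unfold vM; rw [if_neg (by decide)]; norm_num
    have e1 : vM (1 / 2) 2 1 = 3 / 2 := by
      unfold vM; rw [if_neg (by decide)]; norm_num
    have e2 : vM (1 / 2) 2 2 = 0 := by
      unfold vM; rw [if_pos rfl]; norm_num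
    rw [e0, e1, e2]
    unfold hX
    simp only [Matrix.cons_val_zero, Matrix.cons_val_one, Matrix.cons_val]
    have : (0 : ℝ) < 2 ^ a + 2 ^ b := by positivity
    field_simp
    ring
  simp_rw [h5]
  have e : ∀ x : ℝ, 2 * (((3 : ℕ) : ℝ) * x / 3) = 2 * x := by
    intro x; push_cast; ring
  rw [e, Finset.mul_sum, Finset.mul_sum, Finset.mul_sum, Finset.sum_div]
  refine Finset.sum_congr rfl fun a _ => ?_
  rw [Finset.mul_sum, Finset.mul_sum, Finset.mul_sum, Finset.sum_div]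
  refine Finset.sum_congr rfl fun b _ => ?_
  rw [one_div_pow]
  ring

theorem sP_eq (j : ℕ) : sP j = tP3 j := by
  unfold sP tP3
  rw [(opE_pow_eq (fun c u => hP_smul c u) j).1, Pi.smul_apply, opD_pow_apply, smul_eq_mul,
    Finset.mul_sum, Finset.sum_div]
  refine Finset.sum_congr rfl fun a ha => ?_
  rw [Finset.mul_sum, Finset.sum_div]
  refine Finset.sum_congr rfl fun b hb => ?_
  have ha' : a ≤ j := Nat.lt_succ_iff.1 (Finset.mem_range.1 ha)
  have hb' : b ≤ j - a := by have := Finset.mem_range.1 hb; omega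
  have h2 : (2 : ℝ) ^ a * 2 ^ b * 2 ^ (j - a - b) = 2 ^ j := by
    rw [← pow_add, ← pow_add]
    congr 1
    omega
  unfold hP
  simp only [Matrix.cons_val_zero, Matrix.cons_val_one, Matrix.cons_val, one_mul]
  rw [h2]
  have h4 : (4 : ℝ) ^ j = 2 ^ j * 2 ^ j := by rw [← mul_pow]; norm_num
  have h5 : (1 / 4 : ℝ) ^ j = 1 / (2 ^ j * 2 ^ j) := by rw [one_div_pow, h4]
  rw [h5]
  field_simp

end Vale.Agent.P154
end

section

/-!
# P154: pointwise second differences at base strength `1/2`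

`dE = opE - 1`, `dV = opV - 1`.  For nonnegative vectors `u`:
`-(dE (dE hX)) u ≤ (1/250) mean u`, `dE (dE hP) u ≤ (1/20) mean u`,
`-(dE (dV hX)) u ≤ (3/200) mean u`, `dE (dV hP) u ≤ (5/32) mean u`,
`-(dV (dV hX)) u ≤ (1/8) mean u`, `dV (dV hP) u ≤ mean u`.
-/

open scoped BigOperators
open Filter Topology Vale.Agent.P154.Bern

namespace Vale.Agent.P154

noncomputable def dE : Module.End ℝ Fun3 := opE - 1
noncomputable def dV : Module.End ℝ Fun3 := opV - 1

theorem dE_apply (F : Fun3) (u : Fin 3 → ℝ) : dE F u = opE F u - F u := rfl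
theorem dV_apply (F : Fun3) (u : Fin 3 → ℝ) : dV F u = opV F u - F u := rfl

/-! ### Polynomial inequalities -/

/-- `27 (2 + x/3 + t x^2/27)`, `27 (4 + 2x/3 - t x^2/27)`, `4 + 3x + t x^2` -/
def s1Q : PE := PE.mul PE.v (PE.mul PE.u PE.u)
def s1A : PE := PE.add (PE.c 54) (PE.add (PE.mul (PE.c 9) PE.u) s1Q)
def s1B : PE := PE.add (PE.c 108) (PE.add (PE.mul (PE.c 18) PE.u) (PE.mul (PE.c (-1)) s1Q))
def s1C : PE := PE.add (PE.c 4) (PE.add (PE.mul (PE.c 3) PE.u) s1Q)
def s1P : PE :=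
  PE.add (PE.mul (PE.add (PE.c 16) (PE.mul (PE.c 4000) PE.u)) (PE.mul s1A (PE.mul s1B s1C)))
    (PE.add (PE.mul (PE.mul (PE.c 750) (PE.add (PE.mul (PE.c 8) PE.u)
        (PE.add (PE.mul PE.u PE.u) (PE.mul (PE.c 3) s1Q)))) (PE.mul s1A s1B))
      (PE.add (PE.mul (PE.mul (PE.c 6000) (PE.add (PE.mul (PE.c 45) PE.u)
          (PE.add (PE.mul (PE.c 3) (PE.mul PE.u PE.u)) (PE.mul (PE.c 2) s1Q)))) (PE.mul s1A s1C))
        (PE.mul (PE.mul (PE.c (-6000)) (PE.add (PE.mul (PE.c 72) PE.u)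
          (PE.add (PE.mul (PE.c 3) (PE.mul PE.u PE.u)) (PE.mul (PE.c 5) s1Q)))) (PE.mul s1B s1C))))

set_option maxRecDepth 100000 in
theorem cov_s1P : cover (CTree.leaf 0) [s1P] = true := by decide +kernel

theorem second_poly1 {x t : ℝ} (hx0 : 0 ≤ x) (hx1 : x ≤ 1) (ht0 : 0 ≤ t) (ht1 : t ≤ 1) :
    0 ≤ (1 / 750 + x / 3) * (2 + x / 3 + t * x ^ 2 / 27) * (4 + 2 * (x / 3) - t * x ^ 2 / 27)
          * (4 + 9 * (x / 3) + 27 * (t * x ^ 2 / 27))
        + (3 / 2 * (x / 3) + 9 / 16 * (x / 3) ^ 2 + 81 / 16 * (t * x ^ 2 / 27))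
          * (2 + x / 3 + t * x ^ 2 / 27) * (4 + 2 * (x / 3) - t * x ^ 2 / 27)
        + (5 / 2 * (x / 3) + 1 / 2 * (x / 3) ^ 2 + t * x ^ 2 / 27)
          * (2 + x / 3 + t * x ^ 2 / 27) * (4 + 9 * (x / 3) + 27 * (t * x ^ 2 / 27))
        - (4 * (x / 3) + 1 / 2 * (x / 3) ^ 2 + 5 / 2 * (t * x ^ 2 / 27))
          * (4 + 2 * (x / 3) - t * x ^ 2 / 27) * (4 + 9 * (x / 3) + 27 * (t * x ^ 2 / 27)) := by
  obtain ⟨e, he, hpos⟩ := cover_sound cov_s1P hx0 hx1 ht0 ht1
  rw [List.mem_singleton.1 he] at hpos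
  have hk : s1P.ev x t = 8748000 *
      ((1 / 750 + x / 3) * (2 + x / 3 + t * x ^ 2 / 27) * (4 + 2 * (x / 3) - t * x ^ 2 / 27)
          * (4 + 9 * (x / 3) + 27 * (t * x ^ 2 / 27))
        + (3 / 2 * (x / 3) + 9 / 16 * (x / 3) ^ 2 + 81 / 16 * (t * x ^ 2 / 27))
          * (2 + x / 3 + t * x ^ 2 / 27) * (4 + 2 * (x / 3) - t * x ^ 2 / 27)
        + (5 / 2 * (x / 3) + 1 / 2 * (x / 3) ^ 2 + t * x ^ 2 / 27)
          * (2 + x / 3 + t * x ^ 2 / 27) * (4 + 9 * (x / 3) + 27 * (t * x ^ 2 / 27))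
        - (4 * (x / 3) + 1 / 2 * (x / 3) ^ 2 + 5 / 2 * (t * x ^ 2 / 27))
          * (4 + 2 * (x / 3) - t * x ^ 2 / 27) * (4 + 9 * (x / 3) + 27 * (t * x ^ 2 / 27))) := by
    simp only [s1P, s1A, s1B, s1C, s1Q, PE.ev]
    push_cast
    ring
  rw [hk] at hpos
  linarith only [hpos]

theorem second_ineq1 {e q : ℝ} (he : 0 ≤ e) (he3 : e ≤ 1 / 3) (hq : 0 ≤ q) (hqe : q ≤ e ^ 2 / 3) :
    (4 * e + 1 / 2 * e ^ 2 + 5 / 2 * q) / (2 + e + q)
      - (3 / 2 * e + 9 / 16 * e ^ 2 + 81 / 16 * q) / (4 + 9 * e + 27 * q)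
      - (5 / 2 * e + 1 / 2 * e ^ 2 + q) / (4 + 2 * e - q) - e ≤ 1 / 750 := by
  have hq1 : q ≤ 1 / 27 := by nlinarith only [he, he3, hqe]
  have p1 : 0 < 2 + e + q := by linarith only [he, hq]
  have p2 : 0 < 4 + 2 * e - q := by linarith only [he, hq1]
  have p3 : 0 < 4 + 9 * e + 27 * q := by linarith only [he, hq]
  obtain ⟨t, ht0, ht1, htq⟩ : ∃ t : ℝ, 0 ≤ t ∧ t ≤ 1 ∧ q = t * (3 * e) ^ 2 / 27 := by
    rcases he.eq_or_lt with h | h
    · refine ⟨0, le_rfl, zero_le_one, ?_⟩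
      rw [← h] at hqe
      have : q = 0 := le_antisymm (by simpa only [ne_eq, OfNat.ofNat_ne_zero, not_false_eq_true,
                                        zero_pow, zero_div] using hqe) hq
      rw [this]
      ring
    · refine ⟨3 * q / e ^ 2, by positivity, ?_, ?_⟩
      · rw [div_le_one (by positivity)]
        linarith only [hqe]
      · field_simp
        ring
  have key := second_poly1 (x := 3 * e) (t := t) (by linarith only [he]) (by linarith only [he3]) ht0 ht1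
  rw [← htq] at key
  have e3 : 3 * e / 3 = e := by ring
  rw [e3] at key
  have gen : ∀ a1 a2 a3 n1 n2 n3 : ℝ, a1 ≠ 0 → a2 ≠ 0 → a3 ≠ 0 →
      1 / 750 - (n1 / a1 - n3 / a3 - n2 / a2 - e)
      = ((1 / 750 + e) * a1 * a2 * a3 + n3 * a1 * a2 + n2 * a1 * a3 - n1 * a2 * a3)
        / (a1 * a2 * a3) := by
    intro a1 a2 a3 n1 n2 n3 h1 h2 h3
    field_simp
    ring
  have e1 := gen (2 + e + q) (4 + 2 * e - q) (4 + 9 * e + 27 * q)
    (4 * e + 1 / 2 * e ^ 2 + 5 / 2 * q) (5 / 2 * e + 1 / 2 * e ^ 2 + q)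
    (3 / 2 * e + 9 / 16 * e ^ 2 + 81 / 16 * q) p1.ne' p2.ne' p3.ne'
  have e2 : 0 ≤ 1 / 750 - ((4 * e + 1 / 2 * e ^ 2 + 5 / 2 * q) / (2 + e + q)
      - (3 / 2 * e + 9 / 16 * e ^ 2 + 81 / 16 * q) / (4 + 9 * e + 27 * q)
      - (5 / 2 * e + 1 / 2 * e ^ 2 + q) / (4 + 2 * e - q) - e) := by
    rw [e1]
    exact div_nonneg key (mul_pos (mul_pos p1 p2) p3).le
  linarith only [e2]

def s2a : PE := PE.add (PE.c 1) (PE.mul (PE.c 3) PE.u)
def s2b : PE := PE.add (PE.c 2) (PE.mul (PE.c (-1)) PE.u)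
def s2c : PE := PE.add (PE.c 1) PE.u
def s2P : PE :=
  PE.add (PE.mul (PE.add (PE.c (-61)) (PE.mul (PE.c 88) PE.u))
      (PE.mul (PE.mul s2a s2a) (PE.mul (PE.mul s2b s2b) (PE.mul s2c s2c))))
    (PE.add (PE.mul (PE.c (-25)) (PE.mul (PE.mul s2b s2b) (PE.mul s2c s2c)))
      (PE.add (PE.mul (PE.c (-50)) (PE.mul (PE.mul s2a s2a) (PE.mul s2c s2c)))
        (PE.mul (PE.c 100) (PE.mul (PE.mul s2a s2a) (PE.mul s2b s2b)))))

set_option maxRecDepth 100000 in
theorem cov_s2P : cover (CTree.su (CTree.su (CTree.leaf 0) (CTree.leaf 0)) (CTree.leaf 0)) [s2P]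
    = true := by decide +kernel

theorem second_key2 {u : ℝ} (h0 : 0 ≤ u) (h1 : u ≤ 1) :
    0 ≤ (-61 / 100 + 22 / 25 * u) * ((1 + 3 * u) ^ 2 * (2 - u) ^ 2 * (1 + u) ^ 2)
        - 1 / 4 * ((2 - u) ^ 2 * (1 + u) ^ 2) - 1 / 2 * ((1 + 3 * u) ^ 2 * (1 + u) ^ 2)
        + (1 + 3 * u) ^ 2 * (2 - u) ^ 2 := by
  obtain ⟨e, he, hpos⟩ := cover_sound cov_s2P h0 h1 le_rfl zero_le_one
  rw [List.mem_singleton.1 he] at hpos
  have hk : s2P.ev u 0 = 100 *
      ((-61 / 100 + 22 / 25 * u) * ((1 + 3 * u) ^ 2 * (2 - u) ^ 2 * (1 + u) ^ 2)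
        - 1 / 4 * ((2 - u) ^ 2 * (1 + u) ^ 2) - 1 / 2 * ((1 + 3 * u) ^ 2 * (1 + u) ^ 2)
        + (1 + 3 * u) ^ 2 * (2 - u) ^ 2) := by
    simp only [s2P, s2a, s2b, s2c, PE.ev]
    push_cast
    ring
  rw [hk] at hpos
  linarith only [hpos]

/-- tangent line for the second difference of `hP` -/
theorem second_line2 {u : ℝ} (h0 : 0 ≤ u) (h1 : u ≤ 1) :
    1 / 4 / (1 + 3 * u) ^ 2 + 1 / 2 / (2 - u) ^ 2 - 1 / (1 + u) ^ 2 ≤ -61 / 100 + 22 / 25 * u := by
  have p1 : 0 < 1 + 3 * u := by linarith only [h0]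
  have p2 : 0 < 2 - u := by linarith
  have p3 : 0 < 1 + u := by linarith
  have e1 : -61 / 100 + 22 / 25 * u
      - (1 / 4 / (1 + 3 * u) ^ 2 + 1 / 2 / (2 - u) ^ 2 - 1 / (1 + u) ^ 2)
      = ((-61 / 100 + 22 / 25 * u) * ((1 + 3 * u) ^ 2 * (2 - u) ^ 2 * (1 + u) ^ 2)
        - 1 / 4 * ((2 - u) ^ 2 * (1 + u) ^ 2) - 1 / 2 * ((1 + 3 * u) ^ 2 * (1 + u) ^ 2)
        + (1 + 3 * u) ^ 2 * (2 - u) ^ 2) / ((1 + 3 * u) ^ 2 * (2 - u) ^ 2 * (1 + u) ^ 2) := by
    have := p1.ne'
    have := p2.ne'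
    have := p3.ne'
    field_simp
    ring
  have key := second_key2 h0 h1
  have e2 : 0 ≤ -61 / 100 + 22 / 25 * u
      - (1 / 4 / (1 + 3 * u) ^ 2 + 1 / 2 / (2 - u) ^ 2 - 1 / (1 + u) ^ 2) := by
    rw [e1]
    exact div_nonneg key (by positivity)
  linarith only [e2]

def s3T (V : PE) : PE :=
  PE.add (PE.mul (PE.c 3) (PE.mul (PE.add (PE.c 9) (PE.mul (PE.c (-1)) V))
      (PE.add (PE.c 54) (PE.mul V (PE.add (PE.c 9) V)))))
    (PE.add (PE.mul (PE.mul (PE.c (-100)) V) (PE.add (PE.c 54) (PE.mul V (PE.add (PE.c 9) V))))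
      (PE.mul (PE.c 200) (PE.mul (PE.mul V V) (PE.mul (PE.add (PE.c 3) V)
        (PE.add (PE.c 9) (PE.mul (PE.c (-1)) V))))))

set_option maxRecDepth 100000 in
theorem cov_s3T : cover (CTree.su (CTree.leaf 0) (CTree.leaf 0)) [s3T PE.u] = true := by
  decide +kernel

theorem second_key3 {e : ℝ} (h0 : 0 ≤ e) (h1 : e ≤ 1 / 3) :
    0 ≤ 1 / 200 * ((1 - e / 3) * (2 + e + e ^ 2 / 3)) - e / 18 * (2 + e + e ^ 2 / 3)
        + 1 / 3 * (e ^ 2 * (1 + e) * (1 - e / 3)) := by
  obtain ⟨f, hf, hpos⟩ := cover_sound cov_s3T (u := 3 * e) (v := 0) (by linarith only [h0]) (by linarith)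
    le_rfl zero_le_one
  rw [List.mem_singleton.1 hf] at hpos
  have hk : (s3T PE.u).ev (3 * e) 0 = 145800 *
      (1 / 200 * ((1 - e / 3) * (2 + e + e ^ 2 / 3)) - e / 18 * (2 + e + e ^ 2 / 3)
        + 1 / 3 * (e ^ 2 * (1 + e) * (1 - e / 3))) := by
    simp only [s3T, PE.ev]
    push_cast
    ring
  rw [hk] at hpos
  linarith only [hpos]

theorem second_poly3 {e q : ℝ} (he : 0 ≤ e) (he3 : e ≤ 1 / 3) (hq : 0 ≤ q) (hqe : q ≤ e ^ 2 / 3) :
    0 ≤ 1 / 200 * ((e - q) * (2 + e + q)) - 1 / 24 * ((e ^ 2 + q) * (2 + e + q))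
      + 1 / 4 * ((3 * e ^ 2 + 4 * e * q - 5 * q) * (e - q)) := by
  have hG := second_key3 he he3
  have hq1 : 0 ≤ e ^ 2 / 3 - q := by linarith only [hqe]
  have e1 : 1 / 200 * ((e - q) * (2 + e + q)) - 1 / 24 * ((e ^ 2 + q) * (2 + e + q))
      + 1 / 4 * ((3 * e ^ 2 + 4 * e * q - 5 * q) * (e - q))
      = e * (1 / 200 * ((1 - e / 3) * (2 + e + e ^ 2 / 3)) - e / 18 * (2 + e + e ^ 2 / 3)
        + 1 / 3 * (e ^ 2 * (1 + e) * (1 - e / 3)))
      + (e ^ 2 / 3 - q) * (1 / 100 + (2 + e + e ^ 2) / 24 + (5 * e - e ^ 2) / 4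
        - (5 / 4 - e - 7 / 150) * (q + e ^ 2 / 3)) := by
    ring
  rw [e1]
  have h2 : 0 ≤ 1 / 100 + (2 + e + e ^ 2) / 24 + (5 * e - e ^ 2) / 4
        - (5 / 4 - e - 7 / 150) * (q + e ^ 2 / 3) := by
    have h3 : (5 / 4 - e - 7 / 150) * (q + e ^ 2 / 3) ≤ 5 / 4 * (q + e ^ 2 / 3) :=
      mul_le_mul_of_nonneg_right (by linarith only [he]) (by positivity)
    nlinarith only [he, he3, hqe, h3]
  exact add_nonneg (mul_nonneg he hG) (mul_nonneg hq1 h2)

theorem second_poly5 {e q : ℝ} (he : 0 ≤ e) (he3 : e ≤ 1 / 3) (hqe : q ≤ e ^ 2 / 3) :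
    0 ≤ (1 / 24 + e) * (e - q) - 3 / 4 * (e ^ 2 + q) := by
  have e1 : (1 / 24 + e) * (e - q) - 3 / 4 * (e ^ 2 + q)
      = (19 / 24 + e) * (e ^ 2 / 3 - q) + e * (1 / 3 - e) * (e / 3 + 1 / 8) := by
    ring
  rw [e1]
  have h1 : 0 ≤ (19 / 24 + e) * (e ^ 2 / 3 - q) := mul_nonneg (by linarith only [he]) (by linarith only [hqe])
  have h2 : 0 ≤ e * (1 / 3 - e) * (e / 3 + 1 / 8) :=
    mul_nonneg (mul_nonneg he (by linarith only [he3])) (by linarith only [he])
  linarith only [h1, h2]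

/-! ### Evaluation of the operators -/

theorem Hom.zero {F : Fun3} (h : Hom F) : F (fun _ => 0) = 0 := by
  have h1 := h 0 (fun _ => 0)
  simpa using h1

theorem hom_le {G : Fun3} (hG : Hom G) {c : ℝ}
    (h : ∀ u : Fin 3 → ℝ, (∀ i, 0 ≤ u i) → u 0 + u 1 + u 2 = 1 → G u ≤ c / 3)
    (u : Fin 3 → ℝ) (hu : ∀ i, 0 ≤ u i) : G u ≤ c * mean u := by
  rcases (sum3_nonneg hu).eq_or_lt with h0 | h0
  · rw [zero_of_sum3 hu h0.symm, hG.zero, mean_zero3, mul_zero]
  · obtain ⟨s, hs⟩ : ∃ s, s = u 0 + u 1 + u 2 := ⟨_, rfl⟩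
    rw [← hs] at h0
    have h1 := h (fun i => s⁻¹ * u i) (fun i => mul_nonneg (by positivity) (hu i)) (by
      rw [← mul_add, ← mul_add, ← hs, inv_mul_cancel₀ h0.ne'])
    rw [hG] at h1
    have h2 : mean u = s / 3 := by rw [mean3, hs]
    rw [h2]
    have h3 := mul_le_mul_of_nonneg_left h1 h0.le
    rw [← mul_assoc, mul_inv_cancel₀ h0.ne', one_mul] at h3
    linarith only [h3]

theorem opE_at {F : Fun3} (hF : Hom F) (u : Fin 3 → ℝ) :
    opE F u = (F ![2 * u 0, u 1, u 2] + F ![u 0, 2 * u 1, u 2] + F ![u 0, u 1, 2 * u 2]) / 4 := by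
  rw [opE_eq_opD hF, Pi.smul_apply, smul_eq_mul]
  unfold opD
  rw [LinearMap.add_apply, LinearMap.add_apply, Pi.add_apply, Pi.add_apply, pb_apply, pb_apply,
    pb_apply]
  have e0 : (fun i => u i * dbl 0 i) = ![2 * u 0, u 1, u 2] := by
    funext i; fin_cases i <;> simp [dbl] <;> ring
  have e1 : (fun i => u i * dbl 1 i) = ![u 0, 2 * u 1, u 2] := by
    funext i; fin_cases i <;> simp [dbl] <;> ring
  have e2 : (fun i => u i * dbl 2 i) = ![u 0, u 1, 2 * u 2] := by
    funext i; fin_cases i <;> simp [dbl] <;> ring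
  rw [e0, e1, e2]
  ring

theorem opE_opE_at {F : Fun3} (hF : Hom F) (u : Fin 3 → ℝ) :
    opE (opE F) u = (F ![4 * u 0, u 1, u 2] + F ![u 0, 4 * u 1, u 2] + F ![u 0, u 1, 4 * u 2]
      + 2 * (F ![2 * u 0, 2 * u 1, u 2] + F ![2 * u 0, u 1, 2 * u 2]
        + F ![u 0, 2 * u 1, 2 * u 2])) / 16 := by
  have h1 : opE (opE F) = (opE ^ 2) F := by rw [pow_two, Module.End.mul_apply]
  rw [h1, (opE_pow_eq hF 2).1, Pi.smul_apply, opD_pow_apply, smul_eq_mul]
  simp only [Finset.sum_range_succ, Finset.sum_range_zero]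
  norm_num [Nat.choose]
  ring_nf

end Vale.Agent.P154
end

section

/-!
# P154: pointwise second differences, final statements
-/

open scoped BigOperators
open Filter Topology

namespace Vale.Agent.P154

section
variable {a b c : ℝ}

theorem id_A (ha : 0 ≤ a) (hb : 0 ≤ b) (hc : 0 ≤ c) (h : a + b + c = 1) :
    (2 * a * b + b * c + c * (2 * a)) / (2 * a + b + c)
      + (a * (2 * b) + 2 * b * c + c * a) / (a + 2 * b + c)
      + (a * b + b * (2 * c) + 2 * c * a) / (a + b + 2 * c)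
      = (8 * (a * b + b * c + c * a) + (a * b + b * c + c * a) ^ 2 + 5 * (a * b * c))
        / (2 + (a * b + b * c + c * a) + a * b * c) := by
  have h1 : 2 * a + b + c = 1 + a := by linarith
  have h2 : a + 2 * b + c = 1 + b := by linarith
  have h3 : a + b + 2 * c = 1 + c := by linarith
  have h4 : 2 + (a * b + b * c + c * a) + a * b * c = (1 + a) * (1 + b) * (1 + c) := by
    have : c = 1 - a - b := by linarith
    subst this
    ring
  have p1 : 1 + a ≠ 0 := by positivity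
  have p2 : 1 + b ≠ 0 := by positivity
  have p3 : 1 + c ≠ 0 := by positivity
  rw [h1, h2, h3, h4, div_add_div _ _ p1 p2, div_add_div _ _ (mul_ne_zero p1 p2) p3]
  congr 1
  have : c = 1 - a - b := by linarith only [h]
  subst this
  ring

theorem id_B (ha : 0 ≤ a) (hb : 0 ≤ b) (hc : 0 ≤ c) (h : a + b + c = 1) :
    (4 * a * b + b * c + c * (4 * a)) / (4 * a + b + c)
      + (a * (4 * b) + 4 * b * c + c * a) / (a + 4 * b + c)
      + (a * b + b * (4 * c) + 4 * c * a) / (a + b + 4 * c)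
      = (24 * (a * b + b * c + c * a) + 9 * (a * b + b * c + c * a) ^ 2 + 81 * (a * b * c))
        / (4 + 9 * (a * b + b * c + c * a) + 27 * (a * b * c)) := by
  have h1 : 4 * a + b + c = 1 + 3 * a := by linarith only [h]
  have h2 : a + 4 * b + c = 1 + 3 * b := by linarith
  have h3 : a + b + 4 * c = 1 + 3 * c := by linarith
  have h4 : 4 + 9 * (a * b + b * c + c * a) + 27 * (a * b * c)
      = (1 + 3 * a) * (1 + 3 * b) * (1 + 3 * c) := by
    have : c = 1 - a - b := by linarith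
    subst this
    ring
  have p1 : 1 + 3 * a ≠ 0 := by positivity
  have p2 : 1 + 3 * b ≠ 0 := by positivity
  have p3 : 1 + 3 * c ≠ 0 := by positivity
  rw [h1, h2, h3, h4, div_add_div _ _ p1 p2, div_add_div _ _ (mul_ne_zero p1 p2) p3]
  congr 1
  have : c = 1 - a - b := by linarith only [h]
  subst this
  ring

theorem id_C (ha : 0 ≤ a) (hb : 0 ≤ b) (hc : 0 ≤ c) (h : a + b + c = 1) :
    (2 * a * (2 * b) + 2 * b * c + c * (2 * a)) / (2 * a + 2 * b + c)
      + (2 * a * b + b * (2 * c) + 2 * c * (2 * a)) / (2 * a + b + 2 * c)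
      + (a * (2 * b) + 2 * b * (2 * c) + 2 * c * a) / (a + 2 * b + 2 * c)
      = (20 * (a * b + b * c + c * a) + 4 * (a * b + b * c + c * a) ^ 2 + 8 * (a * b * c))
        / (4 + 2 * (a * b + b * c + c * a) - a * b * c) := by
  have h1 : 2 * a + 2 * b + c = 1 + a + b := by linarith only [h]
  have h2 : 2 * a + b + 2 * c = 1 + a + c := by linarith
  have h3 : a + 2 * b + 2 * c = 1 + b + c := by linarith
  have h4 : 4 + 2 * (a * b + b * c + c * a) - a * b * c
      = (1 + a + b) * (1 + a + c) * (1 + b + c) := by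
    have : c = 1 - a - b := by linarith only [h]
    subst this
    ring
  have p1 : 1 + a + b ≠ 0 := by positivity
  have p2 : 1 + a + c ≠ 0 := by positivity
  have p3 : 1 + b + c ≠ 0 := by positivity
  rw [h1, h2, h3, h4, div_add_div _ _ p1 p2, div_add_div _ _ (mul_ne_zero p1 p2) p3]
  congr 1
  have : c = 1 - a - b := by linarith only [h]
  subst this
  ring

theorem eq_bounds (ha : 0 ≤ a) (hb : 0 ≤ b) (hc : 0 ≤ c) (h : a + b + c = 1) :
    0 ≤ a * b + b * c + c * a ∧ a * b + b * c + c * a ≤ 1 / 3 ∧ 0 ≤ a * b * c ∧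
      a * b * c ≤ (a * b + b * c + c * a) ^ 2 / 3 ∧ a * b * c ≤ 1 / 27 := by
  have h1 : 0 ≤ a * b + b * c + c * a := by positivity
  have h2 : a * b + b * c + c * a ≤ 1 / 3 := by
    have : (a + b + c) ^ 2 = 1 := by rw [h]; norm_num
    nlinarith only [sq_nonneg (a - b), sq_nonneg (b - c), sq_nonneg (c - a), this]
  have h3 : a * b * c ≤ (a * b + b * c + c * a) ^ 2 / 3 := by
    have h4 : (a * b + b * c + c * a) ^ 2 = (a * b) ^ 2 + (b * c) ^ 2 + (c * a) ^ 2
        + 2 * (a * b * c) * (a + b + c) := by ring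
    rw [h] at h4
    have h5 : a * b * c = a * b * c * (a + b + c) := by rw [h, mul_one]
    nlinarith only [sq_nonneg (a * b - b * c), sq_nonneg (b * c - c * a),
      sq_nonneg (c * a - a * b), h4]
  refine ⟨h1, h2, by positivity, h3, ?_⟩
  nlinarith only [h1, h2, h3]

end

theorem Hom.opE {F : Fun3} (h : Hom F) : Hom (opE F) := by
  rw [opE_eq_opD h]
  exact h.opD.smul _

theorem Hom.opV {F : Fun3} (h : Hom F) : Hom (opV F) := by
  intro c u
  rw [opV_apply, opV_apply, ← mul_div_assoc, Finset.mul_sum]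
  congr 1
  refine Finset.sum_congr rfl fun i _ => ?_
  rw [← h]
  congr 1
  funext j
  ring

theorem Hom.neg {F : Fun3} (h : Hom F) : Hom (-F) := by
  intro c u
  rw [Pi.neg_apply, Pi.neg_apply, h]
  ring

theorem Hom.sub {F G : Fun3} (h : Hom F) (h' : Hom G) : Hom (F - G) := by
  intro c u
  rw [Pi.sub_apply, Pi.sub_apply, h, h']
  ring

theorem hom_hX : Hom hX := fun c u => hX_smul c u
theorem hom_hP : Hom hP := fun c u => hP_smul c u

theorem dE_dE (F : Fun3) (u : Fin 3 → ℝ) :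
    dE (dE F) u = opE (opE F) u - 2 * opE F u + F u := by
  rw [dE_apply, dE_apply]
  have : dE F = opE F - F := rfl
  rw [this, map_sub, Pi.sub_apply]
  ring

theorem dE_dV (F : Fun3) (u : Fin 3 → ℝ) :
    dE (dV F) u = opE (opV F) u - opE F u - opV F u + F u := by
  rw [dE_apply, dV_apply]
  have : dV F = opV F - F := rfl
  rw [this, map_sub, Pi.sub_apply]
  ring

theorem dV_dV (F : Fun3) (u : Fin 3 → ℝ) :
    dV (dV F) u = opV (opV F) u - 2 * opV F u + F u := by
  rw [dV_apply, dV_apply]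
  have : dV F = opV F - F := rfl
  rw [this, map_sub, Pi.sub_apply]
  ring

theorem Hom.dE {F : Fun3} (h : Hom F) : Hom (dE F) := h.opE.sub h
theorem Hom.dV {F : Fun3} (h : Hom F) : Hom (dV F) := h.opV.sub h

theorem opE_hX_at {u : Fin 3 → ℝ} (hu : ∀ i, 0 ≤ u i) (h : u 0 + u 1 + u 2 = 1) :
    opE hX u = (8 * (u 0 * u 1 + u 1 * u 2 + u 2 * u 0) + (u 0 * u 1 + u 1 * u 2 + u 2 * u 0) ^ 2
      + 5 * (u 0 * u 1 * u 2)) / (2 + (u 0 * u 1 + u 1 * u 2 + u 2 * u 0) + u 0 * u 1 * u 2)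
        / 4 := by
  rw [opE_at hom_hX, ← id_A (hu 0) (hu 1) (hu 2) h]
  rfl

theorem hX_at {u : Fin 3 → ℝ} (h : u 0 + u 1 + u 2 = 1) :
    hX u = u 0 * u 1 + u 1 * u 2 + u 2 * u 0 := by
  unfold hX
  rw [h, div_one]

theorem opE_opE_hX_at {u : Fin 3 → ℝ} (hu : ∀ i, 0 ≤ u i) (h : u 0 + u 1 + u 2 = 1) :
    opE (opE hX) u = ((24 * (u 0 * u 1 + u 1 * u 2 + u 2 * u 0)
        + 9 * (u 0 * u 1 + u 1 * u 2 + u 2 * u 0) ^ 2 + 81 * (u 0 * u 1 * u 2))
        / (4 + 9 * (u 0 * u 1 + u 1 * u 2 + u 2 * u 0) + 27 * (u 0 * u 1 * u 2))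
      + 2 * ((20 * (u 0 * u 1 + u 1 * u 2 + u 2 * u 0)
        + 4 * (u 0 * u 1 + u 1 * u 2 + u 2 * u 0) ^ 2 + 8 * (u 0 * u 1 * u 2))
        / (4 + 2 * (u 0 * u 1 + u 1 * u 2 + u 2 * u 0) - u 0 * u 1 * u 2))) / 16 := by
  rw [opE_opE_at hom_hX, ← id_B (hu 0) (hu 1) (hu 2) h, ← id_C (hu 0) (hu 1) (hu 2) h]
  rfl

/-- (P1) -/
theorem second_P1 (u : Fin 3 → ℝ) (hu : ∀ i, 0 ≤ u i) :
    -(dE (dE hX) u) ≤ 1 / 250 * mean u := by
  refine hom_le (G := -(dE (dE hX))) hom_hX.dE.dE.neg (fun u hu h => ?_) u hu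
  obtain ⟨he, he3, hq, hqe, _⟩ := eq_bounds (hu 0) (hu 1) (hu 2) h
  rw [Pi.neg_apply, dE_dE, opE_opE_hX_at hu h, opE_hX_at hu h, hX_at h]
  have key := second_ineq1 he he3 hq hqe
  generalize u 0 * u 1 + u 1 * u 2 + u 2 * u 0 = e at *
  generalize u 0 * u 1 * u 2 = q at *
  refine (le_of_eq ?_).trans (key.trans (by norm_num))
  ring

theorem B_line {x : ℝ} (h0 : 0 ≤ x) (h1 : x ≤ 1) : 27 / 32 * (1 - x) ≤ 1 / (1 + x) ^ 2 := by
  rw [le_div_iff₀ (by positivity)]
  nlinarith only [mul_nonneg (sq_nonneg (x - 1 / 3)) (by linarith : (0 : ℝ) ≤ x + 5 / 3), h0]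

theorem opE_hP_at {u : Fin 3 → ℝ} (h : u 0 + u 1 + u 2 = 1) :
    opE hP u = 9 / 2 * (u 0 * u 1 * u 2) *
      (1 / (1 + u 0) ^ 2 + 1 / (1 + u 1) ^ 2 + 1 / (1 + u 2) ^ 2) := by
  rw [opE_at hom_hP]
  change (9 * (2 * u 0 * u 1 * u 2) / (2 * u 0 + u 1 + u 2) ^ 2
    + 9 * (u 0 * (2 * u 1) * u 2) / (u 0 + 2 * u 1 + u 2) ^ 2
    + 9 * (u 0 * u 1 * (2 * u 2)) / (u 0 + u 1 + 2 * u 2) ^ 2) / 4 = _
  have h1 : 2 * u 0 + u 1 + u 2 = 1 + u 0 := by linarith
  have h2 : u 0 + 2 * u 1 + u 2 = 1 + u 1 := by linarith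
  have h3 : u 0 + u 1 + 2 * u 2 = 1 + u 2 := by linarith
  rw [h1, h2, h3]
  ring

theorem opE_opE_hP_at {u : Fin 3 → ℝ} (h : u 0 + u 1 + u 2 = 1) :
    opE (opE hP) u = 9 * (u 0 * u 1 * u 2) *
      ((1 / 4 / (1 + 3 * u 0) ^ 2 + 1 / 4 / (1 + 3 * u 1) ^ 2 + 1 / 4 / (1 + 3 * u 2) ^ 2)
      + (1 / 2 / (2 - u 0) ^ 2 + 1 / 2 / (2 - u 1) ^ 2 + 1 / 2 / (2 - u 2) ^ 2)) := by
  rw [opE_opE_at hom_hP]
  change (9 * (4 * u 0 * u 1 * u 2) / (4 * u 0 + u 1 + u 2) ^ 2
    + 9 * (u 0 * (4 * u 1) * u 2) / (u 0 + 4 * u 1 + u 2) ^ 2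
    + 9 * (u 0 * u 1 * (4 * u 2)) / (u 0 + u 1 + 4 * u 2) ^ 2
    + 2 * (9 * (2 * u 0 * (2 * u 1) * u 2) / (2 * u 0 + 2 * u 1 + u 2) ^ 2
    + 9 * (2 * u 0 * u 1 * (2 * u 2)) / (2 * u 0 + u 1 + 2 * u 2) ^ 2
    + 9 * (u 0 * (2 * u 1) * (2 * u 2)) / (u 0 + 2 * u 1 + 2 * u 2) ^ 2)) / 16 = _
  have h1 : 4 * u 0 + u 1 + u 2 = 1 + 3 * u 0 := by linarith
  have h2 : u 0 + 4 * u 1 + u 2 = 1 + 3 * u 1 := by linarith
  have h3 : u 0 + u 1 + 4 * u 2 = 1 + 3 * u 2 := by linarith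
  have h4 : 2 * u 0 + 2 * u 1 + u 2 = 2 - u 2 := by linarith
  have h5 : 2 * u 0 + u 1 + 2 * u 2 = 2 - u 1 := by linarith
  have h6 : u 0 + 2 * u 1 + 2 * u 2 = 2 - u 0 := by linarith
  rw [h1, h2, h3, h4, h5, h6]
  ring

theorem hP_at {u : Fin 3 → ℝ} (h : u 0 + u 1 + u 2 = 1) : hP u = 9 * (u 0 * u 1 * u 2) := by
  unfold hP
  rw [h]
  norm_num

theorem le_one_of_sum {u : Fin 3 → ℝ} (hu : ∀ i, 0 ≤ u i) (h : u 0 + u 1 + u 2 = 1) (i : Fin 3) :
    u i ≤ 1 := by
  have h0 := hu 0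
  have h1 := hu 1
  have h2 := hu 2
  fin_cases i
  · change u 0 ≤ 1; linarith
  · change u 1 ≤ 1; linarith
  · change u 2 ≤ 1; linarith

/-- (P2) -/
theorem second_P2 (u : Fin 3 → ℝ) (hu : ∀ i, 0 ≤ u i) :
    dE (dE hP) u ≤ 1 / 20 * mean u := by
  refine hom_le (G := dE (dE hP)) hom_hP.dE.dE (fun u hu h => ?_) u hu
  obtain ⟨_, _, hq, _, hq2⟩ := eq_bounds (hu 0) (hu 1) (hu 2) h
  rw [dE_dE, opE_opE_hP_at h, opE_hP_at h, hP_at h]
  have k0 := second_line2 (hu 0) (le_one_of_sum hu h 0)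
  have k1 := second_line2 (hu 1) (le_one_of_sum hu h 1)
  have k2 := second_line2 (hu 2) (le_one_of_sum hu h 2)
  have k : (1 / 4 / (1 + 3 * u 0) ^ 2 + 1 / 4 / (1 + 3 * u 1) ^ 2 + 1 / 4 / (1 + 3 * u 2) ^ 2)
      + (1 / 2 / (2 - u 0) ^ 2 + 1 / 2 / (2 - u 1) ^ 2 + 1 / 2 / (2 - u 2) ^ 2)
      - (1 / (1 + u 0) ^ 2 + 1 / (1 + u 1) ^ 2 + 1 / (1 + u 2) ^ 2) + 1 ≤ 1 / 20 := by
    linarith
  have k3 := mul_le_mul_of_nonneg_left k (by (clear * - hq; positivity) : 0 ≤ 9 * (u 0 * u 1 * u 2))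
  refine le_trans (le_of_eq ?_) (k3.trans ?_)
  · ring
  · linarith only [hq2]

/-- (P4) -/
theorem second_P4 (u : Fin 3 → ℝ) (hu : ∀ i, 0 ≤ u i) :
    dE (dV hP) u ≤ 5 / 32 * mean u := by
  refine hom_le (G := dE (dV hP)) hom_hP.dV.dE (fun u hu h => ?_) u hu
  obtain ⟨_, _, hq, _, hq2⟩ := eq_bounds (hu 0) (hu 1) (hu 2) h
  rw [dE_dV, opV_hP, map_zero, Pi.zero_apply, opE_hP_at h, hP_at h]
  have k0 := B_line (hu 0) (le_one_of_sum hu h 0)
  have k1 := B_line (hu 1) (le_one_of_sum hu h 1)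
  have k2 := B_line (hu 2) (le_one_of_sum hu h 2)
  have k : 27 / 16 ≤ 1 / (1 + u 0) ^ 2 + 1 / (1 + u 1) ^ 2 + 1 / (1 + u 2) ^ 2 := by linarith only [h,
                                                                                       k0, k1, k2]
  have k3 := mul_le_mul_of_nonneg_left k (by positivity : 0 ≤ 9 / 2 * (u 0 * u 1 * u 2))
  linarith only [hq2, k3]

/-- (P6) -/
theorem second_P6 (u : Fin 3 → ℝ) (hu : ∀ i, 0 ≤ u i) : dV (dV hP) u ≤ mean u := by
  rw [dV_dV, opV_hP, map_zero, Pi.zero_apply]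
  have := (hP_le_hX hu).trans (hX_le_mean hu)
  linarith

/-- the pair sum -/
noncomputable def h2 (a b c : ℝ) : ℝ := a * b / (a + b) + b * c / (b + c) + c * a / (c + a)

theorem opV_hX_at (u : Fin 3 → ℝ) : opV hX u = 1 / 2 * h2 (u 0) (u 1) (u 2) := by
  rw [opV_apply, Fin.sum_univ_three]
  have e0 : hX (fun j => u j * vM (1 / 2) 0 j) = 3 / 2 * (u 1 * u 2 / (u 1 + u 2)) := by
    have : (fun j => u j * vM (1 / 2) 0 j) = fun j => 3 / 2 * (![0, u 1, u 2] j) := by
      funext j; fin_cases j <;> simp [vM] <;> ring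
    rw [this, hX_smul]
    unfold hX
    simp only [Nat.succ_eq_add_one, Nat.reduceAdd, Fin.isValue, Matrix.cons_val_zero,
      Matrix.cons_val_one, zero_mul, Matrix.cons_val, zero_add, mul_zero, add_zero]
  have e1 : hX (fun j => u j * vM (1 / 2) 1 j) = 3 / 2 * (u 2 * u 0 / (u 2 + u 0)) := by
    have : (fun j => u j * vM (1 / 2) 1 j) = fun j => 3 / 2 * (![u 0, 0, u 2] j) := by
      funext j; fin_cases j <;> simp [vM] <;> ring
    rw [this, hX_smul]
    unfold hX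
    simp only [Nat.succ_eq_add_one, Nat.reduceAdd, Fin.isValue, Matrix.cons_val_zero,
      Matrix.cons_val_one, mul_zero, Matrix.cons_val, zero_mul, add_zero, zero_add,
      mul_eq_mul_left_iff, div_eq_zero_iff, OfNat.ofNat_ne_zero, or_self, or_false]
    rw [add_comm (u 2) (u 0)]
  have e2 : hX (fun j => u j * vM (1 / 2) 2 j) = 3 / 2 * (u 0 * u 1 / (u 0 + u 1)) := by
    have : (fun j => u j * vM (1 / 2) 2 j) = fun j => 3 / 2 * (![u 0, u 1, 0] j) := by
      funext j; fin_cases j <;> simp [vM] <;> ring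
    rw [this, hX_smul]
    unfold hX
    simp only [Nat.succ_eq_add_one, Nat.reduceAdd, Fin.isValue, Matrix.cons_val_zero,
      Matrix.cons_val_one, Matrix.cons_val, mul_zero, add_zero, zero_mul]
  rw [e0, e1, e2]
  unfold h2
  ring

theorem h2_mul {a b c : ℝ} (ha : 0 ≤ a) (hb : 0 ≤ b) (hc : 0 ≤ c) (h : a + b + c = 1) :
    (0 < (a * b + b * c + c * a) - a * b * c ∧
      h2 a b c = ((a * b + b * c + c * a) ^ 2 + a * b * c)
        / ((a * b + b * c + c * a) - a * b * c))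
    ∨ (a * b + b * c + c * a = 0 ∧ h2 a b c = 0) := by
  have hf : (a * b + b * c + c * a) - a * b * c = (a + b) * (b + c) * (c + a) := by
    have : c = 1 - a - b := by linarith only [h]
    subst this
    ring
  by_cases h0 : a * b + b * c + c * a = 0
  · right
    refine ⟨h0, ?_⟩
    have h1 : a * b = 0 := by
      have := mul_nonneg ha hb
      have := mul_nonneg hb hc
      have := mul_nonneg hc ha
      linarith
    have h2' : b * c = 0 := by
      have := mul_nonneg ha hb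
      have := mul_nonneg hb hc
      have := mul_nonneg hc ha
      linarith
    have h3 : c * a = 0 := by
      have := mul_nonneg ha hb
      have := mul_nonneg hb hc
      have := mul_nonneg hc ha
      linarith only [h0, h1, h2']
    unfold h2
    rw [h1, h2', h3]
    simp
  · left
    obtain ⟨he, he3, hq, hqe, _⟩ := eq_bounds ha hb hc h
    have hpos : 0 < a * b + b * c + c * a := lt_of_le_of_ne he (Ne.symm h0)
    have h1 : 0 < (a * b + b * c + c * a) - a * b * c := by nlinarith only [he, he3, hqe, hpos]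
    refine ⟨h1, ?_⟩
    rw [hf] at h1 ⊢
    have hab : a + b ≠ 0 := fun h => by rw [h] at h1; simp at h1
    have hbc : b + c ≠ 0 := fun h => by rw [h] at h1; simp at h1
    have hca : c + a ≠ 0 := fun h => by rw [h] at h1; simp at h1
    unfold h2
    rw [div_add_div _ _ hab hbc, div_add_div _ _ (mul_ne_zero hab hbc) hca]
    congr 1
    have : c = 1 - a - b := by linarith only [h]
    subst this
    ring

/-- (P5) -/
theorem second_P5 (u : Fin 3 → ℝ) (hu : ∀ i, 0 ≤ u i) :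
    -(dV (dV hX) u) ≤ 1 / 8 * mean u := by
  refine hom_le (G := -(dV (dV hX))) hom_hX.dV.dV.neg (fun u hu h => ?_) u hu
  obtain ⟨he, he3, hq, hqe, _⟩ := eq_bounds (hu 0) (hu 1) (hu 2) h
  rw [Pi.neg_apply, dV_dV, opV_opV_hX, Pi.smul_apply, smul_eq_mul, opV_hX_at, hX_at h]
  rcases h2_mul (hu 0) (hu 1) (hu 2) h with ⟨h1, h3⟩ | ⟨h1, h3⟩
  · rw [h3]
    generalize u 0 * u 1 + u 1 * u 2 + u 2 * u 0 = e at *
    generalize u 0 * u 1 * u 2 = q at *
    have key := second_poly5 he he3 hqe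
    have h4 : 3 / 4 * ((e ^ 2 + q) / (e - q)) ≤ 1 / 24 + e := by
      rw [← mul_div_assoc, div_le_iff₀ h1]
      linarith
    linarith only [h4]
  · rw [h3, h1]
    norm_num

theorem pair_ineq {a b : ℝ} (ha : 0 ≤ a) (hb : 0 ≤ b) :
    1 / 3 * (a * b / (a + b)) ≤ 1 / 4 * (a * b / (2 * a + b) + a * b / (a + 2 * b)) := by
  rcases (add_nonneg ha hb).eq_or_lt with h | h
  · have h1 : a = 0 := by linarith
    have h2 : b = 0 := by linarith
    rw [h1, h2]
    simp only [one_div, mul_zero, add_zero, div_zero, Std.le_refl]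
  · have p1 : 0 < 2 * a + b := by linarith
    have p2 : 0 < a + 2 * b := by linarith
    have e1 : a * b / (2 * a + b) + a * b / (a + 2 * b)
        = a * b * (3 * (a + b)) / ((2 * a + b) * (a + 2 * b)) := by
      rw [div_add_div _ _ p1.ne' p2.ne']
      congr 1
      ring
    have hab : 0 ≤ a * b := mul_nonneg ha hb
    rw [e1, ← mul_div_assoc, ← mul_div_assoc, div_le_div_iff₀ h (mul_pos p1 p2)]
    nlinarith only [mul_nonneg hab (sq_nonneg (a - b)), hab]

theorem opE_opV_hX_at (u : Fin 3 → ℝ) : opE (opV hX) u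
    = (h2 (2 * u 0) (u 1) (u 2) + h2 (u 0) (2 * u 1) (u 2) + h2 (u 0) (u 1) (2 * u 2)) / 8 := by
  rw [opE_at hom_hX.opV, opV_hX_at, opV_hX_at, opV_hX_at]
  simp only [Matrix.cons_val_zero, Matrix.cons_val_one, Matrix.cons_val]
  ring

theorem h2_diff {a b c : ℝ} (ha : 0 ≤ a) (hb : 0 ≤ b) (hc : 0 ≤ c) :
    1 / 2 * h2 a b c - (h2 (2 * a) b c + h2 a (2 * b) c + h2 a b (2 * c)) / 8
      ≤ 1 / 24 * h2 a b c := by
  have k1 := pair_ineq ha hb
  have k2 := pair_ineq hb hc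
  have k3 := pair_ineq hc ha
  unfold h2
  have e1 : 2 * a * b / (2 * a + b) = 2 * (a * b / (2 * a + b)) := by ring
  have e2 : c * (2 * a) / (c + 2 * a) = 2 * (c * a / (c + 2 * a)) := by ring
  have e3 : a * (2 * b) / (a + 2 * b) = 2 * (a * b / (a + 2 * b)) := by ring
  have e4 : 2 * b * c / (2 * b + c) = 2 * (b * c / (2 * b + c)) := by ring
  have e5 : b * (2 * c) / (b + 2 * c) = 2 * (b * c / (b + 2 * c)) := by ring
  have e6 : 2 * c * a / (2 * c + a) = 2 * (c * a / (2 * c + a)) := by ring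
  rw [e1, e2, e3, e4, e5, e6]
  linarith only [k1, k2, k3]

/-- (P3) -/
theorem second_P3 (u : Fin 3 → ℝ) (hu : ∀ i, 0 ≤ u i) :
    -(dE (dV hX) u) ≤ 3 / 200 * mean u := by
  refine hom_le (G := -(dE (dV hX))) hom_hX.dV.dE.neg (fun u hu h => ?_) u hu
  obtain ⟨he, he3, hq, hqe, _⟩ := eq_bounds (hu 0) (hu 1) (hu 2) h
  rw [Pi.neg_apply, dE_dV, opE_opV_hX_at, opV_hX_at, opE_hX_at hu h, hX_at h]
  have k := h2_diff (hu 0) (hu 1) (hu 2)
  generalize h2 (2 * u 0) (u 1) (u 2) + h2 (u 0) (2 * u 1) (u 2) + h2 (u 0) (u 1) (2 * u 2) = S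
    at *
  have k2 : 1 / 24 * h2 (u 0) (u 1) (u 2)
      - (3 * (u 0 * u 1 + u 1 * u 2 + u 2 * u 0) ^ 2
        + 4 * (u 0 * u 1 + u 1 * u 2 + u 2 * u 0) * (u 0 * u 1 * u 2) - 5 * (u 0 * u 1 * u 2))
        / (4 * (2 + (u 0 * u 1 + u 1 * u 2 + u 2 * u 0) + u 0 * u 1 * u 2)) ≤ 1 / 200 := by
    rcases h2_mul (hu 0) (hu 1) (hu 2) h with ⟨h1, h3⟩ | ⟨h1, h3⟩
    · rw [h3]
      generalize u 0 * u 1 + u 1 * u 2 + u 2 * u 0 = e at *
      generalize u 0 * u 1 * u 2 = q at *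
      have key := second_poly3 he he3 hq hqe
      have p1 : 0 < 2 + e + q := by linarith only [he3, hq, h1]
      have e1 : 1 / 200 - (1 / 24 * ((e ^ 2 + q) / (e - q))
          - (3 * e ^ 2 + 4 * e * q - 5 * q) / (4 * (2 + e + q)))
          = (1 / 200 * ((e - q) * (2 + e + q)) - 1 / 24 * ((e ^ 2 + q) * (2 + e + q))
            + 1 / 4 * ((3 * e ^ 2 + 4 * e * q - 5 * q) * (e - q)))
            / ((e - q) * (2 + e + q)) := by
        have := p1.ne'
        have := h1.ne'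
        field_simp
        ring
      have e2 := div_nonneg key (mul_pos h1 p1).le
      linarith only [e1, e2]
    · have hq0 : u 0 * u 1 * u 2 = 0 := by
        rw [h1] at hqe
        exact le_antisymm (by simpa only [Fin.isValue, ne_eq, OfNat.ofNat_ne_zero,
                                not_false_eq_true, zero_pow, zero_div] using hqe) hq
      rw [h3, h1, hq0]
      norm_num
  have k3 : (u 0 * u 1 + u 1 * u 2 + u 2 * u 0)
      - (8 * (u 0 * u 1 + u 1 * u 2 + u 2 * u 0) + (u 0 * u 1 + u 1 * u 2 + u 2 * u 0) ^ 2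
      + 5 * (u 0 * u 1 * u 2)) / (2 + (u 0 * u 1 + u 1 * u 2 + u 2 * u 0) + u 0 * u 1 * u 2) / 4
      = (3 * (u 0 * u 1 + u 1 * u 2 + u 2 * u 0) ^ 2
        + 4 * (u 0 * u 1 + u 1 * u 2 + u 2 * u 0) * (u 0 * u 1 * u 2) - 5 * (u 0 * u 1 * u 2))
        / (4 * (2 + (u 0 * u 1 + u 1 * u 2 + u 2 * u 0) + u 0 * u 1 * u 2)) := by
    generalize u 0 * u 1 + u 1 * u 2 + u 2 * u 0 = e at *
    generalize u 0 * u 1 * u 2 = q at *
    have p1 : (2 + e + q) ≠ 0 := by positivity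
    field_simp
    ring
  linarith

end Vale.Agent.P154
end

section

/-!
# P154: rational bounds of the tables `s3, s2, sP` for at most twelve edge messages
-/

open scoped BigOperators

namespace Vale.Agent.P154

open Bern

def qX3 (j : ℕ) : ℚ :=
  (∑ i ∈ Finset.range (j + 1), ∑ k ∈ Finset.range (j + 1 - i),
    ((j.choose i * (j - i).choose k : ℕ) : ℚ) *
      ((2 ^ i * 2 ^ k + 2 ^ k * 2 ^ (j - i - k) + 2 ^ (j - i - k) * 2 ^ i) /
        (2 ^ i + 2 ^ k + 2 ^ (j - i - k)))) / 4 ^ j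

def qX2 (j : ℕ) : ℚ :=
  3 * (∑ i ∈ Finset.range (j + 1), ∑ k ∈ Finset.range (j + 1 - i),
    ((j.choose i * (j - i).choose k : ℕ) : ℚ) * (2 ^ i * 2 ^ k / (2 ^ i + 2 ^ k))) / 4 ^ j

def qP3 (j : ℕ) : ℚ :=
  (∑ i ∈ Finset.range (j + 1), ∑ k ∈ Finset.range (j + 1 - i),
    ((j.choose i * (j - i).choose k : ℕ) : ℚ) *
      (9 / (2 ^ i + 2 ^ k + 2 ^ (j - i - k)) ^ 2)) / 2 ^ j

theorem qX3_cast (j : ℕ) : ((qX3 j : ℚ) : ℝ) = s3 j := by
  rw [s3_eq]; unfold qX3 tX3; push_cast; rfl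

theorem qX2_cast (j : ℕ) : ((qX2 j : ℚ) : ℝ) = s2 j := by
  rw [s2_eq]; unfold qX2 tX2; push_cast; rfl

theorem qP3_cast (j : ℕ) : ((qP3 j : ℚ) : ℝ) = sP j := by
  rw [sP_eq]; unfold qP3 tP3; push_cast; rfl

theorem qX3_ok : ∀ j ∈ List.range 13, ((tab tA j + tab tB j : ℤ) : ℚ) ≤ 1000000 * qX3 j := by
  decide +kernel

theorem qX2_ok : ∀ j ∈ List.range 13, ((tab tB j : ℤ) : ℚ) ≤ 1000000 * qX2 j := by
  decide +kernel

theorem qP3_ok : ∀ j ∈ List.range 13, 1000000 * qP3 j ≤ ((tab tP j : ℤ) : ℚ) := by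
  decide +kernel

theorem s3_bd {j : ℕ} (hj : j ≤ 12) : ((tab tA j : ℤ) : ℝ) + ((tab tB j : ℤ) : ℝ)
    ≤ 1000000 * s3 j := by
  have h := qX3_ok j (List.mem_range.2 (by omega))
  have h2 : (((tab tA j + tab tB j : ℤ) : ℚ) : ℝ) ≤ ((1000000 * qX3 j : ℚ) : ℝ) := by
    exact_mod_cast h
  push_cast at h2
  rwa [qX3_cast] at h2

theorem s2_bd {j : ℕ} (hj : j ≤ 12) : ((tab tB j : ℤ) : ℝ) ≤ 1000000 * s2 j := by
  have h := qX2_ok j (List.mem_range.2 (by omega))
  have h2 : (((tab tB j : ℤ) : ℚ) : ℝ) ≤ ((1000000 * qX2 j : ℚ) : ℝ) := by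
    exact_mod_cast h
  push_cast at h2
  rwa [qX2_cast] at h2

theorem sP_bd {j : ℕ} (hj : j ≤ 12) : 1000000 * sP j ≤ ((tab tP j : ℤ) : ℝ) := by
  have h := qP3_ok j (List.mem_range.2 (by omega))
  have h2 : ((1000000 * qP3 j : ℚ) : ℝ) ≤ (((tab tP j : ℤ) : ℚ) : ℝ) := by
    exact_mod_cast h
  push_cast at h2
  rwa [qP3_cast] at h2

end Vale.Agent.P154
end

section

/-!
# P154: the closed bound of a star with `d` children through the star with `N ≤ d` children
-/

open scoped BigOperators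

namespace Vale.Agent.P154

open Bern

/-- nonnegative on nonnegative vectors -/
def Pos3 (F : Fun3) : Prop := ∀ u : Fin 3 → ℝ, (∀ i, 0 ≤ u i) → 0 ≤ F u

theorem eM_half_nonneg (i j : Fin 3) : 0 ≤ eM (1 / 2) i j := by
  unfold eM; split_ifs <;> norm_num

theorem vM_half_nonneg (i j : Fin 3) : 0 ≤ vM (1 / 2) i j := by
  unfold vM; split_ifs <;> norm_num

theorem Pos3.opE {F : Fun3} (h : Pos3 F) : Pos3 (opE F) := by
  intro u hu
  rw [opE_apply]
  exact div_nonneg (Finset.sum_nonneg fun i _ => h _ fun j =>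
    mul_nonneg (hu j) (eM_half_nonneg i j)) (by norm_num)

theorem Pos3.opV {F : Fun3} (h : Pos3 F) : Pos3 (opV F) := by
  intro u hu
  rw [opV_apply]
  exact div_nonneg (Finset.sum_nonneg fun i _ => h _ fun j =>
    mul_nonneg (hu j) (vM_half_nonneg i j)) (by norm_num)

/-- the generator -/
noncomputable def gen (a b : ℝ) : Module.End ℝ Fun3 := a • dE + b • dV

theorem gen_apply (a b : ℝ) (F : Fun3) (u : Fin 3 → ℝ) :
    gen a b F u = a * dE F u + b * dV F u := rfl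

theorem onePlus_gen (a b t : ℝ) : onePlus (gen a b) t = opL (t * a) (t * b) := by
  apply LinearMap.ext
  intro F
  funext u
  rw [onePlus_apply, opL_apply]
  unfold opT
  rw [Pi.add_apply, Pi.smul_apply, gen_apply, dE_apply, dV_apply, opE_apply, opV_apply,
    smul_eq_mul]
  ring

theorem pos_onePlus_gen {a b t : ℝ} (ha : 0 ≤ a) (hb : 0 ≤ b) (ht : 0 ≤ t) (hab : t * (a + b) ≤ 1)
    (F : Fun3) (hF : Pos3 F) : Pos3 (onePlus (gen a b) t F) := by
  intro u hu
  have e : onePlus (gen a b) t F u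
      = (1 - t * (a + b)) * F u + t * a * opE F u + t * b * opV F u := by
    rw [onePlus_apply, Pi.add_apply, Pi.smul_apply, gen_apply, dE_apply, dV_apply, smul_eq_mul]
    ring
  rw [e]
  exact add_nonneg (add_nonneg (mul_nonneg (by linarith) (hF u hu))
    (mul_nonneg (mul_nonneg ht ha) (hF.opE u hu))) (mul_nonneg (mul_nonneg ht hb) (hF.opV u hu))

/-- the mean as a functional -/
noncomputable def mn3 : Fun3 := fun u => mean u

theorem dE_mn3 : dE mn3 = 0 := by
  funext u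
  rw [dE_apply, opE_apply, Fin.sum_univ_three, Pi.zero_apply]
  unfold mn3
  rw [mean3, mean3, mean3, mean3]
  unfold eM
  simp only [Fin.isValue, ↓reduceIte, one_div, one_ne_zero, Fin.reduceEq, zero_ne_one]
  ring

theorem dV_mn3 : dV mn3 = 0 := by
  funext u
  rw [dV_apply, opV_apply, Fin.sum_univ_three, Pi.zero_apply]
  unfold mn3
  rw [mean3, mean3, mean3, mean3]
  unfold vM
  simp only [Fin.isValue, ↓reduceIte, one_div, ne_eq, OfNat.ofNat_ne_zero, not_false_eq_true,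
    mul_inv_cancel₀, sub_self, mul_zero, one_ne_zero, zero_add, Fin.reduceEq, zero_ne_one,
    add_zero]
  ring

theorem gen_mn3 (a b : ℝ) : gen a b mn3 = 0 := by
  unfold gen
  rw [LinearMap.add_apply, LinearMap.smul_apply, LinearMap.smul_apply, dE_mn3, dV_mn3]
  simp

theorem hphi_fun (g : ℝ) : (hphi g : Fun3) = (1 + g) • mn3 - (1 + 3 / 2 * g) • hX + (g / 2) • hP := by
  funext u
  rw [hphi_eq]
  rfl

theorem dE_comm_dV (F : Fun3) : dV (dE F) = dE (dV F) := by
  have h : Commute dE dV := by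
    unfold dE dV
    exact (opE_comm_opV.sub_left (Commute.one_left _)).sub_right (Commute.one_right _)
  have h2 := congrArg (fun T : Module.End ℝ Fun3 => T F) h.eq
  exact h2.symm

/-- the constant of the second difference -/
noncomputable def Kg (g a b : ℝ) : ℝ :=
  ((1 + 3 / 2 * g) / 250 + g / 2 / 20) * a ^ 2
    + 2 * ((1 + 3 / 2 * g) * (3 / 200) + g / 2 * (5 / 32)) * (a * b)
    + ((1 + 3 / 2 * g) / 8 + g / 2) * b ^ 2

theorem Kg_nonneg {g a b : ℝ} (hg : 0 ≤ g) (ha : 0 ≤ a) (hb : 0 ≤ b) : 0 ≤ Kg g a b := by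
  unfold Kg
  positivity

theorem gen_gen (a b : ℝ) (F : Fun3) (u : Fin 3 → ℝ) :
    gen a b (gen a b F) u
      = a ^ 2 * dE (dE F) u + 2 * (a * b) * dE (dV F) u + b ^ 2 * dV (dV F) u := by
  unfold gen
  simp only [LinearMap.add_apply, LinearMap.smul_apply, map_add, map_smul, Pi.add_apply,
    Pi.smul_apply, smul_eq_mul]
  rw [dE_comm_dV]
  ring

theorem second_gen {g a b : ℝ} (hg : 0 ≤ g) (ha : 0 ≤ a) (hb : 0 ≤ b) :
    Pos3 (Kg g a b • mn3 - gen a b (gen a b (hphi g))) := by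
  intro u hu
  have hab : 0 ≤ a * b := mul_nonneg ha hb
  have e1 : gen a b (gen a b (hphi g)) u
      = a ^ 2 * (-(1 + 3 / 2 * g) * dE (dE hX) u + g / 2 * dE (dE hP) u)
        + 2 * (a * b) * (-(1 + 3 / 2 * g) * dE (dV hX) u + g / 2 * dE (dV hP) u)
        + b ^ 2 * (-(1 + 3 / 2 * g) * dV (dV hX) u + g / 2 * dV (dV hP) u) := by
    rw [gen_gen, hphi_fun]
    simp only [map_add, map_sub, map_smul, dE_mn3, smul_zero, zero_sub, map_neg, Pi.add_apply,
      Pi.neg_apply, Pi.smul_apply, smul_eq_mul, dV_mn3]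
    ring
  have h1 := second_P1 u hu
  have h2 := second_P2 u hu
  have h3 := second_P3 u hu
  have h4 := second_P4 u hu
  have h5 := second_P5 u hu
  have h6 := second_P6 u hu
  have hgg : 0 ≤ 1 + 3 / 2 * g := by positivity
  have k1 := mul_le_mul_of_nonneg_left (add_le_add (mul_le_mul_of_nonneg_left h1 hgg)
    (mul_le_mul_of_nonneg_left h2 (by positivity : 0 ≤ g / 2))) (sq_nonneg a)
  have k2 := mul_le_mul_of_nonneg_left (add_le_add (mul_le_mul_of_nonneg_left h3 hgg)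
    (mul_le_mul_of_nonneg_left h4 (by positivity : 0 ≤ g / 2))) (by positivity : 0 ≤ 2 * (a * b))
  have k3 := mul_le_mul_of_nonneg_left (add_le_add (mul_le_mul_of_nonneg_left h5 hgg)
    (mul_le_mul_of_nonneg_left h6 (by positivity : 0 ≤ g / 2))) (sq_nonneg b)
  rw [Pi.sub_apply, Pi.smul_apply, smul_eq_mul, e1]
  unfold Kg mn3
  nlinarith only [k1, k2, k3]

/-- **Comparison of `d` children with `N ≤ d` children.** -/
theorem star_le {g a b : ℝ} (hg : 0 ≤ g) (ha : 0 ≤ a) (hb : 0 ≤ b) {N d : ℕ} (hN : 1 ≤ N)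
    (hNd : N ≤ d) (hab : a + b ≤ N) :
    ((opT (1 / 2) (a / d) (b / d))^[d] (hphi g)) (fun _ => 1)
      ≤ ((opT (1 / 2) (a / N) (b / N))^[N] (hphi g)) (fun _ => 1)
        + 1 / 2 * (1 / (N : ℝ) - 1 / d) * Kg g a b := by
  have hN0 : (0 : ℝ) < N := by exact_mod_cast hN
  have h := robin_hood (V := Fun3) Pos3 (fun u _ => le_rfl)
    (fun F G hF hG u hu => add_nonneg (hF u hu) (hG u hu))
    (fun c hc F hF u hu => mul_nonneg hc (hF u hu)) (L := gen a b) (m := mn3) (φ := hphi g)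
    (gen_mn3 a b) (K := Kg g a b) (second_gen hg ha hb) N hN
    (fun t ht ht1 F hF => pos_onePlus_gen ha hb ht (by
      calc t * (a + b) ≤ (1 / N) * N := mul_le_mul ht1 hab (by positivity) (by positivity)
        _ = 1 := by field_simp) F hF) d hNd
  have h2 := h (fun _ => 1) (fun _ => zero_le_one)
  rw [onePlus_gen, onePlus_gen, opL_pow, Pi.sub_apply, Pi.add_apply, Pi.smul_apply, opL_pow,
    smul_eq_mul] at h2
  have e1 : 1 / (d : ℝ) * a = a / d := by ring
  have e2 : 1 / (d : ℝ) * b = b / d := by ring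
  have e3 : 1 / (N : ℝ) * a = a / N := by ring
  have e4 : 1 / (N : ℝ) * b = b / N := by ring
  rw [e1, e2, e3, e4] at h2
  have e5 : mn3 (fun _ => (1 : ℝ)) = 1 := by unfold mn3; rw [mean3]; norm_num
  rw [e5, mul_one] at h2
  linarith only [h2]

theorem iter_hphi (g e v : ℝ) (k : ℕ) :
    ((opT (1 / 2) e v)^[k] (hphi g)) (fun _ => 1)
      = (1 + g) - (1 + 3 / 2 * g) * ((opT (1 / 2) e v)^[k] hX) (fun _ => 1)
        + g / 2 * ((opT (1 / 2) e v)^[k] hP) (fun _ => 1) := by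
  have hm : (opL e v ^ k) mn3 = mn3 := by
    induction k with
    | zero => simp
    | succ k ih =>
      rw [pow_succ', Module.End.mul_apply, ih]
      have h1 := onePlus_gen e v 1
      rw [one_mul, one_mul] at h1
      rw [← h1, onePlus_apply, gen_mn3]
      simp
  rw [← opL_pow, ← opL_pow, ← opL_pow, hphi_fun, map_add, map_sub, map_smul, map_smul, map_smul,
    hm, Pi.add_apply, Pi.sub_apply, Pi.smul_apply, Pi.smul_apply, Pi.smul_apply]
  have e5 : mn3 (fun _ => (1 : ℝ)) = 1 := by unfold mn3; rw [mean3]; norm_num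
  rw [e5]
  simp only [smul_eq_mul, mul_one]

theorem hs_diff_mono {N : ℕ} {c : ℕ → ℝ} {e q q' : ℝ} (he : 0 ≤ e) (hq : 0 ≤ q) (hqq : q ≤ q')
    (h : ∀ j, j ≤ N → 0 ≤ c j) : hs N c e q ≤ hs N c e q' := by
  unfold hs
  refine Finset.sum_le_sum fun j hj => ?_
  have hj' : j ≤ N := Nat.lt_succ_iff.1 (Finset.mem_range.1 hj)
  refine mul_le_mul_of_nonneg_right (mul_le_mul_of_nonneg_left
    (pow_le_pow_left₀ hq hqq _) (by positivity)) (h j hj')

theorem hs_smul (N : ℕ) (k : ℝ) (c : ℕ → ℝ) (e q : ℝ) :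
    hs N (fun j => k * c j) e q = k * hs N c e q := by
  unfold hs
  rw [Finset.mul_sum]
  refine Finset.sum_congr rfl fun j _ => ?_
  ring

theorem hs_add (N : ℕ) (c c' : ℕ → ℝ) (e q : ℝ) :
    hs N (fun j => c j + c' j) e q = hs N c e q + hs N c' e q := by
  unfold hs
  rw [← Finset.sum_add_distrib]
  refine Finset.sum_congr rfl fun j _ => ?_
  ring

/-- lower bound of the `hX` part -/
theorem bX_le {N : ℕ} (hN : 1 ≤ N) (hN12 : N ≤ 12) {a b : ℝ} (ha : 0 ≤ a) (hb : 0 ≤ b)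
    (hab : a + b ≤ N) :
    bX N a b / 1000000 ≤ ((opT (1 / 2) (a / N) (b / N))^[N] hX) (fun _ => 1) := by
  have hN0 : (0 : ℝ) < N := by exact_mod_cast hN
  have he : 0 ≤ a / N := by positivity
  have hv : 0 ≤ b / N := by positivity
  have hev : a / N + b / N ≤ 1 := by rw [← add_div, div_le_one hN0]; exact hab
  have hq : 0 ≤ 1 - a / N - b / N := by linarith only [hev]
  have hqq : 1 - a / N - b / N ≤ 1 - a / N - b / N / 2 := by linarith only [hv]
  have e1 : ((opT (1 / 2) (a / N) (b / N))^[N] hX) (fun _ => 1)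
      = hs N s3 (a / N) (1 - a / N - b / N) - hs N s2 (a / N) (1 - a / N - b / N)
        + hs N s2 (a / N) (1 - a / N - b / N / 2) := by
    rw [iter_hX]
    unfold hs
    rw [← Finset.sum_sub_distrib, ← Finset.sum_add_distrib]
    refine Finset.sum_congr rfl fun j _ => ?_
    ring
  have h1 : hs N (fun j => (tab tA j : ℝ) + (tab tB j : ℝ)) (a / N) (1 - a / N - b / N)
      ≤ hs N (fun j => 1000000 * s3 j) (a / N) (1 - a / N - b / N) :=
    hs_mono he hq fun j hj => s3_bd (hj.trans hN12)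
  have h2 := hs_diff_mono (N := N) (c := fun j => 1000000 * s2 j - (tab tB j : ℝ)) he hq hqq
    (fun j hj => by have := s2_bd (hj.trans hN12); linarith only [this])
  rw [hs_sub, hs_sub, hs_smul, hs_smul] at h2
  rw [hs_add, hs_smul] at h1
  rw [e1]
  unfold bX
  linarith only [h1, h2]

theorem bP_ge {N : ℕ} (hN : 1 ≤ N) (hN12 : N ≤ 12) {a b : ℝ} (ha : 0 ≤ a) (hb : 0 ≤ b)
    (hab : a + b ≤ N) :
    ((opT (1 / 2) (a / N) (b / N))^[N] hP) (fun _ => 1) ≤ bP N a b / 1000000 := by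
  have hN0 : (0 : ℝ) < N := by exact_mod_cast hN
  have he : 0 ≤ a / N := by positivity
  have hev : a / N + b / N ≤ 1 := by rw [← add_div, div_le_one hN0]; exact hab
  have hq : 0 ≤ 1 - a / N - b / N := by linarith only [hev]
  have e1 : ((opT (1 / 2) (a / N) (b / N))^[N] hP) (fun _ => 1)
      = hs N sP (a / N) (1 - a / N - b / N) := by
    rw [iter_hP]
    unfold hs
    refine Finset.sum_congr rfl fun j _ => ?_
    ring
  have h1 : hs N (fun j => 1000000 * sP j) (a / N) (1 - a / N - b / N)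
      ≤ hs N (fun j => (tab tP j : ℝ)) (a / N) (1 - a / N - b / N) :=
    hs_mono he hq fun j hj => sP_bd (hj.trans hN12)
  rw [hs_smul] at h1
  rw [e1]
  unfold bP
  linarith only [h1]

/-- the bound of a star with `d` children -/
theorem star_bound {g a b : ℝ} (hg : 0 ≤ g) (ha : 0 ≤ a) (hb : 0 ≤ b) {N d : ℕ} (hN : 1 ≤ N)
    (hN12 : N ≤ 12) (hNd : N ≤ d) (hab : a + b ≤ N) :
    ((opT (1 / 2) (a / d) (b / d))^[d] (hphi g)) (fun _ => 1)
      ≤ (1 + g) - (1 + 3 / 2 * g) * (bX N a b / 1000000) + g / 2 * (bP N a b / 1000000)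
        + 1 / 2 * (1 / (N : ℝ) - 1 / d) * Kg g a b := by
  have h1 := star_le hg ha hb hN hNd hab
  rw [iter_hphi g (a / N)] at h1
  have h2 := mul_le_mul_of_nonneg_left (bX_le hN hN12 ha hb hab) (by positivity : 0 ≤ 1 + 3 / 2 * g)
  have h3 := mul_le_mul_of_nonneg_left (bP_ge hN hN12 ha hb hab) (by positivity : 0 ≤ g / 2)
  linarith

end Vale.Agent.P154
end

section

/-!
# P154: regular trees with `d ≥ 6` children at `lam = -1/√d`
-/

open scoped BigOperators

namespace Vale.Agent.P154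

open Bern

theorem tsum_regular' (d : ℕ) (l ε : ℝ) (F : (Fin 3 → ℝ) → ℝ) (e v : ℝ) :
    ∑' k, stepTerm (regularOffspring d) l ε F e v k
      = ((opT l e v)^[d] F) (fun _ => 1) + ε * (d * e) := by
  rw [tsum_eq_single d]
  · unfold stepTerm regularOffspring
    simp
  · intro k hk
    unfold stepTerm regularOffspring
    simp [hk]

theorem summable_regular (d : ℕ) : Summable fun k : ℕ => regularOffspring d k * k := by
  refine summable_of_ne_finset_zero (s := {d}) ?_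
  intro k hk
  have : k ≠ d := by simpa using hk
  unfold regularOffspring
  simp [this]

theorem Kg_zero (a b : ℝ) : Kg 0 a b = (4 * a ^ 2 + 30 * (a * b) + 125 * b ^ 2) / 1000 := by
  unfold Kg; ring

theorem Kg_fifth {a b : ℝ} (ha : 0 ≤ a) (hb : 0 ≤ b) :
    Kg (1 / 5) a b ≤ (102 * a ^ 2 + 704 * (a * b) + 2625 * b ^ 2) / 10000 := by
  have hab : 0 ≤ a * b := mul_nonneg ha hb
  unfold Kg
  nlinarith

theorem reg_arith0 {x T X P D K e a s : ℝ} (hE : x ≤ T + 0 * a)
    (hb : T ≤ (1 + 0) - (1 + 3 / 2 * 0) * (X / 1000000) + 0 / 2 * (P / 1000000) + D * K)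
    (hm : D * K ≤ e * K) (hs : s = x) : s ≤ 1 - X / 1000000 + e * K := by
  linarith

theorem reg_arith1 {x y T X P D K K' e a s t q : ℝ} (hE : x + 1 / 5 * y ≤ T + 1 / 5000 * a)
    (hb : T ≤ (1 + 1 / 5) - (1 + 3 / 2 * (1 / 5)) * (X / 1000000)
      + (1 / 5) / 2 * (P / 1000000) + D * K)
    (hm : D * K ≤ e * K) (hm3 : e * K ≤ e * K') (hs : s = x) (hq : q * t ≤ y) :
    s + 1 / 5 * q * t ≤ 6 / 5 - 13 / 10 * (X / 1000000) + 1 / 10 * (P / 1000000) + e * K'
      + a / 5000 := by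
  linarith

theorem sq_cmp {a b : ℝ} (ha : 0 ≤ a) (hb : 0 ≤ b) (h : a ^ 2 ≤ b ^ 2) : a ≤ b :=
  (pow_le_pow_iff_left₀ ha hb two_ne_zero).1 h

/-- The numerical core: no pair `(x, y)` satisfies both closed inequalities. -/
theorem reg_core {d N : ℕ} (hN : 1 ≤ N) (hN12 : N ≤ 12) (hNd : N ≤ d) {ern erd kn kd xn : ℤ}
    (herd : 0 < erd) (hkd : 0 < kd) (hxn : xn ≤ 100) {tr1 tr2 tr3 : CTree}
    (h1 : cover tr1 (listAL N ern erd kn kd xn) = true)
    (h2 : cover2 tr2 [QLE N ern erd kn kd] = true)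
    (h3 : cover2 tr3 [Q0E N 10 ern erd eB vB] = true)
    (her : 1 / 2 * (1 / (N : ℝ) - 1 / d) ≤ (ern : ℝ) / erd)
    {r x y : ℝ} (hκ : (kn : ℝ) / kd * r ≤ 1) (hr0 : 0 < r) (hr1 : r ≤ 1)
    (hr2 : r ^ 2 * d = 4) (hx0 : 0 < x) (hx : x ≤ xn / 100) (hyx : y ≤ x) (hy0 : -x / 2 ≤ y)
    (hsx : 3 * x - 2 * y ≤ 1) (hab : 12 * x - 8 * (r * y) ≤ N)
    (hE1 : x ≤ ∑' k, stepTerm (regularOffspring d) (1 / 2) 0 hR (8 / 3 * (r ^ 2 * x - r ^ 3 * y))
        ((r ^ 2 * x + 2 * (r ^ 3 * y)) / 3) k)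
    (hE2 : x + 1 / 5 * y ≤ ∑' k, stepTerm (regularOffspring d) (1 / 2) (1 / 5000) (hphi (1 / 5))
        (8 / 3 * (r ^ 2 * x - r ^ 3 * y)) ((r ^ 2 * x + 2 * (r ^ 3 * y)) / 3) k) : False := by
  have hN0 : (0 : ℝ) < N := by exact_mod_cast hN
  have hd0 : (0 : ℝ) < d := by exact_mod_cast hN.trans hNd
  -- the product r y
  obtain ⟨w, hw⟩ : ∃ w : ℝ, w = r * y := ⟨_, rfl⟩
  have hwx : w ≤ x := by
    rw [hw]
    rcases le_total 0 y with h | h
    · linarith only [mul_le_mul_of_nonneg_right hr1 h, hyx]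
    · linarith only [mul_nonneg hr0.le (neg_nonneg.2 h), hx0]
  have hw0 : -x / 2 ≤ w := by
    rw [hw]
    rcases le_total 0 y with h | h
    · linarith only [mul_nonneg hr0.le h, hx0]
    · linarith only [mul_le_mul_of_nonpos_right hr1 h, hy0, hr1, h]
  obtain ⟨a, ha⟩ : ∃ a : ℝ, a = 32 / 3 * (x - w) := ⟨_, rfl⟩
  obtain ⟨b, hb⟩ : ∃ b : ℝ, b = 4 / 3 * (x + 2 * w) := ⟨_, rfl⟩
  have ha0 : 0 ≤ a := by rw [ha]; linarith only [hwx]
  have hb0 : 0 ≤ b := by rw [hb]; linarith only [hw0]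
  have hxab : a / 16 + b / 4 = x := by rw [ha, hb]; ring
  have hwab : b / 4 - a / 32 = w := by rw [ha, hb]; ring
  have habN : a + b ≤ N := by rw [ha, hb, hw]; linarith only [hab]
  have he : 8 / 3 * (r ^ 2 * x - r ^ 3 * y) = a / d := by
    rw [ha, hw, eq_div_iff hd0.ne']
    linear_combination (8 / 3 * x - 8 / 3 * (r * y)) * hr2
  have hv : (r ^ 2 * x + 2 * (r ^ 3 * y)) / 3 = b / d := by
    rw [hb, hw, eq_div_iff hd0.ne']
    linear_combination (x / 3 + 2 / 3 * (r * y)) * hr2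
  rw [tsum_regular', he, hv] at hE1 hE2
  have hda : (d : ℝ) * (a / d) = a := by (clear * - hd0; field_simp)
  rw [hda] at hE1 hE2
  have hb1 := star_bound (g := 0) le_rfl ha0 hb0 hN hN12 hNd habN
  have hb2 := star_bound (g := 1 / 5) (by norm_num) ha0 hb0 hN hN12 hNd habN
  rw [hphi_zero_eq, Kg_zero] at hb1
  have hK0 : 0 ≤ (4 * a ^ 2 + 30 * (a * b) + 125 * b ^ 2) / 1000 := by (clear * - ha0 hb0; positivity)
  have hK1 : 0 ≤ Kg (1 / 5) a b := Kg_nonneg (by norm_num) ha0 hb0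
  have hK2 := Kg_fifth ha0 hb0
  have hdN : 0 ≤ 1 / 2 * (1 / (N : ℝ) - 1 / d) := by
    have h5 : (1 : ℝ) / d ≤ 1 / N := one_div_le_one_div_of_le hN0 (by exact_mod_cast hNd)
    exact mul_nonneg (by norm_num) (sub_nonneg.2 h5)
  have hm1 := mul_le_mul_of_nonneg_right her hK0
  have hm2 := mul_le_mul_of_nonneg_right her hK1
  have hm3 := mul_le_mul_of_nonneg_left hK2 (hdN.trans her)
  have hS : a / 16 + b / 4 ≤ xn / 100 := by rw [hxab]; exact hx
  have hT : 8 * b < a → a ≤ 4 := by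
    intro h8
    have hwn : w < 0 := by rw [← hwab]; linarith only [h8]
    have hyn : y < 0 := by
      by_contra hc
      push Not at hc
      have := mul_nonneg hr0.le hc
      rw [hw] at hwn
      linarith only [hwn, this]
    have hwy : y ≤ w := by
      rw [hw]
      linarith only [mul_le_mul_of_nonpos_right hr1 hyn.le, hr1, hyn]
    have : a + b ≤ 4 := by rw [ha, hb]; linarith only [hsx, hwy]
    linarith only [this, hb0]
  have hQ : 0 ≤ b / 4 - a / 32 → (kn : ℝ) / kd * (b / 4 - a / 32) ≤ y := by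
    rw [hwab]
    intro hwn
    have hyn : 0 ≤ y := by
      by_contra hc
      push Not at hc
      have : r * y < 0 := mul_neg_of_pos_of_neg hr0 hc
      rw [hw] at hwn
      linarith only [this, hwn]
    rw [hw, ← mul_assoc]
    calc (kn : ℝ) / kd * r * y ≤ 1 * y := mul_le_mul_of_nonneg_right hκ hyn
      _ = y := one_mul y
  have hI1 := reg_arith0 hE1 hb1 hm1 hxab
  have hI2 : a ≤ 8 * b → (a / 16 + b / 4) + 1 / 5 * ((kn : ℝ) / kd) * (b / 4 - a / 32)
      ≤ 6 / 5 - 13 / 10 * (bX N a b / 1000000) + 1 / 10 * (bP N a b / 1000000)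
        + (ern : ℝ) / erd * ((102 * a ^ 2 + 704 * (a * b) + 2625 * b ^ 2) / 10000)
        + a / 5000 := fun h8 =>
    reg_arith1 hE2 hb2 hm2 hm3 hxab (hQ (by linarith only [h8]))
  have hpos : 0 < a + b := by rw [ha, hb]; linarith only [hx0, hwx]
  exact reg_contra hN herd hkd hxn h1 h2 h3 ha0 hb0 hpos hS hT hI1 hI2

/-- **Regular trees, critical antiferromagnetic parameter, at least six children.** -/
theorem nonrec_regular_six {d : ℕ} (hd : 6 ≤ d) :
    Nonreconstruction (regularOffspring d) 3 (-(1 / Real.sqrt d)) := by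
  by_contra hrec
  have hd0 : (0 : ℝ) < d := by exact_mod_cast (by omega : 0 < d)
  have hd6 : (6 : ℝ) ≤ d := by exact_mod_cast hd
  have hs2 : Real.sqrt d ^ 2 = d := Real.sq_sqrt hd0.le
  have hs0 : 0 < Real.sqrt d := Real.sqrt_pos.2 hd0
  obtain ⟨r, hr⟩ : ∃ r : ℝ, r = 2 / Real.sqrt d := ⟨_, rfl⟩
  have hr0 : 0 < r := by rw [hr]; positivity
  have hr2 : r ^ 2 * d = 4 := by
    rw [hr, div_pow, hs2]; field_simp; norm_num
  have hrr : r ^ 2 = 4 / d := by rw [eq_div_iff hd0.ne']; exact hr2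
  have hlow : ∀ c : ℝ, 0 ≤ c → c ^ 2 * d ≤ 4 → c ≤ r := fun c hc h =>
    sq_cmp hc hr0.le (by rw [hrr, le_div_iff₀ hd0]; exact h)
  have hup : ∀ c : ℝ, 0 ≤ c → 4 ≤ c ^ 2 * d → r ≤ c := fun c hc h =>
    sq_cmp hr0.le hc (by rw [hrr, div_le_iff₀ hd0]; exact h)
  have hr1 : r ≤ 1 := hup 1 zero_le_one (by linarith only [hd6])
  have hlam : -(1 / Real.sqrt d) = -(1 / 2) * r := by
    rw [hr]; field_simp
  have hp : ∀ k, 0 ≤ regularOffspring d k := fun k => by
    unfold regularOffspring; split_ifs <;> norm_num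
  obtain ⟨x, y, -, -, hx0, hx1, hyx, hy0, hsx, hE1, hE2⟩ := af_limit (l := 1 / 2) (ε := 1 / 5000)
    (g := 1 / 5) (by norm_num) le_rfl hr0.le hr1 (by norm_num) (by norm_num) (by norm_num) hlam
    hp (hasSum_ite_eq (d : ℕ) (1 : ℝ)) (summable_regular d) Cmp3.cmp_half_zero
    Cmp3.cmp_half_fifth hrec
  have hx100 : x ≤ ((100 : ℤ) : ℝ) / 100 := by push_cast; linarith only [hx1]
  -- lower bounds on `r` give `12 x - 8 r y ≤ N`
  have hab : ∀ c : ℝ, 0 ≤ c → c ≤ r → ∀ M : ℝ, 4 ≤ M → 12 - 8 * c ≤ M → 12 - 8 * c ≤ M →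
      12 * x - 8 * (r * y) ≤ M := by
    intro c hc0 hcr M hM hM2 _
    rcases le_total 0 y with h | h
    · have h2 : c * y ≤ r * y := mul_le_mul_of_nonneg_right hcr h
      have h3 : (3 * x - 1) / 2 ≤ y := by linarith only [hsx]
      have h4 : c * ((3 * x - 1) / 2) ≤ c * y := mul_le_mul_of_nonneg_left h3 hc0
      have hc1 : c ≤ 1 := hcr.trans hr1
      have h5 : (12 - 12 * c) * x ≤ (12 - 12 * c) * 1 :=
        mul_le_mul_of_nonneg_left hx1 (by linarith only [hc1])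
      linarith only [h2, h4, h5, hM2]
    · have h2 : y ≤ r * y := by linarith only [mul_le_mul_of_nonpos_right hr1 h, hr1, h]
      linarith only [h2, hsx, hM]
  rcases Nat.lt_or_ge d 7 with h7 | h7
  · -- d = 6
    obtain rfl : d = 6 := by omega
    have hrs : (4 : ℝ) / 5 ≤ r := hlow _ (by norm_num) (by norm_num)
    have hru : r ≤ 1000 / 1224 := hup _ (by norm_num) (by norm_num)
    exact reg_core (N := 6) (by norm_num) (by norm_num) le_rfl (by norm_num) (by norm_num)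
      (by norm_num) coverAL_6 coverAS_6 coverB_6 (by norm_num) (by push_cast; linarith only [hru]) hr0 hr1
      hr2 hx0 hx100 hyx hy0 hsx (hab (4 / 5) (by norm_num) hrs _ (by norm_num) (by norm_num)
      (by norm_num)) hE1 hE2
  rcases Nat.lt_or_ge d 8 with h8 | h8
  · -- d = 7
    obtain rfl : d = 7 := by omega
    have hrs : (3 : ℝ) / 4 ≤ r := hlow _ (by norm_num) (by norm_num)
    have hru : r ≤ 1000 / 1322 := hup _ (by norm_num) (by norm_num)
    exact reg_core (N := 7) (by norm_num) (by norm_num) le_rfl (by norm_num) (by norm_num)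
      (by norm_num) coverAL_7 coverAS_7 coverB_7 (by norm_num) (by push_cast; linarith only [hru]) hr0 hr1
      hr2 hx0 hx100 hyx hy0 hsx (hab (3 / 4) (by norm_num) hrs _ (by norm_num) (by norm_num)
      (by norm_num)) hE1 hE2
  rcases Nat.lt_or_ge d 12 with h12 | h12
  · -- 8 ≤ d ≤ 11
    have hd8 : (8 : ℝ) ≤ d := by exact_mod_cast h8
    have hd11 : (d : ℝ) ≤ 11 := by exact_mod_cast (by omega : d ≤ 11)
    have hrs : (3 : ℝ) / 5 ≤ r := hlow _ (by norm_num) (by linarith only [hd11])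
    have hru : r ≤ 1000 / 1414 := hup _ (by norm_num) (by
      have : (4 : ℝ) ≤ (1000 / 1414) ^ 2 * 8 := by norm_num
      linarith only [this, mul_le_mul_of_nonneg_left hd8
        (by norm_num : (0 : ℝ) ≤ (1000 / 1414) ^ 2)])
    have hinv : (1 : ℝ) / 11 ≤ 1 / d := one_div_le_one_div_of_le hd0 hd11
    exact reg_core (N := 8) (by norm_num) (by norm_num) h8 (by norm_num) (by norm_num)
      (by norm_num) coverAL_8 coverAS_8 coverB_8 (by push_cast; linarith only [hinv])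
      (by push_cast; linarith only [hru]) hr0 hr1
      hr2 hx0 hx100 hyx hy0 hsx (hab (3 / 5) (by norm_num) hrs _ (by norm_num) (by norm_num)
      (by norm_num)) hE1 hE2
  · -- 12 ≤ d
    have hd12 : (12 : ℝ) ≤ d := by exact_mod_cast h12
    have hru : r ≤ 1000 / 1732 := hup _ (by norm_num) (by
      have : (4 : ℝ) ≤ (1000 / 1732) ^ 2 * 12 := by norm_num
      linarith only [this, mul_le_mul_of_nonneg_left hd12
        (by norm_num : (0 : ℝ) ≤ (1000 / 1732) ^ 2)])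
    have hinv : (0 : ℝ) ≤ 1 / d := by positivity
    exact reg_core (N := 12) (by norm_num) (by norm_num) h12 (by norm_num) (by norm_num)
      (by norm_num) coverAL_12 coverAS_12 coverB_12 (by push_cast; linarith only [hinv])
      (by push_cast; linarith only [hru]) hr0 hr1
      hr2 hx0 hx100 hyx hy0 hsx (hab 0 le_rfl hr0.le _ (by norm_num) (by norm_num)
      (by norm_num)) hE1 hE2

/-- **Regular tree with four children**: the second moment of a nontrivial limit law exceeds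
`11/50`. -/
theorem reg_four_small {x y : ℝ} (hx0 : 0 < x) (hyx : y ≤ x) (hy0 : -x / 2 ≤ y)
    (hsx : 3 * x - 2 * y ≤ 1)
    (hE1 : x ≤ ∑' k, stepTerm (regularOffspring 4) (1 / 2) 0 hR
      (8 / 3 * ((1 : ℝ) ^ 2 * x - (1 : ℝ) ^ 3 * y)) (((1 : ℝ) ^ 2 * x + 2 * ((1 : ℝ) ^ 3 * y)) / 3) k)
    (hE2 : x + 1 / 5 * y ≤ ∑' k, stepTerm (regularOffspring 4) (1 / 2) (1 / 5000) (hphi (1 / 5))
      (8 / 3 * ((1 : ℝ) ^ 2 * x - (1 : ℝ) ^ 3 * y))
      (((1 : ℝ) ^ 2 * x + 2 * ((1 : ℝ) ^ 3 * y)) / 3) k) : 11 / 50 < x := by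
  by_contra hx
  push Not at hx
  exact reg_core (N := 4) (d := 4) (by norm_num) (by norm_num) le_rfl (by norm_num) (by norm_num)
    (by norm_num) coverAL_4 coverAS_4 coverB_4 (by norm_num) (by push_cast; linarith only []) one_pos
    le_rfl (by norm_num) hx0 (by push_cast; linarith only [hx]) hyx hy0 hsx (by push_cast; linarith only [hx0,
                                                                                   hy0, hx]) hE1 hE2

/-- If there is reconstruction on the 4-ary tree at `lam = -1/2`, the limit law has second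
moment larger than `11/50`. -/
theorem reg_four_LL (hrec : ¬ Nonreconstruction (regularOffspring 4) 3 (-1 / 2)) :
    11 / 50 < LL (regularOffspring 4) (-1 / 2) hR := by
  have hp : ∀ k, 0 ≤ regularOffspring 4 k := fun k => by
    unfold regularOffspring; split_ifs <;> norm_num
  obtain ⟨x, y, hxL, -, hx0, hx1, hyx, hy0, hsx, hE1, hE2⟩ := af_limit (l := 1 / 2)
    (ε := 1 / 5000) (g := 1 / 5) (r := 1) (by norm_num) le_rfl zero_le_one le_rfl (by norm_num)
    (by norm_num) (by norm_num) (by norm_num : (-1 / 2 : ℝ) = -(1 / 2) * 1)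
    hp (hasSum_ite_eq (4 : ℕ) (1 : ℝ)) (summable_regular 4) Cmp3.cmp_half_zero
    Cmp3.cmp_half_fifth hrec
  rw [← hxL]
  exact reg_four_small hx0 hyx hy0 hsx hE1 hE2

end Vale.Agent.P154
end

section

/-!
# P154: Poisson sums

Poisson mixtures of binomial sums, the semigroup of Poisson averages, and the comparison of a
Poisson average with a binomial average for functions with bounded second differences.
-/

open scoped BigOperators
open Finset

namespace Vale.Agent.P154.Pois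

theorem summable_pow_div (r : ℝ) : Summable (fun n : ℕ => |r ^ n / (n.factorial : ℝ)|) := by
  have h := Real.summable_pow_div_factorial |r|
  refine h.congr fun n => ?_
  rw [abs_div, abs_pow, Nat.abs_cast]

theorem summable_pow_div_mul (r : ℝ) {f : ℕ → ℝ} {C : ℝ} (hf : ∀ j, |f j| ≤ C) :
    Summable (fun n : ℕ => ‖r ^ n / (n.factorial : ℝ) * f n‖) := by
  refine Summable.of_nonneg_of_le (fun n => norm_nonneg _) (fun n => ?_)
    ((summable_pow_div r).mul_right C)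
  rw [norm_mul, Real.norm_eq_abs, Real.norm_eq_abs]
  exact mul_le_mul_of_nonneg_left (hf n) (abs_nonneg _)

theorem poisson_eq (D : ℝ) (k : ℕ) :
    poissonOffspring D k = Real.exp (-D) * (D ^ k / (k.factorial : ℝ)) := by
  unfold poissonOffspring
  rw [mul_div_assoc]

/-- Poisson mixture of binomial sums. -/
theorem pois_bin_sum (D e q : ℝ) {f : ℕ → ℝ} {C : ℝ} (hf : ∀ j, |f j| ≤ C) :
    ∑' k, poissonOffspring D k * ∑ j ∈ range (k + 1), ((k.choose j : ℕ) : ℝ) * e ^ j * q ^ (k - j) * f j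
      = Real.exp (-(D * (1 - e - q))) * ∑' j, poissonOffspring (D * e) j * f j := by
  have h1 := tsum_mul_tsum_eq_tsum_sum_range_of_summable_norm
    (summable_pow_div_mul (D * e) hf) (f := fun n : ℕ => (D * e) ^ n / (n.factorial : ℝ) * f n)
    (g := fun n : ℕ => (D * q) ^ n / (n.factorial : ℝ))
    (by simpa only [Real.norm_eq_abs] using summable_pow_div (D * q))
  have hexp : ∑' n : ℕ, (D * q) ^ n / (n.factorial : ℝ) = Real.exp (D * q) := by
    rw [Real.exp_eq_exp_ℝ, NormedSpace.exp_eq_tsum_div]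
  rw [hexp] at h1
  have h2 : ∀ k, poissonOffspring D k
        * ∑ j ∈ range (k + 1), ((k.choose j : ℕ) : ℝ) * e ^ j * q ^ (k - j) * f j
      = Real.exp (-D) * ∑ j ∈ range (k + 1), (D * e) ^ j / (j.factorial : ℝ) * f j
        * ((D * q) ^ (k - j) / ((k - j).factorial : ℝ)) := by
    intro k
    rw [poisson_eq, mul_assoc, mul_sum]
    congr 1
    refine sum_congr rfl fun j hj => ?_
    have hjk : j ≤ k := Nat.lt_succ_iff.1 (mem_range.1 hj)
    have hc : ((k.choose j : ℕ) : ℝ) = (k.factorial : ℝ) / ((j.factorial : ℝ) * ((k - j).factorial : ℝ)) :=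
      Nat.cast_choose ℝ hjk
    have hD : D ^ k = D ^ j * D ^ (k - j) := by
      rw [← pow_add, Nat.add_sub_cancel' hjk]
    have hk0 : (k.factorial : ℝ) ≠ 0 := by positivity
    have hj0 : (j.factorial : ℝ) ≠ 0 := by positivity
    have hkj0 : ((k - j).factorial : ℝ) ≠ 0 := by positivity
    rw [hc, hD, mul_pow, mul_pow]
    field_simp
  simp_rw [h2]
  rw [tsum_mul_left, ← h1]
  have h3 : ∑' j, poissonOffspring (D * e) j * f j
      = Real.exp (-(D * e)) * ∑' j : ℕ, (D * e) ^ j / (j.factorial : ℝ) * f j := by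
    rw [← tsum_mul_left]
    refine tsum_congr fun j => ?_
    rw [poisson_eq]
    ring
  rw [h3]
  have h4 : Real.exp (-(D * (1 - e - q))) = Real.exp (-D) * Real.exp (D * q) * Real.exp (D * e) := by
    rw [← Real.exp_add, ← Real.exp_add]
    congr 1
    ring
  have h5 : Real.exp (D * e) * Real.exp (-(D * e)) = 1 := by
    rw [← Real.exp_add]
    simp
  rw [h4]
  calc Real.exp (-D) * ((∑' n : ℕ, (D * e) ^ n / (n.factorial : ℝ) * f n) * Real.exp (D * q))
      = Real.exp (-D) * Real.exp (D * q) * (Real.exp (D * e) * Real.exp (-(D * e)))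
        * ∑' n : ℕ, (D * e) ^ n / (n.factorial : ℝ) * f n := by rw [h5]; ring
    _ = _ := by ring

/-- Poisson average started at `j` -/
noncomputable def avgP (p : ℝ) (h : ℕ → ℝ) (j : ℕ) : ℝ := ∑' n, poissonOffspring p n * h (j + n)

/-- Bernoulli average -/
noncomputable def avgB (p : ℝ) (h : ℕ → ℝ) (j : ℕ) : ℝ := (1 - p) * h j + p * h (j + 1)

theorem summable_poisson (p : ℝ) {h : ℕ → ℝ} {C : ℝ} (hC : ∀ j, |h j| ≤ C) (j : ℕ) :
    Summable (fun n => poissonOffspring p n * h (j + n)) := by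
  have h1 := (summable_pow_div_mul p (f := fun n => h (j + n)) fun n => hC (j + n)).of_norm
  refine (h1.mul_left (Real.exp (-p))).congr fun n => ?_
  rw [poisson_eq]
  ring

theorem poisson_nonneg {p : ℝ} (hp : 0 ≤ p) (n : ℕ) : 0 ≤ poissonOffspring p n := by
  unfold poissonOffspring
  positivity

theorem tsum_poisson (p : ℝ) : ∑' n, poissonOffspring p n = 1 := by
  simp_rw [poisson_eq]
  rw [tsum_mul_left]
  have hexp : ∑' n : ℕ, p ^ n / (n.factorial : ℝ) = Real.exp p := by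
    rw [Real.exp_eq_exp_ℝ, NormedSpace.exp_eq_tsum_div]
  rw [hexp, ← Real.exp_add]
  simp

theorem summable_poisson' (p : ℝ) : Summable (poissonOffspring p) := by
  have h := summable_poisson p (h := fun _ => 1) (C := 1) (fun _ => by simp) 0
  simpa using h

theorem hasSum_poisson_n (p : ℝ) : HasSum (fun n : ℕ => poissonOffspring p n * n) p := by
  have h1 : Summable (fun n : ℕ => poissonOffspring p n * p) := (summable_poisson' p).mul_right p
  have e : ∀ n : ℕ, poissonOffspring p (n + 1) * ((n + 1 : ℕ) : ℝ) = poissonOffspring p n * p := by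
    intro n
    unfold poissonOffspring
    rw [Nat.factorial_succ]
    push_cast
    have : (n.factorial : ℝ) ≠ 0 := by positivity
    have : (n : ℝ) + 1 ≠ 0 := by positivity
    field_simp
    ring
  have h2 : HasSum (fun n : ℕ => poissonOffspring p (n + 1) * ((n + 1 : ℕ) : ℝ)) p := by
    simp_rw [e]
    have := h1.hasSum
    rwa [tsum_mul_right, tsum_poisson, one_mul] at this
  have h3 := (hasSum_nat_add_iff (f := fun n : ℕ => poissonOffspring p n * (n : ℝ)) 1).1 h2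
  simpa using h3

theorem hasSum_poisson_nn (p : ℝ) :
    HasSum (fun n : ℕ => poissonOffspring p n * (n * (n - 1))) (p ^ 2) := by
  have h1 := (hasSum_poisson_n p).mul_right p
  have e : ∀ n : ℕ, poissonOffspring p (n + 1) * (((n + 1 : ℕ) : ℝ) * (((n + 1 : ℕ) : ℝ) - 1))
      = poissonOffspring p n * n * p := by
    intro n
    unfold poissonOffspring
    rw [Nat.factorial_succ]
    push_cast
    have : (n.factorial : ℝ) ≠ 0 := by positivity
    have : (n : ℝ) + 1 ≠ 0 := by positivity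
    field_simp
    ring
  have h2 : HasSum (fun n : ℕ => poissonOffspring p (n + 1)
      * (((n + 1 : ℕ) : ℝ) * (((n + 1 : ℕ) : ℝ) - 1))) (p ^ 2) := by
    simp_rw [e]
    rw [sq]
    exact h1
  have h3 := (hasSum_nat_add_iff (f := fun n : ℕ => poissonOffspring p n * ((n : ℝ) * (n - 1))) 1).1 h2
  simpa using h3

/-- second differences bounded above by `c` -/
def SD (h : ℕ → ℝ) (c : ℝ) : Prop := ∀ j, h (j + 2) - 2 * h (j + 1) + h j ≤ c

theorem SD.first {h : ℕ → ℝ} {c : ℝ} (hs : SD h c) (j n : ℕ) :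
    h (j + n + 1) - h (j + n) ≤ h (j + 1) - h j + c * n := by
  induction n with
  | zero => simp
  | succ n ih =>
    have h1 := hs (j + n)
    have e1 : j + (n + 1) + 1 = j + n + 2 := by ring
    have e2 : j + (n + 1) = j + n + 1 := by ring
    rw [e1, e2]
    push_cast
    linarith only [ih, h1]

theorem SD.taylor {h : ℕ → ℝ} {c : ℝ} (hs : SD h c) (j n : ℕ) :
    h (j + n) ≤ h j + n * (h (j + 1) - h j) + c * (n * (n - 1)) / 2 := by
  induction n with
  | zero => simp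
  | succ n ih =>
    have h1 := hs.first j n
    have e1 : j + (n + 1) = j + n + 1 := by ring
    rw [e1]
    push_cast
    linarith

theorem avgP_le_avgB {p : ℝ} (hp : 0 ≤ p) {h : ℕ → ℝ} {c C : ℝ} (hC : ∀ j, |h j| ≤ C)
    (hs : SD h c) (j : ℕ) : avgP p h j ≤ avgB p h j + c * p ^ 2 / 2 := by
  have h0 : HasSum (fun n => poissonOffspring p n * h j) (h j) := by
    have := (summable_poisson' p).hasSum.mul_right (h j)
    rwa [tsum_poisson, one_mul] at this
  have h1 := (hasSum_poisson_n p).mul_right (h (j + 1) - h j)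
  have h2 := (hasSum_poisson_nn p).mul_right (c / 2)
  have h3 := (h0.add h1).add h2
  have h4 := (summable_poisson p hC j).hasSum
  have h5 := hasSum_le (fun n => ?_) h4 h3
  · unfold avgP avgB
    refine h5.trans (le_of_eq ?_)
    ring
  · have h6 := mul_le_mul_of_nonneg_left (hs.taylor j n) (poisson_nonneg hp n)
    refine h6.trans (le_of_eq ?_)
    ring

theorem avgP_bdd {p : ℝ} (hp : 0 ≤ p) {h : ℕ → ℝ} {C : ℝ} (hC : ∀ j, |h j| ≤ C) (j : ℕ) :
    |avgP p h j| ≤ C := by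
  unfold avgP
  have h1 := summable_poisson p hC j
  have h2 : Summable (fun n => ‖poissonOffspring p n * h (j + n)‖) := h1.norm
  refine (norm_tsum_le_tsum_norm h2).trans ?_
  have h3 : ∀ n, ‖poissonOffspring p n * h (j + n)‖ ≤ poissonOffspring p n * C := by
    intro n
    rw [norm_mul, Real.norm_eq_abs, Real.norm_eq_abs, abs_of_nonneg (poisson_nonneg hp n)]
    exact mul_le_mul_of_nonneg_left (hC _) (poisson_nonneg hp n)
  refine (h2.tsum_le_tsum h3 ((summable_poisson' p).mul_right C)).trans ?_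
  rw [tsum_mul_right, tsum_poisson, one_mul]

theorem avgP_SD {p : ℝ} (hp : 0 ≤ p) {h : ℕ → ℝ} {c C : ℝ} (hC : ∀ j, |h j| ≤ C)
    (hs : SD h c) : SD (avgP p h) c := by
  intro j
  have a2 := (summable_poisson p hC (j + 2)).hasSum
  have a1 := (summable_poisson p hC (j + 1)).hasSum
  have a0 := (summable_poisson p hC j).hasSum
  have h1 := (a2.sub (a1.mul_left 2)).add a0
  have h2 : HasSum (fun n => poissonOffspring p n * c) c := by
    have := (summable_poisson' p).hasSum.mul_right c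
    rwa [tsum_poisson, one_mul] at this
  refine hasSum_le (fun n => ?_) h1 h2
  have h3 := hs (j + n)
  have e2 : j + n + 2 = j + 2 + n := by ring
  have e1 : j + n + 1 = j + 1 + n := by ring
  rw [e2, e1] at h3
  have h4 := mul_le_mul_of_nonneg_left h3 (poisson_nonneg hp n)
  refine le_trans (le_of_eq ?_) h4
  ring

theorem avgB_mono {p : ℝ} (hp : 0 ≤ p) (hp1 : p ≤ 1) {h k : ℕ → ℝ} {c : ℝ}
    (hk : ∀ j, h j ≤ k j + c) (j : ℕ) : avgB p h j ≤ avgB p k j + c := by
  unfold avgB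
  have h1 := mul_le_mul_of_nonneg_left (hk j) (by linarith : 0 ≤ 1 - p)
  have h2 := mul_le_mul_of_nonneg_left (hk (j + 1)) hp
  linarith

theorem avgB_iter_mono {p : ℝ} (hp : 0 ≤ p) (hp1 : p ≤ 1) {c : ℝ} (k : ℕ) :
    ∀ {h g : ℕ → ℝ}, (∀ j, h j ≤ g j + c) → ∀ j, (avgB p)^[k] h j ≤ (avgB p)^[k] g j + c := by
  induction k with
  | zero => intro h g hk j; exact hk j
  | succ k ih =>
    intro h g hk j
    rw [Function.iterate_succ_apply, Function.iterate_succ_apply]
    exact ih (avgB_mono hp hp1 hk) j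

theorem avgP_iter_le {p : ℝ} (hp : 0 ≤ p) (hp1 : p ≤ 1) {c C : ℝ} (k : ℕ) :
    ∀ {h : ℕ → ℝ}, (∀ j, |h j| ≤ C) → SD h c →
      ∀ j, (avgP p)^[k] h j ≤ (avgB p)^[k] h j + k * (c * p ^ 2 / 2) := by
  induction k with
  | zero => intro h _ _ j; simp
  | succ k ih =>
    intro h hC hs j
    rw [Function.iterate_succ_apply, Function.iterate_succ_apply]
    have h1 := ih (avgP_bdd hp hC) (avgP_SD hp hC hs) j
    have h2 := avgB_iter_mono hp hp1 k (avgP_le_avgB hp hC hs) j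
    push_cast
    linarith only [h1, h2]

theorem sum_antidiagonal_poisson (p r : ℝ) (k : ℕ) :
    ∑ x ∈ antidiagonal k, poissonOffspring p x.1 * poissonOffspring r x.2
      = poissonOffspring (p + r) k := by
  have h1 := (Commute.all p r).add_pow' k
  rw [poisson_eq, h1]
  have hk0 : (k.factorial : ℝ) ≠ 0 := by positivity
  rw [sum_div, mul_sum]
  refine sum_congr rfl fun x hx => ?_
  have hxk : x.1 + x.2 = k := mem_antidiagonal.1 hx
  have hc : ((k.choose x.1 : ℕ) : ℝ) = (k.factorial : ℝ) / ((x.1.factorial : ℝ) * (x.2.factorial : ℝ)) := by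
    have hle : x.1 ≤ k := by omega
    rw [Nat.cast_choose ℝ hle]
    have : k - x.1 = x.2 := by omega
    rw [this]
  rw [nsmul_eq_mul, hc, poisson_eq, poisson_eq, neg_add, Real.exp_add]
  have h2 : (x.1.factorial : ℝ) ≠ 0 := by positivity
  have h3 : (x.2.factorial : ℝ) ≠ 0 := by positivity
  field_simp

/-- semigroup property -/
theorem avgP_avgP (p r : ℝ) {h : ℕ → ℝ} {C : ℝ} (hC : ∀ j, |h j| ≤ C) (j : ℕ) :
    avgP p (avgP r h) j = avgP (p + r) h j := by
  have hF : Summable (fun x : ℕ × ℕ => poissonOffspring p x.1 * poissonOffspring r x.2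
      * h (j + x.1 + x.2)) := by
    have h1 : Summable (fun x : ℕ × ℕ => poissonOffspring p x.1 * poissonOffspring r x.2) :=
      summable_mul_of_summable_norm (summable_poisson' p).norm (summable_poisson' r).norm
    refine Summable.of_norm_bounded (g := fun x : ℕ × ℕ =>
      ‖poissonOffspring p x.1 * poissonOffspring r x.2‖ * C) (h1.norm.mul_right C) fun x => ?_
    rw [norm_mul]
    exact mul_le_mul_of_nonneg_left (hC _) (norm_nonneg _)
  have h1 : avgP p (avgP r h) j = ∑' x : ℕ × ℕ, poissonOffspring p x.1 * poissonOffspring r x.2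
      * h (j + x.1 + x.2) := by
    rw [hF.tsum_prod]
    unfold avgP
    refine tsum_congr fun m => ?_
    rw [← tsum_mul_left]
    refine tsum_congr fun n => ?_
    ring
  have hF' := (Finset.HasAntidiagonal.sigmaAntidiagonalEquivProd.summable_iff
    (f := fun x : ℕ × ℕ => poissonOffspring p x.1 * poissonOffspring r x.2
      * h (j + x.1 + x.2))).2 hF
  rw [h1, ← Finset.HasAntidiagonal.sigmaAntidiagonalEquivProd.tsum_eq (fun x : ℕ × ℕ =>
    poissonOffspring p x.1 * poissonOffspring r x.2 * h (j + x.1 + x.2))]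
  refine (hF'.tsum_sigma' (fun n => (hasSum_fintype _).summable)).trans ?_
  unfold avgP
  refine tsum_congr fun k => ?_
  rw [tsum_fintype, ← sum_antidiagonal_poisson, sum_mul]
  refine (Finset.sum_coe_sort (antidiagonal k) (fun x : ℕ × ℕ => poissonOffspring p x.1
    * poissonOffspring r x.2 * h (j + x.1 + x.2))).trans ?_
  refine sum_congr rfl fun x hx => ?_
  have hxk : x.1 + x.2 = k := mem_antidiagonal.1 hx
  rw [add_assoc, hxk]

theorem avgP_zero (h : ℕ → ℝ) (j : ℕ) : avgP 0 h j = h j := by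
  unfold avgP
  rw [tsum_eq_single 0]
  · unfold poissonOffspring; simp
  · intro n hn
    unfold poissonOffspring
    simp [hn]

theorem avgP_iter {p : ℝ} (hp : 0 ≤ p) {C : ℝ} (k : ℕ) : ∀ {h : ℕ → ℝ}, (∀ j, |h j| ≤ C) →
    ∀ j, (avgP p)^[k] h j = avgP (k * p) h j := by
  induction k with
  | zero =>
    intro h _ j
    simp [avgP_zero]
  | succ k ih =>
    intro h hC j
    rw [Function.iterate_succ_apply, ih (avgP_bdd hp hC) j, avgP_avgP _ _ hC]
    congr 1
    push_cast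
    ring

theorem avgB_iter (p : ℝ) (k : ℕ) : ∀ (h : ℕ → ℝ) (j : ℕ), (avgB p)^[k] h j
    = ∑ i ∈ range (k + 1), ((k.choose i : ℕ) : ℝ) * p ^ i * (1 - p) ^ (k - i) * h (j + i) := by
  induction k with
  | zero => intro h j; simp only [Function.iterate_zero, id_eq, zero_add, range_one, zero_tsub,
                         pow_zero, mul_one, sum_singleton, Nat.choose_self, Nat.cast_one,
                         add_zero, one_mul]
  | succ k ih =>
    intro h j
    rw [Function.iterate_succ_apply, ih]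
    unfold avgB
    have e : ∀ i ∈ range (k + 1), ((k.choose i : ℕ) : ℝ) * p ^ i * (1 - p) ^ (k - i)
        * ((1 - p) * h (j + i) + p * h (j + i + 1))
        = ((k.choose i : ℕ) : ℝ) * p ^ i * (1 - p) ^ (k + 1 - i) * h (j + i)
          + ((k.choose i : ℕ) : ℝ) * p ^ (i + 1) * (1 - p) ^ (k - i) * h (j + (i + 1)) := by
      intro i hi
      have hik : i ≤ k := Nat.lt_succ_iff.1 (mem_range.1 hi)
      have : k + 1 - i = (k - i) + 1 := by omega
      rw [this, pow_succ, pow_succ, ← add_assoc]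
      ring
    rw [sum_congr rfl e, sum_add_distrib]
    rw [sum_range_succ' (fun i => (((k + 1).choose i : ℕ) : ℝ) * p ^ i * (1 - p) ^ (k + 1 - i)
      * h (j + i)) (k + 1)]
    have e2 : ∀ i ∈ range (k + 1), (((k + 1).choose (i + 1) : ℕ) : ℝ) * p ^ (i + 1)
        * (1 - p) ^ (k + 1 - (i + 1)) * h (j + (i + 1))
        = ((k.choose i : ℕ) : ℝ) * p ^ (i + 1) * (1 - p) ^ (k - i) * h (j + (i + 1))
          + ((k.choose (i + 1) : ℕ) : ℝ) * p ^ (i + 1) * (1 - p) ^ (k - i) * h (j + (i + 1)) := by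
      intro i hi
      rw [Nat.choose_succ_succ]
      have : k + 1 - (i + 1) = k - i := by omega
      rw [this]
      push_cast
      ring
    rw [sum_congr rfl e2, sum_add_distrib]
    have e3 : ∑ i ∈ range (k + 1), ((k.choose i : ℕ) : ℝ) * p ^ i * (1 - p) ^ (k + 1 - i) * h (j + i)
        = ∑ i ∈ range (k + 1), ((k.choose (i + 1) : ℕ) : ℝ) * p ^ (i + 1) * (1 - p) ^ (k - i)
            * h (j + (i + 1))
          + (1 - p) ^ (k + 1) * h j := by
      rw [sum_range_succ' (fun i => ((k.choose i : ℕ) : ℝ) * p ^ i * (1 - p) ^ (k + 1 - i)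
        * h (j + i)) k]
      rw [sum_range_succ (fun i => ((k.choose (i + 1) : ℕ) : ℝ) * p ^ (i + 1) * (1 - p) ^ (k - i)
            * h (j + (i + 1))) k]
      rw [Nat.choose_succ_self]
      have e4 : ∀ i ∈ range k, ((k.choose (i + 1) : ℕ) : ℝ) * p ^ (i + 1)
          * (1 - p) ^ (k + 1 - (i + 1)) * h (j + (i + 1))
          = ((k.choose (i + 1) : ℕ) : ℝ) * p ^ (i + 1) * (1 - p) ^ (k - i) * h (j + (i + 1)) := by
        intro i _
        have : k + 1 - (i + 1) = k - i := by omega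
        rw [this]
      rw [sum_congr rfl e4]
      simp only [Nat.choose_zero_right, Nat.cast_one, pow_zero, mul_one, tsub_zero, one_mul,
        add_zero, CharP.cast_eq_zero, zero_mul, tsub_self]
    rw [e3]
    simp only [Nat.choose_zero_right, Nat.cast_one, pow_zero, mul_one, tsub_zero, one_mul, add_zero]
    ring

/-- **Poisson versus binomial** for functions with second differences at most `c`. -/
theorem pois_le_binom {h : ℕ → ℝ} {c C : ℝ} (hC : ∀ j, |h j| ≤ C)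
    (hs : ∀ j, h (j + 2) - 2 * h (j + 1) + h j ≤ c) {M : ℕ} (hM : 1 ≤ M) {a : ℝ} (ha : 0 ≤ a)
    (haM : a ≤ M) :
    ∑' j, poissonOffspring a j * h j
      ≤ ∑ j ∈ range (M + 1), ((M.choose j : ℕ) : ℝ) * (a / M) ^ j * (1 - a / M) ^ (M - j) * h j
        + c * a ^ 2 / (2 * M) := by
  have hM0 : (0 : ℝ) < M := by exact_mod_cast hM
  have hp : 0 ≤ a / M := by positivity
  have hp1 : a / M ≤ 1 := by rw [div_le_one hM0]; exact haM
  have h1 := avgP_iter_le hp hp1 M hC hs 0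
  rw [avgP_iter hp M hC 0, avgB_iter] at h1
  have e : (M : ℝ) * (a / M) = a := by field_simp
  rw [e] at h1
  unfold avgP at h1
  simp only [zero_add] at h1
  refine h1.trans (le_of_eq ?_)
  congr 1
  field_simp

/-- The reverse comparison for second differences at least `-c`. -/
theorem binom_le_pois {h : ℕ → ℝ} {c C : ℝ} (hC : ∀ j, |h j| ≤ C)
    (hs : ∀ j, -(h (j + 2) - 2 * h (j + 1) + h j) ≤ c) {M : ℕ} (hM : 1 ≤ M) {a : ℝ} (ha : 0 ≤ a)
    (haM : a ≤ M) :
    ∑ j ∈ range (M + 1), ((M.choose j : ℕ) : ℝ) * (a / M) ^ j * (1 - a / M) ^ (M - j) * h j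
      ≤ ∑' j, poissonOffspring a j * h j + c * a ^ 2 / (2 * M) := by
  have h1 := pois_le_binom (h := fun j => -h j) (c := c) (C := C) (fun j => by rw [abs_neg]; exact hC j)
    (fun j => by have := hs j; linarith only [this]) hM ha haM
  simp only [mul_neg] at h1
  rw [tsum_neg, sum_neg_distrib] at h1
  linarith only [h1]

end Vale.Agent.P154.Pois
end
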