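import Mathlib
import Vale.Agent.P154.Bdl.B8
import Vale.Agent.P154.Bdl.B9
import Vale.Agent.P154.Bdl.B6
import Vale.Agent.P154.Bdl.B3
import Vale.Agent.P154.Defs
import Vale.Agent.P154.Bdl.B7

set_option linter.all false

section

/-!
# P154: reduction of the Poisson trees with `d * lam ^ 2 ≤ 1` to `d = 1 / lam ^ 2`
-/

open scoped BigOperators
open Filter Topology

namespace Vale.Agent.P154

/-- the comparison is convex in the functional -/
theorem Cmp.interp {l g ε t : ℝ} (h : Cmp l 0 0) (h' : Cmp l g ε) (ht0 : 0 ≤ t) (ht1 : t ≤ 1) :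
    Cmp l (t * g) (t * ε) := by
  intro u w hu hw hus hws
  have a1 := h u w hu hw hus hws
  have a2 := h' u w hu hw hus hws
  have e : ∀ x : Fin 3 → ℝ, hphi (t * g) x = (1 - t) * hphi 0 x + t * hphi g x := by
    intro x; unfold hphi; ring
  have e1 : avgPerm (hphi (t * g)) u (pl (-l) w)
      = (1 - t) * avgPerm (hphi 0) u (pl (-l) w) + t * avgPerm (hphi g) u (pl (-l) w) := by
    unfold avgPerm
    simp only [e, Finset.sum_add_distrib, ← Finset.mul_sum]
    ring
  rw [e1]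
  simp only [e, Finset.sum_add_distrib, ← Finset.mul_sum]
  have b1 := mul_le_mul_of_nonneg_left a1 (by linarith only [ht1] : 0 ≤ 1 - t)
  have b2 := mul_le_mul_of_nonneg_left a2 ht0
  refine (add_le_add b1 b2).trans (le_of_eq ?_)
  ring

theorem cmp_half {g : ℝ} (h0 : 0 ≤ g) (h1 : g ≤ 1 / 5) : Cmp (1 / 2) g (g / 1000) := by
  have h := Cmp.interp (t := 5 * g) Cmp3.cmp_half_zero Cmp3.cmp_half_fifth (by linarith only [h0])
    (by linarith)
  convert h using 1 <;> ring

section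
variable {l e v : ℝ}

theorem opT_mono (hl0 : 0 ≤ l) (hl1 : l ≤ 1 / 2) (he : 0 ≤ e) (hv : 0 ≤ v) (hev : e + v ≤ 1)
    {F G : (Fin 3 → ℝ) → ℝ} (h : ∀ u : Fin 3 → ℝ, (∀ i, 0 ≤ u i) → F u ≤ G u)
    (u : Fin 3 → ℝ) (hu : ∀ i, 0 ≤ u i) : opT l e v F u ≤ opT l e v G u := by
  unfold opT
  have h1 : ∑ i, F (fun j => u j * eM l i j) ≤ ∑ i, G (fun j => u j * eM l i j) :=
    Finset.sum_le_sum fun i _ => h _ fun j => mul_nonneg (hu j) (eM_pos hl0 hl1 i j).le
  have h2 : ∑ i, F (fun j => u j * vM l i j) ≤ ∑ i, G (fun j => u j * vM l i j) :=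
    Finset.sum_le_sum fun i _ => h _ fun j => mul_nonneg (hu j) (vM_nonneg hl0 hl1 i j)
  have h3 := mul_le_mul_of_nonneg_left (h u hu) (by linarith only [hev] : 0 ≤ 1 - e - v)
  have h4 := mul_le_mul_of_nonneg_left (div_le_div_of_nonneg_right h1 (by norm_num : (0:ℝ) ≤ 3)) he
  have h5 := mul_le_mul_of_nonneg_left (div_le_div_of_nonneg_right h2 (by norm_num : (0:ℝ) ≤ 3)) hv
  linarith

theorem opT_iter_mono (hl0 : 0 ≤ l) (hl1 : l ≤ 1 / 2) (he : 0 ≤ e) (hv : 0 ≤ v)
    (hev : e + v ≤ 1) (k : ℕ) : ∀ {F G : (Fin 3 → ℝ) → ℝ},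
    (∀ u : Fin 3 → ℝ, (∀ i, 0 ≤ u i) → F u ≤ G u) →
    ∀ u : Fin 3 → ℝ, (∀ i, 0 ≤ u i) → ((opT l e v)^[k] F) u ≤ ((opT l e v)^[k] G) u := by
  induction k with
  | zero => intro F G h u hu; exact h u hu
  | succ k ih =>
    intro F G h u hu
    rw [Function.iterate_succ_apply, Function.iterate_succ_apply]
    exact ih (opT_mono hl0 hl1 he hv hev h) u hu

/-- Jensen for one message -/
theorem le_opT (hl0 : 0 ≤ l) (hl1 : l ≤ 1 / 2) (he : 0 ≤ e) (hv : 0 ≤ v)
    {F : (Fin 3 → ℝ) → ℝ}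
    (hsub : ∀ u w : Fin 3 → ℝ, (∀ i, 0 ≤ u i) → (∀ i, 0 ≤ w i) →
      F (fun i => u i + w i) ≤ F u + F w)
    (hhom : ∀ (c : ℝ) (u : Fin 3 → ℝ), F (fun i => c * u i) = c * F u)
    (u : Fin 3 → ℝ) (hu : ∀ i, 0 ≤ u i) : F u ≤ opT l e v F u := by
  have gen : ∀ m : Fin 3 → Fin 3 → ℝ, (∀ i j, 0 ≤ m i j) → (∀ j, m 0 j + m 1 j + m 2 j = 3) →
      F u ≤ (∑ i, F (fun j => u j * m i j)) / 3 := by
    intro m hm hs
    have h1 := hsub (fun j => u j * m 0 j) (fun j => u j * m 1 j)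
      (fun j => mul_nonneg (hu j) (hm 0 j)) (fun j => mul_nonneg (hu j) (hm 1 j))
    have h2 := hsub (fun j => u j * m 0 j + u j * m 1 j) (fun j => u j * m 2 j)
      (fun j => add_nonneg (mul_nonneg (hu j) (hm 0 j)) (mul_nonneg (hu j) (hm 1 j)))
      (fun j => mul_nonneg (hu j) (hm 2 j))
    have h3 : (fun j => u j * m 0 j + u j * m 1 j + u j * m 2 j) = fun j => 3 * u j := by
      funext j
      have := hs j
      rw [← mul_add, ← mul_add, this]
      ring
    simp only [h3] at h2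
    rw [hhom] at h2
    rw [Fin.sum_univ_three]
    linarith
  have hE := gen (eM l) (fun i j => (eM_pos hl0 hl1 i j).le) (fun j => by
    fin_cases j <;> simp [eM] <;> ring)
  have hV := gen (vM l) (vM_nonneg hl0 hl1) (fun j => by
    fin_cases j <;> simp [vM] <;> ring)
  have h1 := mul_le_mul_of_nonneg_left hE he
  have h2 := mul_le_mul_of_nonneg_left hV hv
  unfold opT
  linarith

theorem opT_iter_succ (hl0 : 0 ≤ l) (hl1 : l ≤ 1 / 2) (he : 0 ≤ e) (hv : 0 ≤ v)
    (hev : e + v ≤ 1) {F : (Fin 3 → ℝ) → ℝ}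
    (hsub : ∀ u w : Fin 3 → ℝ, (∀ i, 0 ≤ u i) → (∀ i, 0 ≤ w i) →
      F (fun i => u i + w i) ≤ F u + F w)
    (hhom : ∀ (c : ℝ) (u : Fin 3 → ℝ), F (fun i => c * u i) = c * F u) :
    Monotone fun k : ℕ => ((opT l e v)^[k] F) (fun _ => 1) := by
  refine monotone_nat_of_le_succ fun k => ?_
  rw [Function.iterate_succ_apply]
  exact opT_iter_mono hl0 hl1 he hv hev k (le_opT hl0 hl1 he hv hsub hhom) _
    fun _ => zero_le_one

end

theorem tsum_poisson_mono {h : ℕ → ℝ} (hm : Monotone h) {C : ℝ} (hC : ∀ j, |h j| ≤ C) {D D' : ℝ}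
    (hD : 0 ≤ D) (hDD : D ≤ D') :
    ∑' k, poissonOffspring D k * h k ≤ ∑' k, poissonOffspring D' k * h k := by
  have h0 : 0 ≤ D' - D := by linarith
  have h1 := Pois.avgP_avgP D (D' - D) hC 0
  have e : D + (D' - D) = D' := by ring
  rw [e] at h1
  have h2 : ∀ j, h j ≤ Pois.avgP (D' - D) h j := by
    intro j
    unfold Pois.avgP
    have h3 : h j = ∑' n, poissonOffspring (D' - D) n * h j := by
      rw [tsum_mul_right, Pois.tsum_poisson, one_mul]
    conv_lhs => rw [h3]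
    refine Summable.tsum_le_tsum (fun n => ?_) ((Pois.summable_poisson' _).mul_right _)
      (Pois.summable_poisson _ hC j)
    exact mul_le_mul_of_nonneg_left (hm (Nat.le_add_right j n)) (Pois.poisson_nonneg h0 n)
  have hb := Pois.avgP_bdd h0 hC
  have h4 : Pois.avgP D h 0 ≤ Pois.avgP D (Pois.avgP (D' - D) h) 0 := by
    unfold Pois.avgP
    refine Summable.tsum_le_tsum (fun n => ?_) (Pois.summable_poisson _ hC 0)
      (Pois.summable_poisson _ hb 0)
    exact mul_le_mul_of_nonneg_left (h2 _) (Pois.poisson_nonneg hD n)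
  rw [h1] at h4
  unfold Pois.avgP at h4
  simpa only [ge_iff_le, zero_add] using h4

theorem tsum_stepTerm_poisson_mono {l e v ε C : ℝ} (hl0 : 0 ≤ l) (hl1 : l ≤ 1 / 2) (hε : 0 ≤ ε)
    (he : 0 ≤ e) (hv : 0 ≤ v) (hev : e + v ≤ 1) {F : (Fin 3 → ℝ) → ℝ}
    (hF0 : ∀ v : Fin 3 → ℝ, (∀ i, 0 ≤ v i) → 0 ≤ F v) (hFC : HomBdd F C)
    (hsub : ∀ u w : Fin 3 → ℝ, (∀ i, 0 ≤ u i) → (∀ i, 0 ≤ w i) →
      F (fun i => u i + w i) ≤ F u + F w)
    (hhom : ∀ (c : ℝ) (u : Fin 3 → ℝ), F (fun i => c * u i) = c * F u) {D D' : ℝ}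
    (hD : 0 ≤ D) (hDD : D ≤ D') :
    ∑' k, stepTerm (poissonOffspring D) l ε F e v k
      ≤ ∑' k, stepTerm (poissonOffspring D') l ε F e v k := by
  have hb : ∀ k, |((opT l e v)^[k] F) (fun _ => 1)| ≤ C := by
    intro k
    rw [← clos_eq_op, abs_of_nonneg (clos_nonneg hl0 hl1 he hv hev hF0 k)]
    exact clos_le hl0 hl1 he hv hev hFC k
  have key : ∀ D : ℝ, ∑' k, stepTerm (poissonOffspring D) l ε F e v k
      = ∑' k, poissonOffspring D k * ((opT l e v)^[k] F) (fun _ => 1) + ε * e * D := by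
    intro D
    have s1 : Summable fun k => poissonOffspring D k * ((opT l e v)^[k] F) (fun _ => 1) := by
      have := Pois.summable_poisson D hb 0
      simpa using this
    have s2 : HasSum (fun k : ℕ => ε * e * (poissonOffspring D k * k)) (ε * e * D) :=
      (poisson_mean_hasSum D).mul_left _
    have e1 : ∀ k : ℕ, stepTerm (poissonOffspring D) l ε F e v k
        = poissonOffspring D k * ((opT l e v)^[k] F) (fun _ => 1)
          + ε * e * (poissonOffspring D k * k) := by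
      intro k; unfold stepTerm; ring
    simp_rw [e1]
    rw [s1.tsum_add s2.summable, s2.tsum_eq]
  rw [key, key]
  have h1 := tsum_poisson_mono (opT_iter_succ hl0 hl1 he hv hev hsub hhom) hb hD hDD
  have h2 : ε * e * D ≤ ε * e * D' := mul_le_mul_of_nonneg_left hDD (mul_nonneg hε he)
  linarith only [h1, h2]

/-- the arithmetic of the scaling -/
theorem af_arith {x y r : ℝ} (hx0 : 0 < x) (hyx : y ≤ x) (hxy : -x / 2 ≤ y)
    (hxy1 : 3 * x - 2 * y ≤ 1) (hr0 : 0 < r) (hr1 : r ≤ 1) :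
    r * y ≤ x ∧ -x / 2 ≤ r * y ∧ (0 ≤ r * y ∨ 3 * x - 2 * (r * y) ≤ 1) ∧
      0 ≤ 8 / 3 * (r ^ 2 * x - r ^ 3 * y) ∧ 0 ≤ (r ^ 2 * x + 2 * (r ^ 3 * y)) / 3 ∧
      8 / 3 * (r ^ 2 * x - r ^ 3 * y) + (r ^ 2 * x + 2 * (r ^ 3 * y)) / 3 ≤ 1 := by
  have hYx : r * y ≤ x := by
    rcases le_total 0 y with h | h
    · nlinarith only [hx0, hyx, hr0, hr1]
    · nlinarith only [hx0, hyx, hr0, hr1]
  have hxY : -x / 2 ≤ r * y := by
    rcases le_total 0 y with h | h
    · nlinarith only [mul_nonneg hr0.le h, hx0, hr0, h]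
    · nlinarith only [hx0, hxy, hr0, hr1]
  refine ⟨hYx, hxY, ?_, ?_, ?_, ?_⟩
  · rcases le_total 0 y with h | h
    · left; exact mul_nonneg hr0.le h
    · right
      nlinarith only [hxy1, hr1, h]
  · have : r ^ 2 * x - r ^ 3 * y = r ^ 2 * (x - r * y) := by ring
    rw [this]
    exact mul_nonneg (by norm_num) (mul_nonneg (sq_nonneg r) (by linarith only [hYx]))
  · have : r ^ 2 * x + 2 * (r ^ 3 * y) = r ^ 2 * (x + 2 * (r * y)) := by ring
    rw [this]
    exact div_nonneg (mul_nonneg (sq_nonneg r) (by linarith only [hxY])) (by norm_num)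
  · have e1 : 3 * x - 2 * y - (8 / 3 * (r ^ 2 * x - r ^ 3 * y) + (r ^ 2 * x + 2 * (r ^ 3 * y)) / 3)
        = (1 - r) * (x * (1 - r) * (1 + 2 * r) + 2 * (x - y) * (1 + r + r ^ 2)) := by ring
    have e2 : 0 ≤ (1 - r) * (x * (1 - r) * (1 + 2 * r) + 2 * (x - y) * (1 + r + r ^ 2)) := by
      have a0 : 0 ≤ 1 - r := by linarith only [hr1]
      have a1 : 0 ≤ x - y := by linarith only [hyx]
      have a2 : 0 ≤ x := hx0.le
      (clear * - hx0 hyx hr0 hr1; positivity)
    linarith only [hxy1, e2]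

/-- monotonicity in the mean for the functional `hphi g` -/
theorem tsum_hphi_mono {g e v D D' : ℝ} (hg0 : 0 ≤ g) (hg1 : g ≤ 1 / 5) (he : 0 ≤ e) (hv : 0 ≤ v)
    (hev : e + v ≤ 1) (hD : 0 ≤ D) (hDD : D ≤ D') :
    ∑' k, stepTerm (poissonOffspring D) (1 / 2) (g / 1000) (hphi g) e v k
      ≤ ∑' k, stepTerm (poissonOffspring D') (1 / 2) (g / 1000) (hphi g) e v k := by
  have hg2 : g ≤ 1 := by linarith only [hg1]
  have hg3 : g ≤ 1 / 3 := by linarith
  have hε : 0 ≤ g / 1000 := div_nonneg hg0 (by norm_num)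
  have h12 : (0 : ℝ) ≤ 1 / 2 := by norm_num
  exact tsum_stepTerm_poisson_mono (l := 1 / 2) (ε := g / 1000) (F := hphi g)
    h12 le_rfl hε he hv hev
    (fun v hv => hphi_nonneg hg0 hg2 hv) (hphi_homBdd g)
    (fun u w hu hw => hphi_subadd hg0 hg3 hu hw) (fun c u => hphi_smul g c u) hD hDD

/-- the limit law at one offspring mean -/
theorem af_poisson_aux {D lam : ℝ} (hD : 0 ≤ D) (h1 : -1 / 2 ≤ lam) (h2 : lam < 0)
    (hrec : ¬ Nonreconstruction (poissonOffspring D) 3 lam) :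
    ∃ x y : ℝ, 0 < x ∧ x ≤ 1 ∧ y ≤ x ∧ -x / 2 ≤ y ∧ 3 * x - 2 * y ≤ 1 ∧
      ∀ g : ℝ, 0 ≤ g → g ≤ 1 / 5 → x + g * y ≤ ∑' k, stepTerm (poissonOffspring D) (1 / 2)
      (g / 1000) (hphi g) (8 / 3 * ((-2 * lam) ^ 2 * x - (-2 * lam) ^ 3 * y))
        (((-2 * lam) ^ 2 * x + 2 * ((-2 * lam) ^ 3 * y)) / 3) k := by
  have hr0 : 0 ≤ -2 * lam := by linarith only [h2]
  have hr1 : -2 * lam ≤ 1 := by linarith
  have hlam : lam = -(1 / 2) * (-2 * lam) := by ring
  have hsm : Summable fun k : ℕ => poissonOffspring D k * k := (poisson_mean_hasSum D).summable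
  have h12 : (0 : ℝ) ≤ 1 / 2 := by norm_num
  have main := fun g (hg0 : (0:ℝ) ≤ g) (hg1 : g ≤ 1 / 5) =>
    af_limit (l := 1 / 2) (ε := g / 1000) (g := g) (r := -2 * lam) h12 le_rfl hr0 hr1
      (div_nonneg hg0 (by norm_num)) hg0 (hg1.trans (by norm_num)) hlam (poisson_nonneg hD)
      (poisson_hasSum D) hsm Cmp3.cmp_half_zero (cmp_half hg0 hg1) hrec
  obtain ⟨x, y, hx, hy, hx0, hx1, hyx, hxy, hxy1, hA, _⟩ := main 0 le_rfl (by norm_num)
  refine ⟨x, y, hx0, hx1, hyx, hxy, hxy1, ?_⟩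
  intro g hg0 hg1
  obtain ⟨x', y', hx', hy', _, _, _, _, _, _, hB⟩ := main g hg0 hg1
  rw [← hx] at hx'
  rw [← hy] at hy'
  rwa [hx', hy'] at hB

/-- **The Poisson trees with `D * lam ^ 2 ≤ 1`, closed inequalities at `D' = 1 / lam ^ 2`.**
The case `g = 0` of the last item is the one for `hR = hphi 0`. -/
theorem af_poisson {D lam : ℝ} (hD : 0 ≤ D) (h1 : -1 / 2 ≤ lam) (h2 : lam < 0)
    (hks : D * lam ^ 2 ≤ 1) (hrec : ¬ Nonreconstruction (poissonOffspring D) 3 lam) :
    ∃ x Y : ℝ, 0 < x ∧ x ≤ 1 ∧ Y ≤ x ∧ -x / 2 ≤ Y ∧ (0 ≤ Y ∨ 3 * x - 2 * Y ≤ 1) ∧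
      0 ≤ 32 / 3 * (x - Y) / (1 / lam ^ 2) ∧ 0 ≤ 4 / 3 * (x + 2 * Y) / (1 / lam ^ 2) ∧
      32 / 3 * (x - Y) / (1 / lam ^ 2) + 4 / 3 * (x + 2 * Y) / (1 / lam ^ 2) ≤ 1 ∧
      x ≤ ∑' k, stepTerm (poissonOffspring (1 / lam ^ 2)) (1 / 2) 0 hR
        (32 / 3 * (x - Y) / (1 / lam ^ 2)) (4 / 3 * (x + 2 * Y) / (1 / lam ^ 2)) k ∧
      (∀ g : ℝ, 0 ≤ g → g ≤ 1 / 5 → 0 ≤ Y →
        x + g * Y ≤ ∑' k, stepTerm (poissonOffspring (1 / lam ^ 2)) (1 / 2) (g / 1000) (hphi g)
          (32 / 3 * (x - Y) / (1 / lam ^ 2)) (4 / 3 * (x + 2 * Y) / (1 / lam ^ 2)) k) := by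
  have hl2 : 0 < lam ^ 2 := by nlinarith only [h2]
  have hDD : D ≤ 1 / lam ^ 2 := by rw [le_div_iff₀ hl2]; exact hks
  obtain ⟨x, y, hx0, hx1, hyx, hxy, hxy1, hB⟩ := af_poisson_aux hD h1 h2 hrec
  obtain ⟨r, hr⟩ : ∃ r, r = -2 * lam := ⟨_, rfl⟩
  have hrpos : 0 < r := by rw [hr]; linarith only [h2]
  have hr1 : r ≤ 1 := by rw [hr]; linarith only [h1]
  rw [← hr] at hB
  have hlr : lam ^ 2 = r ^ 2 / 4 := by rw [hr]; ring
  have eE : 32 / 3 * (x - r * y) / (1 / lam ^ 2) = 8 / 3 * (r ^ 2 * x - r ^ 3 * y) := by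
    rw [div_div_eq_mul_div, div_one, hlr]; ring
  have eV : 4 / 3 * (x + 2 * (r * y)) / (1 / lam ^ 2) = (r ^ 2 * x + 2 * (r ^ 3 * y)) / 3 := by
    rw [div_div_eq_mul_div, div_one, hlr]; ring
  obtain ⟨hYx, hxY, hY01, he0, hv0, hev⟩ := af_arith hx0 hyx hxy hxy1 hrpos hr1
  refine ⟨x, r * y, hx0, hx1, hYx, hxY, hY01, ?_, ?_, ?_, ?_, ?_⟩
  · rw [eE]; exact he0
  · rw [eV]; exact hv0
  · rw [eE, eV]; exact hev
  · rw [eE, eV]
    have e0 := hB 0 le_rfl (by norm_num)
    have e1 := tsum_hphi_mono (g := 0) le_rfl (by norm_num) he0 hv0 hev hD hDD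
    rw [zero_mul, add_zero] at e0
    have e2 := e0.trans e1
    rw [hphi_zero_eq, zero_div] at e2
    exact e2
  · intro g hg0 hg1 hY
    rw [eE, eV]
    have hy0 : 0 ≤ y := by
      by_contra h
      push Not at h
      have := mul_pos_of_neg_of_neg (by linarith only [h2, hr] : -r < 0) h
      linarith only [hY, this]
    have e0 : x + g * (r * y) ≤ x + g * y := by
      have h3 : r * y ≤ 1 * y := mul_le_mul_of_nonneg_right hr1 hy0
      rw [one_mul] at h3
      have := mul_le_mul_of_nonneg_left h3 hg0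
      linarith only [this]
    exact e0.trans ((hB g hg0 hg1).trans (tsum_hphi_mono hg0 hg1 he0 hv0 hev hD hDD))

end Vale.Agent.P154
end

section

/-!
# P154: the closed recursion for Poisson offspring at base strength `1/2`

`pois_step_eq`: the sum of `stepTerm` over a Poisson number of messages in terms of the three
sequences `s3, s2, sP`.  `pois_step_le`: the Poisson number of edge messages is replaced by a
binomial number, at the price of the second differences of `hX` and `hP`.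
-/

open scoped BigOperators
open Finset

namespace Vale.Agent.P154

/-! ### Positivity and mass of the averages -/

/-- nonnegativity on the positive cone -/
def Nn (F : Fun3) : Prop := ∀ u : Fin 3 → ℝ, (∀ i, 0 ≤ u i) → 0 ≤ F u

theorem eM_half_nonneg_bd880 (i j : Fin 3) : 0 ≤ eM (1 / 2) i j := by
  unfold eM; split_ifs <;> norm_num

theorem vM_half_nonneg_bd881 (i j : Fin 3) : 0 ≤ vM (1 / 2) i j := by
  unfold vM; split_ifs <;> norm_num

theorem Nn.opE {F : Fun3} (h : Nn F) : Nn (Vale.Agent.P154.opE F) := by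
  intro u hu
  rw [opE_apply]
  refine div_nonneg (sum_nonneg fun i _ => h _ fun j => ?_) (by norm_num)
  exact mul_nonneg (hu j) (eM_half_nonneg_bd880 i j)

theorem Nn.opV {F : Fun3} (h : Nn F) : Nn (Vale.Agent.P154.opV F) := by
  intro u hu
  rw [opV_apply]
  refine div_nonneg (sum_nonneg fun i _ => h _ fun j => ?_) (by norm_num)
  exact mul_nonneg (hu j) (vM_half_nonneg_bd881 i j)

theorem Nn.opE_pow {F : Fun3} (h : Nn F) (n : ℕ) : Nn ((Vale.Agent.P154.opE ^ n) F) := by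
  induction n with
  | zero => simpa using h
  | succ n ih => rw [pow_succ', Module.End.mul_apply]; exact ih.opE

theorem opE_mean : opE (mean : Fun3) = mean := by
  funext u
  rw [opE_apply]
  simp only [mean, eM, Fin.sum_univ_three]
  simp only [Fin.isValue, ↓reduceIte, one_div, one_ne_zero, Fin.reduceEq, Nat.cast_ofNat,
    zero_ne_one, ne_eq, OfNat.ofNat_ne_zero, not_false_eq_true, div_left_inj']
  ring

theorem opV_mean : opV (mean : Fun3) = mean := by
  funext u
  rw [opV_apply]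
  simp only [mean, vM, Fin.sum_univ_three]
  simp only [Fin.isValue, ↓reduceIte, one_div, ne_eq, OfNat.ofNat_ne_zero, not_false_eq_true,
    mul_inv_cancel₀, sub_self, mul_zero, one_ne_zero, zero_add, Fin.reduceEq, Nat.cast_ofNat,
    zero_ne_one, add_zero, div_left_inj']
  ring

theorem opE_pow_mean (n : ℕ) : (opE ^ n) (mean : Fun3) = mean := by
  induction n with
  | zero => simp
  | succ n ih => rw [pow_succ', Module.End.mul_apply, ih, opE_mean]

theorem mean_one3 : (mean : Fun3) (fun _ => 1) = 1 := by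
  unfold mean; simp

theorem hX_Nn : Nn hX := by
  intro u hu
  unfold hX
  have h0 := hu 0; have h1 := hu 1; have h2 := hu 2
  positivity

theorem hP_Nn : Nn hP := by
  intro u hu
  unfold hP
  have h0 := hu 0; have h1 := hu 1; have h2 := hu 2
  positivity

theorem mean_sub_hX_Nn : Nn (mean - hX) := by
  intro u hu
  have h0 := hu 0; have h1 := hu 1; have h2 := hu 2
  rw [Pi.sub_apply]
  rcases eq_or_ne (u 0 + u 1 + u 2) 0 with hs | hs
  · unfold hX mean
    rw [hs, div_zero, Fin.sum_univ_three]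
    norm_num
    linarith
  · have hs' : 0 < u 0 + u 1 + u 2 := lt_of_le_of_ne (by positivity) (Ne.symm hs)
    have e : (mean : Fun3) u - hX u
        = ((u 0 - u 1) ^ 2 + (u 1 - u 2) ^ 2 + (u 2 - u 0) ^ 2) / (6 * (u 0 + u 1 + u 2)) := by
      unfold hX mean
      rw [Fin.sum_univ_three]
      field_simp
      ring
    rw [e]
    (clear * - h0 h1 h2 hs; positivity)

theorem mean_sub_hP_Nn : Nn (mean - hP) := by
  intro u hu
  have h0 := hu 0; have h1 := hu 1; have h2 := hu 2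
  rw [Pi.sub_apply]
  rcases eq_or_ne (u 0 + u 1 + u 2) 0 with hs | hs
  · unfold hP mean
    rw [hs, Fin.sum_univ_three]
    norm_num
    linarith only [h0, h1, h2]
  · have hs' : 0 < u 0 + u 1 + u 2 := lt_of_le_of_ne (by positivity) (Ne.symm hs)
    have e : (mean : Fun3) u - hP u
        = ((u 0 + u 1 + u 2) ^ 3 - 27 * (u 0 * u 1 * u 2)) / (3 * (u 0 + u 1 + u 2) ^ 2) := by
      unfold hP mean
      rw [Fin.sum_univ_three]
      field_simp
      ring
    rw [e]
    have h3 : 0 ≤ (u 0 + u 1 + u 2) ^ 3 - 27 * (u 0 * u 1 * u 2) := by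
      have a1 := mul_nonneg h0 (sq_nonneg (u 1 - u 2))
      have a2 := mul_nonneg h1 (sq_nonneg (u 0 - u 2))
      have a3 := mul_nonneg h2 (sq_nonneg (u 0 - u 1))
      have a4 := mul_nonneg (add_nonneg (add_nonneg h0 h1) h2) (add_nonneg (add_nonneg
        (sq_nonneg (u 0 - u 1)) (sq_nonneg (u 1 - u 2))) (sq_nonneg (u 2 - u 0)))
      linarith only [a1, a2, a3, a4]
    positivity

theorem s3_nonneg (j : ℕ) : 0 ≤ s3 j := (hX_Nn.opE_pow j) _ fun _ => zero_le_one

theorem s3_le_one (j : ℕ) : s3 j ≤ 1 := by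
  have h := (mean_sub_hX_Nn.opE_pow j) (fun _ => 1) fun _ => zero_le_one
  rw [map_sub, Pi.sub_apply, opE_pow_mean, mean_one3] at h
  unfold s3
  linarith

theorem s2_nonneg (j : ℕ) : 0 ≤ s2 j := by
  unfold s2
  exact mul_nonneg (by norm_num) ((hX_Nn.opV.opE_pow j) _ fun _ => zero_le_one)

theorem s2_le_two (j : ℕ) : s2 j ≤ 2 := by
  have h := (mean_sub_hX_Nn.opV.opE_pow j) (fun _ => 1) fun _ => zero_le_one
  rw [map_sub, opV_mean, map_sub, Pi.sub_apply, opE_pow_mean, mean_one3] at h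
  unfold s2
  linarith

theorem sP_nonneg (j : ℕ) : 0 ≤ sP j := (hP_Nn.opE_pow j) _ fun _ => zero_le_one

theorem sP_le_one (j : ℕ) : sP j ≤ 1 := by
  have h := (mean_sub_hP_Nn.opE_pow j) (fun _ => 1) fun _ => zero_le_one
  rw [map_sub, Pi.sub_apply, opE_pow_mean, mean_one3] at h
  unfold sP
  linarith

/-! ### Second differences -/

/-- lower bound for the second difference of `hX` in the number of edge messages -/
def SecX (K : ℝ) : Prop := ∀ u : Fin 3 → ℝ, (∀ i, 0 ≤ u i) →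
  -(K * mean u) ≤ opE (opE hX) u - 2 * opE hX u + hX u

/-- upper bound for the second difference of `hP` in the number of edge messages -/
def SecP (K : ℝ) : Prop := ∀ u : Fin 3 → ℝ, (∀ i, 0 ≤ u i) →
  opE (opE hP) u - 2 * opE hP u + hP u ≤ K * mean u

theorem sec_nn {F : Fun3} {K : ℝ}
    (h : Nn (opE (opE F) - (2 : ℝ) • opE F + F + K • (mean : Fun3))) (j : ℕ) :
    -K ≤ ((opE ^ (j + 2)) F) (fun _ => 1) - 2 * ((opE ^ (j + 1)) F) (fun _ => 1)
      + ((opE ^ j) F) (fun _ => 1) := by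
  have h1 := (h.opE_pow j) (fun _ => 1) fun _ => zero_le_one
  rw [map_add, map_add, map_sub, map_smul, map_smul, opE_pow_mean] at h1
  simp only [Pi.add_apply, Pi.sub_apply, Pi.smul_apply, smul_eq_mul, mean_one3, mul_one] at h1
  have e1 : (opE ^ (j + 1)) F = (opE ^ j) (opE F) := by
    rw [pow_succ, Module.End.mul_apply]
  have e2 : (opE ^ (j + 2)) F = (opE ^ j) (opE (opE F)) := by
    rw [pow_succ, pow_succ, Module.End.mul_apply, Module.End.mul_apply]
  rw [e1, e2]
  linarith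

theorem SecX.nn {K : ℝ} (h : SecX K) :
    Nn (opE (opE hX) - (2 : ℝ) • opE hX + hX + K • (mean : Fun3)) := by
  intro u hu
  have := h u hu
  simp only [Pi.add_apply, Pi.sub_apply, Pi.smul_apply, smul_eq_mul]
  linarith

theorem SecX.s3 {K : ℝ} (h : SecX K) (j : ℕ) :
    -K ≤ Vale.Agent.P154.s3 (j + 2) - 2 * Vale.Agent.P154.s3 (j + 1) + Vale.Agent.P154.s3 j :=
  sec_nn h.nn j

theorem SecX.s2 {K : ℝ} (h : SecX K) (j : ℕ) :
    -(2 * K) ≤ Vale.Agent.P154.s2 (j + 2) - 2 * Vale.Agent.P154.s2 (j + 1)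
      + Vale.Agent.P154.s2 j := by
  have h1 := h.nn.opV
  have e : opV (opE (opE hX) - (2 : ℝ) • opE hX + hX + K • (mean : Fun3))
      = opE (opE (opV hX)) - (2 : ℝ) • opE (opV hX) + opV hX + K • (mean : Fun3) := by
    have c1 : ∀ F, opV (opE F) = opE (opV F) := fun F => by
      rw [← Module.End.mul_apply, ← Module.End.mul_apply, opE_comm_opV.eq]
    rw [map_add, map_add, map_sub, map_smul, map_smul, opV_mean, c1, c1]
  rw [e] at h1
  have h2 := sec_nn h1 j
  unfold Vale.Agent.P154.s2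
  linarith

theorem SecP.sP {K : ℝ} (h : SecP K) (j : ℕ) :
    Vale.Agent.P154.sP (j + 2) - 2 * Vale.Agent.P154.sP (j + 1) + Vale.Agent.P154.sP j ≤ K := by
  have h1 : Nn (opE (opE (-hP)) - (2 : ℝ) • opE (-hP) + (-hP) + K • (mean : Fun3)) := by
    intro u hu
    have := h u hu
    simp only [map_neg, Pi.add_apply, Pi.sub_apply, Pi.smul_apply, Pi.neg_apply, smul_eq_mul]
    linarith
  have h2 := sec_nn h1 j
  simp only [map_neg, Pi.neg_apply] at h2
  unfold Vale.Agent.P154.sP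
  linarith

/-! ### Poisson sums -/

theorem hasSum_pois_bin {D e q : ℝ} (hD : 0 ≤ D) (he : 0 ≤ e) (hq : 0 ≤ q) (heq : e + q ≤ 1)
    {f : ℕ → ℝ} {C : ℝ} (hf : ∀ j, |f j| ≤ C) :
    HasSum (fun k => poissonOffspring D k
        * ∑ j ∈ range (k + 1), ((k.choose j : ℕ) : ℝ) * e ^ j * q ^ (k - j) * f j)
      (Real.exp (-(D * (1 - e - q))) * ∑' j, poissonOffspring (D * e) j * f j) := by
  have hC : 0 ≤ C := (abs_nonneg _).trans (hf 0)
  rw [← Pois.pois_bin_sum D e q hf]
  refine Summable.hasSum (Summable.of_norm_bounded (g := fun k => poissonOffspring D k * C)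
    ((Pois.summable_poisson' D).mul_right C) fun k => ?_)
  rw [norm_mul, Real.norm_eq_abs, Real.norm_eq_abs, abs_of_nonneg (Pois.poisson_nonneg hD k)]
  refine mul_le_mul_of_nonneg_left ?_ (Pois.poisson_nonneg hD k)
  refine (abs_sum_le_sum_abs _ _).trans ?_
  have h1 : ∀ j ∈ range (k + 1), |((k.choose j : ℕ) : ℝ) * e ^ j * q ^ (k - j) * f j|
      ≤ (e ^ j * q ^ (k - j) * ((k.choose j : ℕ) : ℝ)) * C := by
    intro j _
    have hnn : 0 ≤ ((k.choose j : ℕ) : ℝ) * e ^ j * q ^ (k - j) := by (clear * - he hq; positivity)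
    rw [abs_mul, abs_of_nonneg hnn]
    refine (mul_le_mul_of_nonneg_left (hf j) hnn).trans (le_of_eq ?_)
    ring
  refine (sum_le_sum h1).trans ?_
  rw [← sum_mul, ← add_pow]
  have h2 : (e + q) ^ k ≤ 1 := pow_le_one₀ (add_nonneg he hq) heq
  have h3 := mul_le_mul_of_nonneg_right h2 hC
  linarith

/-- the value at the origin of one step, linear in the functional -/
theorem iter_hphi_bd882 (g e v : ℝ) (k : ℕ) :
    ((opT (1 / 2) e v)^[k] (hphi g)) (fun _ => 1)
      = (1 + g) - (1 + 3 / 2 * g) * ((opT (1 / 2) e v)^[k] hX) (fun _ => 1)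
        + g / 2 * ((opT (1 / 2) e v)^[k] hP) (fun _ => 1) := by
  have hm : (opL e v ^ k) (mean : Fun3) = mean := by
    induction k with
    | zero => simp
    | succ k ih =>
      rw [pow_succ', Module.End.mul_apply, ih]
      unfold opL
      rw [LinearMap.add_apply, LinearMap.add_apply, LinearMap.smul_apply, LinearMap.smul_apply,
        LinearMap.smul_apply, Module.End.one_apply, opE_mean, opV_mean]
      funext u
      simp only [Pi.add_apply, Pi.smul_apply, smul_eq_mul]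
      ring
  have hd : hphi g = (1 + g) • (mean : Fun3) - (1 + 3 / 2 * g) • hX + (g / 2) • hP := by
    funext u
    simp only [Pi.add_apply, Pi.sub_apply, Pi.smul_apply, smul_eq_mul]
    unfold hphi hR hT
    ring
  rw [← opL_pow, ← opL_pow, ← opL_pow, hd, map_add, map_sub, map_smul, map_smul, map_smul, hm]
  simp only [Pi.add_apply, Pi.sub_apply, Pi.smul_apply, smul_eq_mul, mean_one3]
  ring

/-- weight of `j` edge messages -/
noncomputable def hW (g z : ℝ) (j : ℕ) : ℝ :=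
  (1 + 3 / 2 * g) * (z ^ 2 * s3 j + (z - z ^ 2) * s2 j) - g / 2 * (z ^ 2 * sP j)

theorem hW_bdd {g z : ℝ} (hg : 0 ≤ g) (hz : 0 ≤ z) (hz1 : z ≤ 1) (j : ℕ) :
    |hW g z j| ≤ 3 * (1 + 3 / 2 * g) + g / 2 := by
  have a1 := s3_nonneg j; have a2 := s3_le_one j
  have b1 := s2_nonneg j; have b2 := s2_le_two j
  have c1 := sP_nonneg j; have c2 := sP_le_one j
  have hz2 : z ^ 2 ≤ 1 := pow_le_one₀ hz hz1
  have hz3 : 0 ≤ z ^ 2 := sq_nonneg z
  have hz4 : 0 ≤ z - z ^ 2 := by
    have h := mul_nonneg hz (by linarith : 0 ≤ 1 - z)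
    linarith
  have hz5 : z - z ^ 2 ≤ 1 := by linarith
  have p1 : 0 ≤ z ^ 2 * s3 j := mul_nonneg hz3 a1
  have p2 : z ^ 2 * s3 j ≤ 1 := mul_le_one₀ hz2 a1 a2
  have p3 : 0 ≤ (z - z ^ 2) * s2 j := mul_nonneg hz4 b1
  have p4 : (z - z ^ 2) * s2 j ≤ 2 := by
    calc (z - z ^ 2) * s2 j ≤ 1 * s2 j := mul_le_mul_of_nonneg_right hz5 b1
      _ ≤ 2 := by linarith
  have p5 : 0 ≤ z ^ 2 * sP j := mul_nonneg hz3 c1
  have p6 : z ^ 2 * sP j ≤ 1 := mul_le_one₀ hz2 c1 c2
  have hg1 : 0 ≤ 1 + 3 / 2 * g := by positivity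
  have hg2 : 0 ≤ g / 2 := by positivity
  have q1 : 0 ≤ (1 + 3 / 2 * g) * (z ^ 2 * s3 j + (z - z ^ 2) * s2 j) :=
    mul_nonneg hg1 (add_nonneg p1 p3)
  have q2 : (1 + 3 / 2 * g) * (z ^ 2 * s3 j + (z - z ^ 2) * s2 j) ≤ (1 + 3 / 2 * g) * 3 :=
    mul_le_mul_of_nonneg_left (by linarith only [p2, p4]) hg1
  have q3 : 0 ≤ g / 2 * (z ^ 2 * sP j) := mul_nonneg hg2 p5
  have q4 : g / 2 * (z ^ 2 * sP j) ≤ g / 2 * 1 := mul_le_mul_of_nonneg_left p6 hg2
  unfold hW
  rw [abs_le]
  constructor <;> linarith only [hg, q1, q4, q2, q3]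

/-- **The Poisson closure in closed form.** -/
theorem pois_step_eq {D e v ε g : ℝ} (hD : 0 ≤ D) (he : 0 ≤ e) (hv : 0 ≤ v)
    (hev : e + v ≤ 1) :
    ∑' k, stepTerm (poissonOffspring D) (1 / 2) ε (hphi g) e v k
      = (1 + g) - ∑' j, poissonOffspring (D * e) j * hW g (Real.exp (-(D * v / 2))) j
        + ε * (D * e) := by
  set z := Real.exp (-(D * v / 2)) with hz
  have hz0 : 0 ≤ z := (Real.exp_pos _).le
  have hz1 : z ≤ 1 := Real.exp_le_one_iff.2 (by have := mul_nonneg hD hv; linarith only [this])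
  have hzz : Real.exp (-(D * v)) = z ^ 2 := by
    rw [hz, sq, ← Real.exp_add]
    congr 1
    ring
  have b1 : ∀ j, |s3 j - s2 j| ≤ 2 := fun j => by
    have a1 := s3_nonneg j; have a2 := s3_le_one j
    have b1 := s2_nonneg j; have b2 := s2_le_two j
    rw [abs_le]; constructor <;> linarith
  have b2 : ∀ j, |s2 j| ≤ 2 := fun j => by
    rw [abs_of_nonneg (s2_nonneg j)]; exact s2_le_two j
  have b3 : ∀ j, |sP j| ≤ 1 := fun j => by
    rw [abs_of_nonneg (sP_nonneg j)]; exact sP_le_one j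
  have hq : 0 ≤ 1 - e - v := by linarith
  have hq2 : 0 ≤ 1 - e - v / 2 := by linarith
  have h1 := hasSum_pois_bin hD he hq (by linarith only [hv]) b1
  have h2 := hasSum_pois_bin hD he hq2 (by linarith only [hv]) b2
  have h3 := hasSum_pois_bin hD he hq (by linarith only [hv]) b3
  have e1 : 1 - e - (1 - e - v) = v := by ring
  have e2 : D * (1 - e - (1 - e - v / 2)) = D * v / 2 := by ring
  rw [e1, hzz] at h1 h3
  rw [e2, ← hz] at h2
  have hX1 : HasSum (fun k => poissonOffspring D k * ((opT (1 / 2) e v)^[k] hX) (fun _ => 1))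
      (z ^ 2 * ∑' j, poissonOffspring (D * e) j * (s3 j - s2 j)
        + z * ∑' j, poissonOffspring (D * e) j * s2 j) := by
    refine (h1.add h2).congr_fun ?_
    intro k
    rw [iter_hX, ← mul_add, ← sum_add_distrib]
    congr 1
    refine sum_congr rfl fun j _ => ?_
    ring
  have hP1 : HasSum (fun k => poissonOffspring D k * ((opT (1 / 2) e v)^[k] hP) (fun _ => 1))
      (z ^ 2 * ∑' j, poissonOffspring (D * e) j * sP j) := by
    refine h3.congr_fun ?_
    intro k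
    rw [iter_hP]
    congr 1
    refine sum_congr rfl fun j _ => ?_
    ring
  have h0 : HasSum (fun k => poissonOffspring D k * (1 + g)) (1 + g) := by
    have := (Pois.summable_poisson' D).hasSum.mul_right (1 + g)
    rwa [Pois.tsum_poisson, one_mul] at this
  have hn := (Pois.hasSum_poisson_n D).mul_right (ε * e)
  have hall := ((h0.sub (hX1.mul_right (1 + 3 / 2 * g))).add (hP1.mul_right (g / 2))).add hn
  have hfin : HasSum (fun k => stepTerm (poissonOffspring D) (1 / 2) ε (hphi g) e v k)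
      _ := hall.congr_fun fun k => by
    unfold stepTerm
    rw [iter_hphi_bd882]
    ring
  rw [hfin.tsum_eq]
  have s1 : Summable fun j => poissonOffspring (D * e) j * (s3 j - s2 j) := by
    simpa using Pois.summable_poisson (D * e) b1 0
  have s2' : Summable fun j => poissonOffspring (D * e) j * s2 j := by
    simpa using Pois.summable_poisson (D * e) b2 0
  have s3' : Summable fun j => poissonOffspring (D * e) j * sP j := by
    simpa using Pois.summable_poisson (D * e) b3 0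
  have hH : HasSum (fun j => poissonOffspring (D * e) j * hW g z j)
      ((1 + 3 / 2 * g) * (z ^ 2 * ∑' j, poissonOffspring (D * e) j * (s3 j - s2 j)
        + z * ∑' j, poissonOffspring (D * e) j * s2 j)
        - g / 2 * (z ^ 2 * ∑' j, poissonOffspring (D * e) j * sP j)) := by
    refine ((((s1.hasSum.mul_left (z ^ 2)).add (s2'.hasSum.mul_left z)).mul_left
      (1 + 3 / 2 * g)).sub ((s3'.hasSum.mul_left (z ^ 2)).mul_left (g / 2))).congr_fun ?_
    intro j
    unfold hW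
    ring
  rw [hH.tsum_eq]
  ring

/-- **The Poisson closure with a binomial number of edge messages.** -/
theorem pois_step_le {KX KP : ℝ} (hKX : 0 ≤ KX) (hKP : 0 ≤ KP) (hX2 : SecX KX) (hP2 : SecP KP)
    {D e v ε g : ℝ} (hD : 0 ≤ D) (he : 0 ≤ e) (hv : 0 ≤ v) (hev : e + v ≤ 1)
    (hg : 0 ≤ g) {M : ℕ} (hM : 1 ≤ M) (hDM : D * e ≤ M) :
    ∑' k, stepTerm (poissonOffspring D) (1 / 2) ε (hphi g) e v k
      ≤ (1 + g) - ∑ j ∈ range (M + 1), ((M.choose j : ℕ) : ℝ) * (D * e / M) ^ j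
            * (1 - D * e / M) ^ (M - j) * hW g (Real.exp (-(D * v / 2))) j
        + ((1 + 3 / 2 * g) * KX + g / 2 * KP) * (D * e) ^ 2 / (2 * M) + ε * (D * e) := by
  rw [pois_step_eq hD he hv hev]
  set z := Real.exp (-(D * v / 2)) with hz
  have hz0 : 0 ≤ z := (Real.exp_pos _).le
  have hz1 : z ≤ 1 := Real.exp_le_one_iff.2 (by have := mul_nonneg hD hv; linarith only [this])
  have hb := Pois.binom_le_pois (h := hW g z) (C := 3 * (1 + 3 / 2 * g) + g / 2)
    (c := (1 + 3 / 2 * g) * KX + g / 2 * KP) (fun j => hW_bdd hg hz0 hz1 j) (fun j => ?_) hM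
    (mul_nonneg hD he) hDM
  · linarith
  · have h1 := hX2.s3 j
    have h2 := hX2.s2 j
    have h3 := hP2.sP j
    have hz3 : 0 ≤ z ^ 2 := sq_nonneg z
    have hz2 : z ^ 2 ≤ 1 := pow_le_one₀ hz0 hz1
    have hz4 : 0 ≤ z - z ^ 2 := by
      have h := mul_nonneg hz0 (by linarith only [hz1] : 0 ≤ 1 - z)
      linarith only [h]
    have k1 := mul_le_mul_of_nonneg_left h1 hz3
    have k2 := mul_le_mul_of_nonneg_left h2 hz4
    have k3 := mul_le_mul_of_nonneg_left h3 hz3
    have hg1 : 0 ≤ 1 + 3 / 2 * g := by positivity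
    have hg2 : 0 ≤ g / 2 := by positivity
    have k4 := mul_le_mul_of_nonneg_left (add_le_add k1 k2) hg1
    have k5 := mul_le_mul_of_nonneg_left k3 hg2
    have k6 : (1 + 3 / 2 * g) * ((2 * z - z ^ 2) * KX) ≤ (1 + 3 / 2 * g) * (1 * KX) := by
      refine mul_le_mul_of_nonneg_left (mul_le_mul_of_nonneg_right ?_ hKX) hg1
      have h := sq_nonneg (1 - z)
      linarith only [h]
    have k7 : g / 2 * (z ^ 2 * KP) ≤ g / 2 * (1 * KP) :=
      mul_le_mul_of_nonneg_left (mul_le_mul_of_nonneg_right hz2 hKP) hg2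
    unfold hW
    linarith

end Vale.Agent.P154
end

section

/-!
# P154: three spins, Poisson offspring, antiferromagnetic side

`nonrec_poisson_af`: non-reconstruction for `-1/2 ≤ lam < 0` whenever `D * lam ^ 2 ≤ 1`.
-/

open scoped BigOperators
open Finset

namespace Vale.Agent.P154

open Bern

theorem secX : SecX (1 / 250) := by
  intro u hu
  have h := second_P1 u hu
  rw [dE_dE] at h
  linarith

theorem secP : SecP (1 / 20) := by
  intro u hu
  have h := second_P2 u hu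
  rw [dE_dE] at h
  linarith

/-- the truncated logarithm series -/
theorem bLog_le {b : ℝ} (hb : 0 ≤ b) : bLog (1 - Real.exp (-(b / 2))) ≤ b := by
  set w := 1 - Real.exp (-(b / 2)) with hw
  have hz0 : 0 < Real.exp (-(b / 2)) := Real.exp_pos _
  have hz1 : Real.exp (-(b / 2)) ≤ 1 := Real.exp_le_one_iff.2 (by linarith only [hb])
  have hw0 : 0 ≤ w := by rw [hw]; linarith only [hz1]
  have hw1 : w < 1 := by rw [hw]; linarith only [hz0]
  have hs := Real.hasSum_pow_div_log_of_abs_lt_one (x := w) (by rw [abs_of_nonneg hw0]; exact hw1)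
  have hlog : -Real.log (1 - w) = b / 2 := by
    rw [hw]
    have : 1 - (1 - Real.exp (-(b / 2))) = Real.exp (-(b / 2)) := by ring
    rw [this, Real.log_exp]
    ring
  rw [hlog] at hs
  have h1 := sum_le_hasSum (range 6) (fun n _ => by (clear * - hz1; positivity)) hs
  simp only [sum_range_succ, sum_range_zero] at h1
  unfold bLog
  norm_num at h1
  linarith only [h1]

theorem hs_le_hW0 {a z : ℝ} (ha : 0 ≤ a) (ha12 : a ≤ 12) (hz0 : 0 ≤ z) (hz1 : z ≤ 1) :
    dX a (1 - z) / 1000000 ≤ ∑ j ∈ range (12 + 1), ((Nat.choose 12 j : ℕ) : ℝ) * (a / (12 : ℕ)) ^ j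
      * (1 - a / (12 : ℕ)) ^ (12 - j) * (z ^ 2 * s3 j + (z - z ^ 2) * s2 j) := by
  unfold dX hs
  have e1 : 1 - (1 - z) = z := by ring
  rw [e1, mul_sum, mul_sum, ← sum_add_distrib, sum_div]
  refine sum_le_sum fun j hj => ?_
  have hj' : j ≤ 12 := Nat.lt_succ_iff.1 (mem_range.1 hj)
  have h3 := s3_bd hj'
  have h2 := s2_bd hj'
  have hzz : 0 ≤ z - z ^ 2 := by
    have h := mul_nonneg hz0 (by linarith only [hz1] : 0 ≤ 1 - z)
    linarith
  have hz2 : 0 ≤ z ^ 2 := sq_nonneg z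
  have hw : 0 ≤ ((Nat.choose 12 j : ℕ) : ℝ) * (a / 12) ^ j * (1 - a / 12) ^ (12 - j) := by
    have : 0 ≤ 1 - a / 12 := by linarith only [ha12]
    (clear * - ha this; positivity)
  have k1 := mul_le_mul_of_nonneg_left h3 hz2
  have k2 := mul_le_mul_of_nonneg_left h2 hzz
  have k3 := mul_le_mul_of_nonneg_left (add_le_add k1 k2) hw
  push_cast
  linarith only [k3]

theorem hW_ge {a z : ℝ} (ha : 0 ≤ a) (ha12 : a ≤ 12) :
    -(dP a (1 - z) / 1000000) ≤ -∑ j ∈ range (12 + 1), ((Nat.choose 12 j : ℕ) : ℝ)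
      * (a / (12 : ℕ)) ^ j * (1 - a / (12 : ℕ)) ^ (12 - j) * (z ^ 2 * sP j) := by
  unfold dP hs
  have e1 : 1 - (1 - z) = z := by ring
  rw [e1, mul_sum, sum_div, neg_le_neg_iff]
  refine sum_le_sum fun j hj => ?_
  have hj' : j ≤ 12 := Nat.lt_succ_iff.1 (mem_range.1 hj)
  have h3 := sP_bd hj'
  have hz2 : 0 ≤ z ^ 2 := sq_nonneg z
  have hw : 0 ≤ ((Nat.choose 12 j : ℕ) : ℝ) * (a / 12) ^ j * (1 - a / 12) ^ (12 - j) := by
    have : 0 ≤ 1 - a / 12 := by linarith only [ha12]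
    (clear * - ha this; positivity)
  have k1 := mul_le_mul_of_nonneg_left h3 hz2
  have k3 := mul_le_mul_of_nonneg_left k1 hw
  push_cast
  linarith only [k3]

/-- **Poisson offspring, three spins, antiferromagnetic side: non-reconstruction up to and
including the Kesten-Stigum bound.** -/
theorem nonrec_poisson_af {D lam : ℝ} (hD : 0 ≤ D) (h1 : -1 / 2 ≤ lam) (h2 : lam < 0)
    (hks : D * lam ^ 2 ≤ 1) : Nonreconstruction (poissonOffspring D) 3 lam := by
  by_contra hrec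
  obtain ⟨x, Y, hx0, hx1, hYx, hxY, hYc, he0, hv0, hev, hI0, hI1⟩ := af_poisson hD h1 h2 hks hrec
  have hl2 : 0 < lam ^ 2 := by
    have : lam ≠ 0 := h2.ne
    positivity
  obtain ⟨D', hD'⟩ : ∃ D', D' = 1 / lam ^ 2 := ⟨_, rfl⟩
  rw [← hD'] at he0 hv0 hev hI0 hI1
  have hD'0 : 0 < D' := by rw [hD']; (clear * - hl2; positivity)
  obtain ⟨a, ha⟩ : ∃ a, a = 32 / 3 * (x - Y) := ⟨_, rfl⟩
  obtain ⟨b, hb⟩ : ∃ b, b = 4 / 3 * (x + 2 * Y) := ⟨_, rfl⟩
  rw [← ha] at he0
  rw [← hb] at hv0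
  rw [← ha, ← hb] at hev hI0
  simp only [← ha, ← hb] at hI1
  have hx : x = a / 16 + b / 4 := by rw [ha, hb]; ring
  have hY : Y = b / 4 - a / 32 := by rw [ha, hb]; ring
  have ha0 : 0 ≤ a := by rw [ha]; linarith only [hYx]
  have hb0 : 0 ≤ b := by rw [hb]; linarith only [hxY]
  have hDe : D' * (a / D') = a := by (clear * - hD'0; field_simp)
  have hDv : D' * (b / D') = b := by (clear * - hD'0; field_simp)
  have ha12 : a ≤ 12 := by
    rcases hYc with h | h <;> rw [ha] <;> linarith only [h1, h2, hx1, h, hxY]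
  have hb4 : b ≤ 4 := by
    rw [hb]; linarith only [hx1, hYx]
  obtain ⟨z, hz⟩ : ∃ z, z = Real.exp (-(b / 2)) := ⟨_, rfl⟩
  have hz0 : 0 < z := by rw [hz]; exact Real.exp_pos _
  have hz1 : z ≤ 1 := by rw [hz]; exact Real.exp_le_one_iff.2 (by linarith only [hxY, hb])
  have hzl : 1 / 10 ≤ z := by
    have h3 : Real.exp (-2) ≤ z := by rw [hz]; exact Real.exp_le_exp.2 (by linarith only [hx1,
                                                                             hYx, hb])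
    have h4 : Real.exp 2 ≤ 10 := by
      have h5 : Real.exp 2 = Real.exp 1 * Real.exp 1 := by rw [← Real.exp_add]; norm_num
      have h6 := Real.exp_one_lt_d9
      have h7 := Real.exp_pos 1
      rw [h5]
      calc Real.exp 1 * Real.exp 1 ≤ 2.7182818286 * 2.7182818286 :=
            mul_le_mul h6.le h6.le h7.le (by norm_num)
        _ ≤ 10 := by norm_num
    have h8 : 1 / 10 ≤ Real.exp (-2) := by
      rw [Real.exp_neg, ← one_div]
      exact one_div_le_one_div_of_le (Real.exp_pos _) h4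
    linarith only [h3, h8]
  have hbl : bLog (1 - z) ≤ b := by rw [hz]; exact bLog_le hb0
  -- the two inequalities
  have hg0 : ∑' k, stepTerm (poissonOffspring D') (1 / 2) 0 hR (a / D') (b / D') k
      ≤ 1 - dX a (1 - z) / 1000000 + 17 / 40000 * a ^ 2 := by
    have h3 := pois_step_le (by norm_num) (by norm_num) secX secP (ε := 0) (g := 0) hD'0.le he0 hv0
      hev le_rfl (M := 12) (by norm_num) (by rw [hDe]; exact_mod_cast ha12)
    rw [hDe, hDv, ← hz, hphi_zero_eq] at h3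
    have h4 := hs_le_hW0 ha0 ha12 hz0.le hz1
    have h5 : ∀ j, hW 0 z j = z ^ 2 * s3 j + (z - z ^ 2) * s2 j := by
      intro j; unfold hW; ring
    simp only [h5] at h3
    have h6 : ((1 + 3 / 2 * 0) * (1 / 250) + 0 / 2 * (1 / 20)) * a ^ 2 / (2 * ((12 : ℕ) : ℝ))
        ≤ 17 / 40000 * a ^ 2 := by
      have h7 := sq_nonneg a
      push_cast
      linarith only [h7]
    linarith only [h4, h3, h6]
  have hR0 : R0 a (1 - z) ≤ 0 := by
    unfold R0
    linarith only [ha, hI0, hb, hbl, hg0]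
  have hR1 : 0 ≤ Y → R1 a (1 - z) ≤ 0 := by
    intro hY0
    have h2 := hI1 (1 / 5) (by norm_num) (by norm_num) hY0
    have h3 := pois_step_le (by norm_num) (by norm_num) secX secP (ε := 1 / 5 / 1000) (g := 1 / 5)
      hD'0.le he0 hv0 hev (by norm_num) (M := 12) (by norm_num)
      (by rw [hDe]; exact_mod_cast ha12)
    rw [hDe, hDv, ← hz] at h3
    have h4 := hs_le_hW0 ha0 ha12 hz0.le hz1
    have h4' := hW_ge (z := z) ha0 ha12
    have h5 : ∑ j ∈ range (12 + 1), ((Nat.choose 12 j : ℕ) : ℝ) * (a / (12 : ℕ)) ^ j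
          * (1 - a / (12 : ℕ)) ^ (12 - j) * hW (1 / 5) z j
        = 13 / 10 * (∑ j ∈ range (12 + 1), ((Nat.choose 12 j : ℕ) : ℝ) * (a / (12 : ℕ)) ^ j
          * (1 - a / (12 : ℕ)) ^ (12 - j) * (z ^ 2 * s3 j + (z - z ^ 2) * s2 j))
          - 1 / 10 * (∑ j ∈ range (12 + 1), ((Nat.choose 12 j : ℕ) : ℝ)
      * (a / (12 : ℕ)) ^ j * (1 - a / (12 : ℕ)) ^ (12 - j) * (z ^ 2 * sP j)) := by
      rw [mul_sum, mul_sum, ← sum_sub_distrib]
      refine sum_congr rfl fun j _ => ?_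
      unfold hW
      ring
    rw [h5] at h3
    have h6 : ((1 + 3 / 2 * (1 / 5)) * (1 / 250) + 1 / 5 / 2 * (1 / 20)) * a ^ 2
        / (2 * ((12 : ℕ) : ℝ)) = 17 / 40000 * a ^ 2 := by
      push_cast
      ring
    rw [h6] at h3
    unfold R1
    rw [hY] at h2
    linarith only [ha, hb, hbl, h2, h3, h4, h4']
  -- the region
  have hw0 : 0 ≤ 1 - z := by linarith only [hz1]
  have hwb : 2 * (1 - z) ≤ b := by
    have : 0 ≤ (1 - z) ^ 2 / 2 + (1 - z) ^ 3 / 3 + (1 - z) ^ 4 / 4 + (1 - z) ^ 5 / 5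
        + (1 - z) ^ 6 / 6 := by (clear * - hz1; positivity)
    unfold bLog at hbl
    linarith only [hbl, this]
  have hpos : 0 < a + (1 - z) := by
    rcases ha0.eq_or_lt with h | h
    · rcases hw0.eq_or_lt with h' | h'
      · exfalso
        have hz' : z = 1 := by linarith only [hz1, h']
        rw [hz] at hz'
        have h8 : -(b / 2) = 0 := Real.exp_eq_one_iff _ |>.1 hz'
        rw [← h] at hx
        linarith only [hx0, hx, h8]
      · linarith only [hYx, ha, h']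
    · linarith only [hz1, h]
  have hYneg : ¬ 0 ≤ Y → 16 * (1 - z) ≤ a ∧ a ≤ 4 := by
    intro hn
    have hn' : Y < 0 := not_le.1 hn
    constructor
    · linarith only [ha, hb, hwb, hn]
    · rcases hYc with h | h
      · exact absurd h hn
      · rw [ha]; linarith only [hxY, h]
  have hYpos : 0 ≤ Y → a ≤ 24 * (1 - z) := by
    intro hp
    have hab : a ≤ 8 * b := by linarith only [ha, hb, hp]
    have hab2 : a ≤ 16 - 4 * b := by linarith only [hx1, ha, hb]
    have hzz : ∀ t : ℝ, 0 ≤ t → t ≤ 2 / 3 → Real.exp (-t) ≤ 1 - 2 / 3 * t := by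
      intro t ht ht2
      have h3 := Real.quadratic_le_exp_of_nonneg ht
      have h4 : 0 < Real.exp t := Real.exp_pos t
      rw [Real.exp_neg, inv_le_comm₀ h4 (by linarith only [h1, h2, ht2])]
      refine le_trans ?_ h3
      rw [inv_le_iff_one_le_mul₀ (by linarith only [h1, h2, ht2])]
      have e : (1 + t + t ^ 2 / 2) * (1 - 2 / 3 * t)
          = 1 + t * ((2 / 3 - t) * (t / 3 + 7 / 18) + 2 / 27) := by ring
      rw [e]
      have h5 : 0 ≤ t * ((2 / 3 - t) * (t / 3 + 7 / 18) + 2 / 27) :=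
        mul_nonneg ht (add_nonneg (mul_nonneg (by linarith only [ht2]) (by linarith only [h1, h2, ht])) (by norm_num))
      linarith only [h5]
    rcases le_total (b / 2) (2 / 3) with hc | hc
    · have := hzz (b / 2) (by linarith only [hxY, hb]) hc
      rw [← hz] at this
      linarith only [ha, hb, hp, this]
    · have h3 : z ≤ Real.exp (-(2 / 3)) := by rw [hz]; exact Real.exp_le_exp.2 (by linarith only [hc])
      have h4 := hzz (2 / 3) (by norm_num) le_rfl
      linarith only [hx1, ha, hp, h3, h4]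
  refine pois_contra coverPL coverPS coverPB ha0 hw0 (by linarith only [hzl]) hpos ?_ hR0 ?_
  · by_cases hp : 0 ≤ Y
    · exact Or.inl (hYpos hp)
    · exact Or.inr (hYneg hp)
  · intro _
    by_cases hp : 0 ≤ Y
    · exact Or.inl (hR1 hp)
    · exact Or.inr (hYneg hp)

end Vale.Agent.P154
end

section

/-!
# P154: glue for the exact thresholds of the three-state model
-/

namespace Vale.Agent.P154

/-- Exact threshold on the `d`-ary tree for `q = 3`, from nonreconstruction below it for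
negative `lam`. -/
theorem full_regular {d : ℕ} (hd : 2 ≤ d) {lam : ℝ} (h0 : -1 / 2 ≤ lam) (h1 : lam ≤ 1)
    (hneg : lam ≤ 0 → (d : ℝ) * lam ^ 2 ≤ 1 → Nonreconstruction (regularOffspring d) 3 lam) :
    (Reconstruction (regularOffspring d) 3 lam ↔ 1 < (d : ℝ) * lam ^ 2) ∧
    (Nonreconstruction (regularOffspring d) 3 lam ↔ (d : ℝ) * lam ^ 2 ≤ 1) := by
  have hl : -1 / (((3 : ℕ) : ℝ) - 1) ≤ lam := by push_cast; linarith
  have h2 := reconstruction_iff (q := 3) (by norm_num) hl h1 (regular_nonneg d) (regular_hasSum d)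
  have h : Reconstruction (regularOffspring d) 3 lam ↔ 1 < (d : ℝ) * lam ^ 2 := by
    rcases le_total 0 lam with hl0 | hl0
    · exact ferro_regular Q3.isCert3 (by norm_num) hd hl0 h1
    · constructor
      · intro hrec
        by_contra hks
        push Not at hks
        exact h2.1 hrec (hneg hl0 hks)
      · intro hks
        exact KS.reconstruction_regular (by norm_num) hl h1 hks
  refine ⟨h, ?_⟩
  rw [← not_lt, ← h, h2, not_not]

/-- Exact threshold on the Poisson tree for `q = 3`. -/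
theorem full_poisson {d : ℝ} (hd : 0 < d) {lam : ℝ} (h0 : -1 / 2 ≤ lam) (h1 : lam ≤ 1) :
    (Reconstruction (poissonOffspring d) 3 lam ↔ 1 < d * lam ^ 2) ∧
    (Nonreconstruction (poissonOffspring d) 3 lam ↔ d * lam ^ 2 ≤ 1) := by
  have hl : -1 / (((3 : ℕ) : ℝ) - 1) ≤ lam := by push_cast; linarith
  have h2 := reconstruction_iff (q := 3) (by norm_num) hl h1 (poisson_nonneg hd.le)
    (poisson_hasSum d)
  have h : Reconstruction (poissonOffspring d) 3 lam ↔ 1 < d * lam ^ 2 := by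
    rcases le_or_gt 0 lam with hl0 | hl0
    · exact ferro_poisson Q3.isCert3 (by norm_num) hd hl0 h1
    · constructor
      · intro hrec
        by_contra hks
        push Not at hks
        exact h2.1 hrec (nonrec_poisson_af hd.le h0 hl0 hks)
      · intro hks
        exact KS.reconstruction_poisson hd.le (by norm_num) hl h1 hks
  refine ⟨h, ?_⟩
  rw [← not_lt, ← h, h2, not_not]

/-- The antiferromagnetic critical point on the `d`-ary tree, `d ≥ 5`. -/
theorem nonrec_regular_crit_five {d : ℕ} (hd : 5 ≤ d) :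
    Nonreconstruction (regularOffspring d) 3 (-(1 / Real.sqrt d)) := by
  rcases hd.eq_or_lt with h | h
  · subst h
    exact_mod_cast R5.nonrec_five
  · exact nonrec_regular_six h

/-- Antiferromagnetic regular trees, everything that follows from `d ≥ 5`. -/
theorem nonrec_regular_af_five {d : ℕ} {lam : ℝ} (h1 : -1 / 2 ≤ lam) (h2 : lam ≤ 0)
    (h5 : 5 ≤ d ∨ -(1 / Real.sqrt 5) ≤ lam) (hks : d * lam ^ 2 ≤ 1) :
    Nonreconstruction (regularOffspring d) 3 lam := by
  have hp : ∀ {l : ℝ}, -1 / 2 ≤ l → l ≤ 0 → ∀ i j : Fin 3, 0 ≤ potts 3 l i j := by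
    intro l hl hl'
    refine anti_potts_nonneg (by norm_num) ?_ (by linarith)
    push_cast
    linarith
  -- scaling to the critical point of a tree with `m ≥ 5` children
  have key : ∀ m : ℕ, 5 ≤ m → d ≤ m → (m : ℝ) * lam ^ 2 ≤ 1 →
      Nonreconstruction (regularOffspring d) 3 lam := by
    intro m hm hdm hk
    have hm5 : (5 : ℝ) ≤ m := by exact_mod_cast hm
    have hs2 : (2 : ℝ) ≤ Real.sqrt m := by
      rw [show (2 : ℝ) = Real.sqrt (2 ^ 2) by rw [Real.sqrt_sq (by norm_num)]]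
      exact Real.sqrt_le_sqrt (by linarith)
    have hs0 : 0 < Real.sqrt m := by linarith
    have hsq : Real.sqrt m ^ 2 = m := Real.sq_sqrt (by linarith)
    have hb : -1 / 2 ≤ -(1 / Real.sqrt m) := by
      have : 1 / Real.sqrt m ≤ 1 / 2 := one_div_le_one_div_of_le (by norm_num) hs2
      linarith
    have hb0 : -(1 / Real.sqrt m) ≤ 0 := by
      have : 0 ≤ 1 / Real.sqrt m := by positivity
      linarith
    have hμ : -(Real.sqrt m * lam) ≤ 1 := by
      have h6 : (Real.sqrt m * lam) ^ 2 ≤ 1 := by rw [mul_pow, hsq]; exact hk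
      nlinarith [sq_nonneg (Real.sqrt m * lam + 1)]
    refine nonrec_regular_mono hdm (μ := -(Real.sqrt m * lam)) ?_ hμ ?_ (hp h1 h2)
      (hp hb hb0) (nonrec_regular_crit_five hm)
    · have : 0 ≤ Real.sqrt m * (-lam) := mul_nonneg hs0.le (by linarith)
      linarith
    · field_simp
  rcases le_or_gt 5 d with h | h
  · exact key d h le_rfl hks
  · refine key 5 le_rfl h.le ?_
    rcases h5 with h5 | h5
    · omega
    · have hsq : Real.sqrt 5 ^ 2 = 5 := Real.sq_sqrt (by norm_num)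
      have hs0 : 0 < Real.sqrt 5 := by positivity
      have h3 : -(Real.sqrt 5 * lam) ≤ 1 := by
        have h4 := mul_le_mul_of_nonneg_left h5 hs0.le
        have e : Real.sqrt 5 * -(1 / Real.sqrt 5) = -1 := by field_simp
        rw [e] at h4
        linarith
      have h4 : 0 ≤ -(Real.sqrt 5 * lam) := by
        have : 0 ≤ Real.sqrt 5 * (-lam) := mul_nonneg hs0.le (by linarith)
        linarith
      push_cast
      nlinarith

end Vale.Agent.P154
end
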