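import Vale.Agent.P154.Bdl.B3

set_option linter.all false

section

/-!
# P154: rigorous density evolution for the 4-ary tree: unrolled form

`prd g m orbs` written out for 80 orbits: this is what the kernel evaluates fastest.
-/

namespace Vale.Agent.P154.DE

set_option maxRecDepth 100000

def zr0 (g : Nat → Nat → Nat → Nat → Nat) (m1 m2 m3 m4 m5 m6 m7 m8 m9 m10 m11 m12 m13 m14 m15
    m16 m17 m18 m19 m20 m21 m22 m23 m24 m25 m26 m27 m28 m29 m30 m31 m32 m33 m34 m35 m36 m37 m38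
    m39 m40 m41 m42 m43 m44 m45 m46 m47 m48 m49 m50 m51 m52 m53 m54 m55 m56 m57 m58 m59 m60 m61
    m62 m63 m64 m65 m66 m67 m68 m69 m70 m71 m72 m73 m74 m75 m76 m77 m78 m79 : Nat) : Nat :=
  Nat.add (Nat.mul m1 (g 0 0 1 0)) (Nat.add (Nat.mul m2 (g 0 0 2 0)) (Nat.add (Nat.mul m3 (g 0 0
  3 0)) (Nat.add (Nat.mul m4 (g 0 0 4 0)) (Nat.add (Nat.mul m5 (g 0 0 5 0)) (Nat.add (Nat.mul m6
  (g 0 0 6 0)) (Nat.add (Nat.mul m7 (g 0 0 7 0)) (Nat.add (Nat.mul m8 (g 0 0 8 0)) (Nat.add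
  (Nat.mul m9 (g 0 0 9 0)) (Nat.add (Nat.mul m10 (g 0 0 10 0)) (Nat.add (Nat.mul m11 (g 0 0 11
  0)) (Nat.add (Nat.mul m12 (g 0 0 12 0)) (Nat.add (Nat.mul m13 (g 0 0 13 0)) (Nat.add (Nat.mul
  m14 (g 0 0 14 0)) (Nat.add (Nat.mul m15 (g 0 0 1 1)) (Nat.add (Nat.mul m16 (g 0 0 2 1))
  (Nat.add (Nat.mul m17 (g 0 0 3 1)) (Nat.add (Nat.mul m18 (g 0 0 4 1)) (Nat.add (Nat.mul m19 (g
  0 0 5 1)) (Nat.add (Nat.mul m20 (g 0 0 6 1)) (Nat.add (Nat.mul m21 (g 0 0 7 1)) (Nat.add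
  (Nat.mul m22 (g 0 0 8 1)) (Nat.add (Nat.mul m23 (g 0 0 9 1)) (Nat.add (Nat.mul m24 (g 0 0 10
  1)) (Nat.add (Nat.mul m25 (g 0 0 11 1)) (Nat.add (Nat.mul m26 (g 0 0 12 1)) (Nat.add (Nat.mul
  m27 (g 0 0 13 1)) (Nat.add (Nat.mul m28 (g 0 0 2 2)) (Nat.add (Nat.mul m29 (g 0 0 3 2))
  (Nat.add (Nat.mul m30 (g 0 0 4 2)) (Nat.add (Nat.mul m31 (g 0 0 5 2)) (Nat.add (Nat.mul m32 (g
  0 0 6 2)) (Nat.add (Nat.mul m33 (g 0 0 7 2)) (Nat.add (Nat.mul m34 (g 0 0 8 2)) (Nat.add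
  (Nat.mul m35 (g 0 0 9 2)) (Nat.add (Nat.mul m36 (g 0 0 10 2)) (Nat.add (Nat.mul m37 (g 0 0 11
  2)) (Nat.add (Nat.mul m38 (g 0 0 12 2)) (Nat.add (Nat.mul m39 (g 0 0 13 2)) (Nat.add (Nat.mul
  m40 (g 0 0 3 3)) (Nat.add (Nat.mul m41 (g 0 0 4 3)) (Nat.add (Nat.mul m42 (g 0 0 5 3)) (Nat.add
  (Nat.mul m43 (g 0 0 6 3)) (Nat.add (Nat.mul m44 (g 0 0 7 3)) (Nat.add (Nat.mul m45 (g 0 0 8 3))
  (Nat.add (Nat.mul m46 (g 0 0 9 3)) (Nat.add (Nat.mul m47 (g 0 0 10 3)) (Nat.add (Nat.mul m48 (g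
  0 0 11 3)) (Nat.add (Nat.mul m49 (g 0 0 12 3)) (Nat.add (Nat.mul m50 (g 0 0 4 4)) (Nat.add
  (Nat.mul m51 (g 0 0 5 4)) (Nat.add (Nat.mul m52 (g 0 0 6 4)) (Nat.add (Nat.mul m53 (g 0 0 7 4))
  (Nat.add (Nat.mul m54 (g 0 0 8 4)) (Nat.add (Nat.mul m55 (g 0 0 9 4)) (Nat.add (Nat.mul m56 (g
  0 0 10 4)) (Nat.add (Nat.mul m57 (g 0 0 11 4)) (Nat.add (Nat.mul m58 (g 0 0 12 4)) (Nat.add
  (Nat.mul m59 (g 0 0 5 5)) (Nat.add (Nat.mul m60 (g 0 0 6 5)) (Nat.add (Nat.mul m61 (g 0 0 7 5))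
  (Nat.add (Nat.mul m62 (g 0 0 8 5)) (Nat.add (Nat.mul m63 (g 0 0 9 5)) (Nat.add (Nat.mul m64 (g
  0 0 10 5)) (Nat.add (Nat.mul m65 (g 0 0 11 5)) (Nat.add (Nat.mul m66 (g 0 0 6 6)) (Nat.add
  (Nat.mul m67 (g 0 0 7 6)) (Nat.add (Nat.mul m68 (g 0 0 8 6)) (Nat.add (Nat.mul m69 (g 0 0 9 6))
  (Nat.add (Nat.mul m70 (g 0 0 10 6)) (Nat.add (Nat.mul m71 (g 0 0 11 6)) (Nat.add (Nat.mul m72
  (g 0 0 7 7)) (Nat.add (Nat.mul m73 (g 0 0 8 7)) (Nat.add (Nat.mul m74 (g 0 0 9 7)) (Nat.add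
  (Nat.mul m75 (g 0 0 10 7)) (Nat.add (Nat.mul m76 (g 0 0 8 8)) (Nat.add (Nat.mul m77 (g 0 0 9
  8)) (Nat.add (Nat.mul m78 (g 0 0 10 8)) (Nat.add (Nat.mul m79 (g 0 0 9 9))
  (0)))))))))))))))))))))))))))))))))))))))))))))))))))))))))))))))))))))))))))))))

def zr1 (g : Nat → Nat → Nat → Nat → Nat) (m2 m3 m4 m5 m6 m7 m8 m9 m10 m11 m12 m13 m14 m15
    m16 m17 m18 m19 m20 m21 m22 m23 m24 m25 m26 m27 m28 m29 m30 m31 m32 m33 m34 m35 m36 m37 m38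
    m39 m40 m41 m42 m43 m44 m45 m46 m47 m48 m49 m50 m51 m52 m53 m54 m55 m56 m57 m58 m59 m60 m61
    m62 m63 m64 m65 m66 m67 m68 m69 m70 m71 m72 m73 m74 m75 m76 m77 m78 m79 : Nat) : Nat :=
  Nat.add (Nat.mul m2 (g 1 0 2 0)) (Nat.add (Nat.mul m3 (g 1 0 3 0)) (Nat.add (Nat.mul m4 (g 1 0
  4 0)) (Nat.add (Nat.mul m5 (g 1 0 5 0)) (Nat.add (Nat.mul m6 (g 1 0 6 0)) (Nat.add (Nat.mul m7
  (g 1 0 7 0)) (Nat.add (Nat.mul m8 (g 1 0 8 0)) (Nat.add (Nat.mul m9 (g 1 0 9 0)) (Nat.add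
  (Nat.mul m10 (g 1 0 10 0)) (Nat.add (Nat.mul m11 (g 1 0 11 0)) (Nat.add (Nat.mul m12 (g 1 0 12
  0)) (Nat.add (Nat.mul m13 (g 1 0 13 0)) (Nat.add (Nat.mul m14 (g 1 0 14 0)) (Nat.add (Nat.mul
  m15 (g 1 0 1 1)) (Nat.add (Nat.mul m16 (g 1 0 2 1)) (Nat.add (Nat.mul m17 (g 1 0 3 1)) (Nat.add
  (Nat.mul m18 (g 1 0 4 1)) (Nat.add (Nat.mul m19 (g 1 0 5 1)) (Nat.add (Nat.mul m20 (g 1 0 6 1))
  (Nat.add (Nat.mul m21 (g 1 0 7 1)) (Nat.add (Nat.mul m22 (g 1 0 8 1)) (Nat.add (Nat.mul m23 (g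
  1 0 9 1)) (Nat.add (Nat.mul m24 (g 1 0 10 1)) (Nat.add (Nat.mul m25 (g 1 0 11 1)) (Nat.add
  (Nat.mul m26 (g 1 0 12 1)) (Nat.add (Nat.mul m27 (g 1 0 13 1)) (Nat.add (Nat.mul m28 (g 1 0 2
  2)) (Nat.add (Nat.mul m29 (g 1 0 3 2)) (Nat.add (Nat.mul m30 (g 1 0 4 2)) (Nat.add (Nat.mul m31
  (g 1 0 5 2)) (Nat.add (Nat.mul m32 (g 1 0 6 2)) (Nat.add (Nat.mul m33 (g 1 0 7 2)) (Nat.add
  (Nat.mul m34 (g 1 0 8 2)) (Nat.add (Nat.mul m35 (g 1 0 9 2)) (Nat.add (Nat.mul m36 (g 1 0 10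
  2)) (Nat.add (Nat.mul m37 (g 1 0 11 2)) (Nat.add (Nat.mul m38 (g 1 0 12 2)) (Nat.add (Nat.mul
  m39 (g 1 0 13 2)) (Nat.add (Nat.mul m40 (g 1 0 3 3)) (Nat.add (Nat.mul m41 (g 1 0 4 3))
  (Nat.add (Nat.mul m42 (g 1 0 5 3)) (Nat.add (Nat.mul m43 (g 1 0 6 3)) (Nat.add (Nat.mul m44 (g
  1 0 7 3)) (Nat.add (Nat.mul m45 (g 1 0 8 3)) (Nat.add (Nat.mul m46 (g 1 0 9 3)) (Nat.add
  (Nat.mul m47 (g 1 0 10 3)) (Nat.add (Nat.mul m48 (g 1 0 11 3)) (Nat.add (Nat.mul m49 (g 1 0 12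
  3)) (Nat.add (Nat.mul m50 (g 1 0 4 4)) (Nat.add (Nat.mul m51 (g 1 0 5 4)) (Nat.add (Nat.mul m52
  (g 1 0 6 4)) (Nat.add (Nat.mul m53 (g 1 0 7 4)) (Nat.add (Nat.mul m54 (g 1 0 8 4)) (Nat.add
  (Nat.mul m55 (g 1 0 9 4)) (Nat.add (Nat.mul m56 (g 1 0 10 4)) (Nat.add (Nat.mul m57 (g 1 0 11
  4)) (Nat.add (Nat.mul m58 (g 1 0 12 4)) (Nat.add (Nat.mul m59 (g 1 0 5 5)) (Nat.add (Nat.mul
  m60 (g 1 0 6 5)) (Nat.add (Nat.mul m61 (g 1 0 7 5)) (Nat.add (Nat.mul m62 (g 1 0 8 5)) (Nat.add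
  (Nat.mul m63 (g 1 0 9 5)) (Nat.add (Nat.mul m64 (g 1 0 10 5)) (Nat.add (Nat.mul m65 (g 1 0 11
  5)) (Nat.add (Nat.mul m66 (g 1 0 6 6)) (Nat.add (Nat.mul m67 (g 1 0 7 6)) (Nat.add (Nat.mul m68
  (g 1 0 8 6)) (Nat.add (Nat.mul m69 (g 1 0 9 6)) (Nat.add (Nat.mul m70 (g 1 0 10 6)) (Nat.add
  (Nat.mul m71 (g 1 0 11 6)) (Nat.add (Nat.mul m72 (g 1 0 7 7)) (Nat.add (Nat.mul m73 (g 1 0 8
  7)) (Nat.add (Nat.mul m74 (g 1 0 9 7)) (Nat.add (Nat.mul m75 (g 1 0 10 7)) (Nat.add (Nat.mul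
  m76 (g 1 0 8 8)) (Nat.add (Nat.mul m77 (g 1 0 9 8)) (Nat.add (Nat.mul m78 (g 1 0 10 8))
  (Nat.add (Nat.mul m79 (g 1 0 9 9))
  (0))))))))))))))))))))))))))))))))))))))))))))))))))))))))))))))))))))))))))))))

def zr2 (g : Nat → Nat → Nat → Nat → Nat) (m3 m4 m5 m6 m7 m8 m9 m10 m11 m12 m13 m14 m15 m16
    m17 m18 m19 m20 m21 m22 m23 m24 m25 m26 m27 m28 m29 m30 m31 m32 m33 m34 m35 m36 m37 m38 m39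
    m40 m41 m42 m43 m44 m45 m46 m47 m48 m49 m50 m51 m52 m53 m54 m55 m56 m57 m58 m59 m60 m61 m62
    m63 m64 m65 m66 m67 m68 m69 m70 m71 m72 m73 m74 m75 m76 m77 m78 m79 : Nat) : Nat :=
  Nat.add (Nat.mul m3 (g 2 0 3 0)) (Nat.add (Nat.mul m4 (g 2 0 4 0)) (Nat.add (Nat.mul m5 (g 2 0
  5 0)) (Nat.add (Nat.mul m6 (g 2 0 6 0)) (Nat.add (Nat.mul m7 (g 2 0 7 0)) (Nat.add (Nat.mul m8
  (g 2 0 8 0)) (Nat.add (Nat.mul m9 (g 2 0 9 0)) (Nat.add (Nat.mul m10 (g 2 0 10 0)) (Nat.add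
  (Nat.mul m11 (g 2 0 11 0)) (Nat.add (Nat.mul m12 (g 2 0 12 0)) (Nat.add (Nat.mul m13 (g 2 0 13
  0)) (Nat.add (Nat.mul m14 (g 2 0 14 0)) (Nat.add (Nat.mul m15 (g 2 0 1 1)) (Nat.add (Nat.mul
  m16 (g 2 0 2 1)) (Nat.add (Nat.mul m17 (g 2 0 3 1)) (Nat.add (Nat.mul m18 (g 2 0 4 1)) (Nat.add
  (Nat.mul m19 (g 2 0 5 1)) (Nat.add (Nat.mul m20 (g 2 0 6 1)) (Nat.add (Nat.mul m21 (g 2 0 7 1))
  (Nat.add (Nat.mul m22 (g 2 0 8 1)) (Nat.add (Nat.mul m23 (g 2 0 9 1)) (Nat.add (Nat.mul m24 (g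
  2 0 10 1)) (Nat.add (Nat.mul m25 (g 2 0 11 1)) (Nat.add (Nat.mul m26 (g 2 0 12 1)) (Nat.add
  (Nat.mul m27 (g 2 0 13 1)) (Nat.add (Nat.mul m28 (g 2 0 2 2)) (Nat.add (Nat.mul m29 (g 2 0 3
  2)) (Nat.add (Nat.mul m30 (g 2 0 4 2)) (Nat.add (Nat.mul m31 (g 2 0 5 2)) (Nat.add (Nat.mul m32
  (g 2 0 6 2)) (Nat.add (Nat.mul m33 (g 2 0 7 2)) (Nat.add (Nat.mul m34 (g 2 0 8 2)) (Nat.add
  (Nat.mul m35 (g 2 0 9 2)) (Nat.add (Nat.mul m36 (g 2 0 10 2)) (Nat.add (Nat.mul m37 (g 2 0 11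
  2)) (Nat.add (Nat.mul m38 (g 2 0 12 2)) (Nat.add (Nat.mul m39 (g 2 0 13 2)) (Nat.add (Nat.mul
  m40 (g 2 0 3 3)) (Nat.add (Nat.mul m41 (g 2 0 4 3)) (Nat.add (Nat.mul m42 (g 2 0 5 3)) (Nat.add
  (Nat.mul m43 (g 2 0 6 3)) (Nat.add (Nat.mul m44 (g 2 0 7 3)) (Nat.add (Nat.mul m45 (g 2 0 8 3))
  (Nat.add (Nat.mul m46 (g 2 0 9 3)) (Nat.add (Nat.mul m47 (g 2 0 10 3)) (Nat.add (Nat.mul m48 (g
  2 0 11 3)) (Nat.add (Nat.mul m49 (g 2 0 12 3)) (Nat.add (Nat.mul m50 (g 2 0 4 4)) (Nat.add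
  (Nat.mul m51 (g 2 0 5 4)) (Nat.add (Nat.mul m52 (g 2 0 6 4)) (Nat.add (Nat.mul m53 (g 2 0 7 4))
  (Nat.add (Nat.mul m54 (g 2 0 8 4)) (Nat.add (Nat.mul m55 (g 2 0 9 4)) (Nat.add (Nat.mul m56 (g
  2 0 10 4)) (Nat.add (Nat.mul m57 (g 2 0 11 4)) (Nat.add (Nat.mul m58 (g 2 0 12 4)) (Nat.add
  (Nat.mul m59 (g 2 0 5 5)) (Nat.add (Nat.mul m60 (g 2 0 6 5)) (Nat.add (Nat.mul m61 (g 2 0 7 5))
  (Nat.add (Nat.mul m62 (g 2 0 8 5)) (Nat.add (Nat.mul m63 (g 2 0 9 5)) (Nat.add (Nat.mul m64 (g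
  2 0 10 5)) (Nat.add (Nat.mul m65 (g 2 0 11 5)) (Nat.add (Nat.mul m66 (g 2 0 6 6)) (Nat.add
  (Nat.mul m67 (g 2 0 7 6)) (Nat.add (Nat.mul m68 (g 2 0 8 6)) (Nat.add (Nat.mul m69 (g 2 0 9 6))
  (Nat.add (Nat.mul m70 (g 2 0 10 6)) (Nat.add (Nat.mul m71 (g 2 0 11 6)) (Nat.add (Nat.mul m72
  (g 2 0 7 7)) (Nat.add (Nat.mul m73 (g 2 0 8 7)) (Nat.add (Nat.mul m74 (g 2 0 9 7)) (Nat.add
  (Nat.mul m75 (g 2 0 10 7)) (Nat.add (Nat.mul m76 (g 2 0 8 8)) (Nat.add (Nat.mul m77 (g 2 0 9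
  8)) (Nat.add (Nat.mul m78 (g 2 0 10 8)) (Nat.add (Nat.mul m79 (g 2 0 9 9))
  (0)))))))))))))))))))))))))))))))))))))))))))))))))))))))))))))))))))))))))))))

def zr3 (g : Nat → Nat → Nat → Nat → Nat) (m4 m5 m6 m7 m8 m9 m10 m11 m12 m13 m14 m15 m16 m17
    m18 m19 m20 m21 m22 m23 m24 m25 m26 m27 m28 m29 m30 m31 m32 m33 m34 m35 m36 m37 m38 m39 m40
    m41 m42 m43 m44 m45 m46 m47 m48 m49 m50 m51 m52 m53 m54 m55 m56 m57 m58 m59 m60 m61 m62 m63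
    m64 m65 m66 m67 m68 m69 m70 m71 m72 m73 m74 m75 m76 m77 m78 m79 : Nat) : Nat :=
  Nat.add (Nat.mul m4 (g 3 0 4 0)) (Nat.add (Nat.mul m5 (g 3 0 5 0)) (Nat.add (Nat.mul m6 (g 3 0
  6 0)) (Nat.add (Nat.mul m7 (g 3 0 7 0)) (Nat.add (Nat.mul m8 (g 3 0 8 0)) (Nat.add (Nat.mul m9
  (g 3 0 9 0)) (Nat.add (Nat.mul m10 (g 3 0 10 0)) (Nat.add (Nat.mul m11 (g 3 0 11 0)) (Nat.add
  (Nat.mul m12 (g 3 0 12 0)) (Nat.add (Nat.mul m13 (g 3 0 13 0)) (Nat.add (Nat.mul m14 (g 3 0 14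
  0)) (Nat.add (Nat.mul m15 (g 3 0 1 1)) (Nat.add (Nat.mul m16 (g 3 0 2 1)) (Nat.add (Nat.mul m17
  (g 3 0 3 1)) (Nat.add (Nat.mul m18 (g 3 0 4 1)) (Nat.add (Nat.mul m19 (g 3 0 5 1)) (Nat.add
  (Nat.mul m20 (g 3 0 6 1)) (Nat.add (Nat.mul m21 (g 3 0 7 1)) (Nat.add (Nat.mul m22 (g 3 0 8 1))
  (Nat.add (Nat.mul m23 (g 3 0 9 1)) (Nat.add (Nat.mul m24 (g 3 0 10 1)) (Nat.add (Nat.mul m25 (g
  3 0 11 1)) (Nat.add (Nat.mul m26 (g 3 0 12 1)) (Nat.add (Nat.mul m27 (g 3 0 13 1)) (Nat.add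
  (Nat.mul m28 (g 3 0 2 2)) (Nat.add (Nat.mul m29 (g 3 0 3 2)) (Nat.add (Nat.mul m30 (g 3 0 4 2))
  (Nat.add (Nat.mul m31 (g 3 0 5 2)) (Nat.add (Nat.mul m32 (g 3 0 6 2)) (Nat.add (Nat.mul m33 (g
  3 0 7 2)) (Nat.add (Nat.mul m34 (g 3 0 8 2)) (Nat.add (Nat.mul m35 (g 3 0 9 2)) (Nat.add
  (Nat.mul m36 (g 3 0 10 2)) (Nat.add (Nat.mul m37 (g 3 0 11 2)) (Nat.add (Nat.mul m38 (g 3 0 12
  2)) (Nat.add (Nat.mul m39 (g 3 0 13 2)) (Nat.add (Nat.mul m40 (g 3 0 3 3)) (Nat.add (Nat.mul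
  m41 (g 3 0 4 3)) (Nat.add (Nat.mul m42 (g 3 0 5 3)) (Nat.add (Nat.mul m43 (g 3 0 6 3)) (Nat.add
  (Nat.mul m44 (g 3 0 7 3)) (Nat.add (Nat.mul m45 (g 3 0 8 3)) (Nat.add (Nat.mul m46 (g 3 0 9 3))
  (Nat.add (Nat.mul m47 (g 3 0 10 3)) (Nat.add (Nat.mul m48 (g 3 0 11 3)) (Nat.add (Nat.mul m49
  (g 3 0 12 3)) (Nat.add (Nat.mul m50 (g 3 0 4 4)) (Nat.add (Nat.mul m51 (g 3 0 5 4)) (Nat.add
  (Nat.mul m52 (g 3 0 6 4)) (Nat.add (Nat.mul m53 (g 3 0 7 4)) (Nat.add (Nat.mul m54 (g 3 0 8 4))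
  (Nat.add (Nat.mul m55 (g 3 0 9 4)) (Nat.add (Nat.mul m56 (g 3 0 10 4)) (Nat.add (Nat.mul m57 (g
  3 0 11 4)) (Nat.add (Nat.mul m58 (g 3 0 12 4)) (Nat.add (Nat.mul m59 (g 3 0 5 5)) (Nat.add
  (Nat.mul m60 (g 3 0 6 5)) (Nat.add (Nat.mul m61 (g 3 0 7 5)) (Nat.add (Nat.mul m62 (g 3 0 8 5))
  (Nat.add (Nat.mul m63 (g 3 0 9 5)) (Nat.add (Nat.mul m64 (g 3 0 10 5)) (Nat.add (Nat.mul m65 (g
  3 0 11 5)) (Nat.add (Nat.mul m66 (g 3 0 6 6)) (Nat.add (Nat.mul m67 (g 3 0 7 6)) (Nat.add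
  (Nat.mul m68 (g 3 0 8 6)) (Nat.add (Nat.mul m69 (g 3 0 9 6)) (Nat.add (Nat.mul m70 (g 3 0 10
  6)) (Nat.add (Nat.mul m71 (g 3 0 11 6)) (Nat.add (Nat.mul m72 (g 3 0 7 7)) (Nat.add (Nat.mul
  m73 (g 3 0 8 7)) (Nat.add (Nat.mul m74 (g 3 0 9 7)) (Nat.add (Nat.mul m75 (g 3 0 10 7))
  (Nat.add (Nat.mul m76 (g 3 0 8 8)) (Nat.add (Nat.mul m77 (g 3 0 9 8)) (Nat.add (Nat.mul m78 (g
  3 0 10 8)) (Nat.add (Nat.mul m79 (g 3 0 9 9))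
  (0))))))))))))))))))))))))))))))))))))))))))))))))))))))))))))))))))))))))))))

def zr4 (g : Nat → Nat → Nat → Nat → Nat) (m5 m6 m7 m8 m9 m10 m11 m12 m13 m14 m15 m16 m17 m18
    m19 m20 m21 m22 m23 m24 m25 m26 m27 m28 m29 m30 m31 m32 m33 m34 m35 m36 m37 m38 m39 m40 m41
    m42 m43 m44 m45 m46 m47 m48 m49 m50 m51 m52 m53 m54 m55 m56 m57 m58 m59 m60 m61 m62 m63 m64
    m65 m66 m67 m68 m69 m70 m71 m72 m73 m74 m75 m76 m77 m78 m79 : Nat) : Nat :=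
  Nat.add (Nat.mul m5 (g 4 0 5 0)) (Nat.add (Nat.mul m6 (g 4 0 6 0)) (Nat.add (Nat.mul m7 (g 4 0
  7 0)) (Nat.add (Nat.mul m8 (g 4 0 8 0)) (Nat.add (Nat.mul m9 (g 4 0 9 0)) (Nat.add (Nat.mul m10
  (g 4 0 10 0)) (Nat.add (Nat.mul m11 (g 4 0 11 0)) (Nat.add (Nat.mul m12 (g 4 0 12 0)) (Nat.add
  (Nat.mul m13 (g 4 0 13 0)) (Nat.add (Nat.mul m14 (g 4 0 14 0)) (Nat.add (Nat.mul m15 (g 4 0 1
  1)) (Nat.add (Nat.mul m16 (g 4 0 2 1)) (Nat.add (Nat.mul m17 (g 4 0 3 1)) (Nat.add (Nat.mul m18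
  (g 4 0 4 1)) (Nat.add (Nat.mul m19 (g 4 0 5 1)) (Nat.add (Nat.mul m20 (g 4 0 6 1)) (Nat.add
  (Nat.mul m21 (g 4 0 7 1)) (Nat.add (Nat.mul m22 (g 4 0 8 1)) (Nat.add (Nat.mul m23 (g 4 0 9 1))
  (Nat.add (Nat.mul m24 (g 4 0 10 1)) (Nat.add (Nat.mul m25 (g 4 0 11 1)) (Nat.add (Nat.mul m26
  (g 4 0 12 1)) (Nat.add (Nat.mul m27 (g 4 0 13 1)) (Nat.add (Nat.mul m28 (g 4 0 2 2)) (Nat.add
  (Nat.mul m29 (g 4 0 3 2)) (Nat.add (Nat.mul m30 (g 4 0 4 2)) (Nat.add (Nat.mul m31 (g 4 0 5 2))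
  (Nat.add (Nat.mul m32 (g 4 0 6 2)) (Nat.add (Nat.mul m33 (g 4 0 7 2)) (Nat.add (Nat.mul m34 (g
  4 0 8 2)) (Nat.add (Nat.mul m35 (g 4 0 9 2)) (Nat.add (Nat.mul m36 (g 4 0 10 2)) (Nat.add
  (Nat.mul m37 (g 4 0 11 2)) (Nat.add (Nat.mul m38 (g 4 0 12 2)) (Nat.add (Nat.mul m39 (g 4 0 13
  2)) (Nat.add (Nat.mul m40 (g 4 0 3 3)) (Nat.add (Nat.mul m41 (g 4 0 4 3)) (Nat.add (Nat.mul m42
  (g 4 0 5 3)) (Nat.add (Nat.mul m43 (g 4 0 6 3)) (Nat.add (Nat.mul m44 (g 4 0 7 3)) (Nat.add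
  (Nat.mul m45 (g 4 0 8 3)) (Nat.add (Nat.mul m46 (g 4 0 9 3)) (Nat.add (Nat.mul m47 (g 4 0 10
  3)) (Nat.add (Nat.mul m48 (g 4 0 11 3)) (Nat.add (Nat.mul m49 (g 4 0 12 3)) (Nat.add (Nat.mul
  m50 (g 4 0 4 4)) (Nat.add (Nat.mul m51 (g 4 0 5 4)) (Nat.add (Nat.mul m52 (g 4 0 6 4)) (Nat.add
  (Nat.mul m53 (g 4 0 7 4)) (Nat.add (Nat.mul m54 (g 4 0 8 4)) (Nat.add (Nat.mul m55 (g 4 0 9 4))
  (Nat.add (Nat.mul m56 (g 4 0 10 4)) (Nat.add (Nat.mul m57 (g 4 0 11 4)) (Nat.add (Nat.mul m58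
  (g 4 0 12 4)) (Nat.add (Nat.mul m59 (g 4 0 5 5)) (Nat.add (Nat.mul m60 (g 4 0 6 5)) (Nat.add
  (Nat.mul m61 (g 4 0 7 5)) (Nat.add (Nat.mul m62 (g 4 0 8 5)) (Nat.add (Nat.mul m63 (g 4 0 9 5))
  (Nat.add (Nat.mul m64 (g 4 0 10 5)) (Nat.add (Nat.mul m65 (g 4 0 11 5)) (Nat.add (Nat.mul m66
  (g 4 0 6 6)) (Nat.add (Nat.mul m67 (g 4 0 7 6)) (Nat.add (Nat.mul m68 (g 4 0 8 6)) (Nat.add
  (Nat.mul m69 (g 4 0 9 6)) (Nat.add (Nat.mul m70 (g 4 0 10 6)) (Nat.add (Nat.mul m71 (g 4 0 11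
  6)) (Nat.add (Nat.mul m72 (g 4 0 7 7)) (Nat.add (Nat.mul m73 (g 4 0 8 7)) (Nat.add (Nat.mul m74
  (g 4 0 9 7)) (Nat.add (Nat.mul m75 (g 4 0 10 7)) (Nat.add (Nat.mul m76 (g 4 0 8 8)) (Nat.add
  (Nat.mul m77 (g 4 0 9 8)) (Nat.add (Nat.mul m78 (g 4 0 10 8)) (Nat.add (Nat.mul m79 (g 4 0 9
  9)) (0)))))))))))))))))))))))))))))))))))))))))))))))))))))))))))))))))))))))))))

def zr5 (g : Nat → Nat → Nat → Nat → Nat) (m6 m7 m8 m9 m10 m11 m12 m13 m14 m15 m16 m17 m18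
    m19 m20 m21 m22 m23 m24 m25 m26 m27 m28 m29 m30 m31 m32 m33 m34 m35 m36 m37 m38 m39 m40 m41
    m42 m43 m44 m45 m46 m47 m48 m49 m50 m51 m52 m53 m54 m55 m56 m57 m58 m59 m60 m61 m62 m63 m64
    m65 m66 m67 m68 m69 m70 m71 m72 m73 m74 m75 m76 m77 m78 m79 : Nat) : Nat :=
  Nat.add (Nat.mul m6 (g 5 0 6 0)) (Nat.add (Nat.mul m7 (g 5 0 7 0)) (Nat.add (Nat.mul m8 (g 5 0
  8 0)) (Nat.add (Nat.mul m9 (g 5 0 9 0)) (Nat.add (Nat.mul m10 (g 5 0 10 0)) (Nat.add (Nat.mul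
  m11 (g 5 0 11 0)) (Nat.add (Nat.mul m12 (g 5 0 12 0)) (Nat.add (Nat.mul m13 (g 5 0 13 0))
  (Nat.add (Nat.mul m14 (g 5 0 14 0)) (Nat.add (Nat.mul m15 (g 5 0 1 1)) (Nat.add (Nat.mul m16 (g
  5 0 2 1)) (Nat.add (Nat.mul m17 (g 5 0 3 1)) (Nat.add (Nat.mul m18 (g 5 0 4 1)) (Nat.add
  (Nat.mul m19 (g 5 0 5 1)) (Nat.add (Nat.mul m20 (g 5 0 6 1)) (Nat.add (Nat.mul m21 (g 5 0 7 1))
  (Nat.add (Nat.mul m22 (g 5 0 8 1)) (Nat.add (Nat.mul m23 (g 5 0 9 1)) (Nat.add (Nat.mul m24 (g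
  5 0 10 1)) (Nat.add (Nat.mul m25 (g 5 0 11 1)) (Nat.add (Nat.mul m26 (g 5 0 12 1)) (Nat.add
  (Nat.mul m27 (g 5 0 13 1)) (Nat.add (Nat.mul m28 (g 5 0 2 2)) (Nat.add (Nat.mul m29 (g 5 0 3
  2)) (Nat.add (Nat.mul m30 (g 5 0 4 2)) (Nat.add (Nat.mul m31 (g 5 0 5 2)) (Nat.add (Nat.mul m32
  (g 5 0 6 2)) (Nat.add (Nat.mul m33 (g 5 0 7 2)) (Nat.add (Nat.mul m34 (g 5 0 8 2)) (Nat.add
  (Nat.mul m35 (g 5 0 9 2)) (Nat.add (Nat.mul m36 (g 5 0 10 2)) (Nat.add (Nat.mul m37 (g 5 0 11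
  2)) (Nat.add (Nat.mul m38 (g 5 0 12 2)) (Nat.add (Nat.mul m39 (g 5 0 13 2)) (Nat.add (Nat.mul
  m40 (g 5 0 3 3)) (Nat.add (Nat.mul m41 (g 5 0 4 3)) (Nat.add (Nat.mul m42 (g 5 0 5 3)) (Nat.add
  (Nat.mul m43 (g 5 0 6 3)) (Nat.add (Nat.mul m44 (g 5 0 7 3)) (Nat.add (Nat.mul m45 (g 5 0 8 3))
  (Nat.add (Nat.mul m46 (g 5 0 9 3)) (Nat.add (Nat.mul m47 (g 5 0 10 3)) (Nat.add (Nat.mul m48 (g
  5 0 11 3)) (Nat.add (Nat.mul m49 (g 5 0 12 3)) (Nat.add (Nat.mul m50 (g 5 0 4 4)) (Nat.add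
  (Nat.mul m51 (g 5 0 5 4)) (Nat.add (Nat.mul m52 (g 5 0 6 4)) (Nat.add (Nat.mul m53 (g 5 0 7 4))
  (Nat.add (Nat.mul m54 (g 5 0 8 4)) (Nat.add (Nat.mul m55 (g 5 0 9 4)) (Nat.add (Nat.mul m56 (g
  5 0 10 4)) (Nat.add (Nat.mul m57 (g 5 0 11 4)) (Nat.add (Nat.mul m58 (g 5 0 12 4)) (Nat.add
  (Nat.mul m59 (g 5 0 5 5)) (Nat.add (Nat.mul m60 (g 5 0 6 5)) (Nat.add (Nat.mul m61 (g 5 0 7 5))
  (Nat.add (Nat.mul m62 (g 5 0 8 5)) (Nat.add (Nat.mul m63 (g 5 0 9 5)) (Nat.add (Nat.mul m64 (g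
  5 0 10 5)) (Nat.add (Nat.mul m65 (g 5 0 11 5)) (Nat.add (Nat.mul m66 (g 5 0 6 6)) (Nat.add
  (Nat.mul m67 (g 5 0 7 6)) (Nat.add (Nat.mul m68 (g 5 0 8 6)) (Nat.add (Nat.mul m69 (g 5 0 9 6))
  (Nat.add (Nat.mul m70 (g 5 0 10 6)) (Nat.add (Nat.mul m71 (g 5 0 11 6)) (Nat.add (Nat.mul m72
  (g 5 0 7 7)) (Nat.add (Nat.mul m73 (g 5 0 8 7)) (Nat.add (Nat.mul m74 (g 5 0 9 7)) (Nat.add
  (Nat.mul m75 (g 5 0 10 7)) (Nat.add (Nat.mul m76 (g 5 0 8 8)) (Nat.add (Nat.mul m77 (g 5 0 9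
  8)) (Nat.add (Nat.mul m78 (g 5 0 10 8)) (Nat.add (Nat.mul m79 (g 5 0 9 9))
  (0))))))))))))))))))))))))))))))))))))))))))))))))))))))))))))))))))))))))))

def zr6 (g : Nat → Nat → Nat → Nat → Nat) (m7 m8 m9 m10 m11 m12 m13 m14 m15 m16 m17 m18 m19
    m20 m21 m22 m23 m24 m25 m26 m27 m28 m29 m30 m31 m32 m33 m34 m35 m36 m37 m38 m39 m40 m41 m42
    m43 m44 m45 m46 m47 m48 m49 m50 m51 m52 m53 m54 m55 m56 m57 m58 m59 m60 m61 m62 m63 m64 m65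
    m66 m67 m68 m69 m70 m71 m72 m73 m74 m75 m76 m77 m78 m79 : Nat) : Nat :=
  Nat.add (Nat.mul m7 (g 6 0 7 0)) (Nat.add (Nat.mul m8 (g 6 0 8 0)) (Nat.add (Nat.mul m9 (g 6 0
  9 0)) (Nat.add (Nat.mul m10 (g 6 0 10 0)) (Nat.add (Nat.mul m11 (g 6 0 11 0)) (Nat.add (Nat.mul
  m12 (g 6 0 12 0)) (Nat.add (Nat.mul m13 (g 6 0 13 0)) (Nat.add (Nat.mul m14 (g 6 0 14 0))
  (Nat.add (Nat.mul m15 (g 6 0 1 1)) (Nat.add (Nat.mul m16 (g 6 0 2 1)) (Nat.add (Nat.mul m17 (g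
  6 0 3 1)) (Nat.add (Nat.mul m18 (g 6 0 4 1)) (Nat.add (Nat.mul m19 (g 6 0 5 1)) (Nat.add
  (Nat.mul m20 (g 6 0 6 1)) (Nat.add (Nat.mul m21 (g 6 0 7 1)) (Nat.add (Nat.mul m22 (g 6 0 8 1))
  (Nat.add (Nat.mul m23 (g 6 0 9 1)) (Nat.add (Nat.mul m24 (g 6 0 10 1)) (Nat.add (Nat.mul m25 (g
  6 0 11 1)) (Nat.add (Nat.mul m26 (g 6 0 12 1)) (Nat.add (Nat.mul m27 (g 6 0 13 1)) (Nat.add
  (Nat.mul m28 (g 6 0 2 2)) (Nat.add (Nat.mul m29 (g 6 0 3 2)) (Nat.add (Nat.mul m30 (g 6 0 4 2))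
  (Nat.add (Nat.mul m31 (g 6 0 5 2)) (Nat.add (Nat.mul m32 (g 6 0 6 2)) (Nat.add (Nat.mul m33 (g
  6 0 7 2)) (Nat.add (Nat.mul m34 (g 6 0 8 2)) (Nat.add (Nat.mul m35 (g 6 0 9 2)) (Nat.add
  (Nat.mul m36 (g 6 0 10 2)) (Nat.add (Nat.mul m37 (g 6 0 11 2)) (Nat.add (Nat.mul m38 (g 6 0 12
  2)) (Nat.add (Nat.mul m39 (g 6 0 13 2)) (Nat.add (Nat.mul m40 (g 6 0 3 3)) (Nat.add (Nat.mul
  m41 (g 6 0 4 3)) (Nat.add (Nat.mul m42 (g 6 0 5 3)) (Nat.add (Nat.mul m43 (g 6 0 6 3)) (Nat.add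
  (Nat.mul m44 (g 6 0 7 3)) (Nat.add (Nat.mul m45 (g 6 0 8 3)) (Nat.add (Nat.mul m46 (g 6 0 9 3))
  (Nat.add (Nat.mul m47 (g 6 0 10 3)) (Nat.add (Nat.mul m48 (g 6 0 11 3)) (Nat.add (Nat.mul m49
  (g 6 0 12 3)) (Nat.add (Nat.mul m50 (g 6 0 4 4)) (Nat.add (Nat.mul m51 (g 6 0 5 4)) (Nat.add
  (Nat.mul m52 (g 6 0 6 4)) (Nat.add (Nat.mul m53 (g 6 0 7 4)) (Nat.add (Nat.mul m54 (g 6 0 8 4))
  (Nat.add (Nat.mul m55 (g 6 0 9 4)) (Nat.add (Nat.mul m56 (g 6 0 10 4)) (Nat.add (Nat.mul m57 (g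
  6 0 11 4)) (Nat.add (Nat.mul m58 (g 6 0 12 4)) (Nat.add (Nat.mul m59 (g 6 0 5 5)) (Nat.add
  (Nat.mul m60 (g 6 0 6 5)) (Nat.add (Nat.mul m61 (g 6 0 7 5)) (Nat.add (Nat.mul m62 (g 6 0 8 5))
  (Nat.add (Nat.mul m63 (g 6 0 9 5)) (Nat.add (Nat.mul m64 (g 6 0 10 5)) (Nat.add (Nat.mul m65 (g
  6 0 11 5)) (Nat.add (Nat.mul m66 (g 6 0 6 6)) (Nat.add (Nat.mul m67 (g 6 0 7 6)) (Nat.add
  (Nat.mul m68 (g 6 0 8 6)) (Nat.add (Nat.mul m69 (g 6 0 9 6)) (Nat.add (Nat.mul m70 (g 6 0 10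
  6)) (Nat.add (Nat.mul m71 (g 6 0 11 6)) (Nat.add (Nat.mul m72 (g 6 0 7 7)) (Nat.add (Nat.mul
  m73 (g 6 0 8 7)) (Nat.add (Nat.mul m74 (g 6 0 9 7)) (Nat.add (Nat.mul m75 (g 6 0 10 7))
  (Nat.add (Nat.mul m76 (g 6 0 8 8)) (Nat.add (Nat.mul m77 (g 6 0 9 8)) (Nat.add (Nat.mul m78 (g
  6 0 10 8)) (Nat.add (Nat.mul m79 (g 6 0 9 9))
  (0)))))))))))))))))))))))))))))))))))))))))))))))))))))))))))))))))))))))))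

def zr7 (g : Nat → Nat → Nat → Nat → Nat) (m8 m9 m10 m11 m12 m13 m14 m15 m16 m17 m18 m19 m20
    m21 m22 m23 m24 m25 m26 m27 m28 m29 m30 m31 m32 m33 m34 m35 m36 m37 m38 m39 m40 m41 m42 m43
    m44 m45 m46 m47 m48 m49 m50 m51 m52 m53 m54 m55 m56 m57 m58 m59 m60 m61 m62 m63 m64 m65 m66
    m67 m68 m69 m70 m71 m72 m73 m74 m75 m76 m77 m78 m79 : Nat) : Nat :=
  Nat.add (Nat.mul m8 (g 7 0 8 0)) (Nat.add (Nat.mul m9 (g 7 0 9 0)) (Nat.add (Nat.mul m10 (g 7 0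
  10 0)) (Nat.add (Nat.mul m11 (g 7 0 11 0)) (Nat.add (Nat.mul m12 (g 7 0 12 0)) (Nat.add
  (Nat.mul m13 (g 7 0 13 0)) (Nat.add (Nat.mul m14 (g 7 0 14 0)) (Nat.add (Nat.mul m15 (g 7 0 1
  1)) (Nat.add (Nat.mul m16 (g 7 0 2 1)) (Nat.add (Nat.mul m17 (g 7 0 3 1)) (Nat.add (Nat.mul m18
  (g 7 0 4 1)) (Nat.add (Nat.mul m19 (g 7 0 5 1)) (Nat.add (Nat.mul m20 (g 7 0 6 1)) (Nat.add
  (Nat.mul m21 (g 7 0 7 1)) (Nat.add (Nat.mul m22 (g 7 0 8 1)) (Nat.add (Nat.mul m23 (g 7 0 9 1))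
  (Nat.add (Nat.mul m24 (g 7 0 10 1)) (Nat.add (Nat.mul m25 (g 7 0 11 1)) (Nat.add (Nat.mul m26
  (g 7 0 12 1)) (Nat.add (Nat.mul m27 (g 7 0 13 1)) (Nat.add (Nat.mul m28 (g 7 0 2 2)) (Nat.add
  (Nat.mul m29 (g 7 0 3 2)) (Nat.add (Nat.mul m30 (g 7 0 4 2)) (Nat.add (Nat.mul m31 (g 7 0 5 2))
  (Nat.add (Nat.mul m32 (g 7 0 6 2)) (Nat.add (Nat.mul m33 (g 7 0 7 2)) (Nat.add (Nat.mul m34 (g
  7 0 8 2)) (Nat.add (Nat.mul m35 (g 7 0 9 2)) (Nat.add (Nat.mul m36 (g 7 0 10 2)) (Nat.add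
  (Nat.mul m37 (g 7 0 11 2)) (Nat.add (Nat.mul m38 (g 7 0 12 2)) (Nat.add (Nat.mul m39 (g 7 0 13
  2)) (Nat.add (Nat.mul m40 (g 7 0 3 3)) (Nat.add (Nat.mul m41 (g 7 0 4 3)) (Nat.add (Nat.mul m42
  (g 7 0 5 3)) (Nat.add (Nat.mul m43 (g 7 0 6 3)) (Nat.add (Nat.mul m44 (g 7 0 7 3)) (Nat.add
  (Nat.mul m45 (g 7 0 8 3)) (Nat.add (Nat.mul m46 (g 7 0 9 3)) (Nat.add (Nat.mul m47 (g 7 0 10
  3)) (Nat.add (Nat.mul m48 (g 7 0 11 3)) (Nat.add (Nat.mul m49 (g 7 0 12 3)) (Nat.add (Nat.mul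
  m50 (g 7 0 4 4)) (Nat.add (Nat.mul m51 (g 7 0 5 4)) (Nat.add (Nat.mul m52 (g 7 0 6 4)) (Nat.add
  (Nat.mul m53 (g 7 0 7 4)) (Nat.add (Nat.mul m54 (g 7 0 8 4)) (Nat.add (Nat.mul m55 (g 7 0 9 4))
  (Nat.add (Nat.mul m56 (g 7 0 10 4)) (Nat.add (Nat.mul m57 (g 7 0 11 4)) (Nat.add (Nat.mul m58
  (g 7 0 12 4)) (Nat.add (Nat.mul m59 (g 7 0 5 5)) (Nat.add (Nat.mul m60 (g 7 0 6 5)) (Nat.add
  (Nat.mul m61 (g 7 0 7 5)) (Nat.add (Nat.mul m62 (g 7 0 8 5)) (Nat.add (Nat.mul m63 (g 7 0 9 5))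
  (Nat.add (Nat.mul m64 (g 7 0 10 5)) (Nat.add (Nat.mul m65 (g 7 0 11 5)) (Nat.add (Nat.mul m66
  (g 7 0 6 6)) (Nat.add (Nat.mul m67 (g 7 0 7 6)) (Nat.add (Nat.mul m68 (g 7 0 8 6)) (Nat.add
  (Nat.mul m69 (g 7 0 9 6)) (Nat.add (Nat.mul m70 (g 7 0 10 6)) (Nat.add (Nat.mul m71 (g 7 0 11
  6)) (Nat.add (Nat.mul m72 (g 7 0 7 7)) (Nat.add (Nat.mul m73 (g 7 0 8 7)) (Nat.add (Nat.mul m74
  (g 7 0 9 7)) (Nat.add (Nat.mul m75 (g 7 0 10 7)) (Nat.add (Nat.mul m76 (g 7 0 8 8)) (Nat.add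
  (Nat.mul m77 (g 7 0 9 8)) (Nat.add (Nat.mul m78 (g 7 0 10 8)) (Nat.add (Nat.mul m79 (g 7 0 9
  9)) (0))))))))))))))))))))))))))))))))))))))))))))))))))))))))))))))))))))))))

def zr8 (g : Nat → Nat → Nat → Nat → Nat) (m9 m10 m11 m12 m13 m14 m15 m16 m17 m18 m19 m20 m21
    m22 m23 m24 m25 m26 m27 m28 m29 m30 m31 m32 m33 m34 m35 m36 m37 m38 m39 m40 m41 m42 m43 m44
    m45 m46 m47 m48 m49 m50 m51 m52 m53 m54 m55 m56 m57 m58 m59 m60 m61 m62 m63 m64 m65 m66 m67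
    m68 m69 m70 m71 m72 m73 m74 m75 m76 m77 m78 m79 : Nat) : Nat :=
  Nat.add (Nat.mul m9 (g 8 0 9 0)) (Nat.add (Nat.mul m10 (g 8 0 10 0)) (Nat.add (Nat.mul m11 (g 8
  0 11 0)) (Nat.add (Nat.mul m12 (g 8 0 12 0)) (Nat.add (Nat.mul m13 (g 8 0 13 0)) (Nat.add
  (Nat.mul m14 (g 8 0 14 0)) (Nat.add (Nat.mul m15 (g 8 0 1 1)) (Nat.add (Nat.mul m16 (g 8 0 2
  1)) (Nat.add (Nat.mul m17 (g 8 0 3 1)) (Nat.add (Nat.mul m18 (g 8 0 4 1)) (Nat.add (Nat.mul m19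
  (g 8 0 5 1)) (Nat.add (Nat.mul m20 (g 8 0 6 1)) (Nat.add (Nat.mul m21 (g 8 0 7 1)) (Nat.add
  (Nat.mul m22 (g 8 0 8 1)) (Nat.add (Nat.mul m23 (g 8 0 9 1)) (Nat.add (Nat.mul m24 (g 8 0 10
  1)) (Nat.add (Nat.mul m25 (g 8 0 11 1)) (Nat.add (Nat.mul m26 (g 8 0 12 1)) (Nat.add (Nat.mul
  m27 (g 8 0 13 1)) (Nat.add (Nat.mul m28 (g 8 0 2 2)) (Nat.add (Nat.mul m29 (g 8 0 3 2))
  (Nat.add (Nat.mul m30 (g 8 0 4 2)) (Nat.add (Nat.mul m31 (g 8 0 5 2)) (Nat.add (Nat.mul m32 (g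
  8 0 6 2)) (Nat.add (Nat.mul m33 (g 8 0 7 2)) (Nat.add (Nat.mul m34 (g 8 0 8 2)) (Nat.add
  (Nat.mul m35 (g 8 0 9 2)) (Nat.add (Nat.mul m36 (g 8 0 10 2)) (Nat.add (Nat.mul m37 (g 8 0 11
  2)) (Nat.add (Nat.mul m38 (g 8 0 12 2)) (Nat.add (Nat.mul m39 (g 8 0 13 2)) (Nat.add (Nat.mul
  m40 (g 8 0 3 3)) (Nat.add (Nat.mul m41 (g 8 0 4 3)) (Nat.add (Nat.mul m42 (g 8 0 5 3)) (Nat.add
  (Nat.mul m43 (g 8 0 6 3)) (Nat.add (Nat.mul m44 (g 8 0 7 3)) (Nat.add (Nat.mul m45 (g 8 0 8 3))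
  (Nat.add (Nat.mul m46 (g 8 0 9 3)) (Nat.add (Nat.mul m47 (g 8 0 10 3)) (Nat.add (Nat.mul m48 (g
  8 0 11 3)) (Nat.add (Nat.mul m49 (g 8 0 12 3)) (Nat.add (Nat.mul m50 (g 8 0 4 4)) (Nat.add
  (Nat.mul m51 (g 8 0 5 4)) (Nat.add (Nat.mul m52 (g 8 0 6 4)) (Nat.add (Nat.mul m53 (g 8 0 7 4))
  (Nat.add (Nat.mul m54 (g 8 0 8 4)) (Nat.add (Nat.mul m55 (g 8 0 9 4)) (Nat.add (Nat.mul m56 (g
  8 0 10 4)) (Nat.add (Nat.mul m57 (g 8 0 11 4)) (Nat.add (Nat.mul m58 (g 8 0 12 4)) (Nat.add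
  (Nat.mul m59 (g 8 0 5 5)) (Nat.add (Nat.mul m60 (g 8 0 6 5)) (Nat.add (Nat.mul m61 (g 8 0 7 5))
  (Nat.add (Nat.mul m62 (g 8 0 8 5)) (Nat.add (Nat.mul m63 (g 8 0 9 5)) (Nat.add (Nat.mul m64 (g
  8 0 10 5)) (Nat.add (Nat.mul m65 (g 8 0 11 5)) (Nat.add (Nat.mul m66 (g 8 0 6 6)) (Nat.add
  (Nat.mul m67 (g 8 0 7 6)) (Nat.add (Nat.mul m68 (g 8 0 8 6)) (Nat.add (Nat.mul m69 (g 8 0 9 6))
  (Nat.add (Nat.mul m70 (g 8 0 10 6)) (Nat.add (Nat.mul m71 (g 8 0 11 6)) (Nat.add (Nat.mul m72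
  (g 8 0 7 7)) (Nat.add (Nat.mul m73 (g 8 0 8 7)) (Nat.add (Nat.mul m74 (g 8 0 9 7)) (Nat.add
  (Nat.mul m75 (g 8 0 10 7)) (Nat.add (Nat.mul m76 (g 8 0 8 8)) (Nat.add (Nat.mul m77 (g 8 0 9
  8)) (Nat.add (Nat.mul m78 (g 8 0 10 8)) (Nat.add (Nat.mul m79 (g 8 0 9 9))
  (0)))))))))))))))))))))))))))))))))))))))))))))))))))))))))))))))))))))))

def zr9 (g : Nat → Nat → Nat → Nat → Nat) (m10 m11 m12 m13 m14 m15 m16 m17 m18 m19 m20 m21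
    m22 m23 m24 m25 m26 m27 m28 m29 m30 m31 m32 m33 m34 m35 m36 m37 m38 m39 m40 m41 m42 m43 m44
    m45 m46 m47 m48 m49 m50 m51 m52 m53 m54 m55 m56 m57 m58 m59 m60 m61 m62 m63 m64 m65 m66 m67
    m68 m69 m70 m71 m72 m73 m74 m75 m76 m77 m78 m79 : Nat) : Nat :=
  Nat.add (Nat.mul m10 (g 9 0 10 0)) (Nat.add (Nat.mul m11 (g 9 0 11 0)) (Nat.add (Nat.mul m12 (g
  9 0 12 0)) (Nat.add (Nat.mul m13 (g 9 0 13 0)) (Nat.add (Nat.mul m14 (g 9 0 14 0)) (Nat.add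
  (Nat.mul m15 (g 9 0 1 1)) (Nat.add (Nat.mul m16 (g 9 0 2 1)) (Nat.add (Nat.mul m17 (g 9 0 3 1))
  (Nat.add (Nat.mul m18 (g 9 0 4 1)) (Nat.add (Nat.mul m19 (g 9 0 5 1)) (Nat.add (Nat.mul m20 (g
  9 0 6 1)) (Nat.add (Nat.mul m21 (g 9 0 7 1)) (Nat.add (Nat.mul m22 (g 9 0 8 1)) (Nat.add
  (Nat.mul m23 (g 9 0 9 1)) (Nat.add (Nat.mul m24 (g 9 0 10 1)) (Nat.add (Nat.mul m25 (g 9 0 11
  1)) (Nat.add (Nat.mul m26 (g 9 0 12 1)) (Nat.add (Nat.mul m27 (g 9 0 13 1)) (Nat.add (Nat.mul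
  m28 (g 9 0 2 2)) (Nat.add (Nat.mul m29 (g 9 0 3 2)) (Nat.add (Nat.mul m30 (g 9 0 4 2)) (Nat.add
  (Nat.mul m31 (g 9 0 5 2)) (Nat.add (Nat.mul m32 (g 9 0 6 2)) (Nat.add (Nat.mul m33 (g 9 0 7 2))
  (Nat.add (Nat.mul m34 (g 9 0 8 2)) (Nat.add (Nat.mul m35 (g 9 0 9 2)) (Nat.add (Nat.mul m36 (g
  9 0 10 2)) (Nat.add (Nat.mul m37 (g 9 0 11 2)) (Nat.add (Nat.mul m38 (g 9 0 12 2)) (Nat.add
  (Nat.mul m39 (g 9 0 13 2)) (Nat.add (Nat.mul m40 (g 9 0 3 3)) (Nat.add (Nat.mul m41 (g 9 0 4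
  3)) (Nat.add (Nat.mul m42 (g 9 0 5 3)) (Nat.add (Nat.mul m43 (g 9 0 6 3)) (Nat.add (Nat.mul m44
  (g 9 0 7 3)) (Nat.add (Nat.mul m45 (g 9 0 8 3)) (Nat.add (Nat.mul m46 (g 9 0 9 3)) (Nat.add
  (Nat.mul m47 (g 9 0 10 3)) (Nat.add (Nat.mul m48 (g 9 0 11 3)) (Nat.add (Nat.mul m49 (g 9 0 12
  3)) (Nat.add (Nat.mul m50 (g 9 0 4 4)) (Nat.add (Nat.mul m51 (g 9 0 5 4)) (Nat.add (Nat.mul m52
  (g 9 0 6 4)) (Nat.add (Nat.mul m53 (g 9 0 7 4)) (Nat.add (Nat.mul m54 (g 9 0 8 4)) (Nat.add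
  (Nat.mul m55 (g 9 0 9 4)) (Nat.add (Nat.mul m56 (g 9 0 10 4)) (Nat.add (Nat.mul m57 (g 9 0 11
  4)) (Nat.add (Nat.mul m58 (g 9 0 12 4)) (Nat.add (Nat.mul m59 (g 9 0 5 5)) (Nat.add (Nat.mul
  m60 (g 9 0 6 5)) (Nat.add (Nat.mul m61 (g 9 0 7 5)) (Nat.add (Nat.mul m62 (g 9 0 8 5)) (Nat.add
  (Nat.mul m63 (g 9 0 9 5)) (Nat.add (Nat.mul m64 (g 9 0 10 5)) (Nat.add (Nat.mul m65 (g 9 0 11
  5)) (Nat.add (Nat.mul m66 (g 9 0 6 6)) (Nat.add (Nat.mul m67 (g 9 0 7 6)) (Nat.add (Nat.mul m68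
  (g 9 0 8 6)) (Nat.add (Nat.mul m69 (g 9 0 9 6)) (Nat.add (Nat.mul m70 (g 9 0 10 6)) (Nat.add
  (Nat.mul m71 (g 9 0 11 6)) (Nat.add (Nat.mul m72 (g 9 0 7 7)) (Nat.add (Nat.mul m73 (g 9 0 8
  7)) (Nat.add (Nat.mul m74 (g 9 0 9 7)) (Nat.add (Nat.mul m75 (g 9 0 10 7)) (Nat.add (Nat.mul
  m76 (g 9 0 8 8)) (Nat.add (Nat.mul m77 (g 9 0 9 8)) (Nat.add (Nat.mul m78 (g 9 0 10 8))
  (Nat.add (Nat.mul m79 (g 9 0 9 9))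
  (0))))))))))))))))))))))))))))))))))))))))))))))))))))))))))))))))))))))

def zr10 (g : Nat → Nat → Nat → Nat → Nat) (m11 m12 m13 m14 m15 m16 m17 m18 m19 m20 m21 m22
    m23 m24 m25 m26 m27 m28 m29 m30 m31 m32 m33 m34 m35 m36 m37 m38 m39 m40 m41 m42 m43 m44 m45
    m46 m47 m48 m49 m50 m51 m52 m53 m54 m55 m56 m57 m58 m59 m60 m61 m62 m63 m64 m65 m66 m67 m68
    m69 m70 m71 m72 m73 m74 m75 m76 m77 m78 m79 : Nat) : Nat :=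
  Nat.add (Nat.mul m11 (g 10 0 11 0)) (Nat.add (Nat.mul m12 (g 10 0 12 0)) (Nat.add (Nat.mul m13
  (g 10 0 13 0)) (Nat.add (Nat.mul m14 (g 10 0 14 0)) (Nat.add (Nat.mul m15 (g 10 0 1 1))
  (Nat.add (Nat.mul m16 (g 10 0 2 1)) (Nat.add (Nat.mul m17 (g 10 0 3 1)) (Nat.add (Nat.mul m18
  (g 10 0 4 1)) (Nat.add (Nat.mul m19 (g 10 0 5 1)) (Nat.add (Nat.mul m20 (g 10 0 6 1)) (Nat.add
  (Nat.mul m21 (g 10 0 7 1)) (Nat.add (Nat.mul m22 (g 10 0 8 1)) (Nat.add (Nat.mul m23 (g 10 0 9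
  1)) (Nat.add (Nat.mul m24 (g 10 0 10 1)) (Nat.add (Nat.mul m25 (g 10 0 11 1)) (Nat.add (Nat.mul
  m26 (g 10 0 12 1)) (Nat.add (Nat.mul m27 (g 10 0 13 1)) (Nat.add (Nat.mul m28 (g 10 0 2 2))
  (Nat.add (Nat.mul m29 (g 10 0 3 2)) (Nat.add (Nat.mul m30 (g 10 0 4 2)) (Nat.add (Nat.mul m31
  (g 10 0 5 2)) (Nat.add (Nat.mul m32 (g 10 0 6 2)) (Nat.add (Nat.mul m33 (g 10 0 7 2)) (Nat.add
  (Nat.mul m34 (g 10 0 8 2)) (Nat.add (Nat.mul m35 (g 10 0 9 2)) (Nat.add (Nat.mul m36 (g 10 0 10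
  2)) (Nat.add (Nat.mul m37 (g 10 0 11 2)) (Nat.add (Nat.mul m38 (g 10 0 12 2)) (Nat.add (Nat.mul
  m39 (g 10 0 13 2)) (Nat.add (Nat.mul m40 (g 10 0 3 3)) (Nat.add (Nat.mul m41 (g 10 0 4 3))
  (Nat.add (Nat.mul m42 (g 10 0 5 3)) (Nat.add (Nat.mul m43 (g 10 0 6 3)) (Nat.add (Nat.mul m44
  (g 10 0 7 3)) (Nat.add (Nat.mul m45 (g 10 0 8 3)) (Nat.add (Nat.mul m46 (g 10 0 9 3)) (Nat.add
  (Nat.mul m47 (g 10 0 10 3)) (Nat.add (Nat.mul m48 (g 10 0 11 3)) (Nat.add (Nat.mul m49 (g 10 0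
  12 3)) (Nat.add (Nat.mul m50 (g 10 0 4 4)) (Nat.add (Nat.mul m51 (g 10 0 5 4)) (Nat.add
  (Nat.mul m52 (g 10 0 6 4)) (Nat.add (Nat.mul m53 (g 10 0 7 4)) (Nat.add (Nat.mul m54 (g 10 0 8
  4)) (Nat.add (Nat.mul m55 (g 10 0 9 4)) (Nat.add (Nat.mul m56 (g 10 0 10 4)) (Nat.add (Nat.mul
  m57 (g 10 0 11 4)) (Nat.add (Nat.mul m58 (g 10 0 12 4)) (Nat.add (Nat.mul m59 (g 10 0 5 5))
  (Nat.add (Nat.mul m60 (g 10 0 6 5)) (Nat.add (Nat.mul m61 (g 10 0 7 5)) (Nat.add (Nat.mul m62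
  (g 10 0 8 5)) (Nat.add (Nat.mul m63 (g 10 0 9 5)) (Nat.add (Nat.mul m64 (g 10 0 10 5)) (Nat.add
  (Nat.mul m65 (g 10 0 11 5)) (Nat.add (Nat.mul m66 (g 10 0 6 6)) (Nat.add (Nat.mul m67 (g 10 0 7
  6)) (Nat.add (Nat.mul m68 (g 10 0 8 6)) (Nat.add (Nat.mul m69 (g 10 0 9 6)) (Nat.add (Nat.mul
  m70 (g 10 0 10 6)) (Nat.add (Nat.mul m71 (g 10 0 11 6)) (Nat.add (Nat.mul m72 (g 10 0 7 7))
  (Nat.add (Nat.mul m73 (g 10 0 8 7)) (Nat.add (Nat.mul m74 (g 10 0 9 7)) (Nat.add (Nat.mul m75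
  (g 10 0 10 7)) (Nat.add (Nat.mul m76 (g 10 0 8 8)) (Nat.add (Nat.mul m77 (g 10 0 9 8)) (Nat.add
  (Nat.mul m78 (g 10 0 10 8)) (Nat.add (Nat.mul m79 (g 10 0 9 9))
  (0)))))))))))))))))))))))))))))))))))))))))))))))))))))))))))))))))))))

def zr11 (g : Nat → Nat → Nat → Nat → Nat) (m12 m13 m14 m15 m16 m17 m18 m19 m20 m21 m22 m23
    m24 m25 m26 m27 m28 m29 m30 m31 m32 m33 m34 m35 m36 m37 m38 m39 m40 m41 m42 m43 m44 m45 m46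
    m47 m48 m49 m50 m51 m52 m53 m54 m55 m56 m57 m58 m59 m60 m61 m62 m63 m64 m65 m66 m67 m68 m69
    m70 m71 m72 m73 m74 m75 m76 m77 m78 m79 : Nat) : Nat :=
  Nat.add (Nat.mul m12 (g 11 0 12 0)) (Nat.add (Nat.mul m13 (g 11 0 13 0)) (Nat.add (Nat.mul m14
  (g 11 0 14 0)) (Nat.add (Nat.mul m15 (g 11 0 1 1)) (Nat.add (Nat.mul m16 (g 11 0 2 1)) (Nat.add
  (Nat.mul m17 (g 11 0 3 1)) (Nat.add (Nat.mul m18 (g 11 0 4 1)) (Nat.add (Nat.mul m19 (g 11 0 5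
  1)) (Nat.add (Nat.mul m20 (g 11 0 6 1)) (Nat.add (Nat.mul m21 (g 11 0 7 1)) (Nat.add (Nat.mul
  m22 (g 11 0 8 1)) (Nat.add (Nat.mul m23 (g 11 0 9 1)) (Nat.add (Nat.mul m24 (g 11 0 10 1))
  (Nat.add (Nat.mul m25 (g 11 0 11 1)) (Nat.add (Nat.mul m26 (g 11 0 12 1)) (Nat.add (Nat.mul m27
  (g 11 0 13 1)) (Nat.add (Nat.mul m28 (g 11 0 2 2)) (Nat.add (Nat.mul m29 (g 11 0 3 2)) (Nat.add
  (Nat.mul m30 (g 11 0 4 2)) (Nat.add (Nat.mul m31 (g 11 0 5 2)) (Nat.add (Nat.mul m32 (g 11 0 6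
  2)) (Nat.add (Nat.mul m33 (g 11 0 7 2)) (Nat.add (Nat.mul m34 (g 11 0 8 2)) (Nat.add (Nat.mul
  m35 (g 11 0 9 2)) (Nat.add (Nat.mul m36 (g 11 0 10 2)) (Nat.add (Nat.mul m37 (g 11 0 11 2))
  (Nat.add (Nat.mul m38 (g 11 0 12 2)) (Nat.add (Nat.mul m39 (g 11 0 13 2)) (Nat.add (Nat.mul m40
  (g 11 0 3 3)) (Nat.add (Nat.mul m41 (g 11 0 4 3)) (Nat.add (Nat.mul m42 (g 11 0 5 3)) (Nat.add
  (Nat.mul m43 (g 11 0 6 3)) (Nat.add (Nat.mul m44 (g 11 0 7 3)) (Nat.add (Nat.mul m45 (g 11 0 8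
  3)) (Nat.add (Nat.mul m46 (g 11 0 9 3)) (Nat.add (Nat.mul m47 (g 11 0 10 3)) (Nat.add (Nat.mul
  m48 (g 11 0 11 3)) (Nat.add (Nat.mul m49 (g 11 0 12 3)) (Nat.add (Nat.mul m50 (g 11 0 4 4))
  (Nat.add (Nat.mul m51 (g 11 0 5 4)) (Nat.add (Nat.mul m52 (g 11 0 6 4)) (Nat.add (Nat.mul m53
  (g 11 0 7 4)) (Nat.add (Nat.mul m54 (g 11 0 8 4)) (Nat.add (Nat.mul m55 (g 11 0 9 4)) (Nat.add
  (Nat.mul m56 (g 11 0 10 4)) (Nat.add (Nat.mul m57 (g 11 0 11 4)) (Nat.add (Nat.mul m58 (g 11 0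
  12 4)) (Nat.add (Nat.mul m59 (g 11 0 5 5)) (Nat.add (Nat.mul m60 (g 11 0 6 5)) (Nat.add
  (Nat.mul m61 (g 11 0 7 5)) (Nat.add (Nat.mul m62 (g 11 0 8 5)) (Nat.add (Nat.mul m63 (g 11 0 9
  5)) (Nat.add (Nat.mul m64 (g 11 0 10 5)) (Nat.add (Nat.mul m65 (g 11 0 11 5)) (Nat.add (Nat.mul
  m66 (g 11 0 6 6)) (Nat.add (Nat.mul m67 (g 11 0 7 6)) (Nat.add (Nat.mul m68 (g 11 0 8 6))
  (Nat.add (Nat.mul m69 (g 11 0 9 6)) (Nat.add (Nat.mul m70 (g 11 0 10 6)) (Nat.add (Nat.mul m71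
  (g 11 0 11 6)) (Nat.add (Nat.mul m72 (g 11 0 7 7)) (Nat.add (Nat.mul m73 (g 11 0 8 7)) (Nat.add
  (Nat.mul m74 (g 11 0 9 7)) (Nat.add (Nat.mul m75 (g 11 0 10 7)) (Nat.add (Nat.mul m76 (g 11 0 8
  8)) (Nat.add (Nat.mul m77 (g 11 0 9 8)) (Nat.add (Nat.mul m78 (g 11 0 10 8)) (Nat.add (Nat.mul
  m79 (g 11 0 9 9)) (0))))))))))))))))))))))))))))))))))))))))))))))))))))))))))))))))))))

def zr12 (g : Nat → Nat → Nat → Nat → Nat) (m13 m14 m15 m16 m17 m18 m19 m20 m21 m22 m23 m24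
    m25 m26 m27 m28 m29 m30 m31 m32 m33 m34 m35 m36 m37 m38 m39 m40 m41 m42 m43 m44 m45 m46 m47
    m48 m49 m50 m51 m52 m53 m54 m55 m56 m57 m58 m59 m60 m61 m62 m63 m64 m65 m66 m67 m68 m69 m70
    m71 m72 m73 m74 m75 m76 m77 m78 m79 : Nat) : Nat :=
  Nat.add (Nat.mul m13 (g 12 0 13 0)) (Nat.add (Nat.mul m14 (g 12 0 14 0)) (Nat.add (Nat.mul m15
  (g 12 0 1 1)) (Nat.add (Nat.mul m16 (g 12 0 2 1)) (Nat.add (Nat.mul m17 (g 12 0 3 1)) (Nat.add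
  (Nat.mul m18 (g 12 0 4 1)) (Nat.add (Nat.mul m19 (g 12 0 5 1)) (Nat.add (Nat.mul m20 (g 12 0 6
  1)) (Nat.add (Nat.mul m21 (g 12 0 7 1)) (Nat.add (Nat.mul m22 (g 12 0 8 1)) (Nat.add (Nat.mul
  m23 (g 12 0 9 1)) (Nat.add (Nat.mul m24 (g 12 0 10 1)) (Nat.add (Nat.mul m25 (g 12 0 11 1))
  (Nat.add (Nat.mul m26 (g 12 0 12 1)) (Nat.add (Nat.mul m27 (g 12 0 13 1)) (Nat.add (Nat.mul m28
  (g 12 0 2 2)) (Nat.add (Nat.mul m29 (g 12 0 3 2)) (Nat.add (Nat.mul m30 (g 12 0 4 2)) (Nat.add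
  (Nat.mul m31 (g 12 0 5 2)) (Nat.add (Nat.mul m32 (g 12 0 6 2)) (Nat.add (Nat.mul m33 (g 12 0 7
  2)) (Nat.add (Nat.mul m34 (g 12 0 8 2)) (Nat.add (Nat.mul m35 (g 12 0 9 2)) (Nat.add (Nat.mul
  m36 (g 12 0 10 2)) (Nat.add (Nat.mul m37 (g 12 0 11 2)) (Nat.add (Nat.mul m38 (g 12 0 12 2))
  (Nat.add (Nat.mul m39 (g 12 0 13 2)) (Nat.add (Nat.mul m40 (g 12 0 3 3)) (Nat.add (Nat.mul m41
  (g 12 0 4 3)) (Nat.add (Nat.mul m42 (g 12 0 5 3)) (Nat.add (Nat.mul m43 (g 12 0 6 3)) (Nat.add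
  (Nat.mul m44 (g 12 0 7 3)) (Nat.add (Nat.mul m45 (g 12 0 8 3)) (Nat.add (Nat.mul m46 (g 12 0 9
  3)) (Nat.add (Nat.mul m47 (g 12 0 10 3)) (Nat.add (Nat.mul m48 (g 12 0 11 3)) (Nat.add (Nat.mul
  m49 (g 12 0 12 3)) (Nat.add (Nat.mul m50 (g 12 0 4 4)) (Nat.add (Nat.mul m51 (g 12 0 5 4))
  (Nat.add (Nat.mul m52 (g 12 0 6 4)) (Nat.add (Nat.mul m53 (g 12 0 7 4)) (Nat.add (Nat.mul m54
  (g 12 0 8 4)) (Nat.add (Nat.mul m55 (g 12 0 9 4)) (Nat.add (Nat.mul m56 (g 12 0 10 4)) (Nat.add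
  (Nat.mul m57 (g 12 0 11 4)) (Nat.add (Nat.mul m58 (g 12 0 12 4)) (Nat.add (Nat.mul m59 (g 12 0
  5 5)) (Nat.add (Nat.mul m60 (g 12 0 6 5)) (Nat.add (Nat.mul m61 (g 12 0 7 5)) (Nat.add (Nat.mul
  m62 (g 12 0 8 5)) (Nat.add (Nat.mul m63 (g 12 0 9 5)) (Nat.add (Nat.mul m64 (g 12 0 10 5))
  (Nat.add (Nat.mul m65 (g 12 0 11 5)) (Nat.add (Nat.mul m66 (g 12 0 6 6)) (Nat.add (Nat.mul m67
  (g 12 0 7 6)) (Nat.add (Nat.mul m68 (g 12 0 8 6)) (Nat.add (Nat.mul m69 (g 12 0 9 6)) (Nat.add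
  (Nat.mul m70 (g 12 0 10 6)) (Nat.add (Nat.mul m71 (g 12 0 11 6)) (Nat.add (Nat.mul m72 (g 12 0
  7 7)) (Nat.add (Nat.mul m73 (g 12 0 8 7)) (Nat.add (Nat.mul m74 (g 12 0 9 7)) (Nat.add (Nat.mul
  m75 (g 12 0 10 7)) (Nat.add (Nat.mul m76 (g 12 0 8 8)) (Nat.add (Nat.mul m77 (g 12 0 9 8))
  (Nat.add (Nat.mul m78 (g 12 0 10 8)) (Nat.add (Nat.mul m79 (g 12 0 9 9))
  (0)))))))))))))))))))))))))))))))))))))))))))))))))))))))))))))))))))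

def zr13 (g : Nat → Nat → Nat → Nat → Nat) (m14 m15 m16 m17 m18 m19 m20 m21 m22 m23 m24 m25
    m26 m27 m28 m29 m30 m31 m32 m33 m34 m35 m36 m37 m38 m39 m40 m41 m42 m43 m44 m45 m46 m47 m48
    m49 m50 m51 m52 m53 m54 m55 m56 m57 m58 m59 m60 m61 m62 m63 m64 m65 m66 m67 m68 m69 m70 m71
    m72 m73 m74 m75 m76 m77 m78 m79 : Nat) : Nat :=
  Nat.add (Nat.mul m14 (g 13 0 14 0)) (Nat.add (Nat.mul m15 (g 13 0 1 1)) (Nat.add (Nat.mul m16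
  (g 13 0 2 1)) (Nat.add (Nat.mul m17 (g 13 0 3 1)) (Nat.add (Nat.mul m18 (g 13 0 4 1)) (Nat.add
  (Nat.mul m19 (g 13 0 5 1)) (Nat.add (Nat.mul m20 (g 13 0 6 1)) (Nat.add (Nat.mul m21 (g 13 0 7
  1)) (Nat.add (Nat.mul m22 (g 13 0 8 1)) (Nat.add (Nat.mul m23 (g 13 0 9 1)) (Nat.add (Nat.mul
  m24 (g 13 0 10 1)) (Nat.add (Nat.mul m25 (g 13 0 11 1)) (Nat.add (Nat.mul m26 (g 13 0 12 1))
  (Nat.add (Nat.mul m27 (g 13 0 13 1)) (Nat.add (Nat.mul m28 (g 13 0 2 2)) (Nat.add (Nat.mul m29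
  (g 13 0 3 2)) (Nat.add (Nat.mul m30 (g 13 0 4 2)) (Nat.add (Nat.mul m31 (g 13 0 5 2)) (Nat.add
  (Nat.mul m32 (g 13 0 6 2)) (Nat.add (Nat.mul m33 (g 13 0 7 2)) (Nat.add (Nat.mul m34 (g 13 0 8
  2)) (Nat.add (Nat.mul m35 (g 13 0 9 2)) (Nat.add (Nat.mul m36 (g 13 0 10 2)) (Nat.add (Nat.mul
  m37 (g 13 0 11 2)) (Nat.add (Nat.mul m38 (g 13 0 12 2)) (Nat.add (Nat.mul m39 (g 13 0 13 2))
  (Nat.add (Nat.mul m40 (g 13 0 3 3)) (Nat.add (Nat.mul m41 (g 13 0 4 3)) (Nat.add (Nat.mul m42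
  (g 13 0 5 3)) (Nat.add (Nat.mul m43 (g 13 0 6 3)) (Nat.add (Nat.mul m44 (g 13 0 7 3)) (Nat.add
  (Nat.mul m45 (g 13 0 8 3)) (Nat.add (Nat.mul m46 (g 13 0 9 3)) (Nat.add (Nat.mul m47 (g 13 0 10
  3)) (Nat.add (Nat.mul m48 (g 13 0 11 3)) (Nat.add (Nat.mul m49 (g 13 0 12 3)) (Nat.add (Nat.mul
  m50 (g 13 0 4 4)) (Nat.add (Nat.mul m51 (g 13 0 5 4)) (Nat.add (Nat.mul m52 (g 13 0 6 4))
  (Nat.add (Nat.mul m53 (g 13 0 7 4)) (Nat.add (Nat.mul m54 (g 13 0 8 4)) (Nat.add (Nat.mul m55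
  (g 13 0 9 4)) (Nat.add (Nat.mul m56 (g 13 0 10 4)) (Nat.add (Nat.mul m57 (g 13 0 11 4))
  (Nat.add (Nat.mul m58 (g 13 0 12 4)) (Nat.add (Nat.mul m59 (g 13 0 5 5)) (Nat.add (Nat.mul m60
  (g 13 0 6 5)) (Nat.add (Nat.mul m61 (g 13 0 7 5)) (Nat.add (Nat.mul m62 (g 13 0 8 5)) (Nat.add
  (Nat.mul m63 (g 13 0 9 5)) (Nat.add (Nat.mul m64 (g 13 0 10 5)) (Nat.add (Nat.mul m65 (g 13 0
  11 5)) (Nat.add (Nat.mul m66 (g 13 0 6 6)) (Nat.add (Nat.mul m67 (g 13 0 7 6)) (Nat.add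
  (Nat.mul m68 (g 13 0 8 6)) (Nat.add (Nat.mul m69 (g 13 0 9 6)) (Nat.add (Nat.mul m70 (g 13 0 10
  6)) (Nat.add (Nat.mul m71 (g 13 0 11 6)) (Nat.add (Nat.mul m72 (g 13 0 7 7)) (Nat.add (Nat.mul
  m73 (g 13 0 8 7)) (Nat.add (Nat.mul m74 (g 13 0 9 7)) (Nat.add (Nat.mul m75 (g 13 0 10 7))
  (Nat.add (Nat.mul m76 (g 13 0 8 8)) (Nat.add (Nat.mul m77 (g 13 0 9 8)) (Nat.add (Nat.mul m78
  (g 13 0 10 8)) (Nat.add (Nat.mul m79 (g 13 0 9 9))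
  (0))))))))))))))))))))))))))))))))))))))))))))))))))))))))))))))))))

def zr14 (g : Nat → Nat → Nat → Nat → Nat) (m15 m16 m17 m18 m19 m20 m21 m22 m23 m24 m25 m26
    m27 m28 m29 m30 m31 m32 m33 m34 m35 m36 m37 m38 m39 m40 m41 m42 m43 m44 m45 m46 m47 m48 m49
    m50 m51 m52 m53 m54 m55 m56 m57 m58 m59 m60 m61 m62 m63 m64 m65 m66 m67 m68 m69 m70 m71 m72
    m73 m74 m75 m76 m77 m78 m79 : Nat) : Nat :=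
  Nat.add (Nat.mul m15 (g 14 0 1 1)) (Nat.add (Nat.mul m16 (g 14 0 2 1)) (Nat.add (Nat.mul m17 (g
  14 0 3 1)) (Nat.add (Nat.mul m18 (g 14 0 4 1)) (Nat.add (Nat.mul m19 (g 14 0 5 1)) (Nat.add
  (Nat.mul m20 (g 14 0 6 1)) (Nat.add (Nat.mul m21 (g 14 0 7 1)) (Nat.add (Nat.mul m22 (g 14 0 8
  1)) (Nat.add (Nat.mul m23 (g 14 0 9 1)) (Nat.add (Nat.mul m24 (g 14 0 10 1)) (Nat.add (Nat.mul
  m25 (g 14 0 11 1)) (Nat.add (Nat.mul m26 (g 14 0 12 1)) (Nat.add (Nat.mul m27 (g 14 0 13 1))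
  (Nat.add (Nat.mul m28 (g 14 0 2 2)) (Nat.add (Nat.mul m29 (g 14 0 3 2)) (Nat.add (Nat.mul m30
  (g 14 0 4 2)) (Nat.add (Nat.mul m31 (g 14 0 5 2)) (Nat.add (Nat.mul m32 (g 14 0 6 2)) (Nat.add
  (Nat.mul m33 (g 14 0 7 2)) (Nat.add (Nat.mul m34 (g 14 0 8 2)) (Nat.add (Nat.mul m35 (g 14 0 9
  2)) (Nat.add (Nat.mul m36 (g 14 0 10 2)) (Nat.add (Nat.mul m37 (g 14 0 11 2)) (Nat.add (Nat.mul
  m38 (g 14 0 12 2)) (Nat.add (Nat.mul m39 (g 14 0 13 2)) (Nat.add (Nat.mul m40 (g 14 0 3 3))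
  (Nat.add (Nat.mul m41 (g 14 0 4 3)) (Nat.add (Nat.mul m42 (g 14 0 5 3)) (Nat.add (Nat.mul m43
  (g 14 0 6 3)) (Nat.add (Nat.mul m44 (g 14 0 7 3)) (Nat.add (Nat.mul m45 (g 14 0 8 3)) (Nat.add
  (Nat.mul m46 (g 14 0 9 3)) (Nat.add (Nat.mul m47 (g 14 0 10 3)) (Nat.add (Nat.mul m48 (g 14 0
  11 3)) (Nat.add (Nat.mul m49 (g 14 0 12 3)) (Nat.add (Nat.mul m50 (g 14 0 4 4)) (Nat.add
  (Nat.mul m51 (g 14 0 5 4)) (Nat.add (Nat.mul m52 (g 14 0 6 4)) (Nat.add (Nat.mul m53 (g 14 0 7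
  4)) (Nat.add (Nat.mul m54 (g 14 0 8 4)) (Nat.add (Nat.mul m55 (g 14 0 9 4)) (Nat.add (Nat.mul
  m56 (g 14 0 10 4)) (Nat.add (Nat.mul m57 (g 14 0 11 4)) (Nat.add (Nat.mul m58 (g 14 0 12 4))
  (Nat.add (Nat.mul m59 (g 14 0 5 5)) (Nat.add (Nat.mul m60 (g 14 0 6 5)) (Nat.add (Nat.mul m61
  (g 14 0 7 5)) (Nat.add (Nat.mul m62 (g 14 0 8 5)) (Nat.add (Nat.mul m63 (g 14 0 9 5)) (Nat.add
  (Nat.mul m64 (g 14 0 10 5)) (Nat.add (Nat.mul m65 (g 14 0 11 5)) (Nat.add (Nat.mul m66 (g 14 0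
  6 6)) (Nat.add (Nat.mul m67 (g 14 0 7 6)) (Nat.add (Nat.mul m68 (g 14 0 8 6)) (Nat.add (Nat.mul
  m69 (g 14 0 9 6)) (Nat.add (Nat.mul m70 (g 14 0 10 6)) (Nat.add (Nat.mul m71 (g 14 0 11 6))
  (Nat.add (Nat.mul m72 (g 14 0 7 7)) (Nat.add (Nat.mul m73 (g 14 0 8 7)) (Nat.add (Nat.mul m74
  (g 14 0 9 7)) (Nat.add (Nat.mul m75 (g 14 0 10 7)) (Nat.add (Nat.mul m76 (g 14 0 8 8)) (Nat.add
  (Nat.mul m77 (g 14 0 9 8)) (Nat.add (Nat.mul m78 (g 14 0 10 8)) (Nat.add (Nat.mul m79 (g 14 0 9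
  9)) (0)))))))))))))))))))))))))))))))))))))))))))))))))))))))))))))))))

def zr15 (g : Nat → Nat → Nat → Nat → Nat) (m16 m17 m18 m19 m20 m21 m22 m23 m24 m25 m26 m27
    m28 m29 m30 m31 m32 m33 m34 m35 m36 m37 m38 m39 m40 m41 m42 m43 m44 m45 m46 m47 m48 m49 m50
    m51 m52 m53 m54 m55 m56 m57 m58 m59 m60 m61 m62 m63 m64 m65 m66 m67 m68 m69 m70 m71 m72 m73
    m74 m75 m76 m77 m78 m79 : Nat) : Nat :=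
  Nat.add (Nat.mul m16 (g 1 1 2 1)) (Nat.add (Nat.mul m17 (g 1 1 3 1)) (Nat.add (Nat.mul m18 (g 1
  1 4 1)) (Nat.add (Nat.mul m19 (g 1 1 5 1)) (Nat.add (Nat.mul m20 (g 1 1 6 1)) (Nat.add (Nat.mul
  m21 (g 1 1 7 1)) (Nat.add (Nat.mul m22 (g 1 1 8 1)) (Nat.add (Nat.mul m23 (g 1 1 9 1)) (Nat.add
  (Nat.mul m24 (g 1 1 10 1)) (Nat.add (Nat.mul m25 (g 1 1 11 1)) (Nat.add (Nat.mul m26 (g 1 1 12
  1)) (Nat.add (Nat.mul m27 (g 1 1 13 1)) (Nat.add (Nat.mul m28 (g 1 1 2 2)) (Nat.add (Nat.mul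
  m29 (g 1 1 3 2)) (Nat.add (Nat.mul m30 (g 1 1 4 2)) (Nat.add (Nat.mul m31 (g 1 1 5 2)) (Nat.add
  (Nat.mul m32 (g 1 1 6 2)) (Nat.add (Nat.mul m33 (g 1 1 7 2)) (Nat.add (Nat.mul m34 (g 1 1 8 2))
  (Nat.add (Nat.mul m35 (g 1 1 9 2)) (Nat.add (Nat.mul m36 (g 1 1 10 2)) (Nat.add (Nat.mul m37 (g
  1 1 11 2)) (Nat.add (Nat.mul m38 (g 1 1 12 2)) (Nat.add (Nat.mul m39 (g 1 1 13 2)) (Nat.add
  (Nat.mul m40 (g 1 1 3 3)) (Nat.add (Nat.mul m41 (g 1 1 4 3)) (Nat.add (Nat.mul m42 (g 1 1 5 3))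
  (Nat.add (Nat.mul m43 (g 1 1 6 3)) (Nat.add (Nat.mul m44 (g 1 1 7 3)) (Nat.add (Nat.mul m45 (g
  1 1 8 3)) (Nat.add (Nat.mul m46 (g 1 1 9 3)) (Nat.add (Nat.mul m47 (g 1 1 10 3)) (Nat.add
  (Nat.mul m48 (g 1 1 11 3)) (Nat.add (Nat.mul m49 (g 1 1 12 3)) (Nat.add (Nat.mul m50 (g 1 1 4
  4)) (Nat.add (Nat.mul m51 (g 1 1 5 4)) (Nat.add (Nat.mul m52 (g 1 1 6 4)) (Nat.add (Nat.mul m53
  (g 1 1 7 4)) (Nat.add (Nat.mul m54 (g 1 1 8 4)) (Nat.add (Nat.mul m55 (g 1 1 9 4)) (Nat.add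
  (Nat.mul m56 (g 1 1 10 4)) (Nat.add (Nat.mul m57 (g 1 1 11 4)) (Nat.add (Nat.mul m58 (g 1 1 12
  4)) (Nat.add (Nat.mul m59 (g 1 1 5 5)) (Nat.add (Nat.mul m60 (g 1 1 6 5)) (Nat.add (Nat.mul m61
  (g 1 1 7 5)) (Nat.add (Nat.mul m62 (g 1 1 8 5)) (Nat.add (Nat.mul m63 (g 1 1 9 5)) (Nat.add
  (Nat.mul m64 (g 1 1 10 5)) (Nat.add (Nat.mul m65 (g 1 1 11 5)) (Nat.add (Nat.mul m66 (g 1 1 6
  6)) (Nat.add (Nat.mul m67 (g 1 1 7 6)) (Nat.add (Nat.mul m68 (g 1 1 8 6)) (Nat.add (Nat.mul m69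
  (g 1 1 9 6)) (Nat.add (Nat.mul m70 (g 1 1 10 6)) (Nat.add (Nat.mul m71 (g 1 1 11 6)) (Nat.add
  (Nat.mul m72 (g 1 1 7 7)) (Nat.add (Nat.mul m73 (g 1 1 8 7)) (Nat.add (Nat.mul m74 (g 1 1 9 7))
  (Nat.add (Nat.mul m75 (g 1 1 10 7)) (Nat.add (Nat.mul m76 (g 1 1 8 8)) (Nat.add (Nat.mul m77 (g
  1 1 9 8)) (Nat.add (Nat.mul m78 (g 1 1 10 8)) (Nat.add (Nat.mul m79 (g 1 1 9 9))
  (0))))))))))))))))))))))))))))))))))))))))))))))))))))))))))))))))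

def zr16 (g : Nat → Nat → Nat → Nat → Nat) (m17 m18 m19 m20 m21 m22 m23 m24 m25 m26 m27 m28
    m29 m30 m31 m32 m33 m34 m35 m36 m37 m38 m39 m40 m41 m42 m43 m44 m45 m46 m47 m48 m49 m50 m51
    m52 m53 m54 m55 m56 m57 m58 m59 m60 m61 m62 m63 m64 m65 m66 m67 m68 m69 m70 m71 m72 m73 m74
    m75 m76 m77 m78 m79 : Nat) : Nat :=
  Nat.add (Nat.mul m17 (g 2 1 3 1)) (Nat.add (Nat.mul m18 (g 2 1 4 1)) (Nat.add (Nat.mul m19 (g 2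
  1 5 1)) (Nat.add (Nat.mul m20 (g 2 1 6 1)) (Nat.add (Nat.mul m21 (g 2 1 7 1)) (Nat.add (Nat.mul
  m22 (g 2 1 8 1)) (Nat.add (Nat.mul m23 (g 2 1 9 1)) (Nat.add (Nat.mul m24 (g 2 1 10 1))
  (Nat.add (Nat.mul m25 (g 2 1 11 1)) (Nat.add (Nat.mul m26 (g 2 1 12 1)) (Nat.add (Nat.mul m27
  (g 2 1 13 1)) (Nat.add (Nat.mul m28 (g 2 1 2 2)) (Nat.add (Nat.mul m29 (g 2 1 3 2)) (Nat.add
  (Nat.mul m30 (g 2 1 4 2)) (Nat.add (Nat.mul m31 (g 2 1 5 2)) (Nat.add (Nat.mul m32 (g 2 1 6 2))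
  (Nat.add (Nat.mul m33 (g 2 1 7 2)) (Nat.add (Nat.mul m34 (g 2 1 8 2)) (Nat.add (Nat.mul m35 (g
  2 1 9 2)) (Nat.add (Nat.mul m36 (g 2 1 10 2)) (Nat.add (Nat.mul m37 (g 2 1 11 2)) (Nat.add
  (Nat.mul m38 (g 2 1 12 2)) (Nat.add (Nat.mul m39 (g 2 1 13 2)) (Nat.add (Nat.mul m40 (g 2 1 3
  3)) (Nat.add (Nat.mul m41 (g 2 1 4 3)) (Nat.add (Nat.mul m42 (g 2 1 5 3)) (Nat.add (Nat.mul m43
  (g 2 1 6 3)) (Nat.add (Nat.mul m44 (g 2 1 7 3)) (Nat.add (Nat.mul m45 (g 2 1 8 3)) (Nat.add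
  (Nat.mul m46 (g 2 1 9 3)) (Nat.add (Nat.mul m47 (g 2 1 10 3)) (Nat.add (Nat.mul m48 (g 2 1 11
  3)) (Nat.add (Nat.mul m49 (g 2 1 12 3)) (Nat.add (Nat.mul m50 (g 2 1 4 4)) (Nat.add (Nat.mul
  m51 (g 2 1 5 4)) (Nat.add (Nat.mul m52 (g 2 1 6 4)) (Nat.add (Nat.mul m53 (g 2 1 7 4)) (Nat.add
  (Nat.mul m54 (g 2 1 8 4)) (Nat.add (Nat.mul m55 (g 2 1 9 4)) (Nat.add (Nat.mul m56 (g 2 1 10
  4)) (Nat.add (Nat.mul m57 (g 2 1 11 4)) (Nat.add (Nat.mul m58 (g 2 1 12 4)) (Nat.add (Nat.mul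
  m59 (g 2 1 5 5)) (Nat.add (Nat.mul m60 (g 2 1 6 5)) (Nat.add (Nat.mul m61 (g 2 1 7 5)) (Nat.add
  (Nat.mul m62 (g 2 1 8 5)) (Nat.add (Nat.mul m63 (g 2 1 9 5)) (Nat.add (Nat.mul m64 (g 2 1 10
  5)) (Nat.add (Nat.mul m65 (g 2 1 11 5)) (Nat.add (Nat.mul m66 (g 2 1 6 6)) (Nat.add (Nat.mul
  m67 (g 2 1 7 6)) (Nat.add (Nat.mul m68 (g 2 1 8 6)) (Nat.add (Nat.mul m69 (g 2 1 9 6)) (Nat.add
  (Nat.mul m70 (g 2 1 10 6)) (Nat.add (Nat.mul m71 (g 2 1 11 6)) (Nat.add (Nat.mul m72 (g 2 1 7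
  7)) (Nat.add (Nat.mul m73 (g 2 1 8 7)) (Nat.add (Nat.mul m74 (g 2 1 9 7)) (Nat.add (Nat.mul m75
  (g 2 1 10 7)) (Nat.add (Nat.mul m76 (g 2 1 8 8)) (Nat.add (Nat.mul m77 (g 2 1 9 8)) (Nat.add
  (Nat.mul m78 (g 2 1 10 8)) (Nat.add (Nat.mul m79 (g 2 1 9 9))
  (0)))))))))))))))))))))))))))))))))))))))))))))))))))))))))))))))

def zr17 (g : Nat → Nat → Nat → Nat → Nat) (m18 m19 m20 m21 m22 m23 m24 m25 m26 m27 m28 m29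
    m30 m31 m32 m33 m34 m35 m36 m37 m38 m39 m40 m41 m42 m43 m44 m45 m46 m47 m48 m49 m50 m51 m52
    m53 m54 m55 m56 m57 m58 m59 m60 m61 m62 m63 m64 m65 m66 m67 m68 m69 m70 m71 m72 m73 m74 m75
    m76 m77 m78 m79 : Nat) : Nat :=
  Nat.add (Nat.mul m18 (g 3 1 4 1)) (Nat.add (Nat.mul m19 (g 3 1 5 1)) (Nat.add (Nat.mul m20 (g 3
  1 6 1)) (Nat.add (Nat.mul m21 (g 3 1 7 1)) (Nat.add (Nat.mul m22 (g 3 1 8 1)) (Nat.add (Nat.mul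
  m23 (g 3 1 9 1)) (Nat.add (Nat.mul m24 (g 3 1 10 1)) (Nat.add (Nat.mul m25 (g 3 1 11 1))
  (Nat.add (Nat.mul m26 (g 3 1 12 1)) (Nat.add (Nat.mul m27 (g 3 1 13 1)) (Nat.add (Nat.mul m28
  (g 3 1 2 2)) (Nat.add (Nat.mul m29 (g 3 1 3 2)) (Nat.add (Nat.mul m30 (g 3 1 4 2)) (Nat.add
  (Nat.mul m31 (g 3 1 5 2)) (Nat.add (Nat.mul m32 (g 3 1 6 2)) (Nat.add (Nat.mul m33 (g 3 1 7 2))
  (Nat.add (Nat.mul m34 (g 3 1 8 2)) (Nat.add (Nat.mul m35 (g 3 1 9 2)) (Nat.add (Nat.mul m36 (g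
  3 1 10 2)) (Nat.add (Nat.mul m37 (g 3 1 11 2)) (Nat.add (Nat.mul m38 (g 3 1 12 2)) (Nat.add
  (Nat.mul m39 (g 3 1 13 2)) (Nat.add (Nat.mul m40 (g 3 1 3 3)) (Nat.add (Nat.mul m41 (g 3 1 4
  3)) (Nat.add (Nat.mul m42 (g 3 1 5 3)) (Nat.add (Nat.mul m43 (g 3 1 6 3)) (Nat.add (Nat.mul m44
  (g 3 1 7 3)) (Nat.add (Nat.mul m45 (g 3 1 8 3)) (Nat.add (Nat.mul m46 (g 3 1 9 3)) (Nat.add
  (Nat.mul m47 (g 3 1 10 3)) (Nat.add (Nat.mul m48 (g 3 1 11 3)) (Nat.add (Nat.mul m49 (g 3 1 12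
  3)) (Nat.add (Nat.mul m50 (g 3 1 4 4)) (Nat.add (Nat.mul m51 (g 3 1 5 4)) (Nat.add (Nat.mul m52
  (g 3 1 6 4)) (Nat.add (Nat.mul m53 (g 3 1 7 4)) (Nat.add (Nat.mul m54 (g 3 1 8 4)) (Nat.add
  (Nat.mul m55 (g 3 1 9 4)) (Nat.add (Nat.mul m56 (g 3 1 10 4)) (Nat.add (Nat.mul m57 (g 3 1 11
  4)) (Nat.add (Nat.mul m58 (g 3 1 12 4)) (Nat.add (Nat.mul m59 (g 3 1 5 5)) (Nat.add (Nat.mul
  m60 (g 3 1 6 5)) (Nat.add (Nat.mul m61 (g 3 1 7 5)) (Nat.add (Nat.mul m62 (g 3 1 8 5)) (Nat.add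
  (Nat.mul m63 (g 3 1 9 5)) (Nat.add (Nat.mul m64 (g 3 1 10 5)) (Nat.add (Nat.mul m65 (g 3 1 11
  5)) (Nat.add (Nat.mul m66 (g 3 1 6 6)) (Nat.add (Nat.mul m67 (g 3 1 7 6)) (Nat.add (Nat.mul m68
  (g 3 1 8 6)) (Nat.add (Nat.mul m69 (g 3 1 9 6)) (Nat.add (Nat.mul m70 (g 3 1 10 6)) (Nat.add
  (Nat.mul m71 (g 3 1 11 6)) (Nat.add (Nat.mul m72 (g 3 1 7 7)) (Nat.add (Nat.mul m73 (g 3 1 8
  7)) (Nat.add (Nat.mul m74 (g 3 1 9 7)) (Nat.add (Nat.mul m75 (g 3 1 10 7)) (Nat.add (Nat.mul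
  m76 (g 3 1 8 8)) (Nat.add (Nat.mul m77 (g 3 1 9 8)) (Nat.add (Nat.mul m78 (g 3 1 10 8))
  (Nat.add (Nat.mul m79 (g 3 1 9 9))
  (0))))))))))))))))))))))))))))))))))))))))))))))))))))))))))))))

def zr18 (g : Nat → Nat → Nat → Nat → Nat) (m19 m20 m21 m22 m23 m24 m25 m26 m27 m28 m29 m30
    m31 m32 m33 m34 m35 m36 m37 m38 m39 m40 m41 m42 m43 m44 m45 m46 m47 m48 m49 m50 m51 m52 m53
    m54 m55 m56 m57 m58 m59 m60 m61 m62 m63 m64 m65 m66 m67 m68 m69 m70 m71 m72 m73 m74 m75 m76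
    m77 m78 m79 : Nat) : Nat :=
  Nat.add (Nat.mul m19 (g 4 1 5 1)) (Nat.add (Nat.mul m20 (g 4 1 6 1)) (Nat.add (Nat.mul m21 (g 4
  1 7 1)) (Nat.add (Nat.mul m22 (g 4 1 8 1)) (Nat.add (Nat.mul m23 (g 4 1 9 1)) (Nat.add (Nat.mul
  m24 (g 4 1 10 1)) (Nat.add (Nat.mul m25 (g 4 1 11 1)) (Nat.add (Nat.mul m26 (g 4 1 12 1))
  (Nat.add (Nat.mul m27 (g 4 1 13 1)) (Nat.add (Nat.mul m28 (g 4 1 2 2)) (Nat.add (Nat.mul m29 (g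
  4 1 3 2)) (Nat.add (Nat.mul m30 (g 4 1 4 2)) (Nat.add (Nat.mul m31 (g 4 1 5 2)) (Nat.add
  (Nat.mul m32 (g 4 1 6 2)) (Nat.add (Nat.mul m33 (g 4 1 7 2)) (Nat.add (Nat.mul m34 (g 4 1 8 2))
  (Nat.add (Nat.mul m35 (g 4 1 9 2)) (Nat.add (Nat.mul m36 (g 4 1 10 2)) (Nat.add (Nat.mul m37 (g
  4 1 11 2)) (Nat.add (Nat.mul m38 (g 4 1 12 2)) (Nat.add (Nat.mul m39 (g 4 1 13 2)) (Nat.add
  (Nat.mul m40 (g 4 1 3 3)) (Nat.add (Nat.mul m41 (g 4 1 4 3)) (Nat.add (Nat.mul m42 (g 4 1 5 3))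
  (Nat.add (Nat.mul m43 (g 4 1 6 3)) (Nat.add (Nat.mul m44 (g 4 1 7 3)) (Nat.add (Nat.mul m45 (g
  4 1 8 3)) (Nat.add (Nat.mul m46 (g 4 1 9 3)) (Nat.add (Nat.mul m47 (g 4 1 10 3)) (Nat.add
  (Nat.mul m48 (g 4 1 11 3)) (Nat.add (Nat.mul m49 (g 4 1 12 3)) (Nat.add (Nat.mul m50 (g 4 1 4
  4)) (Nat.add (Nat.mul m51 (g 4 1 5 4)) (Nat.add (Nat.mul m52 (g 4 1 6 4)) (Nat.add (Nat.mul m53
  (g 4 1 7 4)) (Nat.add (Nat.mul m54 (g 4 1 8 4)) (Nat.add (Nat.mul m55 (g 4 1 9 4)) (Nat.add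
  (Nat.mul m56 (g 4 1 10 4)) (Nat.add (Nat.mul m57 (g 4 1 11 4)) (Nat.add (Nat.mul m58 (g 4 1 12
  4)) (Nat.add (Nat.mul m59 (g 4 1 5 5)) (Nat.add (Nat.mul m60 (g 4 1 6 5)) (Nat.add (Nat.mul m61
  (g 4 1 7 5)) (Nat.add (Nat.mul m62 (g 4 1 8 5)) (Nat.add (Nat.mul m63 (g 4 1 9 5)) (Nat.add
  (Nat.mul m64 (g 4 1 10 5)) (Nat.add (Nat.mul m65 (g 4 1 11 5)) (Nat.add (Nat.mul m66 (g 4 1 6
  6)) (Nat.add (Nat.mul m67 (g 4 1 7 6)) (Nat.add (Nat.mul m68 (g 4 1 8 6)) (Nat.add (Nat.mul m69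
  (g 4 1 9 6)) (Nat.add (Nat.mul m70 (g 4 1 10 6)) (Nat.add (Nat.mul m71 (g 4 1 11 6)) (Nat.add
  (Nat.mul m72 (g 4 1 7 7)) (Nat.add (Nat.mul m73 (g 4 1 8 7)) (Nat.add (Nat.mul m74 (g 4 1 9 7))
  (Nat.add (Nat.mul m75 (g 4 1 10 7)) (Nat.add (Nat.mul m76 (g 4 1 8 8)) (Nat.add (Nat.mul m77 (g
  4 1 9 8)) (Nat.add (Nat.mul m78 (g 4 1 10 8)) (Nat.add (Nat.mul m79 (g 4 1 9 9))
  (0)))))))))))))))))))))))))))))))))))))))))))))))))))))))))))))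

def zr19 (g : Nat → Nat → Nat → Nat → Nat) (m20 m21 m22 m23 m24 m25 m26 m27 m28 m29 m30 m31
    m32 m33 m34 m35 m36 m37 m38 m39 m40 m41 m42 m43 m44 m45 m46 m47 m48 m49 m50 m51 m52 m53 m54
    m55 m56 m57 m58 m59 m60 m61 m62 m63 m64 m65 m66 m67 m68 m69 m70 m71 m72 m73 m74 m75 m76 m77
    m78 m79 : Nat) : Nat :=
  Nat.add (Nat.mul m20 (g 5 1 6 1)) (Nat.add (Nat.mul m21 (g 5 1 7 1)) (Nat.add (Nat.mul m22 (g 5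
  1 8 1)) (Nat.add (Nat.mul m23 (g 5 1 9 1)) (Nat.add (Nat.mul m24 (g 5 1 10 1)) (Nat.add
  (Nat.mul m25 (g 5 1 11 1)) (Nat.add (Nat.mul m26 (g 5 1 12 1)) (Nat.add (Nat.mul m27 (g 5 1 13
  1)) (Nat.add (Nat.mul m28 (g 5 1 2 2)) (Nat.add (Nat.mul m29 (g 5 1 3 2)) (Nat.add (Nat.mul m30
  (g 5 1 4 2)) (Nat.add (Nat.mul m31 (g 5 1 5 2)) (Nat.add (Nat.mul m32 (g 5 1 6 2)) (Nat.add
  (Nat.mul m33 (g 5 1 7 2)) (Nat.add (Nat.mul m34 (g 5 1 8 2)) (Nat.add (Nat.mul m35 (g 5 1 9 2))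
  (Nat.add (Nat.mul m36 (g 5 1 10 2)) (Nat.add (Nat.mul m37 (g 5 1 11 2)) (Nat.add (Nat.mul m38
  (g 5 1 12 2)) (Nat.add (Nat.mul m39 (g 5 1 13 2)) (Nat.add (Nat.mul m40 (g 5 1 3 3)) (Nat.add
  (Nat.mul m41 (g 5 1 4 3)) (Nat.add (Nat.mul m42 (g 5 1 5 3)) (Nat.add (Nat.mul m43 (g 5 1 6 3))
  (Nat.add (Nat.mul m44 (g 5 1 7 3)) (Nat.add (Nat.mul m45 (g 5 1 8 3)) (Nat.add (Nat.mul m46 (g
  5 1 9 3)) (Nat.add (Nat.mul m47 (g 5 1 10 3)) (Nat.add (Nat.mul m48 (g 5 1 11 3)) (Nat.add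
  (Nat.mul m49 (g 5 1 12 3)) (Nat.add (Nat.mul m50 (g 5 1 4 4)) (Nat.add (Nat.mul m51 (g 5 1 5
  4)) (Nat.add (Nat.mul m52 (g 5 1 6 4)) (Nat.add (Nat.mul m53 (g 5 1 7 4)) (Nat.add (Nat.mul m54
  (g 5 1 8 4)) (Nat.add (Nat.mul m55 (g 5 1 9 4)) (Nat.add (Nat.mul m56 (g 5 1 10 4)) (Nat.add
  (Nat.mul m57 (g 5 1 11 4)) (Nat.add (Nat.mul m58 (g 5 1 12 4)) (Nat.add (Nat.mul m59 (g 5 1 5
  5)) (Nat.add (Nat.mul m60 (g 5 1 6 5)) (Nat.add (Nat.mul m61 (g 5 1 7 5)) (Nat.add (Nat.mul m62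
  (g 5 1 8 5)) (Nat.add (Nat.mul m63 (g 5 1 9 5)) (Nat.add (Nat.mul m64 (g 5 1 10 5)) (Nat.add
  (Nat.mul m65 (g 5 1 11 5)) (Nat.add (Nat.mul m66 (g 5 1 6 6)) (Nat.add (Nat.mul m67 (g 5 1 7
  6)) (Nat.add (Nat.mul m68 (g 5 1 8 6)) (Nat.add (Nat.mul m69 (g 5 1 9 6)) (Nat.add (Nat.mul m70
  (g 5 1 10 6)) (Nat.add (Nat.mul m71 (g 5 1 11 6)) (Nat.add (Nat.mul m72 (g 5 1 7 7)) (Nat.add
  (Nat.mul m73 (g 5 1 8 7)) (Nat.add (Nat.mul m74 (g 5 1 9 7)) (Nat.add (Nat.mul m75 (g 5 1 10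
  7)) (Nat.add (Nat.mul m76 (g 5 1 8 8)) (Nat.add (Nat.mul m77 (g 5 1 9 8)) (Nat.add (Nat.mul m78
  (g 5 1 10 8)) (Nat.add (Nat.mul m79 (g 5 1 9 9))
  (0))))))))))))))))))))))))))))))))))))))))))))))))))))))))))))

def zr20 (g : Nat → Nat → Nat → Nat → Nat) (m21 m22 m23 m24 m25 m26 m27 m28 m29 m30 m31 m32
    m33 m34 m35 m36 m37 m38 m39 m40 m41 m42 m43 m44 m45 m46 m47 m48 m49 m50 m51 m52 m53 m54 m55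
    m56 m57 m58 m59 m60 m61 m62 m63 m64 m65 m66 m67 m68 m69 m70 m71 m72 m73 m74 m75 m76 m77 m78
    m79 : Nat) : Nat :=
  Nat.add (Nat.mul m21 (g 6 1 7 1)) (Nat.add (Nat.mul m22 (g 6 1 8 1)) (Nat.add (Nat.mul m23 (g 6
  1 9 1)) (Nat.add (Nat.mul m24 (g 6 1 10 1)) (Nat.add (Nat.mul m25 (g 6 1 11 1)) (Nat.add
  (Nat.mul m26 (g 6 1 12 1)) (Nat.add (Nat.mul m27 (g 6 1 13 1)) (Nat.add (Nat.mul m28 (g 6 1 2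
  2)) (Nat.add (Nat.mul m29 (g 6 1 3 2)) (Nat.add (Nat.mul m30 (g 6 1 4 2)) (Nat.add (Nat.mul m31
  (g 6 1 5 2)) (Nat.add (Nat.mul m32 (g 6 1 6 2)) (Nat.add (Nat.mul m33 (g 6 1 7 2)) (Nat.add
  (Nat.mul m34 (g 6 1 8 2)) (Nat.add (Nat.mul m35 (g 6 1 9 2)) (Nat.add (Nat.mul m36 (g 6 1 10
  2)) (Nat.add (Nat.mul m37 (g 6 1 11 2)) (Nat.add (Nat.mul m38 (g 6 1 12 2)) (Nat.add (Nat.mul
  m39 (g 6 1 13 2)) (Nat.add (Nat.mul m40 (g 6 1 3 3)) (Nat.add (Nat.mul m41 (g 6 1 4 3))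
  (Nat.add (Nat.mul m42 (g 6 1 5 3)) (Nat.add (Nat.mul m43 (g 6 1 6 3)) (Nat.add (Nat.mul m44 (g
  6 1 7 3)) (Nat.add (Nat.mul m45 (g 6 1 8 3)) (Nat.add (Nat.mul m46 (g 6 1 9 3)) (Nat.add
  (Nat.mul m47 (g 6 1 10 3)) (Nat.add (Nat.mul m48 (g 6 1 11 3)) (Nat.add (Nat.mul m49 (g 6 1 12
  3)) (Nat.add (Nat.mul m50 (g 6 1 4 4)) (Nat.add (Nat.mul m51 (g 6 1 5 4)) (Nat.add (Nat.mul m52
  (g 6 1 6 4)) (Nat.add (Nat.mul m53 (g 6 1 7 4)) (Nat.add (Nat.mul m54 (g 6 1 8 4)) (Nat.add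
  (Nat.mul m55 (g 6 1 9 4)) (Nat.add (Nat.mul m56 (g 6 1 10 4)) (Nat.add (Nat.mul m57 (g 6 1 11
  4)) (Nat.add (Nat.mul m58 (g 6 1 12 4)) (Nat.add (Nat.mul m59 (g 6 1 5 5)) (Nat.add (Nat.mul
  m60 (g 6 1 6 5)) (Nat.add (Nat.mul m61 (g 6 1 7 5)) (Nat.add (Nat.mul m62 (g 6 1 8 5)) (Nat.add
  (Nat.mul m63 (g 6 1 9 5)) (Nat.add (Nat.mul m64 (g 6 1 10 5)) (Nat.add (Nat.mul m65 (g 6 1 11
  5)) (Nat.add (Nat.mul m66 (g 6 1 6 6)) (Nat.add (Nat.mul m67 (g 6 1 7 6)) (Nat.add (Nat.mul m68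
  (g 6 1 8 6)) (Nat.add (Nat.mul m69 (g 6 1 9 6)) (Nat.add (Nat.mul m70 (g 6 1 10 6)) (Nat.add
  (Nat.mul m71 (g 6 1 11 6)) (Nat.add (Nat.mul m72 (g 6 1 7 7)) (Nat.add (Nat.mul m73 (g 6 1 8
  7)) (Nat.add (Nat.mul m74 (g 6 1 9 7)) (Nat.add (Nat.mul m75 (g 6 1 10 7)) (Nat.add (Nat.mul
  m76 (g 6 1 8 8)) (Nat.add (Nat.mul m77 (g 6 1 9 8)) (Nat.add (Nat.mul m78 (g 6 1 10 8))
  (Nat.add (Nat.mul m79 (g 6 1 9 9))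
  (0)))))))))))))))))))))))))))))))))))))))))))))))))))))))))))

def zr21 (g : Nat → Nat → Nat → Nat → Nat) (m22 m23 m24 m25 m26 m27 m28 m29 m30 m31 m32 m33
    m34 m35 m36 m37 m38 m39 m40 m41 m42 m43 m44 m45 m46 m47 m48 m49 m50 m51 m52 m53 m54 m55 m56
    m57 m58 m59 m60 m61 m62 m63 m64 m65 m66 m67 m68 m69 m70 m71 m72 m73 m74 m75 m76 m77 m78 m79 :
    Nat) : Nat :=
  Nat.add (Nat.mul m22 (g 7 1 8 1)) (Nat.add (Nat.mul m23 (g 7 1 9 1)) (Nat.add (Nat.mul m24 (g 7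
  1 10 1)) (Nat.add (Nat.mul m25 (g 7 1 11 1)) (Nat.add (Nat.mul m26 (g 7 1 12 1)) (Nat.add
  (Nat.mul m27 (g 7 1 13 1)) (Nat.add (Nat.mul m28 (g 7 1 2 2)) (Nat.add (Nat.mul m29 (g 7 1 3
  2)) (Nat.add (Nat.mul m30 (g 7 1 4 2)) (Nat.add (Nat.mul m31 (g 7 1 5 2)) (Nat.add (Nat.mul m32
  (g 7 1 6 2)) (Nat.add (Nat.mul m33 (g 7 1 7 2)) (Nat.add (Nat.mul m34 (g 7 1 8 2)) (Nat.add
  (Nat.mul m35 (g 7 1 9 2)) (Nat.add (Nat.mul m36 (g 7 1 10 2)) (Nat.add (Nat.mul m37 (g 7 1 11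
  2)) (Nat.add (Nat.mul m38 (g 7 1 12 2)) (Nat.add (Nat.mul m39 (g 7 1 13 2)) (Nat.add (Nat.mul
  m40 (g 7 1 3 3)) (Nat.add (Nat.mul m41 (g 7 1 4 3)) (Nat.add (Nat.mul m42 (g 7 1 5 3)) (Nat.add
  (Nat.mul m43 (g 7 1 6 3)) (Nat.add (Nat.mul m44 (g 7 1 7 3)) (Nat.add (Nat.mul m45 (g 7 1 8 3))
  (Nat.add (Nat.mul m46 (g 7 1 9 3)) (Nat.add (Nat.mul m47 (g 7 1 10 3)) (Nat.add (Nat.mul m48 (g
  7 1 11 3)) (Nat.add (Nat.mul m49 (g 7 1 12 3)) (Nat.add (Nat.mul m50 (g 7 1 4 4)) (Nat.add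
  (Nat.mul m51 (g 7 1 5 4)) (Nat.add (Nat.mul m52 (g 7 1 6 4)) (Nat.add (Nat.mul m53 (g 7 1 7 4))
  (Nat.add (Nat.mul m54 (g 7 1 8 4)) (Nat.add (Nat.mul m55 (g 7 1 9 4)) (Nat.add (Nat.mul m56 (g
  7 1 10 4)) (Nat.add (Nat.mul m57 (g 7 1 11 4)) (Nat.add (Nat.mul m58 (g 7 1 12 4)) (Nat.add
  (Nat.mul m59 (g 7 1 5 5)) (Nat.add (Nat.mul m60 (g 7 1 6 5)) (Nat.add (Nat.mul m61 (g 7 1 7 5))
  (Nat.add (Nat.mul m62 (g 7 1 8 5)) (Nat.add (Nat.mul m63 (g 7 1 9 5)) (Nat.add (Nat.mul m64 (g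
  7 1 10 5)) (Nat.add (Nat.mul m65 (g 7 1 11 5)) (Nat.add (Nat.mul m66 (g 7 1 6 6)) (Nat.add
  (Nat.mul m67 (g 7 1 7 6)) (Nat.add (Nat.mul m68 (g 7 1 8 6)) (Nat.add (Nat.mul m69 (g 7 1 9 6))
  (Nat.add (Nat.mul m70 (g 7 1 10 6)) (Nat.add (Nat.mul m71 (g 7 1 11 6)) (Nat.add (Nat.mul m72
  (g 7 1 7 7)) (Nat.add (Nat.mul m73 (g 7 1 8 7)) (Nat.add (Nat.mul m74 (g 7 1 9 7)) (Nat.add
  (Nat.mul m75 (g 7 1 10 7)) (Nat.add (Nat.mul m76 (g 7 1 8 8)) (Nat.add (Nat.mul m77 (g 7 1 9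
  8)) (Nat.add (Nat.mul m78 (g 7 1 10 8)) (Nat.add (Nat.mul m79 (g 7 1 9 9))
  (0))))))))))))))))))))))))))))))))))))))))))))))))))))))))))

def zr22 (g : Nat → Nat → Nat → Nat → Nat) (m23 m24 m25 m26 m27 m28 m29 m30 m31 m32 m33 m34
    m35 m36 m37 m38 m39 m40 m41 m42 m43 m44 m45 m46 m47 m48 m49 m50 m51 m52 m53 m54 m55 m56 m57
    m58 m59 m60 m61 m62 m63 m64 m65 m66 m67 m68 m69 m70 m71 m72 m73 m74 m75 m76 m77 m78 m79 :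
    Nat) : Nat :=
  Nat.add (Nat.mul m23 (g 8 1 9 1)) (Nat.add (Nat.mul m24 (g 8 1 10 1)) (Nat.add (Nat.mul m25 (g
  8 1 11 1)) (Nat.add (Nat.mul m26 (g 8 1 12 1)) (Nat.add (Nat.mul m27 (g 8 1 13 1)) (Nat.add
  (Nat.mul m28 (g 8 1 2 2)) (Nat.add (Nat.mul m29 (g 8 1 3 2)) (Nat.add (Nat.mul m30 (g 8 1 4 2))
  (Nat.add (Nat.mul m31 (g 8 1 5 2)) (Nat.add (Nat.mul m32 (g 8 1 6 2)) (Nat.add (Nat.mul m33 (g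
  8 1 7 2)) (Nat.add (Nat.mul m34 (g 8 1 8 2)) (Nat.add (Nat.mul m35 (g 8 1 9 2)) (Nat.add
  (Nat.mul m36 (g 8 1 10 2)) (Nat.add (Nat.mul m37 (g 8 1 11 2)) (Nat.add (Nat.mul m38 (g 8 1 12
  2)) (Nat.add (Nat.mul m39 (g 8 1 13 2)) (Nat.add (Nat.mul m40 (g 8 1 3 3)) (Nat.add (Nat.mul
  m41 (g 8 1 4 3)) (Nat.add (Nat.mul m42 (g 8 1 5 3)) (Nat.add (Nat.mul m43 (g 8 1 6 3)) (Nat.add
  (Nat.mul m44 (g 8 1 7 3)) (Nat.add (Nat.mul m45 (g 8 1 8 3)) (Nat.add (Nat.mul m46 (g 8 1 9 3))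
  (Nat.add (Nat.mul m47 (g 8 1 10 3)) (Nat.add (Nat.mul m48 (g 8 1 11 3)) (Nat.add (Nat.mul m49
  (g 8 1 12 3)) (Nat.add (Nat.mul m50 (g 8 1 4 4)) (Nat.add (Nat.mul m51 (g 8 1 5 4)) (Nat.add
  (Nat.mul m52 (g 8 1 6 4)) (Nat.add (Nat.mul m53 (g 8 1 7 4)) (Nat.add (Nat.mul m54 (g 8 1 8 4))
  (Nat.add (Nat.mul m55 (g 8 1 9 4)) (Nat.add (Nat.mul m56 (g 8 1 10 4)) (Nat.add (Nat.mul m57 (g
  8 1 11 4)) (Nat.add (Nat.mul m58 (g 8 1 12 4)) (Nat.add (Nat.mul m59 (g 8 1 5 5)) (Nat.add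
  (Nat.mul m60 (g 8 1 6 5)) (Nat.add (Nat.mul m61 (g 8 1 7 5)) (Nat.add (Nat.mul m62 (g 8 1 8 5))
  (Nat.add (Nat.mul m63 (g 8 1 9 5)) (Nat.add (Nat.mul m64 (g 8 1 10 5)) (Nat.add (Nat.mul m65 (g
  8 1 11 5)) (Nat.add (Nat.mul m66 (g 8 1 6 6)) (Nat.add (Nat.mul m67 (g 8 1 7 6)) (Nat.add
  (Nat.mul m68 (g 8 1 8 6)) (Nat.add (Nat.mul m69 (g 8 1 9 6)) (Nat.add (Nat.mul m70 (g 8 1 10
  6)) (Nat.add (Nat.mul m71 (g 8 1 11 6)) (Nat.add (Nat.mul m72 (g 8 1 7 7)) (Nat.add (Nat.mul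
  m73 (g 8 1 8 7)) (Nat.add (Nat.mul m74 (g 8 1 9 7)) (Nat.add (Nat.mul m75 (g 8 1 10 7))
  (Nat.add (Nat.mul m76 (g 8 1 8 8)) (Nat.add (Nat.mul m77 (g 8 1 9 8)) (Nat.add (Nat.mul m78 (g
  8 1 10 8)) (Nat.add (Nat.mul m79 (g 8 1 9 9))
  (0)))))))))))))))))))))))))))))))))))))))))))))))))))))))))

def zr23 (g : Nat → Nat → Nat → Nat → Nat) (m24 m25 m26 m27 m28 m29 m30 m31 m32 m33 m34 m35
    m36 m37 m38 m39 m40 m41 m42 m43 m44 m45 m46 m47 m48 m49 m50 m51 m52 m53 m54 m55 m56 m57 m58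
    m59 m60 m61 m62 m63 m64 m65 m66 m67 m68 m69 m70 m71 m72 m73 m74 m75 m76 m77 m78 m79 : Nat) :
    Nat :=
  Nat.add (Nat.mul m24 (g 9 1 10 1)) (Nat.add (Nat.mul m25 (g 9 1 11 1)) (Nat.add (Nat.mul m26 (g
  9 1 12 1)) (Nat.add (Nat.mul m27 (g 9 1 13 1)) (Nat.add (Nat.mul m28 (g 9 1 2 2)) (Nat.add
  (Nat.mul m29 (g 9 1 3 2)) (Nat.add (Nat.mul m30 (g 9 1 4 2)) (Nat.add (Nat.mul m31 (g 9 1 5 2))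
  (Nat.add (Nat.mul m32 (g 9 1 6 2)) (Nat.add (Nat.mul m33 (g 9 1 7 2)) (Nat.add (Nat.mul m34 (g
  9 1 8 2)) (Nat.add (Nat.mul m35 (g 9 1 9 2)) (Nat.add (Nat.mul m36 (g 9 1 10 2)) (Nat.add
  (Nat.mul m37 (g 9 1 11 2)) (Nat.add (Nat.mul m38 (g 9 1 12 2)) (Nat.add (Nat.mul m39 (g 9 1 13
  2)) (Nat.add (Nat.mul m40 (g 9 1 3 3)) (Nat.add (Nat.mul m41 (g 9 1 4 3)) (Nat.add (Nat.mul m42
  (g 9 1 5 3)) (Nat.add (Nat.mul m43 (g 9 1 6 3)) (Nat.add (Nat.mul m44 (g 9 1 7 3)) (Nat.add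
  (Nat.mul m45 (g 9 1 8 3)) (Nat.add (Nat.mul m46 (g 9 1 9 3)) (Nat.add (Nat.mul m47 (g 9 1 10
  3)) (Nat.add (Nat.mul m48 (g 9 1 11 3)) (Nat.add (Nat.mul m49 (g 9 1 12 3)) (Nat.add (Nat.mul
  m50 (g 9 1 4 4)) (Nat.add (Nat.mul m51 (g 9 1 5 4)) (Nat.add (Nat.mul m52 (g 9 1 6 4)) (Nat.add
  (Nat.mul m53 (g 9 1 7 4)) (Nat.add (Nat.mul m54 (g 9 1 8 4)) (Nat.add (Nat.mul m55 (g 9 1 9 4))
  (Nat.add (Nat.mul m56 (g 9 1 10 4)) (Nat.add (Nat.mul m57 (g 9 1 11 4)) (Nat.add (Nat.mul m58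
  (g 9 1 12 4)) (Nat.add (Nat.mul m59 (g 9 1 5 5)) (Nat.add (Nat.mul m60 (g 9 1 6 5)) (Nat.add
  (Nat.mul m61 (g 9 1 7 5)) (Nat.add (Nat.mul m62 (g 9 1 8 5)) (Nat.add (Nat.mul m63 (g 9 1 9 5))
  (Nat.add (Nat.mul m64 (g 9 1 10 5)) (Nat.add (Nat.mul m65 (g 9 1 11 5)) (Nat.add (Nat.mul m66
  (g 9 1 6 6)) (Nat.add (Nat.mul m67 (g 9 1 7 6)) (Nat.add (Nat.mul m68 (g 9 1 8 6)) (Nat.add
  (Nat.mul m69 (g 9 1 9 6)) (Nat.add (Nat.mul m70 (g 9 1 10 6)) (Nat.add (Nat.mul m71 (g 9 1 11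
  6)) (Nat.add (Nat.mul m72 (g 9 1 7 7)) (Nat.add (Nat.mul m73 (g 9 1 8 7)) (Nat.add (Nat.mul m74
  (g 9 1 9 7)) (Nat.add (Nat.mul m75 (g 9 1 10 7)) (Nat.add (Nat.mul m76 (g 9 1 8 8)) (Nat.add
  (Nat.mul m77 (g 9 1 9 8)) (Nat.add (Nat.mul m78 (g 9 1 10 8)) (Nat.add (Nat.mul m79 (g 9 1 9
  9)) (0))))))))))))))))))))))))))))))))))))))))))))))))))))))))

def zr24 (g : Nat → Nat → Nat → Nat → Nat) (m25 m26 m27 m28 m29 m30 m31 m32 m33 m34 m35 m36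
    m37 m38 m39 m40 m41 m42 m43 m44 m45 m46 m47 m48 m49 m50 m51 m52 m53 m54 m55 m56 m57 m58 m59
    m60 m61 m62 m63 m64 m65 m66 m67 m68 m69 m70 m71 m72 m73 m74 m75 m76 m77 m78 m79 : Nat) : Nat
    :=
  Nat.add (Nat.mul m25 (g 10 1 11 1)) (Nat.add (Nat.mul m26 (g 10 1 12 1)) (Nat.add (Nat.mul m27
  (g 10 1 13 1)) (Nat.add (Nat.mul m28 (g 10 1 2 2)) (Nat.add (Nat.mul m29 (g 10 1 3 2)) (Nat.add
  (Nat.mul m30 (g 10 1 4 2)) (Nat.add (Nat.mul m31 (g 10 1 5 2)) (Nat.add (Nat.mul m32 (g 10 1 6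
  2)) (Nat.add (Nat.mul m33 (g 10 1 7 2)) (Nat.add (Nat.mul m34 (g 10 1 8 2)) (Nat.add (Nat.mul
  m35 (g 10 1 9 2)) (Nat.add (Nat.mul m36 (g 10 1 10 2)) (Nat.add (Nat.mul m37 (g 10 1 11 2))
  (Nat.add (Nat.mul m38 (g 10 1 12 2)) (Nat.add (Nat.mul m39 (g 10 1 13 2)) (Nat.add (Nat.mul m40
  (g 10 1 3 3)) (Nat.add (Nat.mul m41 (g 10 1 4 3)) (Nat.add (Nat.mul m42 (g 10 1 5 3)) (Nat.add
  (Nat.mul m43 (g 10 1 6 3)) (Nat.add (Nat.mul m44 (g 10 1 7 3)) (Nat.add (Nat.mul m45 (g 10 1 8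
  3)) (Nat.add (Nat.mul m46 (g 10 1 9 3)) (Nat.add (Nat.mul m47 (g 10 1 10 3)) (Nat.add (Nat.mul
  m48 (g 10 1 11 3)) (Nat.add (Nat.mul m49 (g 10 1 12 3)) (Nat.add (Nat.mul m50 (g 10 1 4 4))
  (Nat.add (Nat.mul m51 (g 10 1 5 4)) (Nat.add (Nat.mul m52 (g 10 1 6 4)) (Nat.add (Nat.mul m53
  (g 10 1 7 4)) (Nat.add (Nat.mul m54 (g 10 1 8 4)) (Nat.add (Nat.mul m55 (g 10 1 9 4)) (Nat.add
  (Nat.mul m56 (g 10 1 10 4)) (Nat.add (Nat.mul m57 (g 10 1 11 4)) (Nat.add (Nat.mul m58 (g 10 1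
  12 4)) (Nat.add (Nat.mul m59 (g 10 1 5 5)) (Nat.add (Nat.mul m60 (g 10 1 6 5)) (Nat.add
  (Nat.mul m61 (g 10 1 7 5)) (Nat.add (Nat.mul m62 (g 10 1 8 5)) (Nat.add (Nat.mul m63 (g 10 1 9
  5)) (Nat.add (Nat.mul m64 (g 10 1 10 5)) (Nat.add (Nat.mul m65 (g 10 1 11 5)) (Nat.add (Nat.mul
  m66 (g 10 1 6 6)) (Nat.add (Nat.mul m67 (g 10 1 7 6)) (Nat.add (Nat.mul m68 (g 10 1 8 6))
  (Nat.add (Nat.mul m69 (g 10 1 9 6)) (Nat.add (Nat.mul m70 (g 10 1 10 6)) (Nat.add (Nat.mul m71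
  (g 10 1 11 6)) (Nat.add (Nat.mul m72 (g 10 1 7 7)) (Nat.add (Nat.mul m73 (g 10 1 8 7)) (Nat.add
  (Nat.mul m74 (g 10 1 9 7)) (Nat.add (Nat.mul m75 (g 10 1 10 7)) (Nat.add (Nat.mul m76 (g 10 1 8
  8)) (Nat.add (Nat.mul m77 (g 10 1 9 8)) (Nat.add (Nat.mul m78 (g 10 1 10 8)) (Nat.add (Nat.mul
  m79 (g 10 1 9 9)) (0)))))))))))))))))))))))))))))))))))))))))))))))))))))))

def zr25 (g : Nat → Nat → Nat → Nat → Nat) (m26 m27 m28 m29 m30 m31 m32 m33 m34 m35 m36 m37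
    m38 m39 m40 m41 m42 m43 m44 m45 m46 m47 m48 m49 m50 m51 m52 m53 m54 m55 m56 m57 m58 m59 m60
    m61 m62 m63 m64 m65 m66 m67 m68 m69 m70 m71 m72 m73 m74 m75 m76 m77 m78 m79 : Nat) : Nat :=
  Nat.add (Nat.mul m26 (g 11 1 12 1)) (Nat.add (Nat.mul m27 (g 11 1 13 1)) (Nat.add (Nat.mul m28
  (g 11 1 2 2)) (Nat.add (Nat.mul m29 (g 11 1 3 2)) (Nat.add (Nat.mul m30 (g 11 1 4 2)) (Nat.add
  (Nat.mul m31 (g 11 1 5 2)) (Nat.add (Nat.mul m32 (g 11 1 6 2)) (Nat.add (Nat.mul m33 (g 11 1 7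
  2)) (Nat.add (Nat.mul m34 (g 11 1 8 2)) (Nat.add (Nat.mul m35 (g 11 1 9 2)) (Nat.add (Nat.mul
  m36 (g 11 1 10 2)) (Nat.add (Nat.mul m37 (g 11 1 11 2)) (Nat.add (Nat.mul m38 (g 11 1 12 2))
  (Nat.add (Nat.mul m39 (g 11 1 13 2)) (Nat.add (Nat.mul m40 (g 11 1 3 3)) (Nat.add (Nat.mul m41
  (g 11 1 4 3)) (Nat.add (Nat.mul m42 (g 11 1 5 3)) (Nat.add (Nat.mul m43 (g 11 1 6 3)) (Nat.add
  (Nat.mul m44 (g 11 1 7 3)) (Nat.add (Nat.mul m45 (g 11 1 8 3)) (Nat.add (Nat.mul m46 (g 11 1 9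
  3)) (Nat.add (Nat.mul m47 (g 11 1 10 3)) (Nat.add (Nat.mul m48 (g 11 1 11 3)) (Nat.add (Nat.mul
  m49 (g 11 1 12 3)) (Nat.add (Nat.mul m50 (g 11 1 4 4)) (Nat.add (Nat.mul m51 (g 11 1 5 4))
  (Nat.add (Nat.mul m52 (g 11 1 6 4)) (Nat.add (Nat.mul m53 (g 11 1 7 4)) (Nat.add (Nat.mul m54
  (g 11 1 8 4)) (Nat.add (Nat.mul m55 (g 11 1 9 4)) (Nat.add (Nat.mul m56 (g 11 1 10 4)) (Nat.add
  (Nat.mul m57 (g 11 1 11 4)) (Nat.add (Nat.mul m58 (g 11 1 12 4)) (Nat.add (Nat.mul m59 (g 11 1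
  5 5)) (Nat.add (Nat.mul m60 (g 11 1 6 5)) (Nat.add (Nat.mul m61 (g 11 1 7 5)) (Nat.add (Nat.mul
  m62 (g 11 1 8 5)) (Nat.add (Nat.mul m63 (g 11 1 9 5)) (Nat.add (Nat.mul m64 (g 11 1 10 5))
  (Nat.add (Nat.mul m65 (g 11 1 11 5)) (Nat.add (Nat.mul m66 (g 11 1 6 6)) (Nat.add (Nat.mul m67
  (g 11 1 7 6)) (Nat.add (Nat.mul m68 (g 11 1 8 6)) (Nat.add (Nat.mul m69 (g 11 1 9 6)) (Nat.add
  (Nat.mul m70 (g 11 1 10 6)) (Nat.add (Nat.mul m71 (g 11 1 11 6)) (Nat.add (Nat.mul m72 (g 11 1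
  7 7)) (Nat.add (Nat.mul m73 (g 11 1 8 7)) (Nat.add (Nat.mul m74 (g 11 1 9 7)) (Nat.add (Nat.mul
  m75 (g 11 1 10 7)) (Nat.add (Nat.mul m76 (g 11 1 8 8)) (Nat.add (Nat.mul m77 (g 11 1 9 8))
  (Nat.add (Nat.mul m78 (g 11 1 10 8)) (Nat.add (Nat.mul m79 (g 11 1 9 9))
  (0))))))))))))))))))))))))))))))))))))))))))))))))))))))

def zr26 (g : Nat → Nat → Nat → Nat → Nat) (m27 m28 m29 m30 m31 m32 m33 m34 m35 m36 m37 m38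
    m39 m40 m41 m42 m43 m44 m45 m46 m47 m48 m49 m50 m51 m52 m53 m54 m55 m56 m57 m58 m59 m60 m61
    m62 m63 m64 m65 m66 m67 m68 m69 m70 m71 m72 m73 m74 m75 m76 m77 m78 m79 : Nat) : Nat :=
  Nat.add (Nat.mul m27 (g 12 1 13 1)) (Nat.add (Nat.mul m28 (g 12 1 2 2)) (Nat.add (Nat.mul m29
  (g 12 1 3 2)) (Nat.add (Nat.mul m30 (g 12 1 4 2)) (Nat.add (Nat.mul m31 (g 12 1 5 2)) (Nat.add
  (Nat.mul m32 (g 12 1 6 2)) (Nat.add (Nat.mul m33 (g 12 1 7 2)) (Nat.add (Nat.mul m34 (g 12 1 8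
  2)) (Nat.add (Nat.mul m35 (g 12 1 9 2)) (Nat.add (Nat.mul m36 (g 12 1 10 2)) (Nat.add (Nat.mul
  m37 (g 12 1 11 2)) (Nat.add (Nat.mul m38 (g 12 1 12 2)) (Nat.add (Nat.mul m39 (g 12 1 13 2))
  (Nat.add (Nat.mul m40 (g 12 1 3 3)) (Nat.add (Nat.mul m41 (g 12 1 4 3)) (Nat.add (Nat.mul m42
  (g 12 1 5 3)) (Nat.add (Nat.mul m43 (g 12 1 6 3)) (Nat.add (Nat.mul m44 (g 12 1 7 3)) (Nat.add
  (Nat.mul m45 (g 12 1 8 3)) (Nat.add (Nat.mul m46 (g 12 1 9 3)) (Nat.add (Nat.mul m47 (g 12 1 10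
  3)) (Nat.add (Nat.mul m48 (g 12 1 11 3)) (Nat.add (Nat.mul m49 (g 12 1 12 3)) (Nat.add (Nat.mul
  m50 (g 12 1 4 4)) (Nat.add (Nat.mul m51 (g 12 1 5 4)) (Nat.add (Nat.mul m52 (g 12 1 6 4))
  (Nat.add (Nat.mul m53 (g 12 1 7 4)) (Nat.add (Nat.mul m54 (g 12 1 8 4)) (Nat.add (Nat.mul m55
  (g 12 1 9 4)) (Nat.add (Nat.mul m56 (g 12 1 10 4)) (Nat.add (Nat.mul m57 (g 12 1 11 4))
  (Nat.add (Nat.mul m58 (g 12 1 12 4)) (Nat.add (Nat.mul m59 (g 12 1 5 5)) (Nat.add (Nat.mul m60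
  (g 12 1 6 5)) (Nat.add (Nat.mul m61 (g 12 1 7 5)) (Nat.add (Nat.mul m62 (g 12 1 8 5)) (Nat.add
  (Nat.mul m63 (g 12 1 9 5)) (Nat.add (Nat.mul m64 (g 12 1 10 5)) (Nat.add (Nat.mul m65 (g 12 1
  11 5)) (Nat.add (Nat.mul m66 (g 12 1 6 6)) (Nat.add (Nat.mul m67 (g 12 1 7 6)) (Nat.add
  (Nat.mul m68 (g 12 1 8 6)) (Nat.add (Nat.mul m69 (g 12 1 9 6)) (Nat.add (Nat.mul m70 (g 12 1 10
  6)) (Nat.add (Nat.mul m71 (g 12 1 11 6)) (Nat.add (Nat.mul m72 (g 12 1 7 7)) (Nat.add (Nat.mul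
  m73 (g 12 1 8 7)) (Nat.add (Nat.mul m74 (g 12 1 9 7)) (Nat.add (Nat.mul m75 (g 12 1 10 7))
  (Nat.add (Nat.mul m76 (g 12 1 8 8)) (Nat.add (Nat.mul m77 (g 12 1 9 8)) (Nat.add (Nat.mul m78
  (g 12 1 10 8)) (Nat.add (Nat.mul m79 (g 12 1 9 9))
  (0)))))))))))))))))))))))))))))))))))))))))))))))))))))

def zr27 (g : Nat → Nat → Nat → Nat → Nat) (m28 m29 m30 m31 m32 m33 m34 m35 m36 m37 m38 m39
    m40 m41 m42 m43 m44 m45 m46 m47 m48 m49 m50 m51 m52 m53 m54 m55 m56 m57 m58 m59 m60 m61 m62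
    m63 m64 m65 m66 m67 m68 m69 m70 m71 m72 m73 m74 m75 m76 m77 m78 m79 : Nat) : Nat :=
  Nat.add (Nat.mul m28 (g 13 1 2 2)) (Nat.add (Nat.mul m29 (g 13 1 3 2)) (Nat.add (Nat.mul m30 (g
  13 1 4 2)) (Nat.add (Nat.mul m31 (g 13 1 5 2)) (Nat.add (Nat.mul m32 (g 13 1 6 2)) (Nat.add
  (Nat.mul m33 (g 13 1 7 2)) (Nat.add (Nat.mul m34 (g 13 1 8 2)) (Nat.add (Nat.mul m35 (g 13 1 9
  2)) (Nat.add (Nat.mul m36 (g 13 1 10 2)) (Nat.add (Nat.mul m37 (g 13 1 11 2)) (Nat.add (Nat.mul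
  m38 (g 13 1 12 2)) (Nat.add (Nat.mul m39 (g 13 1 13 2)) (Nat.add (Nat.mul m40 (g 13 1 3 3))
  (Nat.add (Nat.mul m41 (g 13 1 4 3)) (Nat.add (Nat.mul m42 (g 13 1 5 3)) (Nat.add (Nat.mul m43
  (g 13 1 6 3)) (Nat.add (Nat.mul m44 (g 13 1 7 3)) (Nat.add (Nat.mul m45 (g 13 1 8 3)) (Nat.add
  (Nat.mul m46 (g 13 1 9 3)) (Nat.add (Nat.mul m47 (g 13 1 10 3)) (Nat.add (Nat.mul m48 (g 13 1
  11 3)) (Nat.add (Nat.mul m49 (g 13 1 12 3)) (Nat.add (Nat.mul m50 (g 13 1 4 4)) (Nat.add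
  (Nat.mul m51 (g 13 1 5 4)) (Nat.add (Nat.mul m52 (g 13 1 6 4)) (Nat.add (Nat.mul m53 (g 13 1 7
  4)) (Nat.add (Nat.mul m54 (g 13 1 8 4)) (Nat.add (Nat.mul m55 (g 13 1 9 4)) (Nat.add (Nat.mul
  m56 (g 13 1 10 4)) (Nat.add (Nat.mul m57 (g 13 1 11 4)) (Nat.add (Nat.mul m58 (g 13 1 12 4))
  (Nat.add (Nat.mul m59 (g 13 1 5 5)) (Nat.add (Nat.mul m60 (g 13 1 6 5)) (Nat.add (Nat.mul m61
  (g 13 1 7 5)) (Nat.add (Nat.mul m62 (g 13 1 8 5)) (Nat.add (Nat.mul m63 (g 13 1 9 5)) (Nat.add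
  (Nat.mul m64 (g 13 1 10 5)) (Nat.add (Nat.mul m65 (g 13 1 11 5)) (Nat.add (Nat.mul m66 (g 13 1
  6 6)) (Nat.add (Nat.mul m67 (g 13 1 7 6)) (Nat.add (Nat.mul m68 (g 13 1 8 6)) (Nat.add (Nat.mul
  m69 (g 13 1 9 6)) (Nat.add (Nat.mul m70 (g 13 1 10 6)) (Nat.add (Nat.mul m71 (g 13 1 11 6))
  (Nat.add (Nat.mul m72 (g 13 1 7 7)) (Nat.add (Nat.mul m73 (g 13 1 8 7)) (Nat.add (Nat.mul m74
  (g 13 1 9 7)) (Nat.add (Nat.mul m75 (g 13 1 10 7)) (Nat.add (Nat.mul m76 (g 13 1 8 8)) (Nat.add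
  (Nat.mul m77 (g 13 1 9 8)) (Nat.add (Nat.mul m78 (g 13 1 10 8)) (Nat.add (Nat.mul m79 (g 13 1 9
  9)) (0))))))))))))))))))))))))))))))))))))))))))))))))))))

def zr28 (g : Nat → Nat → Nat → Nat → Nat) (m29 m30 m31 m32 m33 m34 m35 m36 m37 m38 m39 m40
    m41 m42 m43 m44 m45 m46 m47 m48 m49 m50 m51 m52 m53 m54 m55 m56 m57 m58 m59 m60 m61 m62 m63
    m64 m65 m66 m67 m68 m69 m70 m71 m72 m73 m74 m75 m76 m77 m78 m79 : Nat) : Nat :=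
  Nat.add (Nat.mul m29 (g 2 2 3 2)) (Nat.add (Nat.mul m30 (g 2 2 4 2)) (Nat.add (Nat.mul m31 (g 2
  2 5 2)) (Nat.add (Nat.mul m32 (g 2 2 6 2)) (Nat.add (Nat.mul m33 (g 2 2 7 2)) (Nat.add (Nat.mul
  m34 (g 2 2 8 2)) (Nat.add (Nat.mul m35 (g 2 2 9 2)) (Nat.add (Nat.mul m36 (g 2 2 10 2))
  (Nat.add (Nat.mul m37 (g 2 2 11 2)) (Nat.add (Nat.mul m38 (g 2 2 12 2)) (Nat.add (Nat.mul m39
  (g 2 2 13 2)) (Nat.add (Nat.mul m40 (g 2 2 3 3)) (Nat.add (Nat.mul m41 (g 2 2 4 3)) (Nat.add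
  (Nat.mul m42 (g 2 2 5 3)) (Nat.add (Nat.mul m43 (g 2 2 6 3)) (Nat.add (Nat.mul m44 (g 2 2 7 3))
  (Nat.add (Nat.mul m45 (g 2 2 8 3)) (Nat.add (Nat.mul m46 (g 2 2 9 3)) (Nat.add (Nat.mul m47 (g
  2 2 10 3)) (Nat.add (Nat.mul m48 (g 2 2 11 3)) (Nat.add (Nat.mul m49 (g 2 2 12 3)) (Nat.add
  (Nat.mul m50 (g 2 2 4 4)) (Nat.add (Nat.mul m51 (g 2 2 5 4)) (Nat.add (Nat.mul m52 (g 2 2 6 4))
  (Nat.add (Nat.mul m53 (g 2 2 7 4)) (Nat.add (Nat.mul m54 (g 2 2 8 4)) (Nat.add (Nat.mul m55 (g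
  2 2 9 4)) (Nat.add (Nat.mul m56 (g 2 2 10 4)) (Nat.add (Nat.mul m57 (g 2 2 11 4)) (Nat.add
  (Nat.mul m58 (g 2 2 12 4)) (Nat.add (Nat.mul m59 (g 2 2 5 5)) (Nat.add (Nat.mul m60 (g 2 2 6
  5)) (Nat.add (Nat.mul m61 (g 2 2 7 5)) (Nat.add (Nat.mul m62 (g 2 2 8 5)) (Nat.add (Nat.mul m63
  (g 2 2 9 5)) (Nat.add (Nat.mul m64 (g 2 2 10 5)) (Nat.add (Nat.mul m65 (g 2 2 11 5)) (Nat.add
  (Nat.mul m66 (g 2 2 6 6)) (Nat.add (Nat.mul m67 (g 2 2 7 6)) (Nat.add (Nat.mul m68 (g 2 2 8 6))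
  (Nat.add (Nat.mul m69 (g 2 2 9 6)) (Nat.add (Nat.mul m70 (g 2 2 10 6)) (Nat.add (Nat.mul m71 (g
  2 2 11 6)) (Nat.add (Nat.mul m72 (g 2 2 7 7)) (Nat.add (Nat.mul m73 (g 2 2 8 7)) (Nat.add
  (Nat.mul m74 (g 2 2 9 7)) (Nat.add (Nat.mul m75 (g 2 2 10 7)) (Nat.add (Nat.mul m76 (g 2 2 8
  8)) (Nat.add (Nat.mul m77 (g 2 2 9 8)) (Nat.add (Nat.mul m78 (g 2 2 10 8)) (Nat.add (Nat.mul
  m79 (g 2 2 9 9)) (0)))))))))))))))))))))))))))))))))))))))))))))))))))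

def zr29 (g : Nat → Nat → Nat → Nat → Nat) (m30 m31 m32 m33 m34 m35 m36 m37 m38 m39 m40 m41
    m42 m43 m44 m45 m46 m47 m48 m49 m50 m51 m52 m53 m54 m55 m56 m57 m58 m59 m60 m61 m62 m63 m64
    m65 m66 m67 m68 m69 m70 m71 m72 m73 m74 m75 m76 m77 m78 m79 : Nat) : Nat :=
  Nat.add (Nat.mul m30 (g 3 2 4 2)) (Nat.add (Nat.mul m31 (g 3 2 5 2)) (Nat.add (Nat.mul m32 (g 3
  2 6 2)) (Nat.add (Nat.mul m33 (g 3 2 7 2)) (Nat.add (Nat.mul m34 (g 3 2 8 2)) (Nat.add (Nat.mul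
  m35 (g 3 2 9 2)) (Nat.add (Nat.mul m36 (g 3 2 10 2)) (Nat.add (Nat.mul m37 (g 3 2 11 2))
  (Nat.add (Nat.mul m38 (g 3 2 12 2)) (Nat.add (Nat.mul m39 (g 3 2 13 2)) (Nat.add (Nat.mul m40
  (g 3 2 3 3)) (Nat.add (Nat.mul m41 (g 3 2 4 3)) (Nat.add (Nat.mul m42 (g 3 2 5 3)) (Nat.add
  (Nat.mul m43 (g 3 2 6 3)) (Nat.add (Nat.mul m44 (g 3 2 7 3)) (Nat.add (Nat.mul m45 (g 3 2 8 3))
  (Nat.add (Nat.mul m46 (g 3 2 9 3)) (Nat.add (Nat.mul m47 (g 3 2 10 3)) (Nat.add (Nat.mul m48 (g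
  3 2 11 3)) (Nat.add (Nat.mul m49 (g 3 2 12 3)) (Nat.add (Nat.mul m50 (g 3 2 4 4)) (Nat.add
  (Nat.mul m51 (g 3 2 5 4)) (Nat.add (Nat.mul m52 (g 3 2 6 4)) (Nat.add (Nat.mul m53 (g 3 2 7 4))
  (Nat.add (Nat.mul m54 (g 3 2 8 4)) (Nat.add (Nat.mul m55 (g 3 2 9 4)) (Nat.add (Nat.mul m56 (g
  3 2 10 4)) (Nat.add (Nat.mul m57 (g 3 2 11 4)) (Nat.add (Nat.mul m58 (g 3 2 12 4)) (Nat.add
  (Nat.mul m59 (g 3 2 5 5)) (Nat.add (Nat.mul m60 (g 3 2 6 5)) (Nat.add (Nat.mul m61 (g 3 2 7 5))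
  (Nat.add (Nat.mul m62 (g 3 2 8 5)) (Nat.add (Nat.mul m63 (g 3 2 9 5)) (Nat.add (Nat.mul m64 (g
  3 2 10 5)) (Nat.add (Nat.mul m65 (g 3 2 11 5)) (Nat.add (Nat.mul m66 (g 3 2 6 6)) (Nat.add
  (Nat.mul m67 (g 3 2 7 6)) (Nat.add (Nat.mul m68 (g 3 2 8 6)) (Nat.add (Nat.mul m69 (g 3 2 9 6))
  (Nat.add (Nat.mul m70 (g 3 2 10 6)) (Nat.add (Nat.mul m71 (g 3 2 11 6)) (Nat.add (Nat.mul m72
  (g 3 2 7 7)) (Nat.add (Nat.mul m73 (g 3 2 8 7)) (Nat.add (Nat.mul m74 (g 3 2 9 7)) (Nat.add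
  (Nat.mul m75 (g 3 2 10 7)) (Nat.add (Nat.mul m76 (g 3 2 8 8)) (Nat.add (Nat.mul m77 (g 3 2 9
  8)) (Nat.add (Nat.mul m78 (g 3 2 10 8)) (Nat.add (Nat.mul m79 (g 3 2 9 9))
  (0))))))))))))))))))))))))))))))))))))))))))))))))))

def zr30 (g : Nat → Nat → Nat → Nat → Nat) (m31 m32 m33 m34 m35 m36 m37 m38 m39 m40 m41 m42
    m43 m44 m45 m46 m47 m48 m49 m50 m51 m52 m53 m54 m55 m56 m57 m58 m59 m60 m61 m62 m63 m64 m65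
    m66 m67 m68 m69 m70 m71 m72 m73 m74 m75 m76 m77 m78 m79 : Nat) : Nat :=
  Nat.add (Nat.mul m31 (g 4 2 5 2)) (Nat.add (Nat.mul m32 (g 4 2 6 2)) (Nat.add (Nat.mul m33 (g 4
  2 7 2)) (Nat.add (Nat.mul m34 (g 4 2 8 2)) (Nat.add (Nat.mul m35 (g 4 2 9 2)) (Nat.add (Nat.mul
  m36 (g 4 2 10 2)) (Nat.add (Nat.mul m37 (g 4 2 11 2)) (Nat.add (Nat.mul m38 (g 4 2 12 2))
  (Nat.add (Nat.mul m39 (g 4 2 13 2)) (Nat.add (Nat.mul m40 (g 4 2 3 3)) (Nat.add (Nat.mul m41 (g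
  4 2 4 3)) (Nat.add (Nat.mul m42 (g 4 2 5 3)) (Nat.add (Nat.mul m43 (g 4 2 6 3)) (Nat.add
  (Nat.mul m44 (g 4 2 7 3)) (Nat.add (Nat.mul m45 (g 4 2 8 3)) (Nat.add (Nat.mul m46 (g 4 2 9 3))
  (Nat.add (Nat.mul m47 (g 4 2 10 3)) (Nat.add (Nat.mul m48 (g 4 2 11 3)) (Nat.add (Nat.mul m49
  (g 4 2 12 3)) (Nat.add (Nat.mul m50 (g 4 2 4 4)) (Nat.add (Nat.mul m51 (g 4 2 5 4)) (Nat.add
  (Nat.mul m52 (g 4 2 6 4)) (Nat.add (Nat.mul m53 (g 4 2 7 4)) (Nat.add (Nat.mul m54 (g 4 2 8 4))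
  (Nat.add (Nat.mul m55 (g 4 2 9 4)) (Nat.add (Nat.mul m56 (g 4 2 10 4)) (Nat.add (Nat.mul m57 (g
  4 2 11 4)) (Nat.add (Nat.mul m58 (g 4 2 12 4)) (Nat.add (Nat.mul m59 (g 4 2 5 5)) (Nat.add
  (Nat.mul m60 (g 4 2 6 5)) (Nat.add (Nat.mul m61 (g 4 2 7 5)) (Nat.add (Nat.mul m62 (g 4 2 8 5))
  (Nat.add (Nat.mul m63 (g 4 2 9 5)) (Nat.add (Nat.mul m64 (g 4 2 10 5)) (Nat.add (Nat.mul m65 (g
  4 2 11 5)) (Nat.add (Nat.mul m66 (g 4 2 6 6)) (Nat.add (Nat.mul m67 (g 4 2 7 6)) (Nat.add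
  (Nat.mul m68 (g 4 2 8 6)) (Nat.add (Nat.mul m69 (g 4 2 9 6)) (Nat.add (Nat.mul m70 (g 4 2 10
  6)) (Nat.add (Nat.mul m71 (g 4 2 11 6)) (Nat.add (Nat.mul m72 (g 4 2 7 7)) (Nat.add (Nat.mul
  m73 (g 4 2 8 7)) (Nat.add (Nat.mul m74 (g 4 2 9 7)) (Nat.add (Nat.mul m75 (g 4 2 10 7))
  (Nat.add (Nat.mul m76 (g 4 2 8 8)) (Nat.add (Nat.mul m77 (g 4 2 9 8)) (Nat.add (Nat.mul m78 (g
  4 2 10 8)) (Nat.add (Nat.mul m79 (g 4 2 9 9))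
  (0)))))))))))))))))))))))))))))))))))))))))))))))))

def zr31 (g : Nat → Nat → Nat → Nat → Nat) (m32 m33 m34 m35 m36 m37 m38 m39 m40 m41 m42 m43
    m44 m45 m46 m47 m48 m49 m50 m51 m52 m53 m54 m55 m56 m57 m58 m59 m60 m61 m62 m63 m64 m65 m66
    m67 m68 m69 m70 m71 m72 m73 m74 m75 m76 m77 m78 m79 : Nat) : Nat :=
  Nat.add (Nat.mul m32 (g 5 2 6 2)) (Nat.add (Nat.mul m33 (g 5 2 7 2)) (Nat.add (Nat.mul m34 (g 5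
  2 8 2)) (Nat.add (Nat.mul m35 (g 5 2 9 2)) (Nat.add (Nat.mul m36 (g 5 2 10 2)) (Nat.add
  (Nat.mul m37 (g 5 2 11 2)) (Nat.add (Nat.mul m38 (g 5 2 12 2)) (Nat.add (Nat.mul m39 (g 5 2 13
  2)) (Nat.add (Nat.mul m40 (g 5 2 3 3)) (Nat.add (Nat.mul m41 (g 5 2 4 3)) (Nat.add (Nat.mul m42
  (g 5 2 5 3)) (Nat.add (Nat.mul m43 (g 5 2 6 3)) (Nat.add (Nat.mul m44 (g 5 2 7 3)) (Nat.add
  (Nat.mul m45 (g 5 2 8 3)) (Nat.add (Nat.mul m46 (g 5 2 9 3)) (Nat.add (Nat.mul m47 (g 5 2 10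
  3)) (Nat.add (Nat.mul m48 (g 5 2 11 3)) (Nat.add (Nat.mul m49 (g 5 2 12 3)) (Nat.add (Nat.mul
  m50 (g 5 2 4 4)) (Nat.add (Nat.mul m51 (g 5 2 5 4)) (Nat.add (Nat.mul m52 (g 5 2 6 4)) (Nat.add
  (Nat.mul m53 (g 5 2 7 4)) (Nat.add (Nat.mul m54 (g 5 2 8 4)) (Nat.add (Nat.mul m55 (g 5 2 9 4))
  (Nat.add (Nat.mul m56 (g 5 2 10 4)) (Nat.add (Nat.mul m57 (g 5 2 11 4)) (Nat.add (Nat.mul m58
  (g 5 2 12 4)) (Nat.add (Nat.mul m59 (g 5 2 5 5)) (Nat.add (Nat.mul m60 (g 5 2 6 5)) (Nat.add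
  (Nat.mul m61 (g 5 2 7 5)) (Nat.add (Nat.mul m62 (g 5 2 8 5)) (Nat.add (Nat.mul m63 (g 5 2 9 5))
  (Nat.add (Nat.mul m64 (g 5 2 10 5)) (Nat.add (Nat.mul m65 (g 5 2 11 5)) (Nat.add (Nat.mul m66
  (g 5 2 6 6)) (Nat.add (Nat.mul m67 (g 5 2 7 6)) (Nat.add (Nat.mul m68 (g 5 2 8 6)) (Nat.add
  (Nat.mul m69 (g 5 2 9 6)) (Nat.add (Nat.mul m70 (g 5 2 10 6)) (Nat.add (Nat.mul m71 (g 5 2 11
  6)) (Nat.add (Nat.mul m72 (g 5 2 7 7)) (Nat.add (Nat.mul m73 (g 5 2 8 7)) (Nat.add (Nat.mul m74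
  (g 5 2 9 7)) (Nat.add (Nat.mul m75 (g 5 2 10 7)) (Nat.add (Nat.mul m76 (g 5 2 8 8)) (Nat.add
  (Nat.mul m77 (g 5 2 9 8)) (Nat.add (Nat.mul m78 (g 5 2 10 8)) (Nat.add (Nat.mul m79 (g 5 2 9
  9)) (0))))))))))))))))))))))))))))))))))))))))))))))))

def zr32 (g : Nat → Nat → Nat → Nat → Nat) (m33 m34 m35 m36 m37 m38 m39 m40 m41 m42 m43 m44
    m45 m46 m47 m48 m49 m50 m51 m52 m53 m54 m55 m56 m57 m58 m59 m60 m61 m62 m63 m64 m65 m66 m67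
    m68 m69 m70 m71 m72 m73 m74 m75 m76 m77 m78 m79 : Nat) : Nat :=
  Nat.add (Nat.mul m33 (g 6 2 7 2)) (Nat.add (Nat.mul m34 (g 6 2 8 2)) (Nat.add (Nat.mul m35 (g 6
  2 9 2)) (Nat.add (Nat.mul m36 (g 6 2 10 2)) (Nat.add (Nat.mul m37 (g 6 2 11 2)) (Nat.add
  (Nat.mul m38 (g 6 2 12 2)) (Nat.add (Nat.mul m39 (g 6 2 13 2)) (Nat.add (Nat.mul m40 (g 6 2 3
  3)) (Nat.add (Nat.mul m41 (g 6 2 4 3)) (Nat.add (Nat.mul m42 (g 6 2 5 3)) (Nat.add (Nat.mul m43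
  (g 6 2 6 3)) (Nat.add (Nat.mul m44 (g 6 2 7 3)) (Nat.add (Nat.mul m45 (g 6 2 8 3)) (Nat.add
  (Nat.mul m46 (g 6 2 9 3)) (Nat.add (Nat.mul m47 (g 6 2 10 3)) (Nat.add (Nat.mul m48 (g 6 2 11
  3)) (Nat.add (Nat.mul m49 (g 6 2 12 3)) (Nat.add (Nat.mul m50 (g 6 2 4 4)) (Nat.add (Nat.mul
  m51 (g 6 2 5 4)) (Nat.add (Nat.mul m52 (g 6 2 6 4)) (Nat.add (Nat.mul m53 (g 6 2 7 4)) (Nat.add
  (Nat.mul m54 (g 6 2 8 4)) (Nat.add (Nat.mul m55 (g 6 2 9 4)) (Nat.add (Nat.mul m56 (g 6 2 10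
  4)) (Nat.add (Nat.mul m57 (g 6 2 11 4)) (Nat.add (Nat.mul m58 (g 6 2 12 4)) (Nat.add (Nat.mul
  m59 (g 6 2 5 5)) (Nat.add (Nat.mul m60 (g 6 2 6 5)) (Nat.add (Nat.mul m61 (g 6 2 7 5)) (Nat.add
  (Nat.mul m62 (g 6 2 8 5)) (Nat.add (Nat.mul m63 (g 6 2 9 5)) (Nat.add (Nat.mul m64 (g 6 2 10
  5)) (Nat.add (Nat.mul m65 (g 6 2 11 5)) (Nat.add (Nat.mul m66 (g 6 2 6 6)) (Nat.add (Nat.mul
  m67 (g 6 2 7 6)) (Nat.add (Nat.mul m68 (g 6 2 8 6)) (Nat.add (Nat.mul m69 (g 6 2 9 6)) (Nat.add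
  (Nat.mul m70 (g 6 2 10 6)) (Nat.add (Nat.mul m71 (g 6 2 11 6)) (Nat.add (Nat.mul m72 (g 6 2 7
  7)) (Nat.add (Nat.mul m73 (g 6 2 8 7)) (Nat.add (Nat.mul m74 (g 6 2 9 7)) (Nat.add (Nat.mul m75
  (g 6 2 10 7)) (Nat.add (Nat.mul m76 (g 6 2 8 8)) (Nat.add (Nat.mul m77 (g 6 2 9 8)) (Nat.add
  (Nat.mul m78 (g 6 2 10 8)) (Nat.add (Nat.mul m79 (g 6 2 9 9))
  (0)))))))))))))))))))))))))))))))))))))))))))))))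

def zr33 (g : Nat → Nat → Nat → Nat → Nat) (m34 m35 m36 m37 m38 m39 m40 m41 m42 m43 m44 m45
    m46 m47 m48 m49 m50 m51 m52 m53 m54 m55 m56 m57 m58 m59 m60 m61 m62 m63 m64 m65 m66 m67 m68
    m69 m70 m71 m72 m73 m74 m75 m76 m77 m78 m79 : Nat) : Nat :=
  Nat.add (Nat.mul m34 (g 7 2 8 2)) (Nat.add (Nat.mul m35 (g 7 2 9 2)) (Nat.add (Nat.mul m36 (g 7
  2 10 2)) (Nat.add (Nat.mul m37 (g 7 2 11 2)) (Nat.add (Nat.mul m38 (g 7 2 12 2)) (Nat.add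
  (Nat.mul m39 (g 7 2 13 2)) (Nat.add (Nat.mul m40 (g 7 2 3 3)) (Nat.add (Nat.mul m41 (g 7 2 4
  3)) (Nat.add (Nat.mul m42 (g 7 2 5 3)) (Nat.add (Nat.mul m43 (g 7 2 6 3)) (Nat.add (Nat.mul m44
  (g 7 2 7 3)) (Nat.add (Nat.mul m45 (g 7 2 8 3)) (Nat.add (Nat.mul m46 (g 7 2 9 3)) (Nat.add
  (Nat.mul m47 (g 7 2 10 3)) (Nat.add (Nat.mul m48 (g 7 2 11 3)) (Nat.add (Nat.mul m49 (g 7 2 12
  3)) (Nat.add (Nat.mul m50 (g 7 2 4 4)) (Nat.add (Nat.mul m51 (g 7 2 5 4)) (Nat.add (Nat.mul m52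
  (g 7 2 6 4)) (Nat.add (Nat.mul m53 (g 7 2 7 4)) (Nat.add (Nat.mul m54 (g 7 2 8 4)) (Nat.add
  (Nat.mul m55 (g 7 2 9 4)) (Nat.add (Nat.mul m56 (g 7 2 10 4)) (Nat.add (Nat.mul m57 (g 7 2 11
  4)) (Nat.add (Nat.mul m58 (g 7 2 12 4)) (Nat.add (Nat.mul m59 (g 7 2 5 5)) (Nat.add (Nat.mul
  m60 (g 7 2 6 5)) (Nat.add (Nat.mul m61 (g 7 2 7 5)) (Nat.add (Nat.mul m62 (g 7 2 8 5)) (Nat.add
  (Nat.mul m63 (g 7 2 9 5)) (Nat.add (Nat.mul m64 (g 7 2 10 5)) (Nat.add (Nat.mul m65 (g 7 2 11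
  5)) (Nat.add (Nat.mul m66 (g 7 2 6 6)) (Nat.add (Nat.mul m67 (g 7 2 7 6)) (Nat.add (Nat.mul m68
  (g 7 2 8 6)) (Nat.add (Nat.mul m69 (g 7 2 9 6)) (Nat.add (Nat.mul m70 (g 7 2 10 6)) (Nat.add
  (Nat.mul m71 (g 7 2 11 6)) (Nat.add (Nat.mul m72 (g 7 2 7 7)) (Nat.add (Nat.mul m73 (g 7 2 8
  7)) (Nat.add (Nat.mul m74 (g 7 2 9 7)) (Nat.add (Nat.mul m75 (g 7 2 10 7)) (Nat.add (Nat.mul
  m76 (g 7 2 8 8)) (Nat.add (Nat.mul m77 (g 7 2 9 8)) (Nat.add (Nat.mul m78 (g 7 2 10 8))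
  (Nat.add (Nat.mul m79 (g 7 2 9 9)) (0))))))))))))))))))))))))))))))))))))))))))))))

def zr34 (g : Nat → Nat → Nat → Nat → Nat) (m35 m36 m37 m38 m39 m40 m41 m42 m43 m44 m45 m46
    m47 m48 m49 m50 m51 m52 m53 m54 m55 m56 m57 m58 m59 m60 m61 m62 m63 m64 m65 m66 m67 m68 m69
    m70 m71 m72 m73 m74 m75 m76 m77 m78 m79 : Nat) : Nat :=
  Nat.add (Nat.mul m35 (g 8 2 9 2)) (Nat.add (Nat.mul m36 (g 8 2 10 2)) (Nat.add (Nat.mul m37 (g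
  8 2 11 2)) (Nat.add (Nat.mul m38 (g 8 2 12 2)) (Nat.add (Nat.mul m39 (g 8 2 13 2)) (Nat.add
  (Nat.mul m40 (g 8 2 3 3)) (Nat.add (Nat.mul m41 (g 8 2 4 3)) (Nat.add (Nat.mul m42 (g 8 2 5 3))
  (Nat.add (Nat.mul m43 (g 8 2 6 3)) (Nat.add (Nat.mul m44 (g 8 2 7 3)) (Nat.add (Nat.mul m45 (g
  8 2 8 3)) (Nat.add (Nat.mul m46 (g 8 2 9 3)) (Nat.add (Nat.mul m47 (g 8 2 10 3)) (Nat.add
  (Nat.mul m48 (g 8 2 11 3)) (Nat.add (Nat.mul m49 (g 8 2 12 3)) (Nat.add (Nat.mul m50 (g 8 2 4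
  4)) (Nat.add (Nat.mul m51 (g 8 2 5 4)) (Nat.add (Nat.mul m52 (g 8 2 6 4)) (Nat.add (Nat.mul m53
  (g 8 2 7 4)) (Nat.add (Nat.mul m54 (g 8 2 8 4)) (Nat.add (Nat.mul m55 (g 8 2 9 4)) (Nat.add
  (Nat.mul m56 (g 8 2 10 4)) (Nat.add (Nat.mul m57 (g 8 2 11 4)) (Nat.add (Nat.mul m58 (g 8 2 12
  4)) (Nat.add (Nat.mul m59 (g 8 2 5 5)) (Nat.add (Nat.mul m60 (g 8 2 6 5)) (Nat.add (Nat.mul m61
  (g 8 2 7 5)) (Nat.add (Nat.mul m62 (g 8 2 8 5)) (Nat.add (Nat.mul m63 (g 8 2 9 5)) (Nat.add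
  (Nat.mul m64 (g 8 2 10 5)) (Nat.add (Nat.mul m65 (g 8 2 11 5)) (Nat.add (Nat.mul m66 (g 8 2 6
  6)) (Nat.add (Nat.mul m67 (g 8 2 7 6)) (Nat.add (Nat.mul m68 (g 8 2 8 6)) (Nat.add (Nat.mul m69
  (g 8 2 9 6)) (Nat.add (Nat.mul m70 (g 8 2 10 6)) (Nat.add (Nat.mul m71 (g 8 2 11 6)) (Nat.add
  (Nat.mul m72 (g 8 2 7 7)) (Nat.add (Nat.mul m73 (g 8 2 8 7)) (Nat.add (Nat.mul m74 (g 8 2 9 7))
  (Nat.add (Nat.mul m75 (g 8 2 10 7)) (Nat.add (Nat.mul m76 (g 8 2 8 8)) (Nat.add (Nat.mul m77 (g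
  8 2 9 8)) (Nat.add (Nat.mul m78 (g 8 2 10 8)) (Nat.add (Nat.mul m79 (g 8 2 9 9))
  (0)))))))))))))))))))))))))))))))))))))))))))))

def zr35 (g : Nat → Nat → Nat → Nat → Nat) (m36 m37 m38 m39 m40 m41 m42 m43 m44 m45 m46 m47
    m48 m49 m50 m51 m52 m53 m54 m55 m56 m57 m58 m59 m60 m61 m62 m63 m64 m65 m66 m67 m68 m69 m70
    m71 m72 m73 m74 m75 m76 m77 m78 m79 : Nat) : Nat :=
  Nat.add (Nat.mul m36 (g 9 2 10 2)) (Nat.add (Nat.mul m37 (g 9 2 11 2)) (Nat.add (Nat.mul m38 (g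
  9 2 12 2)) (Nat.add (Nat.mul m39 (g 9 2 13 2)) (Nat.add (Nat.mul m40 (g 9 2 3 3)) (Nat.add
  (Nat.mul m41 (g 9 2 4 3)) (Nat.add (Nat.mul m42 (g 9 2 5 3)) (Nat.add (Nat.mul m43 (g 9 2 6 3))
  (Nat.add (Nat.mul m44 (g 9 2 7 3)) (Nat.add (Nat.mul m45 (g 9 2 8 3)) (Nat.add (Nat.mul m46 (g
  9 2 9 3)) (Nat.add (Nat.mul m47 (g 9 2 10 3)) (Nat.add (Nat.mul m48 (g 9 2 11 3)) (Nat.add
  (Nat.mul m49 (g 9 2 12 3)) (Nat.add (Nat.mul m50 (g 9 2 4 4)) (Nat.add (Nat.mul m51 (g 9 2 5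
  4)) (Nat.add (Nat.mul m52 (g 9 2 6 4)) (Nat.add (Nat.mul m53 (g 9 2 7 4)) (Nat.add (Nat.mul m54
  (g 9 2 8 4)) (Nat.add (Nat.mul m55 (g 9 2 9 4)) (Nat.add (Nat.mul m56 (g 9 2 10 4)) (Nat.add
  (Nat.mul m57 (g 9 2 11 4)) (Nat.add (Nat.mul m58 (g 9 2 12 4)) (Nat.add (Nat.mul m59 (g 9 2 5
  5)) (Nat.add (Nat.mul m60 (g 9 2 6 5)) (Nat.add (Nat.mul m61 (g 9 2 7 5)) (Nat.add (Nat.mul m62
  (g 9 2 8 5)) (Nat.add (Nat.mul m63 (g 9 2 9 5)) (Nat.add (Nat.mul m64 (g 9 2 10 5)) (Nat.add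
  (Nat.mul m65 (g 9 2 11 5)) (Nat.add (Nat.mul m66 (g 9 2 6 6)) (Nat.add (Nat.mul m67 (g 9 2 7
  6)) (Nat.add (Nat.mul m68 (g 9 2 8 6)) (Nat.add (Nat.mul m69 (g 9 2 9 6)) (Nat.add (Nat.mul m70
  (g 9 2 10 6)) (Nat.add (Nat.mul m71 (g 9 2 11 6)) (Nat.add (Nat.mul m72 (g 9 2 7 7)) (Nat.add
  (Nat.mul m73 (g 9 2 8 7)) (Nat.add (Nat.mul m74 (g 9 2 9 7)) (Nat.add (Nat.mul m75 (g 9 2 10
  7)) (Nat.add (Nat.mul m76 (g 9 2 8 8)) (Nat.add (Nat.mul m77 (g 9 2 9 8)) (Nat.add (Nat.mul m78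
  (g 9 2 10 8)) (Nat.add (Nat.mul m79 (g 9 2 9 9)) (0))))))))))))))))))))))))))))))))))))))))))))

def zr36 (g : Nat → Nat → Nat → Nat → Nat) (m37 m38 m39 m40 m41 m42 m43 m44 m45 m46 m47 m48
    m49 m50 m51 m52 m53 m54 m55 m56 m57 m58 m59 m60 m61 m62 m63 m64 m65 m66 m67 m68 m69 m70 m71
    m72 m73 m74 m75 m76 m77 m78 m79 : Nat) : Nat :=
  Nat.add (Nat.mul m37 (g 10 2 11 2)) (Nat.add (Nat.mul m38 (g 10 2 12 2)) (Nat.add (Nat.mul m39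
  (g 10 2 13 2)) (Nat.add (Nat.mul m40 (g 10 2 3 3)) (Nat.add (Nat.mul m41 (g 10 2 4 3)) (Nat.add
  (Nat.mul m42 (g 10 2 5 3)) (Nat.add (Nat.mul m43 (g 10 2 6 3)) (Nat.add (Nat.mul m44 (g 10 2 7
  3)) (Nat.add (Nat.mul m45 (g 10 2 8 3)) (Nat.add (Nat.mul m46 (g 10 2 9 3)) (Nat.add (Nat.mul
  m47 (g 10 2 10 3)) (Nat.add (Nat.mul m48 (g 10 2 11 3)) (Nat.add (Nat.mul m49 (g 10 2 12 3))
  (Nat.add (Nat.mul m50 (g 10 2 4 4)) (Nat.add (Nat.mul m51 (g 10 2 5 4)) (Nat.add (Nat.mul m52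
  (g 10 2 6 4)) (Nat.add (Nat.mul m53 (g 10 2 7 4)) (Nat.add (Nat.mul m54 (g 10 2 8 4)) (Nat.add
  (Nat.mul m55 (g 10 2 9 4)) (Nat.add (Nat.mul m56 (g 10 2 10 4)) (Nat.add (Nat.mul m57 (g 10 2
  11 4)) (Nat.add (Nat.mul m58 (g 10 2 12 4)) (Nat.add (Nat.mul m59 (g 10 2 5 5)) (Nat.add
  (Nat.mul m60 (g 10 2 6 5)) (Nat.add (Nat.mul m61 (g 10 2 7 5)) (Nat.add (Nat.mul m62 (g 10 2 8
  5)) (Nat.add (Nat.mul m63 (g 10 2 9 5)) (Nat.add (Nat.mul m64 (g 10 2 10 5)) (Nat.add (Nat.mul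
  m65 (g 10 2 11 5)) (Nat.add (Nat.mul m66 (g 10 2 6 6)) (Nat.add (Nat.mul m67 (g 10 2 7 6))
  (Nat.add (Nat.mul m68 (g 10 2 8 6)) (Nat.add (Nat.mul m69 (g 10 2 9 6)) (Nat.add (Nat.mul m70
  (g 10 2 10 6)) (Nat.add (Nat.mul m71 (g 10 2 11 6)) (Nat.add (Nat.mul m72 (g 10 2 7 7))
  (Nat.add (Nat.mul m73 (g 10 2 8 7)) (Nat.add (Nat.mul m74 (g 10 2 9 7)) (Nat.add (Nat.mul m75
  (g 10 2 10 7)) (Nat.add (Nat.mul m76 (g 10 2 8 8)) (Nat.add (Nat.mul m77 (g 10 2 9 8)) (Nat.add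
  (Nat.mul m78 (g 10 2 10 8)) (Nat.add (Nat.mul m79 (g 10 2 9 9))
  (0)))))))))))))))))))))))))))))))))))))))))))

def zr37 (g : Nat → Nat → Nat → Nat → Nat) (m38 m39 m40 m41 m42 m43 m44 m45 m46 m47 m48 m49
    m50 m51 m52 m53 m54 m55 m56 m57 m58 m59 m60 m61 m62 m63 m64 m65 m66 m67 m68 m69 m70 m71 m72
    m73 m74 m75 m76 m77 m78 m79 : Nat) : Nat :=
  Nat.add (Nat.mul m38 (g 11 2 12 2)) (Nat.add (Nat.mul m39 (g 11 2 13 2)) (Nat.add (Nat.mul m40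
  (g 11 2 3 3)) (Nat.add (Nat.mul m41 (g 11 2 4 3)) (Nat.add (Nat.mul m42 (g 11 2 5 3)) (Nat.add
  (Nat.mul m43 (g 11 2 6 3)) (Nat.add (Nat.mul m44 (g 11 2 7 3)) (Nat.add (Nat.mul m45 (g 11 2 8
  3)) (Nat.add (Nat.mul m46 (g 11 2 9 3)) (Nat.add (Nat.mul m47 (g 11 2 10 3)) (Nat.add (Nat.mul
  m48 (g 11 2 11 3)) (Nat.add (Nat.mul m49 (g 11 2 12 3)) (Nat.add (Nat.mul m50 (g 11 2 4 4))
  (Nat.add (Nat.mul m51 (g 11 2 5 4)) (Nat.add (Nat.mul m52 (g 11 2 6 4)) (Nat.add (Nat.mul m53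
  (g 11 2 7 4)) (Nat.add (Nat.mul m54 (g 11 2 8 4)) (Nat.add (Nat.mul m55 (g 11 2 9 4)) (Nat.add
  (Nat.mul m56 (g 11 2 10 4)) (Nat.add (Nat.mul m57 (g 11 2 11 4)) (Nat.add (Nat.mul m58 (g 11 2
  12 4)) (Nat.add (Nat.mul m59 (g 11 2 5 5)) (Nat.add (Nat.mul m60 (g 11 2 6 5)) (Nat.add
  (Nat.mul m61 (g 11 2 7 5)) (Nat.add (Nat.mul m62 (g 11 2 8 5)) (Nat.add (Nat.mul m63 (g 11 2 9
  5)) (Nat.add (Nat.mul m64 (g 11 2 10 5)) (Nat.add (Nat.mul m65 (g 11 2 11 5)) (Nat.add (Nat.mul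
  m66 (g 11 2 6 6)) (Nat.add (Nat.mul m67 (g 11 2 7 6)) (Nat.add (Nat.mul m68 (g 11 2 8 6))
  (Nat.add (Nat.mul m69 (g 11 2 9 6)) (Nat.add (Nat.mul m70 (g 11 2 10 6)) (Nat.add (Nat.mul m71
  (g 11 2 11 6)) (Nat.add (Nat.mul m72 (g 11 2 7 7)) (Nat.add (Nat.mul m73 (g 11 2 8 7)) (Nat.add
  (Nat.mul m74 (g 11 2 9 7)) (Nat.add (Nat.mul m75 (g 11 2 10 7)) (Nat.add (Nat.mul m76 (g 11 2 8
  8)) (Nat.add (Nat.mul m77 (g 11 2 9 8)) (Nat.add (Nat.mul m78 (g 11 2 10 8)) (Nat.add (Nat.mul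
  m79 (g 11 2 9 9)) (0))))))))))))))))))))))))))))))))))))))))))

def zr38 (g : Nat → Nat → Nat → Nat → Nat) (m39 m40 m41 m42 m43 m44 m45 m46 m47 m48 m49 m50
    m51 m52 m53 m54 m55 m56 m57 m58 m59 m60 m61 m62 m63 m64 m65 m66 m67 m68 m69 m70 m71 m72 m73
    m74 m75 m76 m77 m78 m79 : Nat) : Nat :=
  Nat.add (Nat.mul m39 (g 12 2 13 2)) (Nat.add (Nat.mul m40 (g 12 2 3 3)) (Nat.add (Nat.mul m41
  (g 12 2 4 3)) (Nat.add (Nat.mul m42 (g 12 2 5 3)) (Nat.add (Nat.mul m43 (g 12 2 6 3)) (Nat.add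
  (Nat.mul m44 (g 12 2 7 3)) (Nat.add (Nat.mul m45 (g 12 2 8 3)) (Nat.add (Nat.mul m46 (g 12 2 9
  3)) (Nat.add (Nat.mul m47 (g 12 2 10 3)) (Nat.add (Nat.mul m48 (g 12 2 11 3)) (Nat.add (Nat.mul
  m49 (g 12 2 12 3)) (Nat.add (Nat.mul m50 (g 12 2 4 4)) (Nat.add (Nat.mul m51 (g 12 2 5 4))
  (Nat.add (Nat.mul m52 (g 12 2 6 4)) (Nat.add (Nat.mul m53 (g 12 2 7 4)) (Nat.add (Nat.mul m54
  (g 12 2 8 4)) (Nat.add (Nat.mul m55 (g 12 2 9 4)) (Nat.add (Nat.mul m56 (g 12 2 10 4)) (Nat.add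
  (Nat.mul m57 (g 12 2 11 4)) (Nat.add (Nat.mul m58 (g 12 2 12 4)) (Nat.add (Nat.mul m59 (g 12 2
  5 5)) (Nat.add (Nat.mul m60 (g 12 2 6 5)) (Nat.add (Nat.mul m61 (g 12 2 7 5)) (Nat.add (Nat.mul
  m62 (g 12 2 8 5)) (Nat.add (Nat.mul m63 (g 12 2 9 5)) (Nat.add (Nat.mul m64 (g 12 2 10 5))
  (Nat.add (Nat.mul m65 (g 12 2 11 5)) (Nat.add (Nat.mul m66 (g 12 2 6 6)) (Nat.add (Nat.mul m67
  (g 12 2 7 6)) (Nat.add (Nat.mul m68 (g 12 2 8 6)) (Nat.add (Nat.mul m69 (g 12 2 9 6)) (Nat.add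
  (Nat.mul m70 (g 12 2 10 6)) (Nat.add (Nat.mul m71 (g 12 2 11 6)) (Nat.add (Nat.mul m72 (g 12 2
  7 7)) (Nat.add (Nat.mul m73 (g 12 2 8 7)) (Nat.add (Nat.mul m74 (g 12 2 9 7)) (Nat.add (Nat.mul
  m75 (g 12 2 10 7)) (Nat.add (Nat.mul m76 (g 12 2 8 8)) (Nat.add (Nat.mul m77 (g 12 2 9 8))
  (Nat.add (Nat.mul m78 (g 12 2 10 8)) (Nat.add (Nat.mul m79 (g 12 2 9 9))
  (0)))))))))))))))))))))))))))))))))))))))))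

def zr39 (g : Nat → Nat → Nat → Nat → Nat) (m40 m41 m42 m43 m44 m45 m46 m47 m48 m49 m50 m51
    m52 m53 m54 m55 m56 m57 m58 m59 m60 m61 m62 m63 m64 m65 m66 m67 m68 m69 m70 m71 m72 m73 m74
    m75 m76 m77 m78 m79 : Nat) : Nat :=
  Nat.add (Nat.mul m40 (g 13 2 3 3)) (Nat.add (Nat.mul m41 (g 13 2 4 3)) (Nat.add (Nat.mul m42 (g
  13 2 5 3)) (Nat.add (Nat.mul m43 (g 13 2 6 3)) (Nat.add (Nat.mul m44 (g 13 2 7 3)) (Nat.add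
  (Nat.mul m45 (g 13 2 8 3)) (Nat.add (Nat.mul m46 (g 13 2 9 3)) (Nat.add (Nat.mul m47 (g 13 2 10
  3)) (Nat.add (Nat.mul m48 (g 13 2 11 3)) (Nat.add (Nat.mul m49 (g 13 2 12 3)) (Nat.add (Nat.mul
  m50 (g 13 2 4 4)) (Nat.add (Nat.mul m51 (g 13 2 5 4)) (Nat.add (Nat.mul m52 (g 13 2 6 4))
  (Nat.add (Nat.mul m53 (g 13 2 7 4)) (Nat.add (Nat.mul m54 (g 13 2 8 4)) (Nat.add (Nat.mul m55
  (g 13 2 9 4)) (Nat.add (Nat.mul m56 (g 13 2 10 4)) (Nat.add (Nat.mul m57 (g 13 2 11 4))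
  (Nat.add (Nat.mul m58 (g 13 2 12 4)) (Nat.add (Nat.mul m59 (g 13 2 5 5)) (Nat.add (Nat.mul m60
  (g 13 2 6 5)) (Nat.add (Nat.mul m61 (g 13 2 7 5)) (Nat.add (Nat.mul m62 (g 13 2 8 5)) (Nat.add
  (Nat.mul m63 (g 13 2 9 5)) (Nat.add (Nat.mul m64 (g 13 2 10 5)) (Nat.add (Nat.mul m65 (g 13 2
  11 5)) (Nat.add (Nat.mul m66 (g 13 2 6 6)) (Nat.add (Nat.mul m67 (g 13 2 7 6)) (Nat.add
  (Nat.mul m68 (g 13 2 8 6)) (Nat.add (Nat.mul m69 (g 13 2 9 6)) (Nat.add (Nat.mul m70 (g 13 2 10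
  6)) (Nat.add (Nat.mul m71 (g 13 2 11 6)) (Nat.add (Nat.mul m72 (g 13 2 7 7)) (Nat.add (Nat.mul
  m73 (g 13 2 8 7)) (Nat.add (Nat.mul m74 (g 13 2 9 7)) (Nat.add (Nat.mul m75 (g 13 2 10 7))
  (Nat.add (Nat.mul m76 (g 13 2 8 8)) (Nat.add (Nat.mul m77 (g 13 2 9 8)) (Nat.add (Nat.mul m78
  (g 13 2 10 8)) (Nat.add (Nat.mul m79 (g 13 2 9 9)) (0))))))))))))))))))))))))))))))))))))))))

def zr40 (g : Nat → Nat → Nat → Nat → Nat) (m41 m42 m43 m44 m45 m46 m47 m48 m49 m50 m51 m52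
    m53 m54 m55 m56 m57 m58 m59 m60 m61 m62 m63 m64 m65 m66 m67 m68 m69 m70 m71 m72 m73 m74 m75
    m76 m77 m78 m79 : Nat) : Nat :=
  Nat.add (Nat.mul m41 (g 3 3 4 3)) (Nat.add (Nat.mul m42 (g 3 3 5 3)) (Nat.add (Nat.mul m43 (g 3
  3 6 3)) (Nat.add (Nat.mul m44 (g 3 3 7 3)) (Nat.add (Nat.mul m45 (g 3 3 8 3)) (Nat.add (Nat.mul
  m46 (g 3 3 9 3)) (Nat.add (Nat.mul m47 (g 3 3 10 3)) (Nat.add (Nat.mul m48 (g 3 3 11 3))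
  (Nat.add (Nat.mul m49 (g 3 3 12 3)) (Nat.add (Nat.mul m50 (g 3 3 4 4)) (Nat.add (Nat.mul m51 (g
  3 3 5 4)) (Nat.add (Nat.mul m52 (g 3 3 6 4)) (Nat.add (Nat.mul m53 (g 3 3 7 4)) (Nat.add
  (Nat.mul m54 (g 3 3 8 4)) (Nat.add (Nat.mul m55 (g 3 3 9 4)) (Nat.add (Nat.mul m56 (g 3 3 10
  4)) (Nat.add (Nat.mul m57 (g 3 3 11 4)) (Nat.add (Nat.mul m58 (g 3 3 12 4)) (Nat.add (Nat.mul
  m59 (g 3 3 5 5)) (Nat.add (Nat.mul m60 (g 3 3 6 5)) (Nat.add (Nat.mul m61 (g 3 3 7 5)) (Nat.add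
  (Nat.mul m62 (g 3 3 8 5)) (Nat.add (Nat.mul m63 (g 3 3 9 5)) (Nat.add (Nat.mul m64 (g 3 3 10
  5)) (Nat.add (Nat.mul m65 (g 3 3 11 5)) (Nat.add (Nat.mul m66 (g 3 3 6 6)) (Nat.add (Nat.mul
  m67 (g 3 3 7 6)) (Nat.add (Nat.mul m68 (g 3 3 8 6)) (Nat.add (Nat.mul m69 (g 3 3 9 6)) (Nat.add
  (Nat.mul m70 (g 3 3 10 6)) (Nat.add (Nat.mul m71 (g 3 3 11 6)) (Nat.add (Nat.mul m72 (g 3 3 7
  7)) (Nat.add (Nat.mul m73 (g 3 3 8 7)) (Nat.add (Nat.mul m74 (g 3 3 9 7)) (Nat.add (Nat.mul m75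
  (g 3 3 10 7)) (Nat.add (Nat.mul m76 (g 3 3 8 8)) (Nat.add (Nat.mul m77 (g 3 3 9 8)) (Nat.add
  (Nat.mul m78 (g 3 3 10 8)) (Nat.add (Nat.mul m79 (g 3 3 9 9))
  (0)))))))))))))))))))))))))))))))))))))))

def zr41 (g : Nat → Nat → Nat → Nat → Nat) (m42 m43 m44 m45 m46 m47 m48 m49 m50 m51 m52 m53
    m54 m55 m56 m57 m58 m59 m60 m61 m62 m63 m64 m65 m66 m67 m68 m69 m70 m71 m72 m73 m74 m75 m76
    m77 m78 m79 : Nat) : Nat :=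
  Nat.add (Nat.mul m42 (g 4 3 5 3)) (Nat.add (Nat.mul m43 (g 4 3 6 3)) (Nat.add (Nat.mul m44 (g 4
  3 7 3)) (Nat.add (Nat.mul m45 (g 4 3 8 3)) (Nat.add (Nat.mul m46 (g 4 3 9 3)) (Nat.add (Nat.mul
  m47 (g 4 3 10 3)) (Nat.add (Nat.mul m48 (g 4 3 11 3)) (Nat.add (Nat.mul m49 (g 4 3 12 3))
  (Nat.add (Nat.mul m50 (g 4 3 4 4)) (Nat.add (Nat.mul m51 (g 4 3 5 4)) (Nat.add (Nat.mul m52 (g
  4 3 6 4)) (Nat.add (Nat.mul m53 (g 4 3 7 4)) (Nat.add (Nat.mul m54 (g 4 3 8 4)) (Nat.add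
  (Nat.mul m55 (g 4 3 9 4)) (Nat.add (Nat.mul m56 (g 4 3 10 4)) (Nat.add (Nat.mul m57 (g 4 3 11
  4)) (Nat.add (Nat.mul m58 (g 4 3 12 4)) (Nat.add (Nat.mul m59 (g 4 3 5 5)) (Nat.add (Nat.mul
  m60 (g 4 3 6 5)) (Nat.add (Nat.mul m61 (g 4 3 7 5)) (Nat.add (Nat.mul m62 (g 4 3 8 5)) (Nat.add
  (Nat.mul m63 (g 4 3 9 5)) (Nat.add (Nat.mul m64 (g 4 3 10 5)) (Nat.add (Nat.mul m65 (g 4 3 11
  5)) (Nat.add (Nat.mul m66 (g 4 3 6 6)) (Nat.add (Nat.mul m67 (g 4 3 7 6)) (Nat.add (Nat.mul m68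
  (g 4 3 8 6)) (Nat.add (Nat.mul m69 (g 4 3 9 6)) (Nat.add (Nat.mul m70 (g 4 3 10 6)) (Nat.add
  (Nat.mul m71 (g 4 3 11 6)) (Nat.add (Nat.mul m72 (g 4 3 7 7)) (Nat.add (Nat.mul m73 (g 4 3 8
  7)) (Nat.add (Nat.mul m74 (g 4 3 9 7)) (Nat.add (Nat.mul m75 (g 4 3 10 7)) (Nat.add (Nat.mul
  m76 (g 4 3 8 8)) (Nat.add (Nat.mul m77 (g 4 3 9 8)) (Nat.add (Nat.mul m78 (g 4 3 10 8))
  (Nat.add (Nat.mul m79 (g 4 3 9 9)) (0))))))))))))))))))))))))))))))))))))))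

def zr42 (g : Nat → Nat → Nat → Nat → Nat) (m43 m44 m45 m46 m47 m48 m49 m50 m51 m52 m53 m54
    m55 m56 m57 m58 m59 m60 m61 m62 m63 m64 m65 m66 m67 m68 m69 m70 m71 m72 m73 m74 m75 m76 m77
    m78 m79 : Nat) : Nat :=
  Nat.add (Nat.mul m43 (g 5 3 6 3)) (Nat.add (Nat.mul m44 (g 5 3 7 3)) (Nat.add (Nat.mul m45 (g 5
  3 8 3)) (Nat.add (Nat.mul m46 (g 5 3 9 3)) (Nat.add (Nat.mul m47 (g 5 3 10 3)) (Nat.add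
  (Nat.mul m48 (g 5 3 11 3)) (Nat.add (Nat.mul m49 (g 5 3 12 3)) (Nat.add (Nat.mul m50 (g 5 3 4
  4)) (Nat.add (Nat.mul m51 (g 5 3 5 4)) (Nat.add (Nat.mul m52 (g 5 3 6 4)) (Nat.add (Nat.mul m53
  (g 5 3 7 4)) (Nat.add (Nat.mul m54 (g 5 3 8 4)) (Nat.add (Nat.mul m55 (g 5 3 9 4)) (Nat.add
  (Nat.mul m56 (g 5 3 10 4)) (Nat.add (Nat.mul m57 (g 5 3 11 4)) (Nat.add (Nat.mul m58 (g 5 3 12
  4)) (Nat.add (Nat.mul m59 (g 5 3 5 5)) (Nat.add (Nat.mul m60 (g 5 3 6 5)) (Nat.add (Nat.mul m61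
  (g 5 3 7 5)) (Nat.add (Nat.mul m62 (g 5 3 8 5)) (Nat.add (Nat.mul m63 (g 5 3 9 5)) (Nat.add
  (Nat.mul m64 (g 5 3 10 5)) (Nat.add (Nat.mul m65 (g 5 3 11 5)) (Nat.add (Nat.mul m66 (g 5 3 6
  6)) (Nat.add (Nat.mul m67 (g 5 3 7 6)) (Nat.add (Nat.mul m68 (g 5 3 8 6)) (Nat.add (Nat.mul m69
  (g 5 3 9 6)) (Nat.add (Nat.mul m70 (g 5 3 10 6)) (Nat.add (Nat.mul m71 (g 5 3 11 6)) (Nat.add
  (Nat.mul m72 (g 5 3 7 7)) (Nat.add (Nat.mul m73 (g 5 3 8 7)) (Nat.add (Nat.mul m74 (g 5 3 9 7))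
  (Nat.add (Nat.mul m75 (g 5 3 10 7)) (Nat.add (Nat.mul m76 (g 5 3 8 8)) (Nat.add (Nat.mul m77 (g
  5 3 9 8)) (Nat.add (Nat.mul m78 (g 5 3 10 8)) (Nat.add (Nat.mul m79 (g 5 3 9 9))
  (0)))))))))))))))))))))))))))))))))))))

def zr43 (g : Nat → Nat → Nat → Nat → Nat) (m44 m45 m46 m47 m48 m49 m50 m51 m52 m53 m54 m55
    m56 m57 m58 m59 m60 m61 m62 m63 m64 m65 m66 m67 m68 m69 m70 m71 m72 m73 m74 m75 m76 m77 m78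
    m79 : Nat) : Nat :=
  Nat.add (Nat.mul m44 (g 6 3 7 3)) (Nat.add (Nat.mul m45 (g 6 3 8 3)) (Nat.add (Nat.mul m46 (g 6
  3 9 3)) (Nat.add (Nat.mul m47 (g 6 3 10 3)) (Nat.add (Nat.mul m48 (g 6 3 11 3)) (Nat.add
  (Nat.mul m49 (g 6 3 12 3)) (Nat.add (Nat.mul m50 (g 6 3 4 4)) (Nat.add (Nat.mul m51 (g 6 3 5
  4)) (Nat.add (Nat.mul m52 (g 6 3 6 4)) (Nat.add (Nat.mul m53 (g 6 3 7 4)) (Nat.add (Nat.mul m54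
  (g 6 3 8 4)) (Nat.add (Nat.mul m55 (g 6 3 9 4)) (Nat.add (Nat.mul m56 (g 6 3 10 4)) (Nat.add
  (Nat.mul m57 (g 6 3 11 4)) (Nat.add (Nat.mul m58 (g 6 3 12 4)) (Nat.add (Nat.mul m59 (g 6 3 5
  5)) (Nat.add (Nat.mul m60 (g 6 3 6 5)) (Nat.add (Nat.mul m61 (g 6 3 7 5)) (Nat.add (Nat.mul m62
  (g 6 3 8 5)) (Nat.add (Nat.mul m63 (g 6 3 9 5)) (Nat.add (Nat.mul m64 (g 6 3 10 5)) (Nat.add
  (Nat.mul m65 (g 6 3 11 5)) (Nat.add (Nat.mul m66 (g 6 3 6 6)) (Nat.add (Nat.mul m67 (g 6 3 7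
  6)) (Nat.add (Nat.mul m68 (g 6 3 8 6)) (Nat.add (Nat.mul m69 (g 6 3 9 6)) (Nat.add (Nat.mul m70
  (g 6 3 10 6)) (Nat.add (Nat.mul m71 (g 6 3 11 6)) (Nat.add (Nat.mul m72 (g 6 3 7 7)) (Nat.add
  (Nat.mul m73 (g 6 3 8 7)) (Nat.add (Nat.mul m74 (g 6 3 9 7)) (Nat.add (Nat.mul m75 (g 6 3 10
  7)) (Nat.add (Nat.mul m76 (g 6 3 8 8)) (Nat.add (Nat.mul m77 (g 6 3 9 8)) (Nat.add (Nat.mul m78
  (g 6 3 10 8)) (Nat.add (Nat.mul m79 (g 6 3 9 9)) (0))))))))))))))))))))))))))))))))))))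

def zr44 (g : Nat → Nat → Nat → Nat → Nat) (m45 m46 m47 m48 m49 m50 m51 m52 m53 m54 m55 m56
    m57 m58 m59 m60 m61 m62 m63 m64 m65 m66 m67 m68 m69 m70 m71 m72 m73 m74 m75 m76 m77 m78 m79 :
    Nat) : Nat :=
  Nat.add (Nat.mul m45 (g 7 3 8 3)) (Nat.add (Nat.mul m46 (g 7 3 9 3)) (Nat.add (Nat.mul m47 (g 7
  3 10 3)) (Nat.add (Nat.mul m48 (g 7 3 11 3)) (Nat.add (Nat.mul m49 (g 7 3 12 3)) (Nat.add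
  (Nat.mul m50 (g 7 3 4 4)) (Nat.add (Nat.mul m51 (g 7 3 5 4)) (Nat.add (Nat.mul m52 (g 7 3 6 4))
  (Nat.add (Nat.mul m53 (g 7 3 7 4)) (Nat.add (Nat.mul m54 (g 7 3 8 4)) (Nat.add (Nat.mul m55 (g
  7 3 9 4)) (Nat.add (Nat.mul m56 (g 7 3 10 4)) (Nat.add (Nat.mul m57 (g 7 3 11 4)) (Nat.add
  (Nat.mul m58 (g 7 3 12 4)) (Nat.add (Nat.mul m59 (g 7 3 5 5)) (Nat.add (Nat.mul m60 (g 7 3 6
  5)) (Nat.add (Nat.mul m61 (g 7 3 7 5)) (Nat.add (Nat.mul m62 (g 7 3 8 5)) (Nat.add (Nat.mul m63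
  (g 7 3 9 5)) (Nat.add (Nat.mul m64 (g 7 3 10 5)) (Nat.add (Nat.mul m65 (g 7 3 11 5)) (Nat.add
  (Nat.mul m66 (g 7 3 6 6)) (Nat.add (Nat.mul m67 (g 7 3 7 6)) (Nat.add (Nat.mul m68 (g 7 3 8 6))
  (Nat.add (Nat.mul m69 (g 7 3 9 6)) (Nat.add (Nat.mul m70 (g 7 3 10 6)) (Nat.add (Nat.mul m71 (g
  7 3 11 6)) (Nat.add (Nat.mul m72 (g 7 3 7 7)) (Nat.add (Nat.mul m73 (g 7 3 8 7)) (Nat.add
  (Nat.mul m74 (g 7 3 9 7)) (Nat.add (Nat.mul m75 (g 7 3 10 7)) (Nat.add (Nat.mul m76 (g 7 3 8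
  8)) (Nat.add (Nat.mul m77 (g 7 3 9 8)) (Nat.add (Nat.mul m78 (g 7 3 10 8)) (Nat.add (Nat.mul
  m79 (g 7 3 9 9)) (0)))))))))))))))))))))))))))))))))))

def zr45 (g : Nat → Nat → Nat → Nat → Nat) (m46 m47 m48 m49 m50 m51 m52 m53 m54 m55 m56 m57
    m58 m59 m60 m61 m62 m63 m64 m65 m66 m67 m68 m69 m70 m71 m72 m73 m74 m75 m76 m77 m78 m79 :
    Nat) : Nat :=
  Nat.add (Nat.mul m46 (g 8 3 9 3)) (Nat.add (Nat.mul m47 (g 8 3 10 3)) (Nat.add (Nat.mul m48 (g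
  8 3 11 3)) (Nat.add (Nat.mul m49 (g 8 3 12 3)) (Nat.add (Nat.mul m50 (g 8 3 4 4)) (Nat.add
  (Nat.mul m51 (g 8 3 5 4)) (Nat.add (Nat.mul m52 (g 8 3 6 4)) (Nat.add (Nat.mul m53 (g 8 3 7 4))
  (Nat.add (Nat.mul m54 (g 8 3 8 4)) (Nat.add (Nat.mul m55 (g 8 3 9 4)) (Nat.add (Nat.mul m56 (g
  8 3 10 4)) (Nat.add (Nat.mul m57 (g 8 3 11 4)) (Nat.add (Nat.mul m58 (g 8 3 12 4)) (Nat.add
  (Nat.mul m59 (g 8 3 5 5)) (Nat.add (Nat.mul m60 (g 8 3 6 5)) (Nat.add (Nat.mul m61 (g 8 3 7 5))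
  (Nat.add (Nat.mul m62 (g 8 3 8 5)) (Nat.add (Nat.mul m63 (g 8 3 9 5)) (Nat.add (Nat.mul m64 (g
  8 3 10 5)) (Nat.add (Nat.mul m65 (g 8 3 11 5)) (Nat.add (Nat.mul m66 (g 8 3 6 6)) (Nat.add
  (Nat.mul m67 (g 8 3 7 6)) (Nat.add (Nat.mul m68 (g 8 3 8 6)) (Nat.add (Nat.mul m69 (g 8 3 9 6))
  (Nat.add (Nat.mul m70 (g 8 3 10 6)) (Nat.add (Nat.mul m71 (g 8 3 11 6)) (Nat.add (Nat.mul m72
  (g 8 3 7 7)) (Nat.add (Nat.mul m73 (g 8 3 8 7)) (Nat.add (Nat.mul m74 (g 8 3 9 7)) (Nat.add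
  (Nat.mul m75 (g 8 3 10 7)) (Nat.add (Nat.mul m76 (g 8 3 8 8)) (Nat.add (Nat.mul m77 (g 8 3 9
  8)) (Nat.add (Nat.mul m78 (g 8 3 10 8)) (Nat.add (Nat.mul m79 (g 8 3 9 9))
  (0))))))))))))))))))))))))))))))))))

def zr46 (g : Nat → Nat → Nat → Nat → Nat) (m47 m48 m49 m50 m51 m52 m53 m54 m55 m56 m57 m58
    m59 m60 m61 m62 m63 m64 m65 m66 m67 m68 m69 m70 m71 m72 m73 m74 m75 m76 m77 m78 m79 : Nat) :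
    Nat :=
  Nat.add (Nat.mul m47 (g 9 3 10 3)) (Nat.add (Nat.mul m48 (g 9 3 11 3)) (Nat.add (Nat.mul m49 (g
  9 3 12 3)) (Nat.add (Nat.mul m50 (g 9 3 4 4)) (Nat.add (Nat.mul m51 (g 9 3 5 4)) (Nat.add
  (Nat.mul m52 (g 9 3 6 4)) (Nat.add (Nat.mul m53 (g 9 3 7 4)) (Nat.add (Nat.mul m54 (g 9 3 8 4))
  (Nat.add (Nat.mul m55 (g 9 3 9 4)) (Nat.add (Nat.mul m56 (g 9 3 10 4)) (Nat.add (Nat.mul m57 (g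
  9 3 11 4)) (Nat.add (Nat.mul m58 (g 9 3 12 4)) (Nat.add (Nat.mul m59 (g 9 3 5 5)) (Nat.add
  (Nat.mul m60 (g 9 3 6 5)) (Nat.add (Nat.mul m61 (g 9 3 7 5)) (Nat.add (Nat.mul m62 (g 9 3 8 5))
  (Nat.add (Nat.mul m63 (g 9 3 9 5)) (Nat.add (Nat.mul m64 (g 9 3 10 5)) (Nat.add (Nat.mul m65 (g
  9 3 11 5)) (Nat.add (Nat.mul m66 (g 9 3 6 6)) (Nat.add (Nat.mul m67 (g 9 3 7 6)) (Nat.add
  (Nat.mul m68 (g 9 3 8 6)) (Nat.add (Nat.mul m69 (g 9 3 9 6)) (Nat.add (Nat.mul m70 (g 9 3 10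
  6)) (Nat.add (Nat.mul m71 (g 9 3 11 6)) (Nat.add (Nat.mul m72 (g 9 3 7 7)) (Nat.add (Nat.mul
  m73 (g 9 3 8 7)) (Nat.add (Nat.mul m74 (g 9 3 9 7)) (Nat.add (Nat.mul m75 (g 9 3 10 7))
  (Nat.add (Nat.mul m76 (g 9 3 8 8)) (Nat.add (Nat.mul m77 (g 9 3 9 8)) (Nat.add (Nat.mul m78 (g
  9 3 10 8)) (Nat.add (Nat.mul m79 (g 9 3 9 9)) (0)))))))))))))))))))))))))))))))))

def zr47 (g : Nat → Nat → Nat → Nat → Nat) (m48 m49 m50 m51 m52 m53 m54 m55 m56 m57 m58 m59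
    m60 m61 m62 m63 m64 m65 m66 m67 m68 m69 m70 m71 m72 m73 m74 m75 m76 m77 m78 m79 : Nat) : Nat
    :=
  Nat.add (Nat.mul m48 (g 10 3 11 3)) (Nat.add (Nat.mul m49 (g 10 3 12 3)) (Nat.add (Nat.mul m50
  (g 10 3 4 4)) (Nat.add (Nat.mul m51 (g 10 3 5 4)) (Nat.add (Nat.mul m52 (g 10 3 6 4)) (Nat.add
  (Nat.mul m53 (g 10 3 7 4)) (Nat.add (Nat.mul m54 (g 10 3 8 4)) (Nat.add (Nat.mul m55 (g 10 3 9
  4)) (Nat.add (Nat.mul m56 (g 10 3 10 4)) (Nat.add (Nat.mul m57 (g 10 3 11 4)) (Nat.add (Nat.mul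
  m58 (g 10 3 12 4)) (Nat.add (Nat.mul m59 (g 10 3 5 5)) (Nat.add (Nat.mul m60 (g 10 3 6 5))
  (Nat.add (Nat.mul m61 (g 10 3 7 5)) (Nat.add (Nat.mul m62 (g 10 3 8 5)) (Nat.add (Nat.mul m63
  (g 10 3 9 5)) (Nat.add (Nat.mul m64 (g 10 3 10 5)) (Nat.add (Nat.mul m65 (g 10 3 11 5))
  (Nat.add (Nat.mul m66 (g 10 3 6 6)) (Nat.add (Nat.mul m67 (g 10 3 7 6)) (Nat.add (Nat.mul m68
  (g 10 3 8 6)) (Nat.add (Nat.mul m69 (g 10 3 9 6)) (Nat.add (Nat.mul m70 (g 10 3 10 6)) (Nat.add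
  (Nat.mul m71 (g 10 3 11 6)) (Nat.add (Nat.mul m72 (g 10 3 7 7)) (Nat.add (Nat.mul m73 (g 10 3 8
  7)) (Nat.add (Nat.mul m74 (g 10 3 9 7)) (Nat.add (Nat.mul m75 (g 10 3 10 7)) (Nat.add (Nat.mul
  m76 (g 10 3 8 8)) (Nat.add (Nat.mul m77 (g 10 3 9 8)) (Nat.add (Nat.mul m78 (g 10 3 10 8))
  (Nat.add (Nat.mul m79 (g 10 3 9 9)) (0))))))))))))))))))))))))))))))))

def zr48 (g : Nat → Nat → Nat → Nat → Nat) (m49 m50 m51 m52 m53 m54 m55 m56 m57 m58 m59 m60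
    m61 m62 m63 m64 m65 m66 m67 m68 m69 m70 m71 m72 m73 m74 m75 m76 m77 m78 m79 : Nat) : Nat :=
  Nat.add (Nat.mul m49 (g 11 3 12 3)) (Nat.add (Nat.mul m50 (g 11 3 4 4)) (Nat.add (Nat.mul m51
  (g 11 3 5 4)) (Nat.add (Nat.mul m52 (g 11 3 6 4)) (Nat.add (Nat.mul m53 (g 11 3 7 4)) (Nat.add
  (Nat.mul m54 (g 11 3 8 4)) (Nat.add (Nat.mul m55 (g 11 3 9 4)) (Nat.add (Nat.mul m56 (g 11 3 10
  4)) (Nat.add (Nat.mul m57 (g 11 3 11 4)) (Nat.add (Nat.mul m58 (g 11 3 12 4)) (Nat.add (Nat.mul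
  m59 (g 11 3 5 5)) (Nat.add (Nat.mul m60 (g 11 3 6 5)) (Nat.add (Nat.mul m61 (g 11 3 7 5))
  (Nat.add (Nat.mul m62 (g 11 3 8 5)) (Nat.add (Nat.mul m63 (g 11 3 9 5)) (Nat.add (Nat.mul m64
  (g 11 3 10 5)) (Nat.add (Nat.mul m65 (g 11 3 11 5)) (Nat.add (Nat.mul m66 (g 11 3 6 6))
  (Nat.add (Nat.mul m67 (g 11 3 7 6)) (Nat.add (Nat.mul m68 (g 11 3 8 6)) (Nat.add (Nat.mul m69
  (g 11 3 9 6)) (Nat.add (Nat.mul m70 (g 11 3 10 6)) (Nat.add (Nat.mul m71 (g 11 3 11 6))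
  (Nat.add (Nat.mul m72 (g 11 3 7 7)) (Nat.add (Nat.mul m73 (g 11 3 8 7)) (Nat.add (Nat.mul m74
  (g 11 3 9 7)) (Nat.add (Nat.mul m75 (g 11 3 10 7)) (Nat.add (Nat.mul m76 (g 11 3 8 8)) (Nat.add
  (Nat.mul m77 (g 11 3 9 8)) (Nat.add (Nat.mul m78 (g 11 3 10 8)) (Nat.add (Nat.mul m79 (g 11 3 9
  9)) (0)))))))))))))))))))))))))))))))

def zr49 (g : Nat → Nat → Nat → Nat → Nat) (m50 m51 m52 m53 m54 m55 m56 m57 m58 m59 m60 m61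
    m62 m63 m64 m65 m66 m67 m68 m69 m70 m71 m72 m73 m74 m75 m76 m77 m78 m79 : Nat) : Nat :=
  Nat.add (Nat.mul m50 (g 12 3 4 4)) (Nat.add (Nat.mul m51 (g 12 3 5 4)) (Nat.add (Nat.mul m52 (g
  12 3 6 4)) (Nat.add (Nat.mul m53 (g 12 3 7 4)) (Nat.add (Nat.mul m54 (g 12 3 8 4)) (Nat.add
  (Nat.mul m55 (g 12 3 9 4)) (Nat.add (Nat.mul m56 (g 12 3 10 4)) (Nat.add (Nat.mul m57 (g 12 3
  11 4)) (Nat.add (Nat.mul m58 (g 12 3 12 4)) (Nat.add (Nat.mul m59 (g 12 3 5 5)) (Nat.add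
  (Nat.mul m60 (g 12 3 6 5)) (Nat.add (Nat.mul m61 (g 12 3 7 5)) (Nat.add (Nat.mul m62 (g 12 3 8
  5)) (Nat.add (Nat.mul m63 (g 12 3 9 5)) (Nat.add (Nat.mul m64 (g 12 3 10 5)) (Nat.add (Nat.mul
  m65 (g 12 3 11 5)) (Nat.add (Nat.mul m66 (g 12 3 6 6)) (Nat.add (Nat.mul m67 (g 12 3 7 6))
  (Nat.add (Nat.mul m68 (g 12 3 8 6)) (Nat.add (Nat.mul m69 (g 12 3 9 6)) (Nat.add (Nat.mul m70
  (g 12 3 10 6)) (Nat.add (Nat.mul m71 (g 12 3 11 6)) (Nat.add (Nat.mul m72 (g 12 3 7 7))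
  (Nat.add (Nat.mul m73 (g 12 3 8 7)) (Nat.add (Nat.mul m74 (g 12 3 9 7)) (Nat.add (Nat.mul m75
  (g 12 3 10 7)) (Nat.add (Nat.mul m76 (g 12 3 8 8)) (Nat.add (Nat.mul m77 (g 12 3 9 8)) (Nat.add
  (Nat.mul m78 (g 12 3 10 8)) (Nat.add (Nat.mul m79 (g 12 3 9 9))
  (0))))))))))))))))))))))))))))))

def zr50 (g : Nat → Nat → Nat → Nat → Nat) (m51 m52 m53 m54 m55 m56 m57 m58 m59 m60 m61 m62
    m63 m64 m65 m66 m67 m68 m69 m70 m71 m72 m73 m74 m75 m76 m77 m78 m79 : Nat) : Nat :=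
  Nat.add (Nat.mul m51 (g 4 4 5 4)) (Nat.add (Nat.mul m52 (g 4 4 6 4)) (Nat.add (Nat.mul m53 (g 4
  4 7 4)) (Nat.add (Nat.mul m54 (g 4 4 8 4)) (Nat.add (Nat.mul m55 (g 4 4 9 4)) (Nat.add (Nat.mul
  m56 (g 4 4 10 4)) (Nat.add (Nat.mul m57 (g 4 4 11 4)) (Nat.add (Nat.mul m58 (g 4 4 12 4))
  (Nat.add (Nat.mul m59 (g 4 4 5 5)) (Nat.add (Nat.mul m60 (g 4 4 6 5)) (Nat.add (Nat.mul m61 (g
  4 4 7 5)) (Nat.add (Nat.mul m62 (g 4 4 8 5)) (Nat.add (Nat.mul m63 (g 4 4 9 5)) (Nat.add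
  (Nat.mul m64 (g 4 4 10 5)) (Nat.add (Nat.mul m65 (g 4 4 11 5)) (Nat.add (Nat.mul m66 (g 4 4 6
  6)) (Nat.add (Nat.mul m67 (g 4 4 7 6)) (Nat.add (Nat.mul m68 (g 4 4 8 6)) (Nat.add (Nat.mul m69
  (g 4 4 9 6)) (Nat.add (Nat.mul m70 (g 4 4 10 6)) (Nat.add (Nat.mul m71 (g 4 4 11 6)) (Nat.add
  (Nat.mul m72 (g 4 4 7 7)) (Nat.add (Nat.mul m73 (g 4 4 8 7)) (Nat.add (Nat.mul m74 (g 4 4 9 7))
  (Nat.add (Nat.mul m75 (g 4 4 10 7)) (Nat.add (Nat.mul m76 (g 4 4 8 8)) (Nat.add (Nat.mul m77 (g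
  4 4 9 8)) (Nat.add (Nat.mul m78 (g 4 4 10 8)) (Nat.add (Nat.mul m79 (g 4 4 9 9))
  (0)))))))))))))))))))))))))))))

def zr51 (g : Nat → Nat → Nat → Nat → Nat) (m52 m53 m54 m55 m56 m57 m58 m59 m60 m61 m62 m63
    m64 m65 m66 m67 m68 m69 m70 m71 m72 m73 m74 m75 m76 m77 m78 m79 : Nat) : Nat :=
  Nat.add (Nat.mul m52 (g 5 4 6 4)) (Nat.add (Nat.mul m53 (g 5 4 7 4)) (Nat.add (Nat.mul m54 (g 5
  4 8 4)) (Nat.add (Nat.mul m55 (g 5 4 9 4)) (Nat.add (Nat.mul m56 (g 5 4 10 4)) (Nat.add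
  (Nat.mul m57 (g 5 4 11 4)) (Nat.add (Nat.mul m58 (g 5 4 12 4)) (Nat.add (Nat.mul m59 (g 5 4 5
  5)) (Nat.add (Nat.mul m60 (g 5 4 6 5)) (Nat.add (Nat.mul m61 (g 5 4 7 5)) (Nat.add (Nat.mul m62
  (g 5 4 8 5)) (Nat.add (Nat.mul m63 (g 5 4 9 5)) (Nat.add (Nat.mul m64 (g 5 4 10 5)) (Nat.add
  (Nat.mul m65 (g 5 4 11 5)) (Nat.add (Nat.mul m66 (g 5 4 6 6)) (Nat.add (Nat.mul m67 (g 5 4 7
  6)) (Nat.add (Nat.mul m68 (g 5 4 8 6)) (Nat.add (Nat.mul m69 (g 5 4 9 6)) (Nat.add (Nat.mul m70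
  (g 5 4 10 6)) (Nat.add (Nat.mul m71 (g 5 4 11 6)) (Nat.add (Nat.mul m72 (g 5 4 7 7)) (Nat.add
  (Nat.mul m73 (g 5 4 8 7)) (Nat.add (Nat.mul m74 (g 5 4 9 7)) (Nat.add (Nat.mul m75 (g 5 4 10
  7)) (Nat.add (Nat.mul m76 (g 5 4 8 8)) (Nat.add (Nat.mul m77 (g 5 4 9 8)) (Nat.add (Nat.mul m78
  (g 5 4 10 8)) (Nat.add (Nat.mul m79 (g 5 4 9 9)) (0))))))))))))))))))))))))))))

def zr52 (g : Nat → Nat → Nat → Nat → Nat) (m53 m54 m55 m56 m57 m58 m59 m60 m61 m62 m63 m64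
    m65 m66 m67 m68 m69 m70 m71 m72 m73 m74 m75 m76 m77 m78 m79 : Nat) : Nat :=
  Nat.add (Nat.mul m53 (g 6 4 7 4)) (Nat.add (Nat.mul m54 (g 6 4 8 4)) (Nat.add (Nat.mul m55 (g 6
  4 9 4)) (Nat.add (Nat.mul m56 (g 6 4 10 4)) (Nat.add (Nat.mul m57 (g 6 4 11 4)) (Nat.add
  (Nat.mul m58 (g 6 4 12 4)) (Nat.add (Nat.mul m59 (g 6 4 5 5)) (Nat.add (Nat.mul m60 (g 6 4 6
  5)) (Nat.add (Nat.mul m61 (g 6 4 7 5)) (Nat.add (Nat.mul m62 (g 6 4 8 5)) (Nat.add (Nat.mul m63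
  (g 6 4 9 5)) (Nat.add (Nat.mul m64 (g 6 4 10 5)) (Nat.add (Nat.mul m65 (g 6 4 11 5)) (Nat.add
  (Nat.mul m66 (g 6 4 6 6)) (Nat.add (Nat.mul m67 (g 6 4 7 6)) (Nat.add (Nat.mul m68 (g 6 4 8 6))
  (Nat.add (Nat.mul m69 (g 6 4 9 6)) (Nat.add (Nat.mul m70 (g 6 4 10 6)) (Nat.add (Nat.mul m71 (g
  6 4 11 6)) (Nat.add (Nat.mul m72 (g 6 4 7 7)) (Nat.add (Nat.mul m73 (g 6 4 8 7)) (Nat.add
  (Nat.mul m74 (g 6 4 9 7)) (Nat.add (Nat.mul m75 (g 6 4 10 7)) (Nat.add (Nat.mul m76 (g 6 4 8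
  8)) (Nat.add (Nat.mul m77 (g 6 4 9 8)) (Nat.add (Nat.mul m78 (g 6 4 10 8)) (Nat.add (Nat.mul
  m79 (g 6 4 9 9)) (0)))))))))))))))))))))))))))

def zr53 (g : Nat → Nat → Nat → Nat → Nat) (m54 m55 m56 m57 m58 m59 m60 m61 m62 m63 m64 m65
    m66 m67 m68 m69 m70 m71 m72 m73 m74 m75 m76 m77 m78 m79 : Nat) : Nat :=
  Nat.add (Nat.mul m54 (g 7 4 8 4)) (Nat.add (Nat.mul m55 (g 7 4 9 4)) (Nat.add (Nat.mul m56 (g 7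
  4 10 4)) (Nat.add (Nat.mul m57 (g 7 4 11 4)) (Nat.add (Nat.mul m58 (g 7 4 12 4)) (Nat.add
  (Nat.mul m59 (g 7 4 5 5)) (Nat.add (Nat.mul m60 (g 7 4 6 5)) (Nat.add (Nat.mul m61 (g 7 4 7 5))
  (Nat.add (Nat.mul m62 (g 7 4 8 5)) (Nat.add (Nat.mul m63 (g 7 4 9 5)) (Nat.add (Nat.mul m64 (g
  7 4 10 5)) (Nat.add (Nat.mul m65 (g 7 4 11 5)) (Nat.add (Nat.mul m66 (g 7 4 6 6)) (Nat.add
  (Nat.mul m67 (g 7 4 7 6)) (Nat.add (Nat.mul m68 (g 7 4 8 6)) (Nat.add (Nat.mul m69 (g 7 4 9 6))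
  (Nat.add (Nat.mul m70 (g 7 4 10 6)) (Nat.add (Nat.mul m71 (g 7 4 11 6)) (Nat.add (Nat.mul m72
  (g 7 4 7 7)) (Nat.add (Nat.mul m73 (g 7 4 8 7)) (Nat.add (Nat.mul m74 (g 7 4 9 7)) (Nat.add
  (Nat.mul m75 (g 7 4 10 7)) (Nat.add (Nat.mul m76 (g 7 4 8 8)) (Nat.add (Nat.mul m77 (g 7 4 9
  8)) (Nat.add (Nat.mul m78 (g 7 4 10 8)) (Nat.add (Nat.mul m79 (g 7 4 9 9))
  (0))))))))))))))))))))))))))

def zr54 (g : Nat → Nat → Nat → Nat → Nat) (m55 m56 m57 m58 m59 m60 m61 m62 m63 m64 m65 m66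
    m67 m68 m69 m70 m71 m72 m73 m74 m75 m76 m77 m78 m79 : Nat) : Nat :=
  Nat.add (Nat.mul m55 (g 8 4 9 4)) (Nat.add (Nat.mul m56 (g 8 4 10 4)) (Nat.add (Nat.mul m57 (g
  8 4 11 4)) (Nat.add (Nat.mul m58 (g 8 4 12 4)) (Nat.add (Nat.mul m59 (g 8 4 5 5)) (Nat.add
  (Nat.mul m60 (g 8 4 6 5)) (Nat.add (Nat.mul m61 (g 8 4 7 5)) (Nat.add (Nat.mul m62 (g 8 4 8 5))
  (Nat.add (Nat.mul m63 (g 8 4 9 5)) (Nat.add (Nat.mul m64 (g 8 4 10 5)) (Nat.add (Nat.mul m65 (g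
  8 4 11 5)) (Nat.add (Nat.mul m66 (g 8 4 6 6)) (Nat.add (Nat.mul m67 (g 8 4 7 6)) (Nat.add
  (Nat.mul m68 (g 8 4 8 6)) (Nat.add (Nat.mul m69 (g 8 4 9 6)) (Nat.add (Nat.mul m70 (g 8 4 10
  6)) (Nat.add (Nat.mul m71 (g 8 4 11 6)) (Nat.add (Nat.mul m72 (g 8 4 7 7)) (Nat.add (Nat.mul
  m73 (g 8 4 8 7)) (Nat.add (Nat.mul m74 (g 8 4 9 7)) (Nat.add (Nat.mul m75 (g 8 4 10 7))
  (Nat.add (Nat.mul m76 (g 8 4 8 8)) (Nat.add (Nat.mul m77 (g 8 4 9 8)) (Nat.add (Nat.mul m78 (g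
  8 4 10 8)) (Nat.add (Nat.mul m79 (g 8 4 9 9)) (0)))))))))))))))))))))))))

def zr55 (g : Nat → Nat → Nat → Nat → Nat) (m56 m57 m58 m59 m60 m61 m62 m63 m64 m65 m66 m67
    m68 m69 m70 m71 m72 m73 m74 m75 m76 m77 m78 m79 : Nat) : Nat :=
  Nat.add (Nat.mul m56 (g 9 4 10 4)) (Nat.add (Nat.mul m57 (g 9 4 11 4)) (Nat.add (Nat.mul m58 (g
  9 4 12 4)) (Nat.add (Nat.mul m59 (g 9 4 5 5)) (Nat.add (Nat.mul m60 (g 9 4 6 5)) (Nat.add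
  (Nat.mul m61 (g 9 4 7 5)) (Nat.add (Nat.mul m62 (g 9 4 8 5)) (Nat.add (Nat.mul m63 (g 9 4 9 5))
  (Nat.add (Nat.mul m64 (g 9 4 10 5)) (Nat.add (Nat.mul m65 (g 9 4 11 5)) (Nat.add (Nat.mul m66
  (g 9 4 6 6)) (Nat.add (Nat.mul m67 (g 9 4 7 6)) (Nat.add (Nat.mul m68 (g 9 4 8 6)) (Nat.add
  (Nat.mul m69 (g 9 4 9 6)) (Nat.add (Nat.mul m70 (g 9 4 10 6)) (Nat.add (Nat.mul m71 (g 9 4 11
  6)) (Nat.add (Nat.mul m72 (g 9 4 7 7)) (Nat.add (Nat.mul m73 (g 9 4 8 7)) (Nat.add (Nat.mul m74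
  (g 9 4 9 7)) (Nat.add (Nat.mul m75 (g 9 4 10 7)) (Nat.add (Nat.mul m76 (g 9 4 8 8)) (Nat.add
  (Nat.mul m77 (g 9 4 9 8)) (Nat.add (Nat.mul m78 (g 9 4 10 8)) (Nat.add (Nat.mul m79 (g 9 4 9
  9)) (0))))))))))))))))))))))))

def zr56 (g : Nat → Nat → Nat → Nat → Nat) (m57 m58 m59 m60 m61 m62 m63 m64 m65 m66 m67 m68
    m69 m70 m71 m72 m73 m74 m75 m76 m77 m78 m79 : Nat) : Nat :=
  Nat.add (Nat.mul m57 (g 10 4 11 4)) (Nat.add (Nat.mul m58 (g 10 4 12 4)) (Nat.add (Nat.mul m59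
  (g 10 4 5 5)) (Nat.add (Nat.mul m60 (g 10 4 6 5)) (Nat.add (Nat.mul m61 (g 10 4 7 5)) (Nat.add
  (Nat.mul m62 (g 10 4 8 5)) (Nat.add (Nat.mul m63 (g 10 4 9 5)) (Nat.add (Nat.mul m64 (g 10 4 10
  5)) (Nat.add (Nat.mul m65 (g 10 4 11 5)) (Nat.add (Nat.mul m66 (g 10 4 6 6)) (Nat.add (Nat.mul
  m67 (g 10 4 7 6)) (Nat.add (Nat.mul m68 (g 10 4 8 6)) (Nat.add (Nat.mul m69 (g 10 4 9 6))
  (Nat.add (Nat.mul m70 (g 10 4 10 6)) (Nat.add (Nat.mul m71 (g 10 4 11 6)) (Nat.add (Nat.mul m72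
  (g 10 4 7 7)) (Nat.add (Nat.mul m73 (g 10 4 8 7)) (Nat.add (Nat.mul m74 (g 10 4 9 7)) (Nat.add
  (Nat.mul m75 (g 10 4 10 7)) (Nat.add (Nat.mul m76 (g 10 4 8 8)) (Nat.add (Nat.mul m77 (g 10 4 9
  8)) (Nat.add (Nat.mul m78 (g 10 4 10 8)) (Nat.add (Nat.mul m79 (g 10 4 9 9))
  (0)))))))))))))))))))))))

def zr57 (g : Nat → Nat → Nat → Nat → Nat) (m58 m59 m60 m61 m62 m63 m64 m65 m66 m67 m68 m69
    m70 m71 m72 m73 m74 m75 m76 m77 m78 m79 : Nat) : Nat :=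
  Nat.add (Nat.mul m58 (g 11 4 12 4)) (Nat.add (Nat.mul m59 (g 11 4 5 5)) (Nat.add (Nat.mul m60
  (g 11 4 6 5)) (Nat.add (Nat.mul m61 (g 11 4 7 5)) (Nat.add (Nat.mul m62 (g 11 4 8 5)) (Nat.add
  (Nat.mul m63 (g 11 4 9 5)) (Nat.add (Nat.mul m64 (g 11 4 10 5)) (Nat.add (Nat.mul m65 (g 11 4
  11 5)) (Nat.add (Nat.mul m66 (g 11 4 6 6)) (Nat.add (Nat.mul m67 (g 11 4 7 6)) (Nat.add
  (Nat.mul m68 (g 11 4 8 6)) (Nat.add (Nat.mul m69 (g 11 4 9 6)) (Nat.add (Nat.mul m70 (g 11 4 10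
  6)) (Nat.add (Nat.mul m71 (g 11 4 11 6)) (Nat.add (Nat.mul m72 (g 11 4 7 7)) (Nat.add (Nat.mul
  m73 (g 11 4 8 7)) (Nat.add (Nat.mul m74 (g 11 4 9 7)) (Nat.add (Nat.mul m75 (g 11 4 10 7))
  (Nat.add (Nat.mul m76 (g 11 4 8 8)) (Nat.add (Nat.mul m77 (g 11 4 9 8)) (Nat.add (Nat.mul m78
  (g 11 4 10 8)) (Nat.add (Nat.mul m79 (g 11 4 9 9)) (0))))))))))))))))))))))

def zr58 (g : Nat → Nat → Nat → Nat → Nat) (m59 m60 m61 m62 m63 m64 m65 m66 m67 m68 m69 m70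
    m71 m72 m73 m74 m75 m76 m77 m78 m79 : Nat) : Nat :=
  Nat.add (Nat.mul m59 (g 12 4 5 5)) (Nat.add (Nat.mul m60 (g 12 4 6 5)) (Nat.add (Nat.mul m61 (g
  12 4 7 5)) (Nat.add (Nat.mul m62 (g 12 4 8 5)) (Nat.add (Nat.mul m63 (g 12 4 9 5)) (Nat.add
  (Nat.mul m64 (g 12 4 10 5)) (Nat.add (Nat.mul m65 (g 12 4 11 5)) (Nat.add (Nat.mul m66 (g 12 4
  6 6)) (Nat.add (Nat.mul m67 (g 12 4 7 6)) (Nat.add (Nat.mul m68 (g 12 4 8 6)) (Nat.add (Nat.mul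
  m69 (g 12 4 9 6)) (Nat.add (Nat.mul m70 (g 12 4 10 6)) (Nat.add (Nat.mul m71 (g 12 4 11 6))
  (Nat.add (Nat.mul m72 (g 12 4 7 7)) (Nat.add (Nat.mul m73 (g 12 4 8 7)) (Nat.add (Nat.mul m74
  (g 12 4 9 7)) (Nat.add (Nat.mul m75 (g 12 4 10 7)) (Nat.add (Nat.mul m76 (g 12 4 8 8)) (Nat.add
  (Nat.mul m77 (g 12 4 9 8)) (Nat.add (Nat.mul m78 (g 12 4 10 8)) (Nat.add (Nat.mul m79 (g 12 4 9
  9)) (0)))))))))))))))))))))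

def zr59 (g : Nat → Nat → Nat → Nat → Nat) (m60 m61 m62 m63 m64 m65 m66 m67 m68 m69 m70 m71
    m72 m73 m74 m75 m76 m77 m78 m79 : Nat) : Nat :=
  Nat.add (Nat.mul m60 (g 5 5 6 5)) (Nat.add (Nat.mul m61 (g 5 5 7 5)) (Nat.add (Nat.mul m62 (g 5
  5 8 5)) (Nat.add (Nat.mul m63 (g 5 5 9 5)) (Nat.add (Nat.mul m64 (g 5 5 10 5)) (Nat.add
  (Nat.mul m65 (g 5 5 11 5)) (Nat.add (Nat.mul m66 (g 5 5 6 6)) (Nat.add (Nat.mul m67 (g 5 5 7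
  6)) (Nat.add (Nat.mul m68 (g 5 5 8 6)) (Nat.add (Nat.mul m69 (g 5 5 9 6)) (Nat.add (Nat.mul m70
  (g 5 5 10 6)) (Nat.add (Nat.mul m71 (g 5 5 11 6)) (Nat.add (Nat.mul m72 (g 5 5 7 7)) (Nat.add
  (Nat.mul m73 (g 5 5 8 7)) (Nat.add (Nat.mul m74 (g 5 5 9 7)) (Nat.add (Nat.mul m75 (g 5 5 10
  7)) (Nat.add (Nat.mul m76 (g 5 5 8 8)) (Nat.add (Nat.mul m77 (g 5 5 9 8)) (Nat.add (Nat.mul m78
  (g 5 5 10 8)) (Nat.add (Nat.mul m79 (g 5 5 9 9)) (0))))))))))))))))))))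

def zr60 (g : Nat → Nat → Nat → Nat → Nat) (m61 m62 m63 m64 m65 m66 m67 m68 m69 m70 m71 m72
    m73 m74 m75 m76 m77 m78 m79 : Nat) : Nat :=
  Nat.add (Nat.mul m61 (g 6 5 7 5)) (Nat.add (Nat.mul m62 (g 6 5 8 5)) (Nat.add (Nat.mul m63 (g 6
  5 9 5)) (Nat.add (Nat.mul m64 (g 6 5 10 5)) (Nat.add (Nat.mul m65 (g 6 5 11 5)) (Nat.add
  (Nat.mul m66 (g 6 5 6 6)) (Nat.add (Nat.mul m67 (g 6 5 7 6)) (Nat.add (Nat.mul m68 (g 6 5 8 6))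
  (Nat.add (Nat.mul m69 (g 6 5 9 6)) (Nat.add (Nat.mul m70 (g 6 5 10 6)) (Nat.add (Nat.mul m71 (g
  6 5 11 6)) (Nat.add (Nat.mul m72 (g 6 5 7 7)) (Nat.add (Nat.mul m73 (g 6 5 8 7)) (Nat.add
  (Nat.mul m74 (g 6 5 9 7)) (Nat.add (Nat.mul m75 (g 6 5 10 7)) (Nat.add (Nat.mul m76 (g 6 5 8
  8)) (Nat.add (Nat.mul m77 (g 6 5 9 8)) (Nat.add (Nat.mul m78 (g 6 5 10 8)) (Nat.add (Nat.mul
  m79 (g 6 5 9 9)) (0)))))))))))))))))))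

def zr61 (g : Nat → Nat → Nat → Nat → Nat) (m62 m63 m64 m65 m66 m67 m68 m69 m70 m71 m72 m73
    m74 m75 m76 m77 m78 m79 : Nat) : Nat :=
  Nat.add (Nat.mul m62 (g 7 5 8 5)) (Nat.add (Nat.mul m63 (g 7 5 9 5)) (Nat.add (Nat.mul m64 (g 7
  5 10 5)) (Nat.add (Nat.mul m65 (g 7 5 11 5)) (Nat.add (Nat.mul m66 (g 7 5 6 6)) (Nat.add
  (Nat.mul m67 (g 7 5 7 6)) (Nat.add (Nat.mul m68 (g 7 5 8 6)) (Nat.add (Nat.mul m69 (g 7 5 9 6))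
  (Nat.add (Nat.mul m70 (g 7 5 10 6)) (Nat.add (Nat.mul m71 (g 7 5 11 6)) (Nat.add (Nat.mul m72
  (g 7 5 7 7)) (Nat.add (Nat.mul m73 (g 7 5 8 7)) (Nat.add (Nat.mul m74 (g 7 5 9 7)) (Nat.add
  (Nat.mul m75 (g 7 5 10 7)) (Nat.add (Nat.mul m76 (g 7 5 8 8)) (Nat.add (Nat.mul m77 (g 7 5 9
  8)) (Nat.add (Nat.mul m78 (g 7 5 10 8)) (Nat.add (Nat.mul m79 (g 7 5 9 9)) (0))))))))))))))))))

def zr62 (g : Nat → Nat → Nat → Nat → Nat) (m63 m64 m65 m66 m67 m68 m69 m70 m71 m72 m73 m74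
    m75 m76 m77 m78 m79 : Nat) : Nat :=
  Nat.add (Nat.mul m63 (g 8 5 9 5)) (Nat.add (Nat.mul m64 (g 8 5 10 5)) (Nat.add (Nat.mul m65 (g
  8 5 11 5)) (Nat.add (Nat.mul m66 (g 8 5 6 6)) (Nat.add (Nat.mul m67 (g 8 5 7 6)) (Nat.add
  (Nat.mul m68 (g 8 5 8 6)) (Nat.add (Nat.mul m69 (g 8 5 9 6)) (Nat.add (Nat.mul m70 (g 8 5 10
  6)) (Nat.add (Nat.mul m71 (g 8 5 11 6)) (Nat.add (Nat.mul m72 (g 8 5 7 7)) (Nat.add (Nat.mul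
  m73 (g 8 5 8 7)) (Nat.add (Nat.mul m74 (g 8 5 9 7)) (Nat.add (Nat.mul m75 (g 8 5 10 7))
  (Nat.add (Nat.mul m76 (g 8 5 8 8)) (Nat.add (Nat.mul m77 (g 8 5 9 8)) (Nat.add (Nat.mul m78 (g
  8 5 10 8)) (Nat.add (Nat.mul m79 (g 8 5 9 9)) (0)))))))))))))))))

def zr63 (g : Nat → Nat → Nat → Nat → Nat) (m64 m65 m66 m67 m68 m69 m70 m71 m72 m73 m74 m75
    m76 m77 m78 m79 : Nat) : Nat :=
  Nat.add (Nat.mul m64 (g 9 5 10 5)) (Nat.add (Nat.mul m65 (g 9 5 11 5)) (Nat.add (Nat.mul m66 (g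
  9 5 6 6)) (Nat.add (Nat.mul m67 (g 9 5 7 6)) (Nat.add (Nat.mul m68 (g 9 5 8 6)) (Nat.add
  (Nat.mul m69 (g 9 5 9 6)) (Nat.add (Nat.mul m70 (g 9 5 10 6)) (Nat.add (Nat.mul m71 (g 9 5 11
  6)) (Nat.add (Nat.mul m72 (g 9 5 7 7)) (Nat.add (Nat.mul m73 (g 9 5 8 7)) (Nat.add (Nat.mul m74
  (g 9 5 9 7)) (Nat.add (Nat.mul m75 (g 9 5 10 7)) (Nat.add (Nat.mul m76 (g 9 5 8 8)) (Nat.add
  (Nat.mul m77 (g 9 5 9 8)) (Nat.add (Nat.mul m78 (g 9 5 10 8)) (Nat.add (Nat.mul m79 (g 9 5 9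
  9)) (0))))))))))))))))

def zr64 (g : Nat → Nat → Nat → Nat → Nat) (m65 m66 m67 m68 m69 m70 m71 m72 m73 m74 m75 m76
    m77 m78 m79 : Nat) : Nat :=
  Nat.add (Nat.mul m65 (g 10 5 11 5)) (Nat.add (Nat.mul m66 (g 10 5 6 6)) (Nat.add (Nat.mul m67
  (g 10 5 7 6)) (Nat.add (Nat.mul m68 (g 10 5 8 6)) (Nat.add (Nat.mul m69 (g 10 5 9 6)) (Nat.add
  (Nat.mul m70 (g 10 5 10 6)) (Nat.add (Nat.mul m71 (g 10 5 11 6)) (Nat.add (Nat.mul m72 (g 10 5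
  7 7)) (Nat.add (Nat.mul m73 (g 10 5 8 7)) (Nat.add (Nat.mul m74 (g 10 5 9 7)) (Nat.add (Nat.mul
  m75 (g 10 5 10 7)) (Nat.add (Nat.mul m76 (g 10 5 8 8)) (Nat.add (Nat.mul m77 (g 10 5 9 8))
  (Nat.add (Nat.mul m78 (g 10 5 10 8)) (Nat.add (Nat.mul m79 (g 10 5 9 9)) (0)))))))))))))))

def zr65 (g : Nat → Nat → Nat → Nat → Nat) (m66 m67 m68 m69 m70 m71 m72 m73 m74 m75 m76 m77
    m78 m79 : Nat) : Nat :=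
  Nat.add (Nat.mul m66 (g 11 5 6 6)) (Nat.add (Nat.mul m67 (g 11 5 7 6)) (Nat.add (Nat.mul m68 (g
  11 5 8 6)) (Nat.add (Nat.mul m69 (g 11 5 9 6)) (Nat.add (Nat.mul m70 (g 11 5 10 6)) (Nat.add
  (Nat.mul m71 (g 11 5 11 6)) (Nat.add (Nat.mul m72 (g 11 5 7 7)) (Nat.add (Nat.mul m73 (g 11 5 8
  7)) (Nat.add (Nat.mul m74 (g 11 5 9 7)) (Nat.add (Nat.mul m75 (g 11 5 10 7)) (Nat.add (Nat.mul
  m76 (g 11 5 8 8)) (Nat.add (Nat.mul m77 (g 11 5 9 8)) (Nat.add (Nat.mul m78 (g 11 5 10 8))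
  (Nat.add (Nat.mul m79 (g 11 5 9 9)) (0))))))))))))))

def zr66 (g : Nat → Nat → Nat → Nat → Nat) (m67 m68 m69 m70 m71 m72 m73 m74 m75 m76 m77 m78
    m79 : Nat) : Nat :=
  Nat.add (Nat.mul m67 (g 6 6 7 6)) (Nat.add (Nat.mul m68 (g 6 6 8 6)) (Nat.add (Nat.mul m69 (g 6
  6 9 6)) (Nat.add (Nat.mul m70 (g 6 6 10 6)) (Nat.add (Nat.mul m71 (g 6 6 11 6)) (Nat.add
  (Nat.mul m72 (g 6 6 7 7)) (Nat.add (Nat.mul m73 (g 6 6 8 7)) (Nat.add (Nat.mul m74 (g 6 6 9 7))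
  (Nat.add (Nat.mul m75 (g 6 6 10 7)) (Nat.add (Nat.mul m76 (g 6 6 8 8)) (Nat.add (Nat.mul m77 (g
  6 6 9 8)) (Nat.add (Nat.mul m78 (g 6 6 10 8)) (Nat.add (Nat.mul m79 (g 6 6 9 9))
  (0)))))))))))))

def zr67 (g : Nat → Nat → Nat → Nat → Nat) (m68 m69 m70 m71 m72 m73 m74 m75 m76 m77 m78 m79 :
    Nat) : Nat :=
  Nat.add (Nat.mul m68 (g 7 6 8 6)) (Nat.add (Nat.mul m69 (g 7 6 9 6)) (Nat.add (Nat.mul m70 (g 7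
  6 10 6)) (Nat.add (Nat.mul m71 (g 7 6 11 6)) (Nat.add (Nat.mul m72 (g 7 6 7 7)) (Nat.add
  (Nat.mul m73 (g 7 6 8 7)) (Nat.add (Nat.mul m74 (g 7 6 9 7)) (Nat.add (Nat.mul m75 (g 7 6 10
  7)) (Nat.add (Nat.mul m76 (g 7 6 8 8)) (Nat.add (Nat.mul m77 (g 7 6 9 8)) (Nat.add (Nat.mul m78
  (g 7 6 10 8)) (Nat.add (Nat.mul m79 (g 7 6 9 9)) (0))))))))))))

def zr68 (g : Nat → Nat → Nat → Nat → Nat) (m69 m70 m71 m72 m73 m74 m75 m76 m77 m78 m79 :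
    Nat) : Nat :=
  Nat.add (Nat.mul m69 (g 8 6 9 6)) (Nat.add (Nat.mul m70 (g 8 6 10 6)) (Nat.add (Nat.mul m71 (g
  8 6 11 6)) (Nat.add (Nat.mul m72 (g 8 6 7 7)) (Nat.add (Nat.mul m73 (g 8 6 8 7)) (Nat.add
  (Nat.mul m74 (g 8 6 9 7)) (Nat.add (Nat.mul m75 (g 8 6 10 7)) (Nat.add (Nat.mul m76 (g 8 6 8
  8)) (Nat.add (Nat.mul m77 (g 8 6 9 8)) (Nat.add (Nat.mul m78 (g 8 6 10 8)) (Nat.add (Nat.mul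
  m79 (g 8 6 9 9)) (0)))))))))))

def zr69 (g : Nat → Nat → Nat → Nat → Nat) (m70 m71 m72 m73 m74 m75 m76 m77 m78 m79 : Nat) :
    Nat :=
  Nat.add (Nat.mul m70 (g 9 6 10 6)) (Nat.add (Nat.mul m71 (g 9 6 11 6)) (Nat.add (Nat.mul m72 (g
  9 6 7 7)) (Nat.add (Nat.mul m73 (g 9 6 8 7)) (Nat.add (Nat.mul m74 (g 9 6 9 7)) (Nat.add
  (Nat.mul m75 (g 9 6 10 7)) (Nat.add (Nat.mul m76 (g 9 6 8 8)) (Nat.add (Nat.mul m77 (g 9 6 9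
  8)) (Nat.add (Nat.mul m78 (g 9 6 10 8)) (Nat.add (Nat.mul m79 (g 9 6 9 9)) (0))))))))))

def zr70 (g : Nat → Nat → Nat → Nat → Nat) (m71 m72 m73 m74 m75 m76 m77 m78 m79 : Nat) : Nat
    :=
  Nat.add (Nat.mul m71 (g 10 6 11 6)) (Nat.add (Nat.mul m72 (g 10 6 7 7)) (Nat.add (Nat.mul m73
  (g 10 6 8 7)) (Nat.add (Nat.mul m74 (g 10 6 9 7)) (Nat.add (Nat.mul m75 (g 10 6 10 7)) (Nat.add
  (Nat.mul m76 (g 10 6 8 8)) (Nat.add (Nat.mul m77 (g 10 6 9 8)) (Nat.add (Nat.mul m78 (g 10 6 10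
  8)) (Nat.add (Nat.mul m79 (g 10 6 9 9)) (0)))))))))

def zr71 (g : Nat → Nat → Nat → Nat → Nat) (m72 m73 m74 m75 m76 m77 m78 m79 : Nat) : Nat :=
  Nat.add (Nat.mul m72 (g 11 6 7 7)) (Nat.add (Nat.mul m73 (g 11 6 8 7)) (Nat.add (Nat.mul m74 (g
  11 6 9 7)) (Nat.add (Nat.mul m75 (g 11 6 10 7)) (Nat.add (Nat.mul m76 (g 11 6 8 8)) (Nat.add
  (Nat.mul m77 (g 11 6 9 8)) (Nat.add (Nat.mul m78 (g 11 6 10 8)) (Nat.add (Nat.mul m79 (g 11 6 9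
  9)) (0))))))))

def zr72 (g : Nat → Nat → Nat → Nat → Nat) (m73 m74 m75 m76 m77 m78 m79 : Nat) : Nat :=
  Nat.add (Nat.mul m73 (g 7 7 8 7)) (Nat.add (Nat.mul m74 (g 7 7 9 7)) (Nat.add (Nat.mul m75 (g 7
  7 10 7)) (Nat.add (Nat.mul m76 (g 7 7 8 8)) (Nat.add (Nat.mul m77 (g 7 7 9 8)) (Nat.add
  (Nat.mul m78 (g 7 7 10 8)) (Nat.add (Nat.mul m79 (g 7 7 9 9)) (0)))))))

def zr73 (g : Nat → Nat → Nat → Nat → Nat) (m74 m75 m76 m77 m78 m79 : Nat) : Nat :=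
  Nat.add (Nat.mul m74 (g 8 7 9 7)) (Nat.add (Nat.mul m75 (g 8 7 10 7)) (Nat.add (Nat.mul m76 (g
  8 7 8 8)) (Nat.add (Nat.mul m77 (g 8 7 9 8)) (Nat.add (Nat.mul m78 (g 8 7 10 8)) (Nat.add
  (Nat.mul m79 (g 8 7 9 9)) (0))))))

def zr74 (g : Nat → Nat → Nat → Nat → Nat) (m75 m76 m77 m78 m79 : Nat) : Nat :=
  Nat.add (Nat.mul m75 (g 9 7 10 7)) (Nat.add (Nat.mul m76 (g 9 7 8 8)) (Nat.add (Nat.mul m77 (g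
  9 7 9 8)) (Nat.add (Nat.mul m78 (g 9 7 10 8)) (Nat.add (Nat.mul m79 (g 9 7 9 9)) (0)))))

def zr75 (g : Nat → Nat → Nat → Nat → Nat) (m76 m77 m78 m79 : Nat) : Nat :=
  Nat.add (Nat.mul m76 (g 10 7 8 8)) (Nat.add (Nat.mul m77 (g 10 7 9 8)) (Nat.add (Nat.mul m78 (g
  10 7 10 8)) (Nat.add (Nat.mul m79 (g 10 7 9 9)) (0))))

def zr76 (g : Nat → Nat → Nat → Nat → Nat) (m77 m78 m79 : Nat) : Nat :=
  Nat.add (Nat.mul m77 (g 8 8 9 8)) (Nat.add (Nat.mul m78 (g 8 8 10 8)) (Nat.add (Nat.mul m79 (g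
  8 8 9 9)) (0)))

def zr77 (g : Nat → Nat → Nat → Nat → Nat) (m78 m79 : Nat) : Nat :=
  Nat.add (Nat.mul m78 (g 9 8 10 8)) (Nat.add (Nat.mul m79 (g 9 8 9 9)) (0))

def zr78 (g : Nat → Nat → Nat → Nat → Nat) (m79 : Nat) : Nat :=
  Nat.add (Nat.mul m79 (g 10 8 9 9)) (0)

def zr79 (_g : Nat → Nat → Nat → Nat → Nat) : Nat :=
  0

def zt (g : Nat → Nat → Nat → Nat → Nat) (m0 m1 m2 m3 m4 m5 m6 m7 m8 m9 m10 m11 m12 m13 m14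
    m15 m16 m17 m18 m19 m20 m21 m22 m23 m24 m25 m26 m27 m28 m29 m30 m31 m32 m33 m34 m35 m36 m37
    m38 m39 m40 m41 m42 m43 m44 m45 m46 m47 m48 m49 m50 m51 m52 m53 m54 m55 m56 m57 m58 m59 m60
    m61 m62 m63 m64 m65 m66 m67 m68 m69 m70 m71 m72 m73 m74 m75 m76 m77 m78 m79 : Nat) : Nat :=
  Nat.add (Nat.mul m0 (Nat.add (Nat.mul m0 (g 0 0 0 0)) (Nat.mul 2 (zr0 g m1 m2 m3 m4 m5 m6 m7 m8
  m9 m10 m11 m12 m13 m14 m15 m16 m17 m18 m19 m20 m21 m22 m23 m24 m25 m26 m27 m28 m29 m30 m31 m32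
  m33 m34 m35 m36 m37 m38 m39 m40 m41 m42 m43 m44 m45 m46 m47 m48 m49 m50 m51 m52 m53 m54 m55 m56
  m57 m58 m59 m60 m61 m62 m63 m64 m65 m66 m67 m68 m69 m70 m71 m72 m73 m74 m75 m76 m77 m78 m79))))
  (Nat.add (Nat.mul m1 (Nat.add (Nat.mul m1 (g 1 0 1 0)) (Nat.mul 2 (zr1 g m2 m3 m4 m5 m6 m7 m8
  m9 m10 m11 m12 m13 m14 m15 m16 m17 m18 m19 m20 m21 m22 m23 m24 m25 m26 m27 m28 m29 m30 m31 m32
  m33 m34 m35 m36 m37 m38 m39 m40 m41 m42 m43 m44 m45 m46 m47 m48 m49 m50 m51 m52 m53 m54 m55 m56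
  m57 m58 m59 m60 m61 m62 m63 m64 m65 m66 m67 m68 m69 m70 m71 m72 m73 m74 m75 m76 m77 m78 m79))))
  (Nat.add (Nat.mul m2 (Nat.add (Nat.mul m2 (g 2 0 2 0)) (Nat.mul 2 (zr2 g m3 m4 m5 m6 m7 m8 m9
  m10 m11 m12 m13 m14 m15 m16 m17 m18 m19 m20 m21 m22 m23 m24 m25 m26 m27 m28 m29 m30 m31 m32 m33
  m34 m35 m36 m37 m38 m39 m40 m41 m42 m43 m44 m45 m46 m47 m48 m49 m50 m51 m52 m53 m54 m55 m56 m57
  m58 m59 m60 m61 m62 m63 m64 m65 m66 m67 m68 m69 m70 m71 m72 m73 m74 m75 m76 m77 m78 m79))))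
  (Nat.add (Nat.mul m3 (Nat.add (Nat.mul m3 (g 3 0 3 0)) (Nat.mul 2 (zr3 g m4 m5 m6 m7 m8 m9 m10
  m11 m12 m13 m14 m15 m16 m17 m18 m19 m20 m21 m22 m23 m24 m25 m26 m27 m28 m29 m30 m31 m32 m33 m34
  m35 m36 m37 m38 m39 m40 m41 m42 m43 m44 m45 m46 m47 m48 m49 m50 m51 m52 m53 m54 m55 m56 m57 m58
  m59 m60 m61 m62 m63 m64 m65 m66 m67 m68 m69 m70 m71 m72 m73 m74 m75 m76 m77 m78 m79))))
  (Nat.add (Nat.mul m4 (Nat.add (Nat.mul m4 (g 4 0 4 0)) (Nat.mul 2 (zr4 g m5 m6 m7 m8 m9 m10 m11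
  m12 m13 m14 m15 m16 m17 m18 m19 m20 m21 m22 m23 m24 m25 m26 m27 m28 m29 m30 m31 m32 m33 m34 m35
  m36 m37 m38 m39 m40 m41 m42 m43 m44 m45 m46 m47 m48 m49 m50 m51 m52 m53 m54 m55 m56 m57 m58 m59
  m60 m61 m62 m63 m64 m65 m66 m67 m68 m69 m70 m71 m72 m73 m74 m75 m76 m77 m78 m79)))) (Nat.add
  (Nat.mul m5 (Nat.add (Nat.mul m5 (g 5 0 5 0)) (Nat.mul 2 (zr5 g m6 m7 m8 m9 m10 m11 m12 m13 m14
  m15 m16 m17 m18 m19 m20 m21 m22 m23 m24 m25 m26 m27 m28 m29 m30 m31 m32 m33 m34 m35 m36 m37 m38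
  m39 m40 m41 m42 m43 m44 m45 m46 m47 m48 m49 m50 m51 m52 m53 m54 m55 m56 m57 m58 m59 m60 m61 m62
  m63 m64 m65 m66 m67 m68 m69 m70 m71 m72 m73 m74 m75 m76 m77 m78 m79)))) (Nat.add (Nat.mul m6
  (Nat.add (Nat.mul m6 (g 6 0 6 0)) (Nat.mul 2 (zr6 g m7 m8 m9 m10 m11 m12 m13 m14 m15 m16 m17
  m18 m19 m20 m21 m22 m23 m24 m25 m26 m27 m28 m29 m30 m31 m32 m33 m34 m35 m36 m37 m38 m39 m40 m41
  m42 m43 m44 m45 m46 m47 m48 m49 m50 m51 m52 m53 m54 m55 m56 m57 m58 m59 m60 m61 m62 m63 m64 m65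
  m66 m67 m68 m69 m70 m71 m72 m73 m74 m75 m76 m77 m78 m79)))) (Nat.add (Nat.mul m7 (Nat.add
  (Nat.mul m7 (g 7 0 7 0)) (Nat.mul 2 (zr7 g m8 m9 m10 m11 m12 m13 m14 m15 m16 m17 m18 m19 m20
  m21 m22 m23 m24 m25 m26 m27 m28 m29 m30 m31 m32 m33 m34 m35 m36 m37 m38 m39 m40 m41 m42 m43 m44
  m45 m46 m47 m48 m49 m50 m51 m52 m53 m54 m55 m56 m57 m58 m59 m60 m61 m62 m63 m64 m65 m66 m67 m68
  m69 m70 m71 m72 m73 m74 m75 m76 m77 m78 m79)))) (Nat.add (Nat.mul m8 (Nat.add (Nat.mul m8 (g 8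
  0 8 0)) (Nat.mul 2 (zr8 g m9 m10 m11 m12 m13 m14 m15 m16 m17 m18 m19 m20 m21 m22 m23 m24 m25
  m26 m27 m28 m29 m30 m31 m32 m33 m34 m35 m36 m37 m38 m39 m40 m41 m42 m43 m44 m45 m46 m47 m48 m49
  m50 m51 m52 m53 m54 m55 m56 m57 m58 m59 m60 m61 m62 m63 m64 m65 m66 m67 m68 m69 m70 m71 m72 m73
  m74 m75 m76 m77 m78 m79)))) (Nat.add (Nat.mul m9 (Nat.add (Nat.mul m9 (g 9 0 9 0)) (Nat.mul 2
  (zr9 g m10 m11 m12 m13 m14 m15 m16 m17 m18 m19 m20 m21 m22 m23 m24 m25 m26 m27 m28 m29 m30 m31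
  m32 m33 m34 m35 m36 m37 m38 m39 m40 m41 m42 m43 m44 m45 m46 m47 m48 m49 m50 m51 m52 m53 m54 m55
  m56 m57 m58 m59 m60 m61 m62 m63 m64 m65 m66 m67 m68 m69 m70 m71 m72 m73 m74 m75 m76 m77 m78
  m79)))) (Nat.add (Nat.mul m10 (Nat.add (Nat.mul m10 (g 10 0 10 0)) (Nat.mul 2 (zr10 g m11 m12
  m13 m14 m15 m16 m17 m18 m19 m20 m21 m22 m23 m24 m25 m26 m27 m28 m29 m30 m31 m32 m33 m34 m35 m36
  m37 m38 m39 m40 m41 m42 m43 m44 m45 m46 m47 m48 m49 m50 m51 m52 m53 m54 m55 m56 m57 m58 m59 m60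
  m61 m62 m63 m64 m65 m66 m67 m68 m69 m70 m71 m72 m73 m74 m75 m76 m77 m78 m79)))) (Nat.add
  (Nat.mul m11 (Nat.add (Nat.mul m11 (g 11 0 11 0)) (Nat.mul 2 (zr11 g m12 m13 m14 m15 m16 m17
  m18 m19 m20 m21 m22 m23 m24 m25 m26 m27 m28 m29 m30 m31 m32 m33 m34 m35 m36 m37 m38 m39 m40 m41
  m42 m43 m44 m45 m46 m47 m48 m49 m50 m51 m52 m53 m54 m55 m56 m57 m58 m59 m60 m61 m62 m63 m64 m65
  m66 m67 m68 m69 m70 m71 m72 m73 m74 m75 m76 m77 m78 m79)))) (Nat.add (Nat.mul m12 (Nat.add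
  (Nat.mul m12 (g 12 0 12 0)) (Nat.mul 2 (zr12 g m13 m14 m15 m16 m17 m18 m19 m20 m21 m22 m23 m24
  m25 m26 m27 m28 m29 m30 m31 m32 m33 m34 m35 m36 m37 m38 m39 m40 m41 m42 m43 m44 m45 m46 m47 m48
  m49 m50 m51 m52 m53 m54 m55 m56 m57 m58 m59 m60 m61 m62 m63 m64 m65 m66 m67 m68 m69 m70 m71 m72
  m73 m74 m75 m76 m77 m78 m79)))) (Nat.add (Nat.mul m13 (Nat.add (Nat.mul m13 (g 13 0 13 0))
  (Nat.mul 2 (zr13 g m14 m15 m16 m17 m18 m19 m20 m21 m22 m23 m24 m25 m26 m27 m28 m29 m30 m31 m32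
  m33 m34 m35 m36 m37 m38 m39 m40 m41 m42 m43 m44 m45 m46 m47 m48 m49 m50 m51 m52 m53 m54 m55 m56
  m57 m58 m59 m60 m61 m62 m63 m64 m65 m66 m67 m68 m69 m70 m71 m72 m73 m74 m75 m76 m77 m78 m79))))
  (Nat.add (Nat.mul m14 (Nat.add (Nat.mul m14 (g 14 0 14 0)) (Nat.mul 2 (zr14 g m15 m16 m17 m18
  m19 m20 m21 m22 m23 m24 m25 m26 m27 m28 m29 m30 m31 m32 m33 m34 m35 m36 m37 m38 m39 m40 m41 m42
  m43 m44 m45 m46 m47 m48 m49 m50 m51 m52 m53 m54 m55 m56 m57 m58 m59 m60 m61 m62 m63 m64 m65 m66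
  m67 m68 m69 m70 m71 m72 m73 m74 m75 m76 m77 m78 m79)))) (Nat.add (Nat.mul m15 (Nat.add (Nat.mul
  m15 (g 1 1 1 1)) (Nat.mul 2 (zr15 g m16 m17 m18 m19 m20 m21 m22 m23 m24 m25 m26 m27 m28 m29 m30
  m31 m32 m33 m34 m35 m36 m37 m38 m39 m40 m41 m42 m43 m44 m45 m46 m47 m48 m49 m50 m51 m52 m53 m54
  m55 m56 m57 m58 m59 m60 m61 m62 m63 m64 m65 m66 m67 m68 m69 m70 m71 m72 m73 m74 m75 m76 m77 m78
  m79)))) (Nat.add (Nat.mul m16 (Nat.add (Nat.mul m16 (g 2 1 2 1)) (Nat.mul 2 (zr16 g m17 m18 m19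
  m20 m21 m22 m23 m24 m25 m26 m27 m28 m29 m30 m31 m32 m33 m34 m35 m36 m37 m38 m39 m40 m41 m42 m43
  m44 m45 m46 m47 m48 m49 m50 m51 m52 m53 m54 m55 m56 m57 m58 m59 m60 m61 m62 m63 m64 m65 m66 m67
  m68 m69 m70 m71 m72 m73 m74 m75 m76 m77 m78 m79)))) (Nat.add (Nat.mul m17 (Nat.add (Nat.mul m17
  (g 3 1 3 1)) (Nat.mul 2 (zr17 g m18 m19 m20 m21 m22 m23 m24 m25 m26 m27 m28 m29 m30 m31 m32 m33
  m34 m35 m36 m37 m38 m39 m40 m41 m42 m43 m44 m45 m46 m47 m48 m49 m50 m51 m52 m53 m54 m55 m56 m57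
  m58 m59 m60 m61 m62 m63 m64 m65 m66 m67 m68 m69 m70 m71 m72 m73 m74 m75 m76 m77 m78 m79))))
  (Nat.add (Nat.mul m18 (Nat.add (Nat.mul m18 (g 4 1 4 1)) (Nat.mul 2 (zr18 g m19 m20 m21 m22 m23
  m24 m25 m26 m27 m28 m29 m30 m31 m32 m33 m34 m35 m36 m37 m38 m39 m40 m41 m42 m43 m44 m45 m46 m47
  m48 m49 m50 m51 m52 m53 m54 m55 m56 m57 m58 m59 m60 m61 m62 m63 m64 m65 m66 m67 m68 m69 m70 m71
  m72 m73 m74 m75 m76 m77 m78 m79)))) (Nat.add (Nat.mul m19 (Nat.add (Nat.mul m19 (g 5 1 5 1))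
  (Nat.mul 2 (zr19 g m20 m21 m22 m23 m24 m25 m26 m27 m28 m29 m30 m31 m32 m33 m34 m35 m36 m37 m38
  m39 m40 m41 m42 m43 m44 m45 m46 m47 m48 m49 m50 m51 m52 m53 m54 m55 m56 m57 m58 m59 m60 m61 m62
  m63 m64 m65 m66 m67 m68 m69 m70 m71 m72 m73 m74 m75 m76 m77 m78 m79)))) (Nat.add (Nat.mul m20
  (Nat.add (Nat.mul m20 (g 6 1 6 1)) (Nat.mul 2 (zr20 g m21 m22 m23 m24 m25 m26 m27 m28 m29 m30
  m31 m32 m33 m34 m35 m36 m37 m38 m39 m40 m41 m42 m43 m44 m45 m46 m47 m48 m49 m50 m51 m52 m53 m54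
  m55 m56 m57 m58 m59 m60 m61 m62 m63 m64 m65 m66 m67 m68 m69 m70 m71 m72 m73 m74 m75 m76 m77 m78
  m79)))) (Nat.add (Nat.mul m21 (Nat.add (Nat.mul m21 (g 7 1 7 1)) (Nat.mul 2 (zr21 g m22 m23 m24
  m25 m26 m27 m28 m29 m30 m31 m32 m33 m34 m35 m36 m37 m38 m39 m40 m41 m42 m43 m44 m45 m46 m47 m48
  m49 m50 m51 m52 m53 m54 m55 m56 m57 m58 m59 m60 m61 m62 m63 m64 m65 m66 m67 m68 m69 m70 m71 m72
  m73 m74 m75 m76 m77 m78 m79)))) (Nat.add (Nat.mul m22 (Nat.add (Nat.mul m22 (g 8 1 8 1))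
  (Nat.mul 2 (zr22 g m23 m24 m25 m26 m27 m28 m29 m30 m31 m32 m33 m34 m35 m36 m37 m38 m39 m40 m41
  m42 m43 m44 m45 m46 m47 m48 m49 m50 m51 m52 m53 m54 m55 m56 m57 m58 m59 m60 m61 m62 m63 m64 m65
  m66 m67 m68 m69 m70 m71 m72 m73 m74 m75 m76 m77 m78 m79)))) (Nat.add (Nat.mul m23 (Nat.add
  (Nat.mul m23 (g 9 1 9 1)) (Nat.mul 2 (zr23 g m24 m25 m26 m27 m28 m29 m30 m31 m32 m33 m34 m35
  m36 m37 m38 m39 m40 m41 m42 m43 m44 m45 m46 m47 m48 m49 m50 m51 m52 m53 m54 m55 m56 m57 m58 m59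
  m60 m61 m62 m63 m64 m65 m66 m67 m68 m69 m70 m71 m72 m73 m74 m75 m76 m77 m78 m79)))) (Nat.add
  (Nat.mul m24 (Nat.add (Nat.mul m24 (g 10 1 10 1)) (Nat.mul 2 (zr24 g m25 m26 m27 m28 m29 m30
  m31 m32 m33 m34 m35 m36 m37 m38 m39 m40 m41 m42 m43 m44 m45 m46 m47 m48 m49 m50 m51 m52 m53 m54
  m55 m56 m57 m58 m59 m60 m61 m62 m63 m64 m65 m66 m67 m68 m69 m70 m71 m72 m73 m74 m75 m76 m77 m78
  m79)))) (Nat.add (Nat.mul m25 (Nat.add (Nat.mul m25 (g 11 1 11 1)) (Nat.mul 2 (zr25 g m26 m27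
  m28 m29 m30 m31 m32 m33 m34 m35 m36 m37 m38 m39 m40 m41 m42 m43 m44 m45 m46 m47 m48 m49 m50 m51
  m52 m53 m54 m55 m56 m57 m58 m59 m60 m61 m62 m63 m64 m65 m66 m67 m68 m69 m70 m71 m72 m73 m74 m75
  m76 m77 m78 m79)))) (Nat.add (Nat.mul m26 (Nat.add (Nat.mul m26 (g 12 1 12 1)) (Nat.mul 2 (zr26
  g m27 m28 m29 m30 m31 m32 m33 m34 m35 m36 m37 m38 m39 m40 m41 m42 m43 m44 m45 m46 m47 m48 m49
  m50 m51 m52 m53 m54 m55 m56 m57 m58 m59 m60 m61 m62 m63 m64 m65 m66 m67 m68 m69 m70 m71 m72 m73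
  m74 m75 m76 m77 m78 m79)))) (Nat.add (Nat.mul m27 (Nat.add (Nat.mul m27 (g 13 1 13 1)) (Nat.mul
  2 (zr27 g m28 m29 m30 m31 m32 m33 m34 m35 m36 m37 m38 m39 m40 m41 m42 m43 m44 m45 m46 m47 m48
  m49 m50 m51 m52 m53 m54 m55 m56 m57 m58 m59 m60 m61 m62 m63 m64 m65 m66 m67 m68 m69 m70 m71 m72
  m73 m74 m75 m76 m77 m78 m79)))) (Nat.add (Nat.mul m28 (Nat.add (Nat.mul m28 (g 2 2 2 2))
  (Nat.mul 2 (zr28 g m29 m30 m31 m32 m33 m34 m35 m36 m37 m38 m39 m40 m41 m42 m43 m44 m45 m46 m47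
  m48 m49 m50 m51 m52 m53 m54 m55 m56 m57 m58 m59 m60 m61 m62 m63 m64 m65 m66 m67 m68 m69 m70 m71
  m72 m73 m74 m75 m76 m77 m78 m79)))) (Nat.add (Nat.mul m29 (Nat.add (Nat.mul m29 (g 3 2 3 2))
  (Nat.mul 2 (zr29 g m30 m31 m32 m33 m34 m35 m36 m37 m38 m39 m40 m41 m42 m43 m44 m45 m46 m47 m48
  m49 m50 m51 m52 m53 m54 m55 m56 m57 m58 m59 m60 m61 m62 m63 m64 m65 m66 m67 m68 m69 m70 m71 m72
  m73 m74 m75 m76 m77 m78 m79)))) (Nat.add (Nat.mul m30 (Nat.add (Nat.mul m30 (g 4 2 4 2))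
  (Nat.mul 2 (zr30 g m31 m32 m33 m34 m35 m36 m37 m38 m39 m40 m41 m42 m43 m44 m45 m46 m47 m48 m49
  m50 m51 m52 m53 m54 m55 m56 m57 m58 m59 m60 m61 m62 m63 m64 m65 m66 m67 m68 m69 m70 m71 m72 m73
  m74 m75 m76 m77 m78 m79)))) (Nat.add (Nat.mul m31 (Nat.add (Nat.mul m31 (g 5 2 5 2)) (Nat.mul 2
  (zr31 g m32 m33 m34 m35 m36 m37 m38 m39 m40 m41 m42 m43 m44 m45 m46 m47 m48 m49 m50 m51 m52 m53
  m54 m55 m56 m57 m58 m59 m60 m61 m62 m63 m64 m65 m66 m67 m68 m69 m70 m71 m72 m73 m74 m75 m76 m77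
  m78 m79)))) (Nat.add (Nat.mul m32 (Nat.add (Nat.mul m32 (g 6 2 6 2)) (Nat.mul 2 (zr32 g m33 m34
  m35 m36 m37 m38 m39 m40 m41 m42 m43 m44 m45 m46 m47 m48 m49 m50 m51 m52 m53 m54 m55 m56 m57 m58
  m59 m60 m61 m62 m63 m64 m65 m66 m67 m68 m69 m70 m71 m72 m73 m74 m75 m76 m77 m78 m79))))
  (Nat.add (Nat.mul m33 (Nat.add (Nat.mul m33 (g 7 2 7 2)) (Nat.mul 2 (zr33 g m34 m35 m36 m37 m38
  m39 m40 m41 m42 m43 m44 m45 m46 m47 m48 m49 m50 m51 m52 m53 m54 m55 m56 m57 m58 m59 m60 m61 m62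
  m63 m64 m65 m66 m67 m68 m69 m70 m71 m72 m73 m74 m75 m76 m77 m78 m79)))) (Nat.add (Nat.mul m34
  (Nat.add (Nat.mul m34 (g 8 2 8 2)) (Nat.mul 2 (zr34 g m35 m36 m37 m38 m39 m40 m41 m42 m43 m44
  m45 m46 m47 m48 m49 m50 m51 m52 m53 m54 m55 m56 m57 m58 m59 m60 m61 m62 m63 m64 m65 m66 m67 m68
  m69 m70 m71 m72 m73 m74 m75 m76 m77 m78 m79)))) (Nat.add (Nat.mul m35 (Nat.add (Nat.mul m35 (g
  9 2 9 2)) (Nat.mul 2 (zr35 g m36 m37 m38 m39 m40 m41 m42 m43 m44 m45 m46 m47 m48 m49 m50 m51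
  m52 m53 m54 m55 m56 m57 m58 m59 m60 m61 m62 m63 m64 m65 m66 m67 m68 m69 m70 m71 m72 m73 m74 m75
  m76 m77 m78 m79)))) (Nat.add (Nat.mul m36 (Nat.add (Nat.mul m36 (g 10 2 10 2)) (Nat.mul 2 (zr36
  g m37 m38 m39 m40 m41 m42 m43 m44 m45 m46 m47 m48 m49 m50 m51 m52 m53 m54 m55 m56 m57 m58 m59
  m60 m61 m62 m63 m64 m65 m66 m67 m68 m69 m70 m71 m72 m73 m74 m75 m76 m77 m78 m79)))) (Nat.add
  (Nat.mul m37 (Nat.add (Nat.mul m37 (g 11 2 11 2)) (Nat.mul 2 (zr37 g m38 m39 m40 m41 m42 m43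
  m44 m45 m46 m47 m48 m49 m50 m51 m52 m53 m54 m55 m56 m57 m58 m59 m60 m61 m62 m63 m64 m65 m66 m67
  m68 m69 m70 m71 m72 m73 m74 m75 m76 m77 m78 m79)))) (Nat.add (Nat.mul m38 (Nat.add (Nat.mul m38
  (g 12 2 12 2)) (Nat.mul 2 (zr38 g m39 m40 m41 m42 m43 m44 m45 m46 m47 m48 m49 m50 m51 m52 m53
  m54 m55 m56 m57 m58 m59 m60 m61 m62 m63 m64 m65 m66 m67 m68 m69 m70 m71 m72 m73 m74 m75 m76 m77
  m78 m79)))) (Nat.add (Nat.mul m39 (Nat.add (Nat.mul m39 (g 13 2 13 2)) (Nat.mul 2 (zr39 g m40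
  m41 m42 m43 m44 m45 m46 m47 m48 m49 m50 m51 m52 m53 m54 m55 m56 m57 m58 m59 m60 m61 m62 m63 m64
  m65 m66 m67 m68 m69 m70 m71 m72 m73 m74 m75 m76 m77 m78 m79)))) (Nat.add (Nat.mul m40 (Nat.add
  (Nat.mul m40 (g 3 3 3 3)) (Nat.mul 2 (zr40 g m41 m42 m43 m44 m45 m46 m47 m48 m49 m50 m51 m52
  m53 m54 m55 m56 m57 m58 m59 m60 m61 m62 m63 m64 m65 m66 m67 m68 m69 m70 m71 m72 m73 m74 m75 m76
  m77 m78 m79)))) (Nat.add (Nat.mul m41 (Nat.add (Nat.mul m41 (g 4 3 4 3)) (Nat.mul 2 (zr41 g m42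
  m43 m44 m45 m46 m47 m48 m49 m50 m51 m52 m53 m54 m55 m56 m57 m58 m59 m60 m61 m62 m63 m64 m65 m66
  m67 m68 m69 m70 m71 m72 m73 m74 m75 m76 m77 m78 m79)))) (Nat.add (Nat.mul m42 (Nat.add (Nat.mul
  m42 (g 5 3 5 3)) (Nat.mul 2 (zr42 g m43 m44 m45 m46 m47 m48 m49 m50 m51 m52 m53 m54 m55 m56 m57
  m58 m59 m60 m61 m62 m63 m64 m65 m66 m67 m68 m69 m70 m71 m72 m73 m74 m75 m76 m77 m78 m79))))
  (Nat.add (Nat.mul m43 (Nat.add (Nat.mul m43 (g 6 3 6 3)) (Nat.mul 2 (zr43 g m44 m45 m46 m47 m48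
  m49 m50 m51 m52 m53 m54 m55 m56 m57 m58 m59 m60 m61 m62 m63 m64 m65 m66 m67 m68 m69 m70 m71 m72
  m73 m74 m75 m76 m77 m78 m79)))) (Nat.add (Nat.mul m44 (Nat.add (Nat.mul m44 (g 7 3 7 3))
  (Nat.mul 2 (zr44 g m45 m46 m47 m48 m49 m50 m51 m52 m53 m54 m55 m56 m57 m58 m59 m60 m61 m62 m63
  m64 m65 m66 m67 m68 m69 m70 m71 m72 m73 m74 m75 m76 m77 m78 m79)))) (Nat.add (Nat.mul m45
  (Nat.add (Nat.mul m45 (g 8 3 8 3)) (Nat.mul 2 (zr45 g m46 m47 m48 m49 m50 m51 m52 m53 m54 m55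
  m56 m57 m58 m59 m60 m61 m62 m63 m64 m65 m66 m67 m68 m69 m70 m71 m72 m73 m74 m75 m76 m77 m78
  m79)))) (Nat.add (Nat.mul m46 (Nat.add (Nat.mul m46 (g 9 3 9 3)) (Nat.mul 2 (zr46 g m47 m48 m49
  m50 m51 m52 m53 m54 m55 m56 m57 m58 m59 m60 m61 m62 m63 m64 m65 m66 m67 m68 m69 m70 m71 m72 m73
  m74 m75 m76 m77 m78 m79)))) (Nat.add (Nat.mul m47 (Nat.add (Nat.mul m47 (g 10 3 10 3)) (Nat.mul
  2 (zr47 g m48 m49 m50 m51 m52 m53 m54 m55 m56 m57 m58 m59 m60 m61 m62 m63 m64 m65 m66 m67 m68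
  m69 m70 m71 m72 m73 m74 m75 m76 m77 m78 m79)))) (Nat.add (Nat.mul m48 (Nat.add (Nat.mul m48 (g
  11 3 11 3)) (Nat.mul 2 (zr48 g m49 m50 m51 m52 m53 m54 m55 m56 m57 m58 m59 m60 m61 m62 m63 m64
  m65 m66 m67 m68 m69 m70 m71 m72 m73 m74 m75 m76 m77 m78 m79)))) (Nat.add (Nat.mul m49 (Nat.add
  (Nat.mul m49 (g 12 3 12 3)) (Nat.mul 2 (zr49 g m50 m51 m52 m53 m54 m55 m56 m57 m58 m59 m60 m61
  m62 m63 m64 m65 m66 m67 m68 m69 m70 m71 m72 m73 m74 m75 m76 m77 m78 m79)))) (Nat.add (Nat.mul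
  m50 (Nat.add (Nat.mul m50 (g 4 4 4 4)) (Nat.mul 2 (zr50 g m51 m52 m53 m54 m55 m56 m57 m58 m59
  m60 m61 m62 m63 m64 m65 m66 m67 m68 m69 m70 m71 m72 m73 m74 m75 m76 m77 m78 m79)))) (Nat.add
  (Nat.mul m51 (Nat.add (Nat.mul m51 (g 5 4 5 4)) (Nat.mul 2 (zr51 g m52 m53 m54 m55 m56 m57 m58
  m59 m60 m61 m62 m63 m64 m65 m66 m67 m68 m69 m70 m71 m72 m73 m74 m75 m76 m77 m78 m79))))
  (Nat.add (Nat.mul m52 (Nat.add (Nat.mul m52 (g 6 4 6 4)) (Nat.mul 2 (zr52 g m53 m54 m55 m56 m57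
  m58 m59 m60 m61 m62 m63 m64 m65 m66 m67 m68 m69 m70 m71 m72 m73 m74 m75 m76 m77 m78 m79))))
  (Nat.add (Nat.mul m53 (Nat.add (Nat.mul m53 (g 7 4 7 4)) (Nat.mul 2 (zr53 g m54 m55 m56 m57 m58
  m59 m60 m61 m62 m63 m64 m65 m66 m67 m68 m69 m70 m71 m72 m73 m74 m75 m76 m77 m78 m79))))
  (Nat.add (Nat.mul m54 (Nat.add (Nat.mul m54 (g 8 4 8 4)) (Nat.mul 2 (zr54 g m55 m56 m57 m58 m59
  m60 m61 m62 m63 m64 m65 m66 m67 m68 m69 m70 m71 m72 m73 m74 m75 m76 m77 m78 m79)))) (Nat.add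
  (Nat.mul m55 (Nat.add (Nat.mul m55 (g 9 4 9 4)) (Nat.mul 2 (zr55 g m56 m57 m58 m59 m60 m61 m62
  m63 m64 m65 m66 m67 m68 m69 m70 m71 m72 m73 m74 m75 m76 m77 m78 m79)))) (Nat.add (Nat.mul m56
  (Nat.add (Nat.mul m56 (g 10 4 10 4)) (Nat.mul 2 (zr56 g m57 m58 m59 m60 m61 m62 m63 m64 m65 m66
  m67 m68 m69 m70 m71 m72 m73 m74 m75 m76 m77 m78 m79)))) (Nat.add (Nat.mul m57 (Nat.add (Nat.mul
  m57 (g 11 4 11 4)) (Nat.mul 2 (zr57 g m58 m59 m60 m61 m62 m63 m64 m65 m66 m67 m68 m69 m70 m71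
  m72 m73 m74 m75 m76 m77 m78 m79)))) (Nat.add (Nat.mul m58 (Nat.add (Nat.mul m58 (g 12 4 12 4))
  (Nat.mul 2 (zr58 g m59 m60 m61 m62 m63 m64 m65 m66 m67 m68 m69 m70 m71 m72 m73 m74 m75 m76 m77
  m78 m79)))) (Nat.add (Nat.mul m59 (Nat.add (Nat.mul m59 (g 5 5 5 5)) (Nat.mul 2 (zr59 g m60 m61
  m62 m63 m64 m65 m66 m67 m68 m69 m70 m71 m72 m73 m74 m75 m76 m77 m78 m79)))) (Nat.add (Nat.mul
  m60 (Nat.add (Nat.mul m60 (g 6 5 6 5)) (Nat.mul 2 (zr60 g m61 m62 m63 m64 m65 m66 m67 m68 m69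
  m70 m71 m72 m73 m74 m75 m76 m77 m78 m79)))) (Nat.add (Nat.mul m61 (Nat.add (Nat.mul m61 (g 7 5
  7 5)) (Nat.mul 2 (zr61 g m62 m63 m64 m65 m66 m67 m68 m69 m70 m71 m72 m73 m74 m75 m76 m77 m78
  m79)))) (Nat.add (Nat.mul m62 (Nat.add (Nat.mul m62 (g 8 5 8 5)) (Nat.mul 2 (zr62 g m63 m64 m65
  m66 m67 m68 m69 m70 m71 m72 m73 m74 m75 m76 m77 m78 m79)))) (Nat.add (Nat.mul m63 (Nat.add
  (Nat.mul m63 (g 9 5 9 5)) (Nat.mul 2 (zr63 g m64 m65 m66 m67 m68 m69 m70 m71 m72 m73 m74 m75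
  m76 m77 m78 m79)))) (Nat.add (Nat.mul m64 (Nat.add (Nat.mul m64 (g 10 5 10 5)) (Nat.mul 2 (zr64
  g m65 m66 m67 m68 m69 m70 m71 m72 m73 m74 m75 m76 m77 m78 m79)))) (Nat.add (Nat.mul m65
  (Nat.add (Nat.mul m65 (g 11 5 11 5)) (Nat.mul 2 (zr65 g m66 m67 m68 m69 m70 m71 m72 m73 m74 m75
  m76 m77 m78 m79)))) (Nat.add (Nat.mul m66 (Nat.add (Nat.mul m66 (g 6 6 6 6)) (Nat.mul 2 (zr66 g
  m67 m68 m69 m70 m71 m72 m73 m74 m75 m76 m77 m78 m79)))) (Nat.add (Nat.mul m67 (Nat.add (Nat.mul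
  m67 (g 7 6 7 6)) (Nat.mul 2 (zr67 g m68 m69 m70 m71 m72 m73 m74 m75 m76 m77 m78 m79))))
  (Nat.add (Nat.mul m68 (Nat.add (Nat.mul m68 (g 8 6 8 6)) (Nat.mul 2 (zr68 g m69 m70 m71 m72 m73
  m74 m75 m76 m77 m78 m79)))) (Nat.add (Nat.mul m69 (Nat.add (Nat.mul m69 (g 9 6 9 6)) (Nat.mul 2
  (zr69 g m70 m71 m72 m73 m74 m75 m76 m77 m78 m79)))) (Nat.add (Nat.mul m70 (Nat.add (Nat.mul m70
  (g 10 6 10 6)) (Nat.mul 2 (zr70 g m71 m72 m73 m74 m75 m76 m77 m78 m79)))) (Nat.add (Nat.mul m71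
  (Nat.add (Nat.mul m71 (g 11 6 11 6)) (Nat.mul 2 (zr71 g m72 m73 m74 m75 m76 m77 m78 m79))))
  (Nat.add (Nat.mul m72 (Nat.add (Nat.mul m72 (g 7 7 7 7)) (Nat.mul 2 (zr72 g m73 m74 m75 m76 m77
  m78 m79)))) (Nat.add (Nat.mul m73 (Nat.add (Nat.mul m73 (g 8 7 8 7)) (Nat.mul 2 (zr73 g m74 m75
  m76 m77 m78 m79)))) (Nat.add (Nat.mul m74 (Nat.add (Nat.mul m74 (g 9 7 9 7)) (Nat.mul 2 (zr74 g
  m75 m76 m77 m78 m79)))) (Nat.add (Nat.mul m75 (Nat.add (Nat.mul m75 (g 10 7 10 7)) (Nat.mul 2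
  (zr75 g m76 m77 m78 m79)))) (Nat.add (Nat.mul m76 (Nat.add (Nat.mul m76 (g 8 8 8 8)) (Nat.mul 2
  (zr76 g m77 m78 m79)))) (Nat.add (Nat.mul m77 (Nat.add (Nat.mul m77 (g 9 8 9 8)) (Nat.mul 2
  (zr77 g m78 m79)))) (Nat.add (Nat.mul m78 (Nat.add (Nat.mul m78 (g 10 8 10 8)) (Nat.mul 2 (zr78
  g m79)))) (Nat.add (Nat.mul m79 (Nat.add (Nat.mul m79 (g 9 9 9 9)) (Nat.mul 2 (zr79 g))))
  (0))))))))))))))))))))))))))))))))))))))))))))))))))))))))))))))))))))))))))))))))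

/-- digit, divided -/
def dg (den Z k : Nat) : Nat := Nat.div (Nat.mod (Nat.shiftRight Z k) 72057594037927936) den

/-- digits, missing mass on the vertex, then product -/
def hf (g : Nat → Nat → Nat → Nat → Nat) (den Z : Nat) : Nat :=
  zt g (Nat.sub 1048576 (Nat.add (dg den Z 56) (Nat.add (dg den Z 112) (Nat.add (dg den Z 168)
  (Nat.add (dg den Z 224) (Nat.add (dg den Z 280) (Nat.add (dg den Z 336) (Nat.add (dg den Z 392)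
  (Nat.add (dg den Z 448) (Nat.add (dg den Z 504) (Nat.add (dg den Z 560) (Nat.add (dg den Z 616)
  (Nat.add (dg den Z 672) (Nat.add (dg den Z 728) (Nat.add (dg den Z 784) (Nat.add (dg den Z 840)
  (Nat.add (dg den Z 896) (Nat.add (dg den Z 952) (Nat.add (dg den Z 1008) (Nat.add (dg den Z
  1064) (Nat.add (dg den Z 1120) (Nat.add (dg den Z 1176) (Nat.add (dg den Z 1232) (Nat.add (dg
  den Z 1288) (Nat.add (dg den Z 1344) (Nat.add (dg den Z 1400) (Nat.add (dg den Z 1456) (Nat.add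
  (dg den Z 1512) (Nat.add (dg den Z 1568) (Nat.add (dg den Z 1624) (Nat.add (dg den Z 1680)
  (Nat.add (dg den Z 1736) (Nat.add (dg den Z 1792) (Nat.add (dg den Z 1848) (Nat.add (dg den Z
  1904) (Nat.add (dg den Z 1960) (Nat.add (dg den Z 2016) (Nat.add (dg den Z 2072) (Nat.add (dg
  den Z 2128) (Nat.add (dg den Z 2184) (Nat.add (dg den Z 2240) (Nat.add (dg den Z 2296) (Nat.add
  (dg den Z 2352) (Nat.add (dg den Z 2408) (Nat.add (dg den Z 2464) (Nat.add (dg den Z 2520)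
  (Nat.add (dg den Z 2576) (Nat.add (dg den Z 2632) (Nat.add (dg den Z 2688) (Nat.add (dg den Z
  2744) (Nat.add (dg den Z 2800) (Nat.add (dg den Z 2856) (Nat.add (dg den Z 2912) (Nat.add (dg
  den Z 2968) (Nat.add (dg den Z 3024) (Nat.add (dg den Z 3080) (Nat.add (dg den Z 3136) (Nat.add
  (dg den Z 3192) (Nat.add (dg den Z 3248) (Nat.add (dg den Z 3304) (Nat.add (dg den Z 3360)
  (Nat.add (dg den Z 3416) (Nat.add (dg den Z 3472) (Nat.add (dg den Z 3528) (Nat.add (dg den Z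
  3584) (Nat.add (dg den Z 3640) (Nat.add (dg den Z 3696) (Nat.add (dg den Z 3752) (Nat.add (dg
  den Z 3808) (Nat.add (dg den Z 3864) (Nat.add (dg den Z 3920) (Nat.add (dg den Z 3976) (Nat.add
  (dg den Z 4032) (Nat.add (dg den Z 4088) (Nat.add (dg den Z 4144) (Nat.add (dg den Z 4200)
  (Nat.add (dg den Z 4256) (Nat.add (dg den Z 4312) (Nat.add (dg den Z 4368) (Nat.add (dg den Z
  4424) 0)))))))))))))))))))))))))))))))))))))))))))))))))))))))))))))))))))))))))))))))) (dg den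
  Z 56) (dg den Z 112) (dg den Z 168) (dg den Z 224) (dg den Z 280) (dg den Z 336) (dg den Z 392)
  (dg den Z 448) (dg den Z 504) (dg den Z 560) (dg den Z 616) (dg den Z 672) (dg den Z 728) (dg
  den Z 784) (dg den Z 840) (dg den Z 896) (dg den Z 952) (dg den Z 1008) (dg den Z 1064) (dg den
  Z 1120) (dg den Z 1176) (dg den Z 1232) (dg den Z 1288) (dg den Z 1344) (dg den Z 1400) (dg den
  Z 1456) (dg den Z 1512) (dg den Z 1568) (dg den Z 1624) (dg den Z 1680) (dg den Z 1736) (dg den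
  Z 1792) (dg den Z 1848) (dg den Z 1904) (dg den Z 1960) (dg den Z 2016) (dg den Z 2072) (dg den
  Z 2128) (dg den Z 2184) (dg den Z 2240) (dg den Z 2296) (dg den Z 2352) (dg den Z 2408) (dg den
  Z 2464) (dg den Z 2520) (dg den Z 2576) (dg den Z 2632) (dg den Z 2688) (dg den Z 2744) (dg den
  Z 2800) (dg den Z 2856) (dg den Z 2912) (dg den Z 2968) (dg den Z 3024) (dg den Z 3080) (dg den
  Z 3136) (dg den Z 3192) (dg den Z 3248) (dg den Z 3304) (dg den Z 3360) (dg den Z 3416) (dg den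
  Z 3472) (dg den Z 3528) (dg den Z 3584) (dg den Z 3640) (dg den Z 3696) (dg den Z 3752) (dg den
  Z 3808) (dg den Z 3864) (dg den Z 3920) (dg den Z 3976) (dg den Z 4032) (dg den Z 4088) (dg den
  Z 4144) (dg den Z 4200) (dg den Z 4256) (dg den Z 4312) (dg den Z 4368) (dg den Z 4424)

/-- one level of the tree, packed -/
def stepZ (Z : Nat) : Nat := hf g2 6576668672 (hf g1 1644167168 Z)

/-- iterate `f`; the recursor forces the value before the next step -/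
noncomputable def iter (f : Nat → Nat) (n : Nat) : Nat → Nat :=
  Nat.rec (motive := fun _ => Nat → Nat) (fun s => s)
    (fun _ ih s => Nat.rec (motive := fun _ => Nat) (ih 0) (fun p _ => ih (Nat.succ p)) (f s)) n

theorem unpack_dg (den : Nat) : ∀ (n Z : Nat),
    unpack den n Z = (List.range n).map fun k => dg den Z (56 * k)
  | 0, _ => rfl
  | n + 1, Z => by
    have ih := unpack_dg den n (Z >>> 56)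
    rw [List.range_succ_eq_map, List.map_cons, List.map_map]
    change Nat.div (Nat.mod Z 72057594037927936) den :: unpack den n (Z >>> 56) = _
    rw [ih]
    have e1 : dg den Z (56 * 0) = Nat.div (Nat.mod Z 72057594037927936) den := rfl
    have e2 : ∀ k, dg den (Z >>> 56) (56 * k) = dg den Z (56 * (k + 1)) := by
      intro k
      change Nat.div (Nat.mod ((Z >>> 56) >>> (56 * k)) 72057594037927936) den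
        = Nat.div (Nat.mod (Z >>> (56 * (k + 1))) 72057594037927936) den
      rw [← Nat.shiftRight_add, Nat.mul_succ, Nat.add_comm 56]
    rw [e1]
    simp only [e2]
    rfl

theorem hf_eq (g : Nat → Nat → Nat → Nat → Nat) (den Z : Nat) :
    hf g den Z = prd g (fixl (unpack den 80 Z)) orbs := by
  rw [unpack_dg]
  rfl

theorem msZ_stepZ (Z : Nat) : msZ (stepZ Z) = step (msZ Z) := by
  unfold stepZ msZ step half2 half1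
  rw [hf_eq, hf_eq]

theorem iter_succ (f : Nat → Nat) (n Z : Nat) : iter f (n + 1) Z = iter f n (f Z) := by
  change Nat.rec (motive := fun _ => Nat) (iter f n 0) (fun p _ => iter f n (Nat.succ p)) (f Z)
    = _
  cases f Z <;> rfl

end Vale.Agent.P154.DE
end

section
/-!
# P154: rigorous density evolution for the 4-ary tree: three packed states

Digit `k` (56 bits) is `1644167168` times the mass of the orbit number `k`, plus a remainder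
smaller than `1644167168`.
-/

namespace Vale.Agent.P154.DE

/-- state at level 0 -/
def Z0 : Nat :=
  0x6200000000000

/-- state at level 78 -/
def Z1 : Nat :=
  0x90080da05700009039ef167700012eff5fcf3400009b4d540a0c000144aec8ff2000014a76b745e60001473163bd340000bb9a50d6850000a473a7a25e00014bb73eb01a00015759f7d2960001658c05d29c00018d30523efc0000dc2512a9e700016dd27227a8000179d56c7f3800018e03503e6a000198d4a953ae0001c05e65a24c0001ec95d39bd800011ebc99bfa00000dd1e4175090001d179f149120001e0be5204ce0001e600951a9e00021353acf14a00024493559e7000026d4b62e6880002df57ba22260001d0714ce1c700020a5c6b47cc0002129255e1c80002226f2277de00023bbc8fd43a000275da83b3120002ba5bd9423000032b75d739ae000394de3b30c80004a2752f3d0a000336c3086c1a0001641b55da770002d905f4940a0002e14dc260ba000304593a036000031d105afba60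00364cd3af1fe0003ba8f161e3c00043b819724ea000500861df12e000619b73d74ee000897954ef6d4000671d8dfdbff00059baa1fde180005a557465e7c0005c97589c1b200061152dbb47a000674e128862a0006de438c94fe00078b7dfbc20c00086c30c101740009db52cd9e58000bd34c310548000fa148179dda00174ef8803bd6001438989cc080001f2613f84edf003a8a7b78cfea0038cea9e0ef5e0037848e186cac00370b4660288c00378be2ce8d74003822712f144e003ac794d45506003dbb9ea5ff48004385ff9a163e004cbdb4d46d90005d97df9551b8007c80288ca880009d6e76db2696012f5c79526015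

/-- state at level 155 -/
def Z2 : Nat :=
  0xbae19162ea6000ba2e9908c25001765875490dc000bda946191220017eee6ea73f400180359a291460018550cb63ce2000c82fd8e7f1d000c488070bce00018211f6f272e00188d3367dc9c0018d0be1949a400195f57f16b14000d3afc4fe9ae0019a09bd79a2a0019a7bcc6e110001a0162597ece001a2f4b271b86001a20570fbf76001ad7cf0f4d1e000dc0b135065f000cd0a40d79bf00199d91b56e54001a1cb1fece3a001a4253901428001af1807dc62a001b833e783574001c0a166e28b0001c939a0b809e000e0ed738df3c001b9d3f5dd1a6001b938d7c8cbe001bc2fb22d900001c0de69e518c001c240950bacc001c8ff17bd17a001c88f0d30318001c12abc60002001c3440a38d6a000d3eddee008b000e9f1eb492dc001d2c35dcf100001d3ac8002b16001d1a8e5af152001cdc253c3a62001cf8f1ff4fc6001ccc3b2e68fa001c46f88e305a001b926673f57800196bf2562eea0015bdad0637620007dfaf549354001c406a13b4d2001c0b756134b8001beb6788d75e001b8d4ac3d7e6001acae203b1400019b8efe1acd2001877bbaf4784001686b5f7e5b80013d34cc502d2001043c0fd85f4000b7a8f8bbf1800063227920b100000d5bd439063000580273e853f000adf137388a2000a8c45d71a54000a0f16a5a4e000096661b058ba00088d6f1675fe00078eb57d336600064dd791c224000524314501820003de93d3c1560002a1854d43e20001777a29e34e0000a9a8b6829800002453bb111800002434ad1c37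

end Vale.Agent.P154.DE
end

section

/-!
# P154: rigorous density evolution for the 4-ary tree: levels 0 to 78
-/

namespace Vale.Agent.P154.DE

set_option maxRecDepth 100000 in
theorem run1 : Nat.beq (iter stepZ 78 Z0) Z1 = true := by decide +kernel

end Vale.Agent.P154.DE
end

section

/-!
# P154: rigorous density evolution for the 4-ary tree: levels 78 to 155
-/

namespace Vale.Agent.P154.DE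

set_option maxRecDepth 100000 in
theorem run2 : Nat.beq (iter stepZ 77 Z1) Z2 = true := by decide +kernel

end Vale.Agent.P154.DE
end
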