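import Vale.Agent.P154.Bdl.B7
import Vale.Agent.P154.Bdl.B4
import Vale.Agent.P154.Bdl.B9
import Vale.Agent.P154.Bdl.B8

set_option linter.all false

section

/-!
# P154: rigorous density evolution for the 4-ary tree, three spins: soundness
-/

open scoped BigOperators ENNReal
open Filter Topology

namespace Vale.Agent.P154.DE

/-! ### Superlinear functionals of three spins -/

noncomputable def W (F : (Fin 3 → ℝ) → ℝ) (a b c : ℝ) : ℝ := F ![a, b, c]

/-- sum over the six permutations of the coordinates -/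
noncomputable def F6 (F : (Fin 3 → ℝ) → ℝ) (a b c : ℝ) : ℝ :=
  W F a b c + W F a c b + W F b a c + W F b c a + W F c a b + W F c b a

theorem vec3_nonneg {a b c : ℝ} (ha : 0 ≤ a) (hb : 0 ≤ b) (hc : 0 ≤ c) :
    ∀ i, 0 ≤ (![a, b, c] : Fin 3 → ℝ) i := by
  intro i
  fin_cases i
  · exact ha
  · exact hb
  · exact hc

theorem W_three {F : (Fin 3 → ℝ) → ℝ} (hF : SupLin F) {r s t a b c a' b' c' a'' b'' c'' : ℝ}
    (hr : 0 ≤ r) (hs : 0 ≤ s) (ht : 0 ≤ t)
    (ha : 0 ≤ a) (hb : 0 ≤ b) (hc : 0 ≤ c) (ha' : 0 ≤ a') (hb' : 0 ≤ b') (hc' : 0 ≤ c')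
    (ha'' : 0 ≤ a'') (hb'' : 0 ≤ b'') (hc'' : 0 ≤ c'') :
    r * W F a b c + s * W F a' b' c' + t * W F a'' b'' c''
      ≤ W F (r * a + s * a' + t * a'') (r * b + s * b' + t * b'') (r * c + s * c' + t * c'') := by
  have h := hF (Fin 3) Finset.univ ![r, s, t] ![![a, b, c], ![a', b', c'], ![a'', b'', c'']]
    (fun i _ => vec3_nonneg hr hs ht i) (fun i _ => by
      fin_cases i
      · exact vec3_nonneg ha hb hc
      · exact vec3_nonneg ha' hb' hc'
      · exact vec3_nonneg ha'' hb'' hc'')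
  rw [Fin.sum_univ_three] at h
  have e : (fun i => ∑ x : Fin 3, (![r, s, t] : Fin 3 → ℝ) x
      * (![![a, b, c], ![a', b', c'], ![a'', b'', c'']] : Fin 3 → Fin 3 → ℝ) x i)
      = ![r * a + s * a' + t * a'', r * b + s * b' + t * b'', r * c + s * c' + t * c''] := by
    funext i
    rw [Fin.sum_univ_three]
    fin_cases i <;> rfl
  rw [e] at h
  exact h

theorem W_zero {F : (Fin 3 → ℝ) → ℝ} (hF : SupLin F) : W F 0 0 0 = 0 := by
  apply le_antisymm
  · have h := W_three hF (r := 1) (s := 1) (t := 0) (a := 0) (b := 0) (c := 0) (a' := 0)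
      (b' := 0) (c' := 0) (a'' := 0) (b'' := 0) (c'' := 0) zero_le_one zero_le_one le_rfl le_rfl
      le_rfl le_rfl le_rfl le_rfl le_rfl le_rfl le_rfl le_rfl
    simp only [mul_zero, add_zero, one_mul, zero_mul] at h
    linarith
  · have h := W_three hF (r := 0) (s := 0) (t := 0) (a := 0) (b := 0) (c := 0) (a' := 0)
      (b' := 0) (c' := 0) (a'' := 0) (b'' := 0) (c'' := 0) le_rfl le_rfl le_rfl le_rfl
      le_rfl le_rfl le_rfl le_rfl le_rfl le_rfl le_rfl le_rfl
    simp only [mul_zero, add_zero, zero_mul] at h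
    linarith

theorem W_smul_ge {F : (Fin 3 → ℝ) → ℝ} (hF : SupLin F) {r a b c : ℝ} (hr : 0 ≤ r)
    (ha : 0 ≤ a) (hb : 0 ≤ b) (hc : 0 ≤ c) : r * W F a b c ≤ W F (r * a) (r * b) (r * c) := by
  have h := W_three hF (r := r) (s := 0) (t := 0) (a := a) (b := b) (c := c) (a' := 0)
      (b' := 0) (c' := 0) (a'' := 0) (b'' := 0) (c'' := 0) hr le_rfl le_rfl ha hb hc
      le_rfl le_rfl le_rfl le_rfl le_rfl le_rfl
  simp only [mul_zero, add_zero, zero_mul] at h
  exact h

theorem W_smul {F : (Fin 3 → ℝ) → ℝ} (hF : SupLin F) {r a b c : ℝ} (hr : 0 ≤ r)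
    (ha : 0 ≤ a) (hb : 0 ≤ b) (hc : 0 ≤ c) : W F (r * a) (r * b) (r * c) = r * W F a b c := by
  rcases hr.eq_or_lt with h0 | h0
  · subst h0
    simp only [zero_mul]
    exact W_zero hF
  · apply le_antisymm
    · have h := W_smul_ge hF (r := r⁻¹) (inv_nonneg.2 hr) (mul_nonneg hr ha) (mul_nonneg hr hb)
        (mul_nonneg hr hc)
      rw [inv_mul_cancel_left₀ h0.ne', inv_mul_cancel_left₀ h0.ne',
        inv_mul_cancel_left₀ h0.ne'] at h
      have := mul_le_mul_of_nonneg_left h hr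
      rwa [mul_inv_cancel_left₀ h0.ne'] at this
    · exact W_smul_ge hF hr ha hb hc

theorem F6_smul {F : (Fin 3 → ℝ) → ℝ} (hF : SupLin F) {r a b c : ℝ} (hr : 0 ≤ r)
    (ha : 0 ≤ a) (hb : 0 ≤ b) (hc : 0 ≤ c) : F6 F (r * a) (r * b) (r * c) = r * F6 F a b c := by
  unfold F6
  rw [W_smul hF hr ha hb hc, W_smul hF hr ha hc hb, W_smul hF hr hb ha hc, W_smul hF hr hb hc ha,
    W_smul hF hr hc ha hb, W_smul hF hr hc hb ha]
  ring

theorem F6_three {F : (Fin 3 → ℝ) → ℝ} (hF : SupLin F) {r s t a b c a' b' c' a'' b'' c'' : ℝ}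
    (hr : 0 ≤ r) (hs : 0 ≤ s) (ht : 0 ≤ t)
    (ha : 0 ≤ a) (hb : 0 ≤ b) (hc : 0 ≤ c) (ha' : 0 ≤ a') (hb' : 0 ≤ b') (hc' : 0 ≤ c')
    (ha'' : 0 ≤ a'') (hb'' : 0 ≤ b'') (hc'' : 0 ≤ c'') :
    r * F6 F a b c + s * F6 F a' b' c' + t * F6 F a'' b'' c''
      ≤ F6 F (r * a + s * a' + t * a'') (r * b + s * b' + t * b'') (r * c + s * c' + t * c'') := by
  unfold F6
  have h1 := W_three hF hr hs ht ha hb hc ha' hb' hc' ha'' hb'' hc''
  have h2 := W_three hF hr hs ht ha hc hb ha' hc' hb' ha'' hc'' hb''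
  have h3 := W_three hF hr hs ht hb ha hc hb' ha' hc' hb'' ha'' hc''
  have h4 := W_three hF hr hs ht hb hc ha hb' hc' ha' hb'' hc'' ha''
  have h5 := W_three hF hr hs ht hc ha hb hc' ha' hb' hc'' ha'' hb''
  have h6 := W_three hF hr hs ht hc hb ha hc' hb' ha' hc'' hb'' ha''
  linarith only [h1, h2, h3, h4, h5, h6]

theorem F6_mono {F G : (Fin 3 → ℝ) → ℝ} (h : ∀ v : Fin 3 → ℝ, (∀ i, 0 ≤ v i) → F v ≤ G v)
    {a b c : ℝ} (ha : 0 ≤ a) (hb : 0 ≤ b) (hc : 0 ≤ c) : F6 F a b c ≤ F6 G a b c := by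
  unfold F6 W
  have h1 := h _ (vec3_nonneg ha hb hc)
  have h2 := h _ (vec3_nonneg ha hc hb)
  have h3 := h _ (vec3_nonneg hb ha hc)
  have h4 := h _ (vec3_nonneg hb hc ha)
  have h5 := h _ (vec3_nonneg hc ha hb)
  have h6 := h _ (vec3_nonneg hc hb ha)
  linarith

/-- the double sum over permutations of a product -/
noncomputable def Q (F : (Fin 3 → ℝ) → ℝ) (a b c x y z : ℝ) : ℝ :=
  F6 (fun u => F6 (fun v => F (fun i => u i * v i)) x y z) a b c

theorem mul_vec3 (a b c x y z : ℝ) :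
    (fun i => (![a, b, c] : Fin 3 → ℝ) i * (![x, y, z] : Fin 3 → ℝ) i)
      = ![a * x, b * y, c * z] := by
  funext i
  fin_cases i <;> rfl

theorem Q_eq (F : (Fin 3 → ℝ) → ℝ) (a b c x y z : ℝ) :
    Q F a b c x y z = F6 F (a * x) (b * y) (c * z) + (F6 F (a * x) (b * z) (c * y)
      + (F6 F (a * y) (b * x) (c * z) + (F6 F (a * y) (b * z) (c * x)
      + (F6 F (a * z) (b * x) (c * y) + F6 F (a * z) (b * y) (c * x))))) := by
  unfold Q F6 W
  simp only [mul_vec3]
  ring

theorem Q_symm (F : (Fin 3 → ℝ) → ℝ) (a b c x y z : ℝ) :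
    Q F a b c x y z = Q F x y z a b c := by
  rw [Q_eq, Q_eq]
  simp only [F6, mul_comm x _, mul_comm y _, mul_comm z _]
  ring

/-! ### Packed numbers -/

/-- the orbit with number `k` -/
def ob (k : ℕ) : ℕ × ℕ := orbs.getD k (0, 0)

/-- symmetrised value at the orbit `o` -/
noncomputable def G6 (F : (Fin 3 → ℝ) → ℝ) (o : ℕ × ℕ) : ℝ :=
  F6 F ((28 - (o.1 + o.2) : ℕ) : ℝ) (o.1 : ℝ) (o.2 : ℝ)

/-- `Z` is a packed vector with total mass `s` whose value is at most `B` -/
def Snd (Z s : ℕ) (B : ((Fin 3 → ℝ) → ℝ) → ℝ) : Prop :=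
  ∃ c : ℕ → ℕ, Z = ∑ k ∈ Finset.range 80, c k * (2 ^ 56) ^ k ∧ ∑ k ∈ Finset.range 80, c k = s ∧
    ∀ F : (Fin 3 → ℝ) → ℝ, SupLin F → ∑ k ∈ Finset.range 80, (c k : ℝ) * G6 F (ob k) ≤ B F

theorem Snd.zero : Snd 0 0 (fun _ => 0) := by
  refine ⟨fun _ => 0, by simp, by simp, fun F _ => by simp⟩

theorem Snd.add {Z Z' s s' : ℕ} {B B' : ((Fin 3 → ℝ) → ℝ) → ℝ} (h : Snd Z s B)
    (h' : Snd Z' s' B') : Snd (Nat.add Z Z') (s + s') (fun F => B F + B' F) := by
  obtain ⟨c, h1, h2, h3⟩ := h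
  obtain ⟨c', h1', h2', h3'⟩ := h'
  refine ⟨fun k => c k + c' k, ?_, ?_, fun F hF => ?_⟩
  · change Z + Z' = _
    rw [h1, h1', ← Finset.sum_add_distrib]
    exact Finset.sum_congr rfl fun k _ => by ring
  · rw [Finset.sum_add_distrib, h2, h2']
  · have := h3 F hF
    have := h3' F hF
    have e : ∑ k ∈ Finset.range 80, ((c k + c' k : ℕ) : ℝ) * G6 F (ob k)
        = ∑ k ∈ Finset.range 80, (c k : ℝ) * G6 F (ob k)
          + ∑ k ∈ Finset.range 80, (c' k : ℝ) * G6 F (ob k) := by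
      rw [← Finset.sum_add_distrib]
      exact Finset.sum_congr rfl fun k _ => by push_cast; ring
    rw [e]
    linarith

theorem Snd.smul {Z s : ℕ} {B : ((Fin 3 → ℝ) → ℝ) → ℝ} (m : ℕ) (h : Snd Z s B) :
    Snd (Nat.mul m Z) (m * s) (fun F => m * B F) := by
  obtain ⟨c, h1, h2, h3⟩ := h
  refine ⟨fun k => m * c k, ?_, ?_, fun F hF => ?_⟩
  · change m * Z = _
    rw [h1, Finset.mul_sum]
    exact Finset.sum_congr rfl fun k _ => by ring
  · rw [← Finset.mul_sum, h2]
  · have e : ∑ k ∈ Finset.range 80, ((m * c k : ℕ) : ℝ) * G6 F (ob k)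
        = m * ∑ k ∈ Finset.range 80, (c k : ℝ) * G6 F (ob k) := by
      rw [Finset.mul_sum]
      exact Finset.sum_congr rfl fun k _ => by push_cast; ring
    rw [e]
    exact mul_le_mul_of_nonneg_left (h3 F hF) (Nat.cast_nonneg m)

theorem Snd.mono {Z s : ℕ} {B B' : ((Fin 3 → ℝ) → ℝ) → ℝ} (h : Snd Z s B)
    (hB : ∀ F, SupLin F → B F ≤ B' F) : Snd Z s B' := by
  obtain ⟨c, h1, h2, h3⟩ := h
  exact ⟨c, h1, h2, fun F hF => (h3 F hF).trans (hB F hF)⟩

/-- the orbit number found in the table for the grid point `(x, y, 28 - x - y)` -/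
def en (x y : ℕ) : ℕ := (TT >>> (8 * (29 * x + y))) % 256

theorem en_ok : ∀ x < 29, ∀ y < 29 - x, en x y < 80 ∧
    (ob (en x y) = (x, y) ∨ ob (en x y) = (y, x) ∨ ob (en x y) = (x, 28 - x - y) ∨
      ob (en x y) = (28 - x - y, x) ∨ ob (en x y) = (y, 28 - x - y) ∨
      ob (en x y) = (28 - x - y, y)) := by
  decide +kernel

theorem snd_tm {r x y z : ℕ} (h : x + y + z = 28) :
    Snd (tm r (29 * x + y)) r (fun F => r * F6 F x y z) := by
  obtain ⟨h3, h4⟩ := en_ok x (by omega) y (by omega)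
  have hz : 28 - x - y = z := by omega
  rw [hz] at h4
  have key : ∀ F : (Fin 3 → ℝ) → ℝ, G6 F (ob (en x y)) = F6 F x y z := by
    intro F
    unfold G6
    rcases h4 with h4 | h4 | h4 | h4 | h4 | h4 <;> rw [h4] <;> dsimp only
    · rw [show 28 - (x + y) = z by omega]; unfold F6; ring
    · rw [show 28 - (y + x) = z by omega]; unfold F6; ring
    · rw [show 28 - (x + z) = y by omega]; unfold F6; ring
    · rw [show 28 - (z + x) = y by omega]; unfold F6; ring
    · rw [show 28 - (y + z) = x by omega]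
    · rw [show 28 - (z + y) = x by omega]; unfold F6; ring
  refine ⟨fun k => if k = en x y then r else 0, ?_, ?_, fun F _ => ?_⟩
  · have e : tm r (29 * x + y) = r * (2 ^ 56) ^ (en x y) := by
      unfold tm
      rw [Nat.shiftLeft_eq']
      change r <<< (56 * en x y) = _
      rw [Nat.shiftLeft_eq, pow_mul]
    rw [e, Finset.sum_eq_single (en x y)]
    · simp
    · intro k _ hk
      simp [hk]
    · intro hk
      exact absurd (Finset.mem_range.2 h3) hk
  · rw [Finset.sum_ite_eq' (Finset.range 80) (en x y) (fun _ => r),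
      if_pos (Finset.mem_range.2 h3)]
  · rw [Finset.sum_eq_single (en x y)]
    · rw [key]
      simp
    · intro k _ hk
      simp [hk]
    · intro hk
      exact absurd (Finset.mem_range.2 h3) hk

theorem F6_perm_cast (F : (Fin 3 → ℝ) → ℝ) (a b c : ℝ) : F6 F a b c = F6 F b a c := by
  unfold F6; ring

/-- splitting a vector onto the grid -/
theorem snd_splt (x y z : ℕ) :
    Snd (splt x y z) (x + y + z) (fun F => 28 * F6 F x y z) := by
  change Snd (spa (x + (y + z)) (28 * x) (28 * y) (28 * z)) (x + y + z) _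
  have hS0 : x + (y + z) = x + y + z := by omega
  rw [hS0]
  set S := x + y + z with hS
  rcases Nat.eq_zero_or_pos S with h0 | hpos
  · have hx : x = 0 := by omega
    have hy : y = 0 := by omega
    have hz : z = 0 := by omega
    rw [h0, hx, hy, hz]
    have e : spa 0 (28 * 0) (28 * 0) (28 * 0) = 0 := by decide +kernel
    rw [e]
    refine Snd.zero.mono fun F hF => ?_
    have := W_zero hF
    unfold F6
    simp only [Nat.cast_zero, this]
    norm_num
  · change Snd (spc S (28 * x % S) (28 * y % S) (28 * z % S) (29 * (28 * x / S) + 28 * y / S)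
      (28 * x % S + (28 * y % S + 28 * z % S))) S _
    set kx := 28 * x / S with hkx
    set ky := 28 * y / S with hky
    set kz := 28 * z / S with hkz
    set rx := 28 * x % S with hrx
    set ry := 28 * y % S with hry
    set rz := 28 * z % S with hrz
    have ex : S * kx + rx = 28 * x := Nat.div_add_mod _ _
    have ey : S * ky + ry = 28 * y := Nat.div_add_mod _ _
    have ez : S * kz + rz = 28 * z := Nat.div_add_mod _ _
    have lx : rx < S := Nat.mod_lt _ hpos
    have ly : ry < S := Nat.mod_lt _ hpos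
    have lz : rz < S := Nat.mod_lt _ hpos
    have et : S * (kx + ky + kz) + (rx + (ry + rz)) = S * 28 := by
      rw [Nat.mul_add, Nat.mul_add]; omega
    have hx0 : (0 : ℝ) ≤ x := Nat.cast_nonneg _
    have hy0 : (0 : ℝ) ≤ y := Nat.cast_nonneg _
    have hz0 : (0 : ℝ) ≤ z := Nat.cast_nonneg _
    have hkx0 : (0 : ℝ) ≤ kx := Nat.cast_nonneg _
    have hky0 : (0 : ℝ) ≤ ky := Nat.cast_nonneg _
    have hkz0 : (0 : ℝ) ≤ kz := Nat.cast_nonneg _
    have ex' : (S : ℝ) * kx + rx = 28 * x := by exact_mod_cast ex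
    have ey' : (S : ℝ) * ky + ry = 28 * y := by exact_mod_cast ey
    have ez' : (S : ℝ) * kz + rz = 28 * z := by exact_mod_cast ez
    set t := rx + (ry + rz) with ht
    unfold spc
    cases h1 : Nat.beq t 0
    · cases h2 : Nat.beq t S
      · -- `t = 2 * S`
        have h1' : t ≠ 0 := Nat.ne_of_beq_eq_false h1
        have h2' : t ≠ S := Nat.ne_of_beq_eq_false h2
        have hK : kx + ky + kz = 26 := by
          by_contra hne
          rcases lt_or_gt_of_ne hne with h | h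
          · have : S * (kx + ky + kz) ≤ S * 25 := Nat.mul_le_mul_left _ (by omega)
            (clear * - ex ey ez lx ly lz et this; omega)
          · rcases Nat.lt_or_ge (kx + ky + kz) 28 with h3 | h3
            · have h4 : kx + ky + kz = 27 := by omega
              rw [h4] at et
              (clear * - ex ey ez et h2' hne h h3; omega)
            · have : S * 28 ≤ S * (kx + ky + kz) := Nat.mul_le_mul_left _ h3
              (clear * - ex ey ez et h1' h2' hne h3 this; omega)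
        have hT : t = 2 * S := by
          rw [hK] at et
          (clear * - ex ey ez et; omega)
        simp only [cond_false]
        have a1 := (snd_tm (r := S - rx) (x := kx) (y := ky + 1) (z := kz + 1) (by omega)).add
          ((snd_tm (r := S - ry) (x := kx + 1) (y := ky) (z := kz + 1) (by omega)).add
          (snd_tm (r := S - rz) (x := kx + 1) (y := ky + 1) (z := kz) (by omega)))
        rw [show 29 * (kx + 1) + ky = 29 * kx + ky + 29 by (clear * -; omega),
          show 29 * (kx + 1) + (ky + 1) = 29 * kx + ky + 30 by (clear * -; omega)] at a1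
        have em : S - rx + (S - ry + (S - rz)) = S := by (clear * - ex ey ez lx ly lz et hT; omega)
        rw [em] at a1
        refine a1.mono fun F hF => ?_
        have cx : ((S - rx : ℕ) : ℝ) = S - rx := by rw [Nat.cast_sub lx.le]
        have cy : ((S - ry : ℕ) : ℝ) = S - ry := by rw [Nat.cast_sub ly.le]
        have cz : ((S - rz : ℕ) : ℝ) = S - rz := by rw [Nat.cast_sub lz.le]
        have gx : (0 : ℝ) ≤ S - rx := by rw [← cx]; exact Nat.cast_nonneg _
        have gy : (0 : ℝ) ≤ S - ry := by rw [← cy]; exact Nat.cast_nonneg _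
        have gz : (0 : ℝ) ≤ S - rz := by rw [← cz]; exact Nat.cast_nonneg _
        have hT' : (rx : ℝ) + (ry + rz) = 2 * S := by exact_mod_cast hT
        have k := F6_three hF gx gy gz hkx0 (by linarith only [] : (0 : ℝ) ≤ (ky : ℝ) + 1)
          (by linarith only [] : (0 : ℝ) ≤ (kz : ℝ) + 1) (by linarith only [] : (0 : ℝ) ≤ (kx : ℝ) + 1) hky0
          (by linarith only [] : (0 : ℝ) ≤ (kz : ℝ) + 1) (by linarith only [] : (0 : ℝ) ≤ (kx : ℝ) + 1)
          (by linarith only [] : (0 : ℝ) ≤ (ky : ℝ) + 1) hkz0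
        have f1 : ((S : ℝ) - rx) * kx + (S - ry) * (kx + 1) + (S - rz) * (kx + 1) = 28 * x := by
          linear_combination ex' - (kx + 1) * hT'
        have f2 : ((S : ℝ) - rx) * (ky + 1) + (S - ry) * ky + (S - rz) * (ky + 1) = 28 * y := by
          linear_combination ey' - (ky + 1) * hT'
        have f3 : ((S : ℝ) - rx) * (kz + 1) + (S - ry) * (kz + 1) + (S - rz) * kz = 28 * z := by
          linear_combination ez' - (kz + 1) * hT'
        rw [f1, f2, f3, F6_smul hF (by norm_num) hx0 hy0 hz0] at k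
        simp only [cx, cy, cz, Nat.cast_add, Nat.cast_one]
        linarith only [k]
      · -- `t = S`
        have h2' : t = S := Nat.eq_of_beq_eq_true h2
        have hK : kx + ky + kz = 27 := by
          by_contra hne
          rcases lt_or_gt_of_ne hne with h | h
          · have : S * (kx + ky + kz) ≤ S * 26 := Nat.mul_le_mul_left _ (by omega)
            (clear * - hpos ex ey ez et h2' this; omega)
          · have : S * 28 ≤ S * (kx + ky + kz) := Nat.mul_le_mul_left _ (by omega)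
            (clear * - hpos ex ey ez et h2' this; omega)
        simp only [cond_false, cond_true]
        have a1 := (snd_tm (r := rx) (x := kx + 1) (y := ky) (z := kz) (by omega)).add
          ((snd_tm (r := ry) (x := kx) (y := ky + 1) (z := kz) (by omega)).add
          (snd_tm (r := rz) (x := kx) (y := ky) (z := kz + 1) (by omega)))
        rw [show 29 * (kx + 1) + ky = 29 * kx + ky + 29 by (clear * -; omega)] at a1
        rw [← ht, h2'] at a1
        refine a1.mono fun F hF => ?_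
        have gx : (0 : ℝ) ≤ rx := Nat.cast_nonneg _
        have gy : (0 : ℝ) ≤ ry := Nat.cast_nonneg _
        have gz : (0 : ℝ) ≤ rz := Nat.cast_nonneg _
        have hT' : (rx : ℝ) + (ry + rz) = S := by exact_mod_cast h2'
        have k := F6_three hF gx gy gz (by linarith only [] : (0 : ℝ) ≤ (kx : ℝ) + 1) hky0 hkz0 hkx0
          (by linarith only [] : (0 : ℝ) ≤ (ky : ℝ) + 1) hkz0 hkx0 hky0
          (by linarith only [] : (0 : ℝ) ≤ (kz : ℝ) + 1)
        have f1 : (rx : ℝ) * (kx + 1) + ry * kx + rz * kx = 28 * x := by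
          linear_combination ex' + kx * hT'
        have f2 : (rx : ℝ) * ky + ry * (ky + 1) + rz * ky = 28 * y := by
          linear_combination ey' + ky * hT'
        have f3 : (rx : ℝ) * kz + ry * kz + rz * (kz + 1) = 28 * z := by
          linear_combination ez' + kz * hT'
        rw [f1, f2, f3, F6_smul hF (by norm_num) hx0 hy0 hz0] at k
        simp only [Nat.cast_add, Nat.cast_one]
        linarith only [k]
    · -- `t = 0`
      have h1' : t = 0 := Nat.eq_of_beq_eq_true h1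
      have hK : kx + ky + kz = 28 := by
        rw [h1', add_zero] at et
        exact Nat.eq_of_mul_eq_mul_left hpos et
      simp only [cond_true]
      refine (snd_tm hK).mono fun F hF => ?_
      have r1 : rx = 0 := by (clear * - ex ey ez et h1'; omega)
      have r2 : ry = 0 := by (clear * - ex ey ez et h1' r1; omega)
      have r3 : rz = 0 := by (clear * - ex ey ez et h1' r1 r2; omega)
      rw [r1, Nat.cast_zero, add_zero] at ex'
      rw [r2, Nat.cast_zero, add_zero] at ey'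
      rw [r3, Nat.cast_zero, add_zero] at ez'
      rw [← F6_smul hF (Nat.cast_nonneg S) hkx0 hky0 hkz0, ex', ey', ez',
        F6_smul hF (by norm_num) hx0 hy0 hz0]

theorem snd_six (a b c x y z : ℕ) :
    Snd (six a b c x y z) (2 * ((a + b + c) * (x + y + z)))
      (fun F => 28 * Q F a b c x y z) := by
  have h := (snd_splt (a * x) (b * y) (c * z)).add ((snd_splt (a * x) (b * z) (c * y)).add
    ((snd_splt (a * y) (b * x) (c * z)).add ((snd_splt (a * y) (b * z) (c * x)).add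
    ((snd_splt (a * z) (b * x) (c * y)).add (snd_splt (a * z) (b * y) (c * x))))))
  have e : a * x + b * y + c * z + (a * x + b * z + c * y + (a * y + b * x + c * z +
      (a * y + b * z + c * x + (a * z + b * x + c * y + (a * z + b * y + c * x)))))
      = 2 * ((a + b + c) * (x + y + z)) := by ring
  rw [e] at h
  refine Snd.mono h fun F _ => le_of_eq ?_
  rw [Q_eq]
  push_cast
  ring

/-! ### Sums over pairs of lists -/

/-- weighted sum over two lists -/
noncomputable def zs (f : ℕ × ℕ → ℝ) : List ℕ → List (ℕ × ℕ) → ℝ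
  | m :: ms, o :: os => m * f o + zs f ms os
  | _, _ => 0

/-- sum of the weights -/
def zn : List ℕ → List (ℕ × ℕ) → ℕ
  | m :: ms, _ :: os => m + zn ms os
  | _, _ => 0

theorem zs_nil_left (f : ℕ × ℕ → ℝ) (os : List (ℕ × ℕ)) : zs f [] os = 0 := by
  cases os <;> rfl

theorem zs_nil_right (f : ℕ × ℕ → ℝ) (ms : List ℕ) : zs f ms [] = 0 := by
  cases ms <;> rfl

theorem zn_eq : ∀ (ms : List ℕ) (os : List (ℕ × ℕ)), ms.length = os.length → zn ms os = lsum ms
  | [], [], _ => rfl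
  | m :: ms, _ :: os, h => by
    change m + zn ms os = m + lsum ms
    rw [zn_eq ms os (by simpa using h)]

theorem zs_add (f g : ℕ × ℕ → ℝ) : ∀ (ms : List ℕ) (os : List (ℕ × ℕ)),
    zs (fun o => f o + g o) ms os = zs f ms os + zs g ms os
  | [], os => by simp only [zs_nil_left, add_zero]
  | m :: ms, [] => by simp only [zs_nil_right, add_zero]
  | m :: ms, o :: os => by
    change m * (f o + g o) + zs (fun o => f o + g o) ms os = m * f o + zs f ms os + (m * g o + zs g ms os)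
    rw [zs_add f g ms os]
    ring

theorem zs_mul (a : ℝ) (f : ℕ × ℕ → ℝ) : ∀ (ms : List ℕ) (os : List (ℕ × ℕ)),
    zs (fun o => a * f o) ms os = a * zs f ms os
  | [], os => by simp only [zs_nil_left, mul_zero]
  | m :: ms, [] => by simp only [zs_nil_right, mul_zero]
  | m :: ms, o :: os => by
    change m * (a * f o) + zs (fun o => a * f o) ms os = a * (m * f o + zs f ms os)
    rw [zs_mul a f ms os]
    ring

theorem zs_congr (f g : ℕ × ℕ → ℝ) : ∀ (ms : List ℕ) (os : List (ℕ × ℕ)),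
    (∀ o ∈ os, f o = g o) → zs f ms os = zs g ms os
  | [], os, _ => by simp only [zs_nil_left]
  | m :: ms, [], _ => by simp only [zs_nil_right]
  | m :: ms, o :: os, h => by
    change m * f o + zs f ms os = m * g o + zs g ms os
    rw [zs_congr f g ms os (fun o' ho' => h o' (List.mem_cons_of_mem _ ho')), h o List.mem_cons_self]

theorem zs_le (f g : ℕ × ℕ → ℝ) : ∀ (ms : List ℕ) (os : List (ℕ × ℕ)),
    (∀ o ∈ os, f o ≤ g o) → zs f ms os ≤ zs g ms os
  | [], os, _ => by simp only [zs_nil_left]; exact le_rfl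
  | m :: ms, [], _ => by simp only [zs_nil_right]; exact le_rfl
  | m :: ms, o :: os, h => by
    change m * f o + zs f ms os ≤ m * g o + zs g ms os
    have h1 := zs_le f g ms os (fun o' ho' => h o' (List.mem_cons_of_mem _ ho'))
    have h2 := mul_le_mul_of_nonneg_left (h o List.mem_cons_self) (Nat.cast_nonneg (α := ℝ) m)
    linarith

theorem zs_sum {I : Type} (s : Finset I) (f : I → ℕ × ℕ → ℝ) (ms : List ℕ)
    (os : List (ℕ × ℕ)) : zs (fun o => ∑ a ∈ s, f a o) ms os = ∑ a ∈ s, zs (f a) ms os := by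
  classical
  induction s using Finset.induction_on with
  | empty =>
    simp only [Finset.sum_empty]
    have h := zs_mul 0 (fun _ => 0) ms os
    simp only [zero_mul] at h
    exact h
  | insert a s ha ih =>
    simp only [Finset.sum_insert ha]
    rw [zs_add, ih]

theorem snd_row {g : ℕ → ℕ → ℕ → ℕ → ℕ} {T : ℕ} {QQ : ((Fin 3 → ℝ) → ℝ) → ℕ × ℕ → ℕ × ℕ → ℝ}
    (P : ℕ × ℕ → Prop)
    (hg : ∀ o o', P o → P o' → Snd (g o.1 o.2 o'.1 o'.2) T (fun F => 28 * QQ F o o'))
    (o : ℕ × ℕ) (ho : P o) : ∀ (ms : List ℕ) (os : List (ℕ × ℕ)), (∀ o ∈ os, P o) →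
    Snd (row g o.1 o.2 ms os) (zn ms os * T) (fun F => 28 * zs (QQ F o) ms os)
  | [], os, _ => by
    have e : zn [] os = 0 := by cases os <;> rfl
    have e2 : row g o.1 o.2 [] os = 0 := by cases os <;> rfl
    rw [e, e2, zero_mul]
    exact Snd.zero.mono fun F _ => by rw [zs_nil_left]; simp
  | m :: ms, [], _ => by
    have e : zn (m :: ms) [] = 0 := rfl
    have e2 : row g o.1 o.2 (m :: ms) [] = 0 := rfl
    rw [e, e2, zero_mul]
    exact Snd.zero.mono fun F _ => by rw [zs_nil_right]; simp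
  | m :: ms, (y, z) :: os, h => by
    have h1 := snd_row P hg o ho ms os (fun o' ho' => h o' (List.mem_cons_of_mem _ ho'))
    have h2 := (hg o (y, z) ho (h _ List.mem_cons_self)).smul m
    have h3 := h2.add h1
    have e : m * T + zn ms os * T = zn (m :: ms) ((y, z) :: os) * T := by
      change _ = (m + zn ms os) * T
      ring
    rw [e] at h3
    refine Snd.mono h3 fun F _ => le_of_eq ?_
    change m * (28 * QQ F o (y, z)) + 28 * zs (QQ F o) ms os
      = 28 * (m * QQ F o (y, z) + zs (QQ F o) ms os)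
    ring

theorem snd_prd {g : ℕ → ℕ → ℕ → ℕ → ℕ} {T : ℕ} {QQ : ((Fin 3 → ℝ) → ℝ) → ℕ × ℕ → ℕ × ℕ → ℝ}
    (P : ℕ × ℕ → Prop)
    (hg : ∀ o o', P o → P o' → Snd (g o.1 o.2 o'.1 o'.2) T (fun F => 28 * QQ F o o'))
    (hQ : ∀ F o o', QQ F o o' = QQ F o' o) :
    ∀ (ms : List ℕ) (os : List (ℕ × ℕ)), (∀ o ∈ os, P o) →
    Snd (prd g ms os) (zn ms os ^ 2 * T)
      (fun F => 28 * zs (fun o => zs (QQ F o) ms os) ms os)
  | [], os, _ => by
    have e : zn [] os = 0 := by cases os <;> rfl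
    have e2 : prd g [] os = 0 := by cases os <;> rfl
    rw [e, e2]
    simp only [ne_eq, OfNat.ofNat_ne_zero, not_false_eq_true, zero_pow, zero_mul]
    exact Snd.zero.mono fun F _ => by rw [zs_nil_left]; simp
  | m :: ms, [], _ => by
    have e : zn (m :: ms) [] = 0 := rfl
    have e2 : prd g (m :: ms) [] = 0 := rfl
    rw [e, e2]
    simp only [ne_eq, OfNat.ofNat_ne_zero, not_false_eq_true, zero_pow, zero_mul]
    exact Snd.zero.mono fun F _ => by rw [zs_nil_right]; simp
  | m :: ms, (b, c) :: os, h => by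
    have hP : ∀ o ∈ os, P o := fun o' ho' => h o' (List.mem_cons_of_mem _ ho')
    have h0 : P (b, c) := h _ List.mem_cons_self
    have h1 := snd_prd P hg hQ ms os hP
    have h2 := (((hg (b, c) (b, c) h0 h0).smul m).add
      ((snd_row P hg (b, c) h0 ms os hP).smul 2)).smul m
    have h3 := h2.add h1
    have e : m * (m * T + 2 * (zn ms os * T)) + zn ms os ^ 2 * T
        = zn (m :: ms) ((b, c) :: os) ^ 2 * T := by
      change _ = (m + zn ms os) ^ 2 * T
      ring
    rw [e] at h3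
    refine Snd.mono h3 fun F _ => le_of_eq ?_
    have e3 : zs (fun o => zs (QQ F o) (m :: ms) ((b, c) :: os)) (m :: ms) ((b, c) :: os)
        = m * (m * QQ F (b, c) (b, c) + zs (QQ F (b, c)) ms os)
          + zs (fun o => m * QQ F o (b, c) + zs (QQ F o) ms os) ms os := rfl
    rw [e3, zs_add, zs_mul]
    have e4 : zs (fun o => QQ F o (b, c)) ms os = zs (QQ F (b, c)) ms os :=
      zs_congr _ _ ms os fun o _ => hQ F o (b, c)
    rw [e4]
    push_cast
    ring

/-! ### The two halves of a step -/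

/-- the product of two messages -/
theorem snd_g1 {b c y z : ℕ} (h : b + c ≤ 28) (h' : y + z ≤ 28) :
    Snd (g1 b c y z) 6272
      (fun F => 28 * Q F ((28 - (28 - (b + c)) : ℕ) : ℝ) ((28 - b : ℕ) : ℝ) ((28 - c : ℕ) : ℝ)
        ((28 - (28 - (y + z)) : ℕ) : ℝ) ((28 - y : ℕ) : ℝ) ((28 - z : ℕ) : ℝ)) := by
  have h1 := snd_six (b + c) (28 - b) (28 - c) (y + z) (28 - y) (28 - z)
  have e1 : 28 - (28 - (b + c)) = b + c := by omega
  have e2 : 28 - (28 - (y + z)) = y + z := by omega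
  have e3 : b + c + (28 - b) + (28 - c) = 56 := by omega
  have e4 : y + z + (28 - y) + (28 - z) = 56 := by omega
  rw [e3, e4] at h1
  rw [e1, e2]
  exact h1

theorem snd_g2 {b c y z : ℕ} (h : b + c ≤ 28) (h' : y + z ≤ 28) :
    Snd (g2 b c y z) 1568
      (fun F => 28 * Q F ((28 - (b + c) : ℕ) : ℝ) (b : ℝ) (c : ℝ)
        ((28 - (y + z) : ℕ) : ℝ) (y : ℝ) (z : ℝ)) := by
  have h1 := snd_six (28 - (b + c)) b c (28 - (y + z)) y z
  have e3 : 28 - (b + c) + b + c = 28 := by omega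
  have e4 : 28 - (y + z) + y + z = 28 := by omega
  rw [e3, e4] at h1
  exact h1

/-- double value -/
noncomputable def Q1 (F : (Fin 3 → ℝ) → ℝ) (o o' : ℕ × ℕ) : ℝ :=
  Q F ((28 - (28 - (o.1 + o.2)) : ℕ) : ℝ) ((28 - o.1 : ℕ) : ℝ) ((28 - o.2 : ℕ) : ℝ)
        ((28 - (28 - (o'.1 + o'.2)) : ℕ) : ℝ) ((28 - o'.1 : ℕ) : ℝ) ((28 - o'.2 : ℕ) : ℝ)

noncomputable def Q2 (F : (Fin 3 → ℝ) → ℝ) (o o' : ℕ × ℕ) : ℝ :=
  Q F ((28 - (o.1 + o.2) : ℕ) : ℝ) (o.1 : ℝ) (o.2 : ℝ)
        ((28 - (o'.1 + o'.2) : ℕ) : ℝ) (o'.1 : ℝ) (o'.2 : ℝ)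

theorem snd_prd1 (ms : List ℕ) (os : List (ℕ × ℕ)) (h : ∀ o ∈ os, o.1 + o.2 ≤ 28) :
    Snd (prd g1 ms os) (zn ms os ^ 2 * 6272)
      (fun F => 28 * zs (fun o => zs (Q1 F o) ms os) ms os) :=
  snd_prd (fun o => o.1 + o.2 ≤ 28) (fun _ _ ho ho' => snd_g1 ho ho')
    (fun F _ _ => Q_symm F _ _ _ _ _ _) ms os h

theorem snd_prd2 (ms : List ℕ) (os : List (ℕ × ℕ)) (h : ∀ o ∈ os, o.1 + o.2 ≤ 28) :
    Snd (prd g2 ms os) (zn ms os ^ 2 * 1568)
      (fun F => 28 * zs (fun o => zs (Q2 F o) ms os) ms os) :=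
  snd_prd (fun o => o.1 + o.2 ≤ 28) (fun _ _ ho ho' => snd_g2 ho ho')
    (fun F _ _ => Q_symm F _ _ _ _ _ _) ms os h

/-! ### Unpacking -/

/-- table of a function -/
def tab : ℕ → (ℕ → ℕ) → List ℕ
  | 0, _ => []
  | n + 1, h => h 0 :: tab n (fun k => h (k + 1))

theorem tab_length : ∀ (n : ℕ) (h : ℕ → ℕ), (tab n h).length = n
  | 0, _ => rfl
  | n + 1, h => by
    change (tab n fun k => h (k + 1)).length + 1 = n + 1
    rw [tab_length]

theorem lsum_tab : ∀ (n : ℕ) (h : ℕ → ℕ), lsum (tab n h) = ∑ k ∈ Finset.range n, h k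
  | 0, _ => by simp [tab, lsum]
  | n + 1, h => by
    change h 0 + lsum (tab n fun k => h (k + 1)) = _
    rw [lsum_tab, Finset.sum_range_succ', add_comm]

theorem zs_tab (f : ℕ × ℕ → ℝ) : ∀ (n : ℕ) (h : ℕ → ℕ) (os : List (ℕ × ℕ)), os.length = n →
    zs f (tab n h) os = ∑ k ∈ Finset.range n, (h k : ℝ) * f (os.getD k (0, 0))
  | 0, _, os, _ => by
    change zs f [] os = _
    rw [zs_nil_left]
    simp only [Finset.range_zero, List.getD_eq_getElem?_getD, Finset.sum_empty]
  | n + 1, h, o :: os, ho => by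
    change (h 0 : ℝ) * f o + zs f (tab n fun k => h (k + 1)) os = _
    rw [zs_tab f n (fun k => h (k + 1)) os (by simpa using ho), Finset.sum_range_succ', add_comm]
    simp only [List.getD_eq_getElem?_getD, List.getElem?_cons_succ, List.length_cons,
      lt_add_iff_pos_left, Order.lt_add_one_iff, zero_le, getElem?_pos, List.getElem_cons_zero,
      Option.getD_some]

theorem unpack_eq (den : ℕ) : ∀ (n : ℕ) (c : ℕ → ℕ), (∀ k < n, c k < 2 ^ 56) →
    unpack den n (∑ k ∈ Finset.range n, c k * (2 ^ 56) ^ k) = tab n (fun k => c k / den)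
  | 0, _, _ => rfl
  | n + 1, c, h => by
    have e : ∑ k ∈ Finset.range (n + 1), c k * (2 ^ 56) ^ k
        = c 0 + 2 ^ 56 * ∑ k ∈ Finset.range n, c (k + 1) * (2 ^ 56) ^ k := by
      rw [Finset.sum_range_succ', Finset.mul_sum, add_comm]
      congr 1
      · ring
      · refine Finset.sum_congr rfl fun k _ => ?_
        rw [pow_succ]
        ring
    set Z' := ∑ k ∈ Finset.range n, c (k + 1) * (2 ^ 56) ^ k with hZ'
    have h0 : c 0 < 2 ^ 56 := h 0 (by omega)
    change ((∑ k ∈ Finset.range (n + 1), c k * (2 ^ 56) ^ k) % 2 ^ 56) / den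
      :: unpack den n ((∑ k ∈ Finset.range (n + 1), c k * (2 ^ 56) ^ k) >>> 56)
      = c 0 / den :: tab n (fun k => c (k + 1) / den)
    rw [e, Nat.add_mul_mod_self_left, Nat.mod_eq_of_lt h0, Nat.shiftRight_eq_div_pow,
      Nat.add_mul_div_left _ _ (by positivity), Nat.div_eq_of_lt h0, zero_add, hZ',
      unpack_eq den n (fun k => c (k + 1)) (fun k hk => h (k + 1) (by omega))]

/-- the vertex has the smallest value -/
theorem G6_vertex_le {F : (Fin 3 → ℝ) → ℝ} (hF : SupLin F) {o : ℕ × ℕ} (ho : o.1 + o.2 ≤ 28) :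
    G6 F (0, 0) ≤ G6 F o := by
  obtain ⟨b, c⟩ := o
  simp only at ho
  unfold G6
  simp only [add_zero, Nat.sub_zero, Nat.cast_zero]
  have h1 : ((28 - (b + c) : ℕ) : ℝ) = 28 - (b + c) := by
    rw [Nat.cast_sub ho]
    push_cast
    ring
  have ha : (0 : ℝ) ≤ 28 - (b + c) := by rw [← h1]; exact Nat.cast_nonneg _
  have hb : (0 : ℝ) ≤ b := Nat.cast_nonneg _
  have hc : (0 : ℝ) ≤ c := Nat.cast_nonneg _
  rw [h1]
  have k := F6_three hF (r := (28 - (b + c)) / 28) (s := b / 28) (t := c / 28)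
    (a := 28) (b := 0) (c := 0) (a' := 0) (b' := 28) (c' := 0) (a'' := 0) (b'' := 0) (c'' := 28)
    (div_nonneg ha (by norm_num)) (div_nonneg hb (by norm_num)) (div_nonneg hc (by norm_num))
    (by norm_num) le_rfl le_rfl le_rfl (by norm_num) le_rfl le_rfl le_rfl (by norm_num)
  have e1 : F6 F 0 28 0 = F6 F 28 0 0 := by unfold F6; ring
  have e2 : F6 F 0 0 28 = F6 F 28 0 0 := by unfold F6; ring
  rw [e1, e2] at k
  have f1 : (28 - ((b : ℝ) + c)) / 28 * 28 + b / 28 * 0 + c / 28 * 0 = 28 - (b + c) := by ring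
  have f2 : (28 - ((b : ℝ) + c)) / 28 * 0 + b / 28 * 28 + c / 28 * 0 = b := by ring
  have f3 : (28 - ((b : ℝ) + c)) / 28 * 0 + b / 28 * 0 + c / 28 * 28 = c := by ring
  rw [f1, f2, f3] at k
  have f4 : (28 - ((b : ℝ) + c)) / 28 * F6 F ((28 : ℕ) : ℝ) 0 0 + b / 28 * F6 F ((28 : ℕ) : ℝ) 0 0
      + c / 28 * F6 F ((28 : ℕ) : ℝ) 0 0 = F6 F ((28 : ℕ) : ℝ) 0 0 := by ring
  rw [← f4]
  push_cast
  exact k

theorem orbs_ok : orbs.length = 80 ∧ ∀ o ∈ orbs, o.1 + o.2 ≤ 28 := by
  decide +kernel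

theorem ob_ok : ∀ k < 80, (ob k).1 + (ob k).2 ≤ 28 := by
  decide +kernel

/-- a valid mass list -/
structure OK (m : List ℕ) : Prop where
  len : m.length = 80
  sum : lsum m = 1048576

theorem OK.zn_eq {m : List ℕ} (h : OK m) : zn m orbs = 1048576 := by
  rw [DE.zn_eq m orbs (by rw [h.len, orbs_ok.1]), h.sum]

theorem half_sound {Z den : ℕ} {B : ((Fin 3 → ℝ) → ℝ) → ℝ} (hden : 0 < den)
    (hs : 1048576 * den < 2 ^ 56) (h : Snd Z (1048576 * den) B) :
    OK (fixl (unpack den 80 Z)) ∧ ∀ F : (Fin 3 → ℝ) → ℝ, SupLin F →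
      den * zs (G6 F) (fixl (unpack den 80 Z)) orbs ≤ B F := by
  obtain ⟨c, h1, h2, h3⟩ := h
  have hc : ∀ k < 80, c k < 2 ^ 56 := by
    intro k hk
    have : c k ≤ ∑ k ∈ Finset.range 80, c k :=
      Finset.single_le_sum (f := c) (fun _ _ => Nat.zero_le _) (Finset.mem_range.2 hk)
    omega
  have e1 : unpack den 80 Z = tab 80 (fun k => c k / den) := by
    rw [h1]
    exact unpack_eq den 80 c hc
  have e2 : fixl (unpack den 80 Z)
      = (1048576 - lsum (tab 79 fun k => c (k + 1) / den)) :: tab 79 fun k => c (k + 1) / den := by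
    rw [e1]
    rfl
  have hsum : ∑ k ∈ Finset.range 80, c k = (∑ k ∈ Finset.range 79, c (k + 1)) + c 0 :=
    Finset.sum_range_succ' c 79
  have hle : lsum (tab 79 fun k => c (k + 1) / den) ≤ 1048576 := by
    rw [lsum_tab]
    have h4 : (∑ k ∈ Finset.range 79, c (k + 1) / den) * den ≤ ∑ k ∈ Finset.range 79, c (k + 1) := by
      rw [Finset.sum_mul]
      exact Finset.sum_le_sum fun k _ => Nat.div_mul_le_self _ _
    have h5 : (∑ k ∈ Finset.range 79, c (k + 1) / den) * den ≤ 1048576 * den := by omega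
    exact Nat.le_of_mul_le_mul_right h5 hden
  refine ⟨⟨?_, ?_⟩, fun F hF => ?_⟩
  · rw [e2, List.length_cons, tab_length]
  · rw [e2]
    change 1048576 - lsum (tab 79 fun k => c (k + 1) / den)
      + lsum (tab 79 fun k => c (k + 1) / den) = 1048576
    omega
  · refine le_trans ?_ (h3 F hF)
    set m : ℕ → ℕ := fun k => c (k + 1) / den with hm
    have e3 : fixl (unpack den 80 Z) = tab 80 (fun k => if k = 0 then 1048576 - lsum (tab 79 m)
        else m (k - 1)) := by
      rw [e2]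
      rfl
    rw [e3, zs_tab (G6 F) 80 _ orbs orbs_ok.1, Finset.sum_range_succ',
      Finset.sum_range_succ' (fun k => (c k : ℝ) * G6 F (ob k))]
    simp only [Nat.add_eq_zero_iff, one_ne_zero, and_false, if_false, Nat.add_sub_cancel, if_true]
    rw [mul_add, Finset.mul_sum]
    change ∑ k ∈ Finset.range 79, (den : ℝ) * ((m k : ℝ) * G6 F (ob (k + 1)))
      + den * (((1048576 - lsum (tab 79 m) : ℕ) : ℝ) * G6 F (0, 0))
      ≤ ∑ k ∈ Finset.range 79, (c (k + 1) : ℝ) * G6 F (ob (k + 1)) + (c 0 : ℝ) * G6 F (0, 0)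
    -- residuals
    have hr : ∀ k, (c (k + 1) : ℝ) = den * m k + ((c (k + 1) % den : ℕ) : ℝ) := by
      intro k
      have := Nat.div_add_mod (c (k + 1)) den
      rw [hm]
      exact_mod_cast this.symm
    have h6 : ∀ k ∈ Finset.range 79, (den : ℝ) * ((m k : ℝ) * G6 F (ob (k + 1)))
        + ((c (k + 1) % den : ℕ) : ℝ) * G6 F (0, 0) ≤ (c (k + 1) : ℝ) * G6 F (ob (k + 1)) := by
      intro k hk
      have h7 := G6_vertex_le hF (ob_ok (k + 1) (by have := Finset.mem_range.1 hk; omega))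
      have h8 := mul_le_mul_of_nonneg_left h7 (Nat.cast_nonneg (α := ℝ) (c (k + 1) % den))
      have h9 := hr k
      calc (den : ℝ) * ((m k : ℝ) * G6 F (ob (k + 1)))
            + ((c (k + 1) % den : ℕ) : ℝ) * G6 F (0, 0)
          ≤ (den : ℝ) * ((m k : ℝ) * G6 F (ob (k + 1)))
            + ((c (k + 1) % den : ℕ) : ℝ) * G6 F (ob (k + 1)) := by linarith only [h8]
        _ = (c (k + 1) : ℝ) * G6 F (ob (k + 1)) := by rw [h9]; ring
    have h10 := Finset.sum_le_sum h6
    rw [Finset.sum_add_distrib, ← Finset.sum_mul] at h10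
    have h11 : (den : ℝ) * ((1048576 - lsum (tab 79 m) : ℕ) : ℝ)
        = (∑ k ∈ Finset.range 79, ((c (k + 1) % den : ℕ) : ℝ)) + c 0 := by
      rw [Nat.cast_sub hle, lsum_tab]
      have h12 : ((∑ k ∈ Finset.range 80, c k : ℕ) : ℝ) = ((1048576 * den : ℕ) : ℝ) := by
        exact_mod_cast h2
      rw [hsum] at h12
      push_cast at h12 ⊢
      have h13 : ∑ k ∈ Finset.range 79, (c (k + 1) : ℝ)
          = den * ∑ k ∈ Finset.range 79, (m k : ℝ)
            + ∑ k ∈ Finset.range 79, ((c (k + 1) % den : ℕ) : ℝ) := by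
        rw [Finset.mul_sum, ← Finset.sum_add_distrib]
        exact Finset.sum_congr rfl fun k _ => hr k
      rw [h13] at h12
      linarith only [h12]
    have h14 : (den : ℝ) * (((1048576 - lsum (tab 79 m) : ℕ) : ℝ) * G6 F (0, 0))
        = (∑ k ∈ Finset.range 79, ((c (k + 1) % den : ℕ) : ℝ)) * G6 F (0, 0)
          + c 0 * G6 F (0, 0) := by
      rw [← mul_assoc, h11]
      ring
    rw [h14]
    linarith only [h10]

/-! ### Domination and products -/

theorem F6_sum {I : Type} (s : Finset I) (f : I → (Fin 3 → ℝ) → ℝ) (a b c : ℝ) :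
    F6 (fun v => ∑ i ∈ s, f i v) a b c = ∑ i ∈ s, F6 (f i) a b c := by
  unfold F6 W
  simp only [Finset.sum_add_distrib]

theorem F6_mul (r : ℝ) (f : (Fin 3 → ℝ) → ℝ) (a b c : ℝ) :
    F6 (fun v => r * f v) a b c = r * F6 f a b c := by
  unfold F6 W
  ring

theorem zs_F6_comm (f : (Fin 3 → ℝ) → ℕ × ℕ → ℝ) (ms : List ℕ)
    (os : List (ℕ × ℕ)) (a b c : ℝ) :
    zs (fun o' => F6 (fun u => f u o') a b c) ms os = F6 (fun u => zs (f u) ms os) a b c := by
  unfold F6 W
  simp only [zs_add]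

/-- If a weighted symmetric family is dominated by `A` times the family `m`, the family of
products is dominated by `A ^ 2` times the family of products. -/
theorem pair_le {I : Type} [Fintype I] (m : I → Fin 3 → ℝ) (hm : ∀ a i, 0 ≤ m a i)
    (px py pz : ℕ × ℕ → ℝ) (hx : ∀ o, 0 ≤ px o) (hy : ∀ o, 0 ≤ py o) (hz : ∀ o, 0 ≤ pz o)
    (ms : List ℕ) (os : List (ℕ × ℕ)) {A : ℝ} (hA : 0 ≤ A)
    (h : ∀ F : (Fin 3 → ℝ) → ℝ, SupLin F →
      zs (fun o => F6 F (px o) (py o) (pz o)) ms os ≤ A * ∑ a, F (m a))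
    (F : (Fin 3 → ℝ) → ℝ) (hF : SupLin F) :
    zs (fun o => zs (fun o' => Q F (px o) (py o) (pz o) (px o') (py o') (pz o')) ms os) ms os
      ≤ A ^ 2 * ∑ p : I × I, F (fun i => m p.1 i * m p.2 i) := by
  have h1 : ∀ o, zs (fun o' => Q F (px o) (py o) (pz o) (px o') (py o') (pz o')) ms os
      ≤ A * ∑ a, F6 (fun u => F (fun i => u i * m a i)) (px o) (py o) (pz o) := by
    intro o
    have e1 : zs (fun o' => Q F (px o) (py o) (pz o) (px o') (py o') (pz o')) ms os
        = F6 (fun u => zs (fun o' => F6 (fun v => F (fun i => u i * v i)) (px o') (py o') (pz o'))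
          ms os) (px o) (py o) (pz o) :=
      zs_F6_comm (fun u o' => F6 (fun v => F (fun i => u i * v i)) (px o') (py o') (pz o'))
        ms os _ _ _
    rw [e1, ← F6_sum, ← F6_mul]
    refine F6_mono (fun u hu => ?_) (hx o) (hy o) (hz o)
    exact h _ (hF.comp_mul u hu)
  refine (zs_le _ _ ms os fun o _ => h1 o).trans ?_
  rw [zs_mul, sq, mul_assoc]
  refine mul_le_mul_of_nonneg_left ?_ hA
  rw [zs_sum, Fintype.sum_prod_type, Finset.sum_comm, Finset.mul_sum]
  refine Finset.sum_le_sum fun a _ => ?_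
  have h2 := h (fun v => F (fun i => v i * m a i)) (by
    have := hF.comp_mul (m a) (hm a)
    have e : (fun v : Fin 3 → ℝ => F (fun i => m a i * v i)) = fun v => F (fun i => v i * m a i) := by
      funext v
      congr 1
      funext i
      ring
    rw [e] at this
    exact this)
  exact h2

theorem step_zn {m : List ℕ} (h : OK m) (T : ℕ) : zn m orbs ^ 2 * T = 1048576 * (1048576 * T) := by
  rw [h.zn_eq]
  ring

/-- first half: the product of two messages -/
theorem half1_sound {I : Type} [Fintype I] (v : I → Fin 3 → ℝ) (hv : ∀ a i, 0 ≤ v a i)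
    {m : List ℕ} (hm : OK m)
    (h : ∀ F : (Fin 3 → ℝ) → ℝ, SupLin F → zs (G6 F) m orbs ≤ 58720256 * ∑ a, F (v a)) :
    OK (half1 m) ∧ ∀ F : (Fin 3 → ℝ) → ℝ, SupLin F →
      zs (G6 F) (half1 m) orbs
        ≤ 58720256 * ∑ p : I × I, F (fun i => pl (-1 / 2) (v p.1) i * pl (-1 / 2) (v p.2) i) := by
  have hp : ∀ i j : Fin 3, 0 ≤ potts 3 (-1 / 2) i j := potts3_half_nonneg
  have h1 := snd_prd1 m orbs orbs_ok.2
  rw [step_zn hm] at h1
  have h2 := half_sound (Z := prd g1 m orbs) (den := 6576668672) (by norm_num) (by norm_num)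
    (by
      have e : 1048576 * (1048576 * 6272) = 1048576 * 6576668672 := by norm_num
      rw [e] at h1
      exact h1)
  refine ⟨h2.1, fun F hF => ?_⟩
  have h3 := h2.2 F hF
  change (((6576668672 : ℕ) : ℝ)) * zs (G6 F) (half1 m) orbs ≤ _ at h3
  -- messages
  have h4 : ∀ G : (Fin 3 → ℝ) → ℝ, SupLin G →
      zs (fun o => F6 G ((28 - (28 - (o.1 + o.2)) : ℕ) : ℝ) ((28 - o.1 : ℕ) : ℝ)
        ((28 - o.2 : ℕ) : ℝ)) m orbs ≤ 117440512 * ∑ a, G (fun i => pl (-1 / 2) (v a) i) := by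
    intro G hG
    have h5 := h _ (hG.comp_pl hp)
    have e : zs (fun o => F6 G ((28 - (28 - (o.1 + o.2)) : ℕ) : ℝ) ((28 - o.1 : ℕ) : ℝ)
        ((28 - o.2 : ℕ) : ℝ)) m orbs = 2 * zs (G6 (fun v => G (pl (-1 / 2) v))) m orbs := by
      rw [← zs_mul]
      refine zs_congr _ _ m orbs fun o ho => ?_
      have hoo := orbs_ok.2 o ho
      have hb : o.1 ≤ 28 := by omega
      have hc : o.2 ≤ 28 := by omega
      have ea : 28 - (28 - (o.1 + o.2)) = o.1 + o.2 := by omega
      unfold G6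
      rw [ea]
      have cb : ((28 - o.1 : ℕ) : ℝ) = 28 - o.1 := by rw [Nat.cast_sub hb]; norm_num
      have cc : ((28 - o.2 : ℕ) : ℝ) = 28 - o.2 := by rw [Nat.cast_sub hc]; norm_num
      have ca : ((28 - (o.1 + o.2) : ℕ) : ℝ) = 28 - (o.1 + o.2) := by
        rw [Nat.cast_sub hoo]; push_cast; ring
      rw [cb, cc, ca]
      push_cast
      set b : ℝ := (o.1 : ℝ)
      set c : ℝ := (o.2 : ℝ)
      have hb0 : 0 ≤ b := Nat.cast_nonneg _
      have hc0 : 0 ≤ c := Nat.cast_nonneg _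
      have hbc : b + c ≤ 28 := by
        have h7 : ((o.1 + o.2 : ℕ) : ℝ) ≤ ((28 : ℕ) : ℝ) := Nat.cast_le.2 hoo
        push_cast at h7
        exact h7
      have key : ∀ x y z : ℝ, x + y + z = 28 → 0 ≤ x → 0 ≤ y → 0 ≤ z →
          W G (28 - x) (28 - y) (28 - z) = 2 * W (fun v => G (pl (-1 / 2) v)) x y z := by
        intro x y z hs hx hy hz
        unfold W
        have epl : pl (-1 / 2) (![x, y, z] : Fin 3 → ℝ)
            = ![1 / 2 * (28 - x), 1 / 2 * (28 - y), 1 / 2 * (28 - z)] := by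
          funext i
          unfold pl mean
          rw [Fin.sum_univ_three]
          fin_cases i
          · change -1 / 2 * x + (1 - -1 / 2) * ((x + y + z) / ((3 : ℕ) : ℝ)) = 1 / 2 * (28 - x)
            rw [hs]; push_cast; ring
          · change -1 / 2 * y + (1 - -1 / 2) * ((x + y + z) / ((3 : ℕ) : ℝ)) = 1 / 2 * (28 - y)
            rw [hs]; push_cast; ring
          · change -1 / 2 * z + (1 - -1 / 2) * ((x + y + z) / ((3 : ℕ) : ℝ)) = 1 / 2 * (28 - z)
            rw [hs]; push_cast; ring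
        change _ = 2 * G (pl (-1 / 2) ![x, y, z])
        rw [epl]
        have := W_smul hG (r := 1 / 2) (a := 28 - x) (b := 28 - y) (c := 28 - z) (by norm_num)
          (by linarith only [hs, hy, hz]) (by linarith only [hs, hx, hz]) (by linarith only [hs, hx, hy])
        unfold W at this
        rw [this]
        ring
      have ka : (b + c) = 28 - (28 - (b + c)) := by ring
      unfold F6
      rw [ka]
      set x : ℝ := 28 - (b + c) with hx
      have hx0 : 0 ≤ x := by rw [hx]; linarith only [hbc]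
      have hs : x + b + c = 28 := by rw [hx]; ring
      rw [key x b c hs hx0 hb0 hc0, key x c b (by linarith only []) hx0 hc0 hb0,
        key b x c (by linarith only []) hb0 hx0 hc0, key b c x (by linarith only []) hb0 hc0 hx0,
        key c x b (by linarith only []) hc0 hx0 hb0, key c b x (by linarith only []) hc0 hb0 hx0]
      ring_nf
    rw [e]
    linarith only [h5]
  have h6 := pair_le (fun a i => pl (-1 / 2) (v a) i)
    (fun a i => pl_nonneg (by norm_num) hp (v a) (hv a) i)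
    (fun o => ((28 - (28 - (o.1 + o.2)) : ℕ) : ℝ)) (fun o => ((28 - o.1 : ℕ) : ℝ))
    (fun o => ((28 - o.2 : ℕ) : ℝ)) (fun _ => Nat.cast_nonneg _) (fun _ => Nat.cast_nonneg _)
    (fun _ => Nat.cast_nonneg _) m orbs (by norm_num) h4 F hF
  have e7 : zs (fun o => zs (Q1 F o) m orbs) m orbs
      = zs (fun o => zs (fun o' => Q F ((28 - (28 - (o.1 + o.2)) : ℕ) : ℝ) ((28 - o.1 : ℕ) : ℝ)
        ((28 - o.2 : ℕ) : ℝ) ((28 - (28 - (o'.1 + o'.2)) : ℕ) : ℝ) ((28 - o'.1 : ℕ) : ℝ)
        ((28 - o'.2 : ℕ) : ℝ)) m orbs) m orbs := rfl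
  rw [e7] at h3
  rw [show (((6576668672 : ℕ) : ℝ)) = 6576668672 by norm_num] at h3
  linarith

/-- second half: the product of two such pairs -/
theorem half2_sound {I : Type} [Fintype I] (v : I → Fin 3 → ℝ) (hv : ∀ a i, 0 ≤ v a i)
    {m : List ℕ} (hm : OK m)
    (h : ∀ F : (Fin 3 → ℝ) → ℝ, SupLin F → zs (G6 F) m orbs ≤ 58720256 * ∑ a, F (v a)) :
    OK (half2 m) ∧ ∀ F : (Fin 3 → ℝ) → ℝ, SupLin F →
      zs (G6 F) (half2 m) orbs ≤ 58720256 * ∑ p : I × I, F (fun i => v p.1 i * v p.2 i) := by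
  have h1 := snd_prd2 m orbs orbs_ok.2
  rw [step_zn hm] at h1
  have h2 := half_sound (Z := prd g2 m orbs) (den := 1644167168) (by norm_num) (by norm_num)
    (by
      have e : 1048576 * (1048576 * 1568) = 1048576 * 1644167168 := by norm_num
      rw [e] at h1
      exact h1)
  refine ⟨h2.1, fun F hF => ?_⟩
  have h3 := h2.2 F hF
  change (((1644167168 : ℕ) : ℝ)) * zs (G6 F) (half2 m) orbs ≤ _ at h3
  have h6 := pair_le v hv
    (fun o => ((28 - (o.1 + o.2) : ℕ) : ℝ)) (fun o => (o.1 : ℝ))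
    (fun o => (o.2 : ℝ)) (fun _ => Nat.cast_nonneg _) (fun _ => Nat.cast_nonneg _)
    (fun _ => Nat.cast_nonneg _) m orbs (by norm_num) h F hF
  have e7 : zs (fun o => zs (Q2 F o) m orbs) m orbs
      = zs (fun o => zs (fun o' => Q F ((28 - (o.1 + o.2) : ℕ) : ℝ) (o.1 : ℝ)
        (o.2 : ℝ) ((28 - (o'.1 + o'.2) : ℕ) : ℝ) (o'.1 : ℝ)
        (o'.2 : ℝ)) m orbs) m orbs := rfl
  rw [e7] at h3
  rw [show (((1644167168 : ℕ) : ℝ)) = 1644167168 by norm_num] at h3
  linarith

/-! ### The levels of the tree -/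

/-- the mass list `m` is a degraded version of the law at level `n` -/
structure Dn (n : ℕ) (m : List ℕ) : Prop where
  ok : OK m
  dom : ∀ F : (Fin 3 → ℝ) → ℝ, SupLin F →
    zs (G6 F) m orbs ≤ 58720256 * tsm 3 (-1 / 2) F n (regT 4 n)

theorem tsm_succ_four (F : (Fin 3 → ℝ) → ℝ) (n : ℕ) :
    tsm 3 (-1 / 2) F (n + 1) (regT 4 (n + 1))
      = ∑ p : (Spins 3 n (regT 4 n) × Spins 3 n (regT 4 n))
          × (Spins 3 n (regT 4 n) × Spins 3 n (regT 4 n)),
        F (fun i => (pl (-1 / 2) (fun j => lik 3 (-1 / 2) n (regT 4 n) j p.1.1) i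
            * pl (-1 / 2) (fun j => lik 3 (-1 / 2) n (regT 4 n) j p.1.2) i)
          * (pl (-1 / 2) (fun j => lik 3 (-1 / 2) n (regT 4 n) j p.2.1) i
            * pl (-1 / 2) (fun j => lik 3 (-1 / 2) n (regT 4 n) j p.2.2) i)) := by
  have e1 : tsm 3 (-1 / 2) F (n + 1) (regT 4 (n + 1))
      = ∑ η : Fin 4 → Spins 3 n (regT 4 n),
        F (fun i => ∏ c, pl (-1 / 2) (fun j => lik 3 (-1 / 2) n (regT 4 n) j (η c)) i) := by
    change ∑ η : (Fin 4 → Spins 3 n (regT 4 n)),
      F (fun i => lik 3 (-1 / 2) (n + 1) ⟨4, fun _ => regT 4 n⟩ i η) = _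
    refine Finset.sum_congr rfl fun η _ => ?_
    congr 1
    funext i
    exact lik_succ_eq (by norm_num) n 4 (fun _ => regT 4 n) η i
  rw [e1]
  rw [← Equiv.sum_comp ({ toFun := fun η => ((η 0, η 1), (η 2, η 3))
                          invFun := fun p => ![p.1.1, p.1.2, p.2.1, p.2.2]
                          left_inv := fun η => by
                            funext c
                            fin_cases c <;> rfl
                          right_inv := fun p => rfl } :
    (Fin 4 → Spins 3 n (regT 4 n)) ≃ (Spins 3 n (regT 4 n) × Spins 3 n (regT 4 n))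
      × (Spins 3 n (regT 4 n) × Spins 3 n (regT 4 n)))]
  refine Finset.sum_congr rfl fun η _ => ?_
  congr 1
  funext i
  rw [Fin.prod_univ_four]
  change _ = (pl (-1 / 2) (fun j => lik 3 (-1 / 2) n (regT 4 n) j (η 0)) i
            * pl (-1 / 2) (fun j => lik 3 (-1 / 2) n (regT 4 n) j (η 1)) i)
          * (pl (-1 / 2) (fun j => lik 3 (-1 / 2) n (regT 4 n) j (η 2)) i
            * pl (-1 / 2) (fun j => lik 3 (-1 / 2) n (regT 4 n) j (η 3)) i)
  ring

theorem Dn.step {n : ℕ} {m : List ℕ} (h : Dn n m) : Dn (n + 1) (step m) := by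
  have hp : ∀ i j : Fin 3, 0 ≤ potts 3 (-1 / 2) i j := potts3_half_nonneg
  have h1 := half1_sound (fun (η : Spins 3 n (regT 4 n)) i => lik 3 (-1 / 2) n (regT 4 n) i η)
    (fun η i => lik_nonneg hp n (regT 4 n) i η) h.ok h.dom
  have h2 := half2_sound (fun (p : Spins 3 n (regT 4 n) × Spins 3 n (regT 4 n)) i =>
      pl (-1 / 2) (fun j => lik 3 (-1 / 2) n (regT 4 n) j p.1) i
        * pl (-1 / 2) (fun j => lik 3 (-1 / 2) n (regT 4 n) j p.2) i)
    (fun p i => mul_nonneg (pl_nonneg (by norm_num) hp _ (fun j => lik_nonneg hp n _ j _) i)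
      (pl_nonneg (by norm_num) hp _ (fun j => lik_nonneg hp n _ j _) i)) h1.1 h1.2
  refine ⟨h2.1, fun F hF => ?_⟩
  rw [tsm_succ_four]
  exact h2.2 F hF

theorem Dn.zero : Dn 0 m0 := by
  refine ⟨⟨by decide, by decide⟩, fun F hF => ?_⟩
  have e : zs (G6 F) m0 orbs = 1048576 * G6 F (0, 0) := by
    have h0 : ∀ (k : ℕ) (os : List (ℕ × ℕ)), zs (G6 F) (List.replicate k 0) os = 0 := by
      intro k
      induction k with
      | zero => intro os; exact zs_nil_left _ _
      | succ k ih =>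
        intro os
        cases os with
        | nil => exact zs_nil_right _ _
        | cons o os =>
          change ((0 : ℕ) : ℝ) * G6 F o + zs (G6 F) (List.replicate k 0) os = 0
          rw [ih]
          simp
    change ((1048576 : ℕ) : ℝ) * G6 F (0, 0) + zs (G6 F) (List.replicate 79 0) _ = _
    rw [h0]
    norm_num
  rw [e]
  have e2 : tsm 3 (-1 / 2) F 0 (regT 4 0) = W F 1 0 0 + W F 0 1 0 + W F 0 0 1 := by
    change ∑ η : Fin 3, F (fun i => if i = η then 1 else 0) = _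
    rw [Fin.sum_univ_three]
    have f0 : (fun i : Fin 3 => if i = 0 then (1 : ℝ) else 0) = ![1, 0, 0] := by
      funext i; fin_cases i <;> rfl
    have f1 : (fun i : Fin 3 => if i = 1 then (1 : ℝ) else 0) = ![0, 1, 0] := by
      funext i; fin_cases i <;> rfl
    have f2 : (fun i : Fin 3 => if i = 2 then (1 : ℝ) else 0) = ![0, 0, 1] := by
      funext i; fin_cases i <;> rfl
    rw [f0, f1, f2]
    rfl
  rw [e2]
  have e3 : G6 F (0, 0) = 56 * (W F 1 0 0 + W F 0 1 0 + W F 0 0 1) := by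
    have h1 := W_smul hF (r := 28) (a := 1) (b := 0) (c := 0) (by norm_num) zero_le_one le_rfl le_rfl
    have h2 := W_smul hF (r := 28) (a := 0) (b := 1) (c := 0) (by norm_num) le_rfl zero_le_one le_rfl
    have h3 := W_smul hF (r := 28) (a := 0) (b := 0) (c := 1) (by norm_num) le_rfl le_rfl zero_le_one
    rw [mul_one, mul_zero] at h1 h2 h3
    unfold G6 F6
    simp only [add_zero, Nat.sub_zero, Nat.cast_zero, Nat.cast_ofNat]
    rw [h1, h2, h3]
    ring
  rw [e3]
  linarith only []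

/-- several levels, packed -/
theorem Dn.iter {n : ℕ} : ∀ (k : ℕ) {Z : ℕ}, Dn n (msZ Z) → Dn (n + k) (msZ (iter stepZ k Z)) := by
  intro k
  induction k generalizing n with
  | zero => intro Z h; exact h
  | succ k ih =>
    intro Z h
    rw [iter_succ]
    have h1 := h.step
    rw [← msZ_stepZ] at h1
    have := ih (n := n + 1) h1
    rwa [Nat.add_right_comm, Nat.add_assoc] at this

theorem Dn.run {n k Z Z' : ℕ} (h : Dn n (msZ Z)) (hr : Nat.beq (DE.iter stepZ k Z) Z' = true) :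
    Dn (n + k) (msZ Z') := by
  rw [← Nat.eq_of_beq_eq_true hr]
  exact h.iter k

/-! ### The second moment -/

/-- total second moment of a mass list, times `1568` -/
def sec : List ℕ → List (ℕ × ℕ) → ℕ
  | m :: ms, (b, c) :: os =>
    Nat.add (Nat.mul m (Nat.sub (Nat.mul 3 (Nat.add (Nat.mul (Nat.sub 28 (Nat.add b c))
      (Nat.sub 28 (Nat.add b c))) (Nat.add (Nat.mul b b) (Nat.mul c c)))) 784)) (sec ms os)
  | _, _ => 0

theorem chi_vec3 {x y z : ℝ} (h : x + y + z = 28) :
    chi (![x, y, z] : Fin 3 → ℝ) = ((x ^ 2 + y ^ 2 + z ^ 2) / 28 - 28 / 3) / 2 := by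
  unfold chi
  rw [Fin.sum_univ_three, Fin.sum_univ_three]
  change ((x ^ 2 + y ^ 2 + z ^ 2) / (x + y + z) - (x + y + z) / ((3 : ℕ) : ℝ)) / (((3 : ℕ) : ℝ) - 1)
    = _
  rw [h]
  push_cast
  ring

theorem mean_vec3 {x y z : ℝ} (h : x + y + z = 28) :
    mean (![x, y, z] : Fin 3 → ℝ) = 28 / 3 := by
  unfold mean
  rw [Fin.sum_univ_three]
  change (x + y + z) / ((3 : ℕ) : ℝ) = _
  rw [h]
  norm_num

theorem G6_sec {b c : ℕ} (h : b + c ≤ 28) :
    G6 (fun v => mean v + (-1) * chi v) (b, c)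
      = 56 - ((3 * ((28 - (b + c)) * (28 - (b + c)) + (b * b + c * c)) - 784 : ℕ) : ℝ) / 28 := by
  have hle : 784 ≤ 3 * ((28 - (b + c)) * (28 - (b + c)) + (b * b + c * c)) := by
    obtain ⟨a, ha⟩ : ∃ a, 28 = a + (b + c) := ⟨28 - (b + c), by omega⟩
    have ea : 28 - (b + c) = a := by omega
    rw [ea]
    have : (784 : ℤ) ≤ 3 * ((a : ℤ) * a + (b * b + c * c)) := by
      have h28 : (28 : ℤ) = a + (b + c) := by exact_mod_cast ha
      nlinarith only [sq_nonneg ((a : ℤ) - b), sq_nonneg ((b : ℤ) - c), sq_nonneg ((a : ℤ) - c), ha]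
    exact_mod_cast this
  rw [Nat.cast_sub hle]
  have ca : ((28 - (b + c) : ℕ) : ℝ) = 28 - (b + c) := by
    rw [Nat.cast_sub h]; push_cast; ring
  push_cast
  rw [ca]
  unfold G6 F6 W
  simp only
  rw [ca]
  have s1 : (28 - ((b : ℝ) + c)) + b + c = 28 := by ring
  have s2 : (28 - ((b : ℝ) + c)) + c + b = 28 := by ring
  have s3 : (b : ℝ) + (28 - (b + c)) + c = 28 := by ring
  have s4 : (b : ℝ) + c + (28 - (b + c)) = 28 := by ring
  have s5 : (c : ℝ) + (28 - (b + c)) + b = 28 := by ring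
  have s6 : (c : ℝ) + b + (28 - (b + c)) = 28 := by ring
  rw [chi_vec3 s1, chi_vec3 s2, chi_vec3 s3, chi_vec3 s4, chi_vec3 s5, chi_vec3 s6,
    mean_vec3 s1, mean_vec3 s2, mean_vec3 s3, mean_vec3 s4, mean_vec3 s5, mean_vec3 s6]
  ring

theorem zs_sec : ∀ (ms : List ℕ) (os : List (ℕ × ℕ)), (∀ o ∈ os, o.1 + o.2 ≤ 28) →
    zs (G6 (fun v => mean v + (-1) * chi v)) ms os = 56 * (zn ms os : ℝ) - (sec ms os : ℝ) / 28
  | [], os, _ => by
    have e : zn [] os = 0 := by cases os <;> rfl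
    have e2 : sec [] os = 0 := by cases os <;> rfl
    rw [zs_nil_left, e, e2]
    simp
  | m :: ms, [], _ => by
    have e : zn (m :: ms) [] = 0 := rfl
    have e2 : sec (m :: ms) [] = 0 := rfl
    rw [zs_nil_right, e, e2]
    simp
  | m :: ms, (b, c) :: os, h => by
    have h1 := zs_sec ms os (fun o' ho' => h o' (List.mem_cons_of_mem _ ho'))
    have h2 := G6_sec (h _ List.mem_cons_self : b + c ≤ 28)
    change (m : ℝ) * G6 (fun v => mean v + (-1) * chi v) (b, c)
      + zs (G6 (fun v => mean v + (-1) * chi v)) ms os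
      = 56 * ((m + zn ms os : ℕ) : ℝ)
        - ((m * (3 * ((28 - (b + c)) * (28 - (b + c)) + (b * b + c * c)) - 784) + sec ms os : ℕ) : ℝ)
          / 28
    rw [h1, h2, Nat.cast_add, Nat.cast_add, Nat.cast_mul]
    ring

theorem tsm_sec {n : ℕ} {m : List ℕ} (h : Dn n m) :
    tsm 3 (-1 / 2) chi n (regT 4 n) ≤ (sec m orbs : ℝ) / 1644167168 := by
  have h1 := h.dom _ supLin_mean_sub_chi
  rw [zs_sec m orbs orbs_ok.2, h.ok.zn_eq] at h1
  have h2 : tsm 3 (-1 / 2) (fun v => mean v + (-1) * chi v) n (regT 4 n)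
      = 1 - tsm 3 (-1 / 2) chi n (regT 4 n) := by
    unfold tsm
    rw [Finset.sum_add_distrib, ← Finset.mul_sum]
    have h3 := sum_mean_lik (q := 3) (lam := -1 / 2) (by norm_num) n (regT 4 n)
    rw [h3]
    ring
  rw [h2] at h1
  rw [le_div_iff₀ (by norm_num)]
  push_cast at h1
  linarith only [h1]

theorem ev_regular (F : (Fin 3 → ℝ) → ℝ) (lam : ℝ) (d n : ℕ) :
    ev (regularOffspring d) 3 lam n F = tsm 3 lam F n (regT d n) := by
  unfold ev
  rw [tsum_eq_single (regT d n)]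
  · rw [treeProb_regT, one_mul]
  · intro t ht
    rw [treeProb_regular_ne d n t ht, zero_mul]

/-- the value of the limit law -/
theorem LL_chi_le_of_Dn {n : ℕ} {m : List ℕ} (h : Dn n m) {x : ℝ}
    (hx : (sec m orbs : ℝ) ≤ x * 1644167168) :
    LL (regularOffspring 4) (-1 / 2) chi ≤ x := by
  refine (LL_chi_le potts3_half_nonneg (regular_nonneg' 4) (regular_hasSum' 4) n).trans ?_
  rw [ev_regular]
  refine (tsm_sec h).trans ?_
  rw [div_le_iff₀ (by norm_num)]
  exact hx

end Vale.Agent.P154.DE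
end

section

/-!
# P154: rigorous density evolution for the 4-ary tree: conclusion

For three spins, `lam = -1/2`, on the 4-ary tree, the limit law has second moment at most `11/50`.
-/

open scoped BigOperators ENNReal
open Filter Topology

namespace Vale.Agent.P154.DE

theorem msZ_zero : msZ Z0 = m0 := by decide +kernel

theorem dn155 : Dn 155 (msZ Z2) := by
  have h0 : Dn 0 (msZ Z0) := by
    rw [msZ_zero]
    exact Dn.zero
  have h1 := h0.run run1
  have h2 := h1.run run2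
  exact h2

set_option maxRecDepth 100000 in
theorem sec_Z2 : Nat.ble (sec (msZ Z2) orbs) 361716776 = true := by decide +kernel

/-- **Density evolution.** -/
theorem LL_chi_le : LL (regularOffspring 4) (-1 / 2) chi ≤ 11 / 50 := by
  refine LL_chi_le_of_Dn dn155 ?_
  have h : sec (msZ Z2) orbs ≤ 361716776 := Nat.le_of_ble_eq_true sec_Z2
  have h2 : (sec (msZ Z2) orbs : ℝ) ≤ ((361716776 : ℕ) : ℝ) := Nat.cast_le.2 h
  refine h2.trans ?_
  norm_num

end Vale.Agent.P154.DE
end

section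

/-!
# P154: three spins, antiferromagnetic case, regular trees
-/

open scoped BigOperators ENNReal
open Filter Topology

namespace Vale.Agent.P154

/-- **Four children.** -/
theorem nonrec_regular_four : Nonreconstruction (regularOffspring 4) 3 (-1 / 2) := by
  by_contra h
  have h1 := reg_four_LL h
  have h2 := DE.LL_chi_le
  have hchi : (chi : (Fin 3 → ℝ) → ℝ) = hR := funext chi_eq_hR
  rw [hchi] at h2
  linarith

theorem nonrec_regular_critical (d : ℕ) (hd : 4 ≤ d) :
    Nonreconstruction (regularOffspring d) 3 (-(1 / Real.sqrt d)) := by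
  rcases hd.eq_or_lt with h4 | h4
  · subst h4
    have h : Real.sqrt ((4 : ℕ) : ℝ) = 2 := by
      rw [show ((4 : ℕ) : ℝ) = 2 ^ 2 by norm_num]
      exact Real.sqrt_sq (by norm_num)
    rw [h]
    have e : -(1 / 2 : ℝ) = -1 / 2 := by norm_num
    rw [e]
    exact nonrec_regular_four
  · rcases (Nat.succ_le_of_lt h4).eq_or_lt with h5 | h5
    · rw [← h5]
      exact R5.nonrec_five
    · exact nonrec_regular_six h5

/-- **Regular trees, three spins, antiferromagnetic case**: no reconstruction up to the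
Kesten-Stigum bound. -/
theorem nonrec_regular_af {d : ℕ} {lam : ℝ} (h1 : -1 / 2 ≤ lam) (h2 : lam ≤ 0)
    (hks : d * lam ^ 2 ≤ 1) : Nonreconstruction (regularOffspring d) 3 lam :=
  nonrec_regular_of_critical nonrec_regular_critical h1 h2 hks

end Vale.Agent.P154
end
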